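import Vale.Agent.P371.MathlibUsed
import Vale.Agent.P371.LT

set_option linter.all false

section

section

/-!
Definitions for the one-dimensional Lieb-Thirring constants with matrix-valued potentials.
-/

namespace Vale.Agent.P371

open MeasureTheory
open scoped ENNReal ComplexOrder

/-- `IsH1 f f'` : `f` is the continuous representative of an element of `H^1(ℝ; ℂ^m)`
and `f'` is its weak derivative. -/
structure IsH1 {m : ℕ} (f f' : ℝ → EuclideanSpace ℂ (Fin m)) : Prop where
  memLp : MemLp f 2 volume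
  memLp_deriv : MemLp f' 2 volume
  ftc : ∀ a b : ℝ, f b - f a = ∫ x in a..b, f' x

/-- `trPow p M = tr (M ^ p)` for a Hermitian matrix `M` : the sum of the `p`-th powers of
its eigenvalues. -/
noncomputable def trPow {m : ℕ} (p : ℝ) (M : Matrix (Fin m) (Fin m) ℂ) : ℝ :=
  open Classical in if h : M.IsHermitian then ∑ i, (h.eigenvalues i) ^ p else 0

/-- Matrix potentials : measurable, positive semidefinite, with `∫ tr W^p < ∞`. -/
structure IsPotential {m : ℕ} (p : ℝ) (W : ℝ → Matrix (Fin m) (Fin m) ℂ) : Prop where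
  measurable : ∀ i j, Measurable fun x => W x i j
  posSemidef : ∀ x, (W x).PosSemidef
  integrable : Integrable (fun x => trPow p (W x)) volume

/-- `f`, with weak derivative `f'`, is in the form domain `H^1` and satisfies
`h_W(g, f) = lam ⟨g, f⟩` for every `g` in the form domain, where
`h_W(g, f) = ∫ ⟨g', f'⟩ - ∫ ⟨g, W f⟩` is the form of `H_W = -d²/dx² - W`. -/
structure IsEigenfunction {m : ℕ} (W : ℝ → Matrix (Fin m) (Fin m) ℂ) (lam : ℝ)
    (f f' : ℝ → EuclideanSpace ℂ (Fin m)) : Prop where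
  isH1 : IsH1 f f'
  form_eq : ∀ g g' : ℝ → EuclideanSpace ℂ (Fin m), IsH1 g g' →
    (∫ x, inner ℂ (g' x) (f' x)) - (∫ x, inner ℂ (g x) (Matrix.toEuclideanLin (W x) (f x)))
      = (lam : ℂ) * ∫ x, inner ℂ (g x) (f x)

/-- `∑_j |λ_j|^γ` over the negative eigenvalues of `H_W` counted with multiplicity, written as
the supremum over all finite orthonormal systems of eigenfunctions with negative eigenvalues. -/
noncomputable def rieszMean {m : ℕ} (γ : ℝ) (W : ℝ → Matrix (Fin m) (Fin m) ℂ) : ℝ≥0∞ :=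
  ⨆ (N : ℕ) (lam : Fin N → ℝ) (f : Fin N → ℝ → EuclideanSpace ℂ (Fin m))
    (f' : Fin N → ℝ → EuclideanSpace ℂ (Fin m))
    (_ : ∀ j, lam j < 0 ∧ IsEigenfunction W (lam j) (f j) (f' j))
    (_ : ∀ i j, ∫ x, inner ℂ (f i x) (f j x) = if i = j then (1 : ℂ) else 0),
    ∑ j, ENNReal.ofReal (|lam j| ^ γ)

/-- `|λ_1|^γ` for the lowest negative eigenvalue `λ_1` of `H_W` (and `0` if there is none). -/
noncomputable def groundMean {m : ℕ} (γ : ℝ) (W : ℝ → Matrix (Fin m) (Fin m) ℂ) : ℝ≥0∞ :=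
  ⨆ (lam : ℝ) (f : ℝ → EuclideanSpace ℂ (Fin m)) (f' : ℝ → EuclideanSpace ℂ (Fin m))
    (_ : lam < 0 ∧ IsEigenfunction W lam f f') (_ : f ≠ 0),
    ENNReal.ofReal (|lam| ^ γ)

/-- The Lieb-Thirring constant `L_γ(m)`. -/
noncomputable def LTconst (γ : ℝ) (m : ℕ) : ℝ≥0∞ :=
  ⨆ (W : ℝ → Matrix (Fin m) (Fin m) ℂ) (_ : IsPotential (γ + 1 / 2) W)
    (_ : ∫ x, trPow (γ + 1 / 2) (W x) ≠ 0),
    rieszMean γ W / ENNReal.ofReal (∫ x, trPow (γ + 1 / 2) (W x))

/-- The one-bound-state constant `L^{(1)}_γ`. -/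
noncomputable def LTone (γ : ℝ) : ℝ≥0∞ :=
  ⨆ (W : ℝ → Matrix (Fin 1) (Fin 1) ℂ) (_ : IsPotential (γ + 1 / 2) W)
    (_ : ∫ x, trPow (γ + 1 / 2) (W x) ≠ 0),
    groundMean γ W / ENNReal.ofReal (∫ x, trPow (γ + 1 / 2) (W x))

/-- The semiclassical constant `L^{cl}_γ`. -/
noncomputable def Lcl (γ : ℝ) : ℝ :=
  Real.Gamma (γ + 1) / (2 * Real.sqrt Real.pi * Real.Gamma (γ + 3 / 2))

end Vale.Agent.P371
end
end

section

section

/-!
Trace of a product of functions of two Hermitian matrices (Klein-type inequalities).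
-/

namespace Vale.Agent.P371.G

open Matrix
open scoped ComplexOrder Matrix.Norms.L2Operator

variable {n : Type*} [Fintype n] [DecidableEq n]

/-- the (doubly stochastic) overlaps `|⟨uᵢ, vⱼ⟩|²` of the eigenbases of two Hermitian matrices -/
noncomputable def overlap {Z X : Matrix n n ℂ} (hZ : Z.IsHermitian) (hX : X.IsHermitian)
    (i j : n) : ℝ :=
  Complex.normSq ((star (hZ.eigenvectorUnitary : Matrix n n ℂ) *
    (hX.eigenvectorUnitary : Matrix n n ℂ)) i j)

theorem overlap_nonneg {Z X : Matrix n n ℂ} (hZ : Z.IsHermitian) (hX : X.IsHermitian) (i j : n) :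
    0 ≤ overlap hZ hX i j := Complex.normSq_nonneg _

theorem trace_diag_conj (d e : n → ℂ) (T : Matrix n n ℂ) :
    (diagonal d * T * diagonal e * star T).trace = ∑ i, ∑ j, d i * e j * Complex.normSq (T i j) := by
  simp only [Matrix.trace, Matrix.diag_apply]
  refine Finset.sum_congr rfl fun i _ => ?_
  rw [Matrix.mul_apply]
  refine Finset.sum_congr rfl fun j _ => ?_
  rw [Matrix.mul_diagonal, Matrix.diagonal_mul, Matrix.star_apply, Complex.star_def,
    Complex.normSq_eq_conj_mul_self]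
  ring

/-- `tr f(Z) g(X) = ∑ f(zᵢ) g(xⱼ) wᵢⱼ` -/
theorem trace_cfc_mul_cfc {Z X : Matrix n n ℂ} (hZ : Z.IsHermitian) (hX : X.IsHermitian)
    (f g : ℝ → ℝ) :
    (cfc f Z * cfc g X).trace =
      ((∑ i, ∑ j, f (hZ.eigenvalues i) * g (hX.eigenvalues j) * overlap hZ hX i j : ℝ) : ℂ) := by
  rw [hZ.cfc_eq f, hX.cfc_eq g, IsHermitian.cfc, IsHermitian.cfc, Unitary.conjStarAlgAut_apply,
    Unitary.conjStarAlgAut_apply]
  set U := (hZ.eigenvectorUnitary : Matrix n n ℂ)
  set V := (hX.eigenvectorUnitary : Matrix n n ℂ)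
  have h1 : (U * diagonal (RCLike.ofReal ∘ f ∘ hZ.eigenvalues) * star U *
      (V * diagonal (RCLike.ofReal ∘ g ∘ hX.eigenvalues) * star V)).trace =
      (diagonal (RCLike.ofReal ∘ f ∘ hZ.eigenvalues) * (star U * V) *
        diagonal (RCLike.ofReal ∘ g ∘ hX.eigenvalues) * star (star U * V)).trace := by
    rw [star_mul, star_star, Matrix.mul_assoc U, Matrix.mul_assoc U, Matrix.trace_mul_comm U]
    simp only [Matrix.mul_assoc]
  rw [h1, trace_diag_conj]
  push_cast
  rfl

/-- Klein-type inequality -/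
theorem klein_nonneg {Z X : Matrix n n ℂ} (hZ : Z.IsHermitian) (hX : X.IsHermitian)
    {ι : Type*} (s : Finset ι) (f g : ι → ℝ → ℝ)
    (h : ∀ i j, 0 ≤ ∑ k ∈ s, f k (hZ.eigenvalues i) * g k (hX.eigenvalues j)) :
    0 ≤ ∑ k ∈ s, (cfc (f k) Z * cfc (g k) X).trace.re := by
  have h1 : ∀ k, (cfc (f k) Z * cfc (g k) X).trace.re =
      ∑ i, ∑ j, f k (hZ.eigenvalues i) * g k (hX.eigenvalues j) * overlap hZ hX i j := by
    intro k
    rw [trace_cfc_mul_cfc hZ hX, Complex.ofReal_re]
  simp only [h1]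
  rw [Finset.sum_comm]
  refine Finset.sum_nonneg fun i _ => ?_
  rw [Finset.sum_comm]
  refine Finset.sum_nonneg fun j _ => ?_
  rw [← Finset.sum_mul]
  exact mul_nonneg (h i j) (overlap_nonneg _ _ _ _)

/-- the trace of a function of a Hermitian matrix -/
theorem trace_cfc {Z : Matrix n n ℂ} (hZ : Z.IsHermitian) (f : ℝ → ℝ) :
    (cfc f Z).trace = ((∑ i, f (hZ.eigenvalues i) : ℝ) : ℂ) := by
  rw [hZ.cfc_eq f, IsHermitian.cfc, Unitary.conjStarAlgAut_apply, Matrix.trace_mul_comm,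
    ← Matrix.mul_assoc]
  simp only [Unitary.coe_star_mul_self, Matrix.one_mul, Matrix.trace, Matrix.diag_apply,
    Matrix.diagonal_apply_eq, Function.comp_apply]
  push_cast
  rfl

end Vale.Agent.P371.G
end
end

section

section

/-!
Klein-type inequalities for `trPow`.
-/

namespace Vale.Agent.P371.G

open Matrix Filter Topology
open scoped ComplexOrder Matrix.Norms.L2Operator MatrixOrder

variable {m : ℕ}

theorem trPow_eq_cfc {M : Matrix (Fin m) (Fin m) ℂ} (hM : M.IsHermitian) (p : ℝ) :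
    trPow p M = (cfc (fun x : ℝ => x ^ p) M).trace.re := by
  rw [trPow, dif_pos hM, trace_cfc hM, Complex.ofReal_re]

theorem trPow_nonneg' {M : Matrix (Fin m) (Fin m) ℂ} (hM : M.PosSemidef) (p : ℝ) :
    0 ≤ trPow p M := by
  rw [trPow, dif_pos hM.isHermitian]
  exact Finset.sum_nonneg fun i _ => Real.rpow_nonneg (hM.eigenvalues_nonneg i) _

theorem trPow_mul_cfc {A X : Matrix (Fin m) (Fin m) ℂ} (hA : A.IsHermitian) (hX : X.IsHermitian)
    (f : ℝ → ℝ) (a b c : ℝ) (p : ℝ)
    (h : ∀ i j, 0 ≤ c * (hX.eigenvalues j) ^ p + a * (hA.eigenvalues i) ^ p +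
      b * f (hA.eigenvalues i) * (hX.eigenvalues j - hA.eigenvalues i)) :
    0 ≤ c * trPow p X + a * trPow p A + b * (cfc f A * (X - A)).trace.re := by
  have h1 := klein_nonneg hA hX (Finset.univ : Finset (Fin 4))
    ![fun _ => c, fun x => a * x ^ p, fun x => b * f x, fun x => -(b * f x) * x]
    ![fun x => x ^ p, fun _ => 1, fun x => x, fun _ => 1] (by
      intro i j
      have := h i j
      simp only [neg_mul, cons_val', cons_val_fin_one, Fin.sum_univ_four, Fin.isValue, cons_val_zero, cons_val_one, mul_one, cons_val, le_add_neg_iff_add_le, zero_add, ge_iff_le]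
      linarith)
  simp only [Fin.sum_univ_four, Matrix.cons_val_zero, Matrix.cons_val_one, Matrix.cons_val] at h1
  simp only [trace_cfc_mul_cfc hA hX, Complex.ofReal_re] at h1
  have e1 : (cfc f A * (X - A)).trace.re =
      ∑ i, ∑ j, f (hA.eigenvalues i) * hX.eigenvalues j * overlap hA hX i j -
      ∑ i, ∑ j, (f (hA.eigenvalues i) * hA.eigenvalues i) * 1 * overlap hA hX i j := by
    have h2 := trace_cfc_mul_cfc hA hX f (fun x => x)
    have h3 := trace_cfc_mul_cfc hA hX (fun x => f x * x) (fun _ => 1)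
    have h4 : cfc (fun x : ℝ => x) X = X := cfc_id' ℝ X hX
    have h5 : cfc (fun _ : ℝ => (1 : ℝ)) X = 1 := cfc_const_one ℝ X hX
    have h6 : cfc (fun x : ℝ => f x * x) A = cfc f A * A := by
      have h := cfc_mul (R := ℝ) f (fun z : ℝ => z) A (by
        rw [continuousOn_iff_continuous_domRestrict]
        (clear * -; fun_prop)) (by fun_prop)
      exact h.trans (congrArg (cfc f A * ·) (cfc_id' ℝ A hA))
    rw [h4] at h2
    rw [h5, h6, Matrix.mul_one] at h3
    rw [Matrix.mul_sub, Matrix.trace_sub, Complex.sub_re, h2, h3, Complex.ofReal_re,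
      Complex.ofReal_re]
  have e2 : trPow p X = ∑ i, ∑ j, 1 * (hX.eigenvalues j) ^ p * overlap hA hX i j := by
    have h2 := trace_cfc_mul_cfc hA hX (fun _ => 1) (fun x => x ^ p)
    have h5 : cfc (fun _ : ℝ => (1 : ℝ)) A = 1 := cfc_const_one ℝ A hA
    rw [h5, Matrix.one_mul] at h2
    rw [trPow_eq_cfc hX, h2, Complex.ofReal_re]
  have e3 : trPow p A = ∑ i, ∑ j, (hA.eigenvalues i) ^ p * 1 * overlap hA hX i j := by
    have h2 := trace_cfc_mul_cfc hA hX (fun x => x ^ p) (fun _ => 1)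
    have h5 : cfc (fun _ : ℝ => (1 : ℝ)) X = 1 := cfc_const_one ℝ X hX
    rw [h5, Matrix.mul_one] at h2
    rw [trPow_eq_cfc hA, h2, Complex.ofReal_re]
  rw [e1, e2, e3]
  simp only [mul_sub, Finset.mul_sum, ← Finset.sum_add_distrib, ← Finset.sum_sub_distrib] at h1 ⊢
  refine h1.trans (le_of_eq ?_)
  refine Finset.sum_congr rfl fun i _ => Finset.sum_congr rfl fun j _ => ?_
  ring

/-- scalar convexity inequality -/
theorem scalar_convex {p x a : ℝ} (hp : 1 ≤ p) (hx : 0 ≤ x) (ha : 0 ≤ a) :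
    a ^ p + p * a ^ (p - 1) * (x - a) ≤ x ^ p := by
  rcases ha.eq_or_lt with rfl | ha
  · rcases hp.eq_or_lt with rfl | hp1
    · simp
    · rw [Real.zero_rpow (by linarith only [hp1]), Real.zero_rpow (by linarith)]
      simpa only [mul_zero, sub_zero, zero_mul, add_zero] using Real.rpow_nonneg hx p
  · have h1 := one_add_mul_self_le_rpow_one_add (s := x / a - 1) (by
      have : 0 ≤ x / a := by positivity
      linarith only [this]) hp
    have h2 : (1 + (x / a - 1)) ^ p = x ^ p / a ^ p := by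
      rw [add_sub_cancel, Real.div_rpow hx ha.le]
    rw [h2, le_div_iff₀ (by positivity)] at h1
    have h3 : a ^ (p - 1) = a ^ p / a := by rw [Real.rpow_sub_one ha.ne']
    rw [h3]
    calc a ^ p + p * (a ^ p / a) * (x - a) = (1 + p * (x / a - 1)) * a ^ p := by
          field_simp
      _ ≤ x ^ p := h1

/-- Klein's inequality for `x ^ p`, `p ≥ 1`. -/
theorem klein_convex {A X : Matrix (Fin m) (Fin m) ℂ} (hA : A.PosSemidef) (hX : X.PosSemidef)
    {p : ℝ} (hp : 1 ≤ p) :
    trPow p A + p * (cfc (fun x : ℝ => x ^ (p - 1)) A * (X - A)).trace.re ≤ trPow p X := by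
  have h := trPow_mul_cfc hA.isHermitian hX.isHermitian (fun x => x ^ (p - 1)) (-1) (-p) 1 p (by
    intro i j
    have := scalar_convex hp (hX.eigenvalues_nonneg j) (hA.eigenvalues_nonneg i)
    linarith)
  linarith

end Vale.Agent.P371.G
end
end

section

section

/-!
Interface between the core inequality (continuous potentials on a compact interval) and the
limit argument.
-/

namespace Vale.Agent.P371.G

open MeasureTheory
open scoped ComplexOrder

/-- `Λ_{ij} = ∫_{-a}^a ⟨f_i, W f_j⟩ - ∫_ℝ ⟨f_i', f_j'⟩` -/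
noncomputable def LamM {N m : ℕ} (a : ℝ) (W : ℝ → Matrix (Fin m) (Fin m) ℂ)
    (f f' : Fin N → ℝ → EuclideanSpace ℂ (Fin m)) : Matrix (Fin N) (Fin N) ℂ :=
  Matrix.of fun i j =>
    (∫ x in (-a)..a, inner ℂ (f i x) (Matrix.toEuclideanLin (W x) (f j x))) -
      ∫ x, inner ℂ (f' i x) (f' j x)

/-- The core inequality: `tr Λ^γ ≤ C ∫_{-a}^a tr W^(γ+1/2)` for continuous `W ≥ d > 0` and an
orthonormal system `f_j` in `H^1(ℝ; ℂ^m)` (not compactly supported) with `Λ > 0`. -/
def MainHyp (γ C : ℝ) (N m : ℕ) : Prop :=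
  ∀ (a d : ℝ) (W : ℝ → Matrix (Fin m) (Fin m) ℂ) (f f' : Fin N → ℝ → EuclideanSpace ℂ (Fin m)),
    0 < a → 0 < d → Continuous W → (∀ x, (W x - (d : ℂ) • 1).PosSemidef) →
    (∀ j, IsH1 (f j) (f' j)) →
    (∀ i j, ∫ x, inner ℂ (f i x) (f j x) = if i = j then (1 : ℂ) else 0) →
    (LamM a W f f').PosDef →
    trPow γ (LamM a W f f') ≤ C * ∫ x in (-a)..a, trPow (γ + 1 / 2) (W x)

/-- The sharp constant `C_γ = θ^(1+s) / (s β)`, `s = γ - 1/2`, `θ = s/(1+s)`,
`β = ∫_{-1}^1 (1-y²)^s dy` (equal to `2 ((γ-1/2)/(γ+1/2))^(γ-1/2) L^cl_γ`). -/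
noncomputable def Cg (γ : ℝ) : ℝ :=
  (1 / (γ - 1 / 2)) * ((γ - 1 / 2) / (γ + 1 / 2)) ^ (γ + 1 / 2) /
    ∫ y in (-1 : ℝ)..1, (1 - y ^ 2) ^ (γ - 1 / 2)

end Vale.Agent.P371.G
end
end

section

section

/-!
Working notions for the proof (not used in the final statement).
-/

namespace Vale.Agent.P371

open MeasureTheory Filter Topology
open scoped ENNReal ComplexOrder

/-- Gram matrix at the point `x` of a system of vector-valued functions. -/
noncomputable def gramC {N m : ℕ} (f : Fin N → ℝ → EuclideanSpace ℂ (Fin m)) (x : ℝ) :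
    Matrix (Fin N) (Fin N) ℂ :=
  Matrix.of fun i j => inner ℂ (f i x) (f j x)

/-- `Z` solves the Sylvester equation `(A + nπ/2) Z + Z (A + nπ/2) = P`. -/
def IsSyl {N : ℕ} (A P : Matrix (Fin N) (Fin N) ℂ) (n : ℤ) (Z : Matrix (Fin N) (Fin N) ℂ) : Prop :=
  (A + (((n : ℝ) * (Real.pi / 2) : ℝ) : ℂ) • (1 : Matrix (Fin N) (Fin N) ℂ)) * Z
    + Z * (A + (((n : ℝ) * (Real.pi / 2) : ℝ) : ℂ) • (1 : Matrix (Fin N) (Fin N) ℂ)) = P

/-- The truncated trilinear form `Re tr[(∑ Z_n² - (∑ Z_n)²) P]`, sums over `|n| ≤ M`. -/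
noncomputable def triF {N : ℕ} (Z : ℤ → Matrix (Fin N) (Fin N) ℂ) (P : Matrix (Fin N) (Fin N) ℂ)
    (M : ℕ) : ℝ :=
  (((∑ n ∈ Finset.Icc (-(M : ℤ)) M, Z n * Z n)
    - (∑ n ∈ Finset.Icc (-(M : ℤ)) M, Z n) * (∑ n ∈ Finset.Icc (-(M : ℤ)) M, Z n)) * P).trace.re

end Vale.Agent.P371
end
end

section

section

namespace Vale.Agent.P371

open MeasureTheory Filter Topology Matrix
open scoped ENNReal ComplexOrder Real

variable {m n : ℕ} {f f' g g' : ℝ → EuclideanSpace ℂ (Fin m)}

theorem IsH1.intervalIntegrable_self (hf : IsH1 f f') (a b : ℝ) :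
    IntervalIntegrable f volume a b := by
  have h : LocallyIntegrable f volume := hf.memLp.locallyIntegrable (by norm_num)
  exact (h.integrableOn_isCompact isCompact_uIcc).intervalIntegrable

theorem IsH1.intervalIntegrable_deriv (hf : IsH1 f f') (a b : ℝ) :
    IntervalIntegrable f' volume a b := by
  have h : LocallyIntegrable f' volume := hf.memLp_deriv.locallyIntegrable (by norm_num)
  exact (h.integrableOn_isCompact isCompact_uIcc).intervalIntegrable

theorem IsH1.continuous_self (hf : IsH1 f f') : Continuous f := by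
  have h : f = fun b => f 0 + ∫ x in (0 : ℝ)..b, f' x := by
    funext b
    rw [← hf.ftc 0 b]
    abel
  rw [h]
  exact continuous_const.add
    (intervalIntegral.continuous_primitive (fun a b => hf.intervalIntegrable_deriv a b) 0)

theorem integrable_norm_sq {f : ℝ → EuclideanSpace ℂ (Fin m)} (hf : MemLp f 2 volume) :
    Integrable (fun x => ‖f x‖ ^ 2) volume := hf.integrable_norm_pow (by norm_num)

theorem integral_norm_le {f : ℝ → EuclideanSpace ℂ (Fin m)} (hf : MemLp f 2 volume) (b : ℝ) :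
    ∫ x in b..(b + 1), ‖f x‖ ≤ 1 + ∫ x, ‖f x‖ ^ 2 := by
  have h2 := integrable_norm_sq hf
  have h1 : IntervalIntegrable (fun x => ‖f x‖) volume b (b + 1) := by
    have h : LocallyIntegrable f volume := hf.locallyIntegrable (by norm_num)
    exact (h.integrableOn_isCompact isCompact_uIcc).intervalIntegrable.norm
  calc ∫ x in b..(b + 1), ‖f x‖ ≤ ∫ x in b..(b + 1), (1 + ‖f x‖ ^ 2) := by
        apply intervalIntegral.integral_mono_on (by linarith) h1
        · exact (intervalIntegrable_const).add h2.intervalIntegrable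
        · intro x _
          nlinarith only []
    _ = 1 + ∫ x in b..(b + 1), ‖f x‖ ^ 2 := by
        rw [intervalIntegral.integral_add intervalIntegrable_const h2.intervalIntegrable]
        simp
    _ ≤ 1 + ∫ x, ‖f x‖ ^ 2 := by
        gcongr
        rw [intervalIntegral.integral_of_le (by linarith)]
        exact setIntegral_le_integral h2 (Eventually.of_forall fun x => by positivity)

theorem IsH1.bounded_self (hf : IsH1 f f') : ∃ C, ∀ x, ‖f x‖ ≤ C := by
  refine ⟨(1 + ∫ x, ‖f x‖ ^ 2) + (1 + ∫ x, ‖f' x‖ ^ 2), fun b => ?_⟩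
  have key : ∀ a ∈ Set.Icc b (b + 1), ‖f b‖ ≤ ‖f a‖ + ∫ x in b..(b + 1), ‖f' x‖ := by
    intro a ha
    have h1 : f b = f a - ∫ x in b..a, f' x := by
      rw [← hf.ftc b a]; abel
    have h2 : ‖∫ x in b..a, f' x‖ ≤ ∫ x in b..(b + 1), ‖f' x‖ := by
      refine (intervalIntegral.norm_integral_le_integral_norm ha.1).trans ?_
      apply intervalIntegral.integral_mono_interval le_rfl ha.1 ha.2
      · exact Eventually.of_forall fun x => norm_nonneg _
      · exact (hf.intervalIntegrable_deriv b (b + 1)).norm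
    calc ‖f b‖ = ‖f a - ∫ x in b..a, f' x‖ := by rw [← h1]
      _ ≤ ‖f a‖ + ‖∫ x in b..a, f' x‖ := norm_sub_le _ _
      _ ≤ _ := by gcongr
  have hc : ‖f b‖ = ∫ _ in b..(b + 1), ‖f b‖ := by simp
  rw [hc]
  calc ∫ _ in b..(b + 1), ‖f b‖ ≤ ∫ a in b..(b + 1), (‖f a‖ + ∫ x in b..(b + 1), ‖f' x‖) := by
        apply intervalIntegral.integral_mono_on (by linarith) intervalIntegrable_const
        · exact (hf.intervalIntegrable_self b (b + 1)).norm.add intervalIntegrable_const
        · exact key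
    _ = (∫ a in b..(b + 1), ‖f a‖) + ∫ x in b..(b + 1), ‖f' x‖ := by
        rw [intervalIntegral.integral_add (hf.intervalIntegrable_self b (b + 1)).norm
          intervalIntegrable_const]
        simp only [intervalIntegral.integral_const, add_sub_cancel_left, smul_eq_mul, one_mul]
    _ ≤ _ := add_le_add (integral_norm_le hf.memLp b) (integral_norm_le hf.memLp_deriv b)

theorem integrable_inner_of_memLp_self {f g : ℝ → EuclideanSpace ℂ (Fin m)} (hf : MemLp f 2 volume)
    (hg : MemLp g 2 volume) : Integrable (fun x => (inner ℂ (f x) (g x) : ℂ)) volume := by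
  apply Integrable.mono' ((integrable_norm_sq hf).add (integrable_norm_sq hg))
  · exact hf.1.inner hg.1
  · refine Eventually.of_forall fun x => ?_
    refine (norm_inner_le_norm _ _).trans ?_
    simp only [Pi.add_apply]
    nlinarith only []

theorem IsH1.comp (T : EuclideanSpace ℂ (Fin m) →L[ℂ] EuclideanSpace ℂ (Fin n)) (hf : IsH1 f f') :
    IsH1 (fun x => T (f x)) (fun x => T (f' x)) where
  memLp := T.comp_memLp' hf.memLp
  memLp_deriv := T.comp_memLp' hf.memLp_deriv
  ftc a b := by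
    rw [T.intervalIntegral_comp_comm (hf.intervalIntegrable_deriv a b), ← hf.ftc a b, map_sub]

theorem inner_self_re' (v : EuclideanSpace ℂ (Fin m)) : (inner ℂ v v : ℂ) = ((‖v‖ ^ 2 : ℝ) : ℂ) := by
  rw [inner_self_eq_norm_sq_to_K]
  norm_cast

theorem integral_inner_self (f : ℝ → EuclideanSpace ℂ (Fin m)) :
    ∫ x, (inner ℂ (f x) (f x) : ℂ) = ((∫ x, ‖f x‖ ^ 2 : ℝ) : ℂ) := by
  rw [← integral_complex_ofReal]
  congr 1
  funext x
  exact inner_self_re' _

end Vale.Agent.P371
end
end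

section

section

namespace Vale.Agent.P371

open MeasureTheory Filter Topology Matrix
open scoped ENNReal ComplexOrder Real

theorem diag_cube_le {m : ℕ} {S : Matrix (Fin m) (Fin m) ℂ} (hS : S.PosSemidef) (i : Fin m) :
    ((S i i).re) ^ 3 ≤ ((S * S * S) i i).re := by
  set t : ℝ := (S i i).re with ht
  have hSh : Sᴴ = S := hS.isHermitian
  have hB := hS.conjTranspose_mul_mul_same (S - (t : ℂ) • (1 : Matrix (Fin m) (Fin m) ℂ))
  have h0 : 0 ≤ (((S - (t : ℂ) • (1 : Matrix (Fin m) (Fin m) ℂ))ᴴ * S *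
      (S - (t : ℂ) • (1 : Matrix (Fin m) (Fin m) ℂ))) i i).re := by
    have := hB.diag_nonneg (i := i)
    exact (Complex.le_def.mp this).1
  have ht0 : 0 ≤ t := by
    have := hS.diag_nonneg (i := i)
    exact (Complex.le_def.mp this).1
  have e : ((S - (t : ℂ) • (1 : Matrix (Fin m) (Fin m) ℂ))ᴴ * S *
      (S - (t : ℂ) • (1 : Matrix (Fin m) (Fin m) ℂ))) =
      S * S * S - (2 * t : ℂ) • (S * S) + ((t : ℂ) * t) • S := by
    rw [conjTranspose_sub, conjTranspose_smul, conjTranspose_one, hSh]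
    simp only [RCLike.star_def, Complex.conj_ofReal]
    rw [sub_mul, sub_mul, mul_sub, mul_sub]
    simp only [smul_mul_assoc, mul_smul_comm, one_mul, mul_one, smul_smul]
    rw [two_mul, add_smul]
    abel
  rw [e] at h0
  have e2 : ((S * S * S - (2 * t : ℂ) • (S * S) + ((t : ℂ) * t) • S) i i).re =
      ((S * S * S) i i).re - 2 * t * ((S * S) i i).re + t * t * t := by
    simp only [Matrix.add_apply, Matrix.sub_apply, Matrix.smul_apply, Complex.add_re,
      Complex.sub_re, smul_eq_mul, Complex.mul_re, Complex.mul_im, Complex.ofReal_re,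
      Complex.ofReal_im, Complex.re_ofNat, Complex.im_ofNat]
    rw [← ht]
    ring
  rw [e2] at h0
  have h1 : t * t ≤ ((S * S) i i).re := by
    rw [Matrix.mul_apply, Complex.re_sum]
    have hterm : ∀ k, (S i k * S k i).re = Complex.normSq (S i k) := by
      intro k
      have : S k i = (starRingEnd ℂ) (S i k) := by
        conv_lhs => rw [← hSh]
        rfl
      rw [this, Complex.mul_conj, Complex.ofReal_re]
    rw [Finset.sum_congr rfl (fun k _ => hterm k)]
    refine le_trans ?_ (Finset.single_le_sum (f := fun k => Complex.normSq (S i k))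
      (fun k _ => Complex.normSq_nonneg _) (Finset.mem_univ i))
    rw [Complex.normSq_apply]
    have := mul_self_nonneg (S i i).im
    rw [← ht]
    linarith only [this]
  have h2 : 0 ≤ t * (((S * S) i i).re - t * t) := mul_nonneg ht0 (by linarith)
  linarith

theorem young_scalar {w t : ℝ} (hw : 0 ≤ w) (ht : 0 ≤ t) :
    w * t ≤ 4 / (3 * √3 * π) * w ^ (3 / 2 : ℝ) + (π ^ 2 / 4) * t ^ 3 := by
  have hx : 0 ≤ √w := Real.sqrt_nonneg w
  have hw2 : w = √w ^ 2 := (Real.sq_sqrt hw).symm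
  have hw3 : w ^ (3 / 2 : ℝ) = √w ^ 3 := by
    rw [Real.sqrt_eq_rpow, ← Real.rpow_natCast, ← Real.rpow_mul hw]
    norm_num
  rw [hw3]
  generalize √w = x at hx hw2
  subst hw2
  have hs : (√3 : ℝ) ^ 2 = 3 := Real.sq_sqrt (by norm_num)
  have hs0 : 0 < √3 := Real.sqrt_pos.mpr (by norm_num)
  have hπ := Real.pi_pos
  set s := √3
  have key : 0 ≤ (x - s * π / 2 * t) ^ 2 * (2 * x + s * π / 2 * t) := by (clear * - hx ht; positivity)
  have hk : 0 < 3 * (s * π / 2) := by positivity
  have e : 4 / (3 * s * π) * x ^ 3 + (π ^ 2 / 4) * t ^ 3 - x ^ 2 * t =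
      ((x - s * π / 2 * t) ^ 2 * (2 * x + s * π / 2 * t)) / (3 * (s * π / 2)) := by
    rw [eq_div_iff hk.ne']
    have e1 : 4 / (3 * s * π) * x ^ 3 * (3 * (s * π / 2)) = 2 * x ^ 3 := by
      field_simp
      ring
    have e2 : (4 / (3 * s * π) * x ^ 3 + (π ^ 2 / 4) * t ^ 3 - x ^ 2 * t) * (3 * (s * π / 2)) =
        2 * x ^ 3 + 3 * (π ^ 3 * s / 8) * t ^ 3 - x ^ 2 * t * (3 * (s * π / 2)) := by
      rw [← e1]; ring
    rw [e2]
    linear_combination (-(s * π ^ 3 * t ^ 3 / 8)) * hs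
  have : 0 ≤ ((x - s * π / 2 * t) ^ 2 * (2 * x + s * π / 2 * t)) / (3 * (s * π / 2)) :=
    div_nonneg key hk.le
  linarith only [e, this]

/-- T1a : pointwise matrix Young inequality. -/
theorem young_pointwise {N m : ℕ} (W : Matrix (Fin m) (Fin m) ℂ) (hW : W.PosSemidef)
    (v : Fin N → EuclideanSpace ℂ (Fin m)) :
    (∑ j, (inner ℂ (v j) (Matrix.toEuclideanLin W (v j)) : ℂ)).re
      ≤ 4 / (3 * √3 * π) * trPow (3 / 2) W
        + (π ^ 2 / 4) * ((Matrix.of fun i j => inner ℂ (v i) (v j))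
            * (Matrix.of fun i j => inner ℂ (v i) (v j))
            * (Matrix.of fun i j => (inner ℂ (v i) (v j) : ℂ))).trace.re := by
  have hWh := hW.isHermitian
  set F : Matrix (Fin m) (Fin N) ℂ := Matrix.of fun a j => v j a with hF
  set U : Matrix (Fin m) (Fin m) ℂ := (hWh.eigenvectorUnitary : Matrix (Fin m) (Fin m) ℂ) with hU
  set w := hWh.eigenvalues with hw
  have hUU : U * star U = 1 := Unitary.coe_mul_star_self hWh.eigenvectorUnitary
  have hspec : W = U * diagonal (fun i => (w i : ℂ)) * star U := by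
    have := hWh.spectral_theorem
    rw [Unitary.conjStarAlgAut_apply] at this
    exact this
  set G : Matrix (Fin m) (Fin N) ℂ := star U * F with hG
  set S : Matrix (Fin m) (Fin m) ℂ := G * Gᴴ with hS
  have hSpos : S.PosSemidef := Matrix.posSemidef_self_mul_conjTranspose G
  have hP : (Matrix.of fun i j => (inner ℂ (v i) (v j) : ℂ)) = Gᴴ * G := by
    rw [hG, conjTranspose_mul]
    have : (star U)ᴴ = U := by rw [Matrix.star_eq_conjTranspose, conjTranspose_conjTranspose]
    rw [this, Matrix.mul_assoc, ← Matrix.mul_assoc U, hUU, Matrix.one_mul]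
    ext i j
    rw [Matrix.mul_apply, Matrix.of_apply, PiLp.inner_apply]
    apply Finset.sum_congr rfl
    intro a _
    rw [hF]
    simp [mul_comm]
  have hL : (∑ j, (inner ℂ (v j) (Matrix.toEuclideanLin W (v j)) : ℂ)) =
      ∑ i, (w i : ℂ) * S i i := by
    have e1 : (∑ j, (inner ℂ (v j) (Matrix.toEuclideanLin W (v j)) : ℂ)) = (Fᴴ * W * F).trace := by
      rw [Matrix.trace]
      apply Finset.sum_congr rfl
      intro j _
      rw [Matrix.diag_apply, Matrix.mul_assoc, Matrix.mul_apply, PiLp.inner_apply]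
      apply Finset.sum_congr rfl
      intro a _
      simp only [Matrix.toLpLin_apply, Matrix.mulVec, dotProduct, Matrix.mul_apply,
        Matrix.conjTranspose_apply, hF, Matrix.of_apply, RCLike.inner_apply]
      rw [mul_comm]
      rfl
    rw [e1, hspec]
    have e2 : Fᴴ * (U * diagonal (fun i => (w i : ℂ)) * star U) * F =
        Gᴴ * (diagonal (fun i => (w i : ℂ)) * G) := by
      rw [hG, conjTranspose_mul]
      have : (star U)ᴴ = U := by rw [Matrix.star_eq_conjTranspose, conjTranspose_conjTranspose]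
      rw [this]
      simp only [Matrix.mul_assoc]
    rw [e2, Matrix.trace_mul_comm, Matrix.mul_assoc, ← hS, Matrix.trace]
    apply Finset.sum_congr rfl
    intro i _
    rw [Matrix.diag_apply, Matrix.diagonal_mul]
  have hT : (Gᴴ * G * (Gᴴ * G) * (Gᴴ * G)).trace = (S * S * S).trace := by
    have e1 : Gᴴ * G * (Gᴴ * G) * (Gᴴ * G) = Gᴴ * (G * Gᴴ * (G * Gᴴ) * G) := by
      simp only [Matrix.mul_assoc]
    rw [e1, Matrix.trace_mul_comm]
    congr 1
    rw [hS]
    simp only [Matrix.mul_assoc]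
  rw [hP, hT, hL, trPow, dif_pos hWh, Complex.re_sum, Matrix.trace, Complex.re_sum,
    Finset.mul_sum, Finset.mul_sum, ← Finset.sum_add_distrib]
  apply Finset.sum_le_sum
  intro i _
  have hwi : 0 ≤ w i := hW.eigenvalues_nonneg i
  have hti : 0 ≤ (S i i).re := by
    have := hSpos.diag_nonneg (i := i)
    exact (Complex.le_def.mp this).1
  rw [Complex.re_ofReal_mul, Matrix.diag_apply]
  refine (young_scalar hwi hti).trans ?_
  have h3 := diag_cube_le hSpos i
  have : 0 ≤ π ^ 2 / 4 := by positivity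
  have := mul_le_mul_of_nonneg_left h3 this
  linarith only [this]

end Vale.Agent.P371
end
end

section

section

namespace Vale.Agent.P371

open MeasureTheory Filter Topology Matrix
open scoped ENNReal ComplexOrder Real

theorem continuous_gram {N m : ℕ} {f f' : Fin N → ℝ → EuclideanSpace ℂ (Fin m)}
    (hf : ∀ j, IsH1 (f j) (f' j)) (i j : Fin N) :
    Continuous fun x => gramC f x i j := by
  show Continuous fun x => (inner ℂ (f i x) (f j x) : ℂ)
  exact (hf i).continuous_self.inner (hf j).continuous_self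

theorem integrable_gram {N m : ℕ} {f f' : Fin N → ℝ → EuclideanSpace ℂ (Fin m)}
    (hf : ∀ j, IsH1 (f j) (f' j)) (i j : Fin N) :
    Integrable (fun x => gramC f x i j) volume :=
  integrable_inner_of_memLp_self (hf i).memLp (hf j).memLp

theorem bounded_gram {N m : ℕ} {f f' : Fin N → ℝ → EuclideanSpace ℂ (Fin m)}
    (hf : ∀ j, IsH1 (f j) (f' j)) (i j : Fin N) : ∃ C, ∀ x, ‖gramC f x i j‖ ≤ C := by
  obtain ⟨A, hA⟩ := (hf i).bounded_self
  obtain ⟨B, hB⟩ := (hf j).bounded_self
  refine ⟨A * B, fun x => ?_⟩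
  have h1 : ‖(inner ℂ (f i x) (f j x) : ℂ)‖ ≤ ‖f i x‖ * ‖f j x‖ := norm_inner_le_norm _ _
  exact h1.trans (mul_le_mul (hA x) (hB x) (norm_nonneg _) ((norm_nonneg _).trans (hA x)))

theorem integrable_gram_cube {N m : ℕ} {f f' : Fin N → ℝ → EuclideanSpace ℂ (Fin m)}
    (hf : ∀ j, IsH1 (f j) (f' j)) :
    Integrable (fun x => (gramC f x * gramC f x * gramC f x).trace.re) volume := by
  have h : Integrable (fun x => (gramC f x * gramC f x * gramC f x).trace) volume := by
    simp only [Matrix.trace, Matrix.diag_apply, Matrix.mul_apply, Finset.sum_mul]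
    refine integrable_finsetSum _ fun i _ => ?_
    refine integrable_finsetSum _ fun k _ => ?_
    refine integrable_finsetSum _ fun j _ => ?_
    obtain ⟨A, hA⟩ := bounded_gram hf i j
    obtain ⟨B, hB⟩ := bounded_gram hf j k
    have h1 := integrable_gram hf k i
    refine h1.bdd_mul (c := A * B) ((continuous_gram hf i j).mul (continuous_gram hf j k)).aestronglyMeasurable ?_
    refine Eventually.of_forall fun x => ?_
    rw [norm_mul]
    exact mul_le_mul (hA x) (hB x) (norm_nonneg _) ((norm_nonneg _).trans (hA x))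
  exact h.re

/-- T1b : upper bound for the Riesz mean, from the kinetic inequality. -/
theorem rieszMean_le_of_kinetic {m : ℕ}
    (hkin : ∀ (N : ℕ) (f f' : Fin N → ℝ → EuclideanSpace ℂ (Fin m)),
      (∀ j, IsH1 (f j) (f' j)) →
      (∀ i j, ∫ x, inner ℂ (f i x) (f j x) = if i = j then (1 : ℂ) else 0) →
      (π ^ 2 / 4) * ∫ x, (gramC f x * gramC f x * gramC f x).trace.re ≤ ∑ j, ∫ x, ‖f' j x‖ ^ 2)
    (W : ℝ → Matrix (Fin m) (Fin m) ℂ) (hW : IsPotential (1 + 1 / 2) W) :
    rieszMean 1 W ≤ ENNReal.ofReal (4 / (3 * √3 * π) * ∫ x, trPow (1 + 1 / 2) (W x)) := by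
  unfold rieszMean
  refine iSup_le fun N => iSup_le fun lam => iSup_le fun f => iSup_le fun f' => iSup_le fun h =>
    iSup_le fun ho => ?_
  have hf : ∀ j, IsH1 (f j) (f' j) := fun j => (h j).2.isH1
  have hk := hkin N f f' hf ho
  rw [← ENNReal.ofReal_sum_of_nonneg (fun j _ => by (clear * -; positivity))]
  apply ENNReal.ofReal_le_ofReal
  have hI : ∀ j, ∫ x, (inner ℂ (f j x) (Matrix.toEuclideanLin (W x) (f j x)) : ℂ) =
      (((∫ x, ‖f' j x‖ ^ 2) + |lam j| : ℝ) : ℂ) := by
    intro j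
    have h1 := (h j).2.form_eq (f j) (f' j) (hf j)
    rw [ho j j, if_pos rfl, mul_one, integral_inner_self] at h1
    rw [abs_of_neg (h j).1]
    push_cast
    linear_combination -h1
  have hpos : ∀ j, 0 < (∫ x, ‖f' j x‖ ^ 2) + |lam j| := by
    intro j
    have h1 : 0 ≤ ∫ x, ‖f' j x‖ ^ 2 := integral_nonneg fun x => by (clear * -; positivity)
    have h2 : 0 < |lam j| := abs_pos.mpr (h j).1.ne
    linarith only [h1, h2]
  have hint : ∀ j, Integrable
      (fun x => (inner ℂ (f j x) (Matrix.toEuclideanLin (W x) (f j x)) : ℂ)) volume := by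
    intro j
    by_contra hni
    have h1 := hI j
    rw [integral_undef hni] at h1
    have h2 : (∫ x, ‖f' j x‖ ^ 2) + |lam j| = 0 := by exact_mod_cast h1.symm
    exact (hpos j).ne' h2
  have hsum : ∑ j, ((∫ x, ‖f' j x‖ ^ 2) + |lam j|) =
      ∫ x, (∑ j, (inner ℂ (f j x) (Matrix.toEuclideanLin (W x) (f j x)) : ℂ)).re := by
    have h1 : Integrable (fun x => ∑ j,
        (inner ℂ (f j x) (Matrix.toEuclideanLin (W x) (f j x)) : ℂ)) volume :=
      integrable_finsetSum _ fun j _ => hint j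
    have h2 : ∫ x, (∑ j, (inner ℂ (f j x) (Matrix.toEuclideanLin (W x) (f j x)) : ℂ)).re =
        (∫ x, ∑ j, (inner ℂ (f j x) (Matrix.toEuclideanLin (W x) (f j x)) : ℂ)).re :=
      integral_re h1
    rw [h2, integral_finsetSum _ fun j _ => hint j, Complex.re_sum]
    apply Finset.sum_congr rfl
    intro j _
    rw [hI j, Complex.ofReal_re]
  have hmono : ∫ x, (∑ j, (inner ℂ (f j x) (Matrix.toEuclideanLin (W x) (f j x)) : ℂ)).re ≤
      ∫ x, (4 / (3 * √3 * π) * trPow (1 + 1 / 2) (W x) +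
        (π ^ 2 / 4) * (gramC f x * gramC f x * gramC f x).trace.re) := by
    apply integral_mono
    · have h1 : Integrable (fun x => ∑ j,
        (inner ℂ (f j x) (Matrix.toEuclideanLin (W x) (f j x)) : ℂ)) volume :=
        integrable_finsetSum _ fun j _ => hint j
      exact h1.re
    · exact (hW.integrable.const_mul _).add ((integrable_gram_cube hf).const_mul _)
    · intro x
      have h1 := young_pointwise (W x) (hW.posSemidef x) (fun j => f j x)
      have h2 : (3 / 2 : ℝ) = 1 + 1 / 2 := by norm_num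
      rw [h2] at h1
      exact h1
  rw [integral_add (hW.integrable.const_mul _) ((integrable_gram_cube hf).const_mul _),
    integral_const_mul, integral_const_mul, ← hsum, Finset.sum_add_distrib] at hmono
  simp only [Real.rpow_one]
  linarith

/-- trace of a power of a real diagonal matrix -/
theorem trPow_diagonal {m : ℕ} (p : ℝ) (d : Fin m → ℝ) :
    trPow p (diagonal fun i => (d i : ℂ)) = ∑ i, (d i) ^ p := by
  have hh : (diagonal fun i => (d i : ℂ)).IsHermitian := by
    rw [IsHermitian, diagonal_conjTranspose]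
    congr 1
    funext i
    simp
  rw [trPow, dif_pos hh]
  have h1 := hh.roots_charpoly_eq_eigenvalues
  have h2 : (diagonal fun i => (d i : ℂ)).charpoly = ∏ i, (Polynomial.X - Polynomial.C (d i : ℂ)) := by
    rw [Matrix.charpoly_of_isUpperTriangular]
    · simp only [diagonal_apply_eq]
    · exact blockTriangular_diagonal _
  have h3 : ∏ i, (Polynomial.X - Polynomial.C (d i : ℂ)) =
      (Multiset.map (fun a => Polynomial.X - Polynomial.C a)
        (Multiset.map (fun i => (d i : ℂ)) Finset.univ.val)).prod := by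
    rw [Multiset.map_map]
    rfl
  rw [h2, h3, Polynomial.roots_multiset_prod_X_sub_C] at h1
  have h4 := congrArg (fun s => (Multiset.map (fun z : ℂ => z.re ^ p) s).sum) h1
  simp only [Multiset.map_map] at h4
  exact h4.symm

theorem isH1_zero_of_integral {m : ℕ} {f f' : ℝ → EuclideanSpace ℂ (Fin m)} (hf : IsH1 f f')
    (h : ∫ x, ‖f x‖ ^ 2 = 0) : f = 0 := by
  have h1 : (fun x => ‖f x‖ ^ 2) =ᵐ[volume] 0 :=
    (integral_eq_zero_iff_of_nonneg (fun x => by positivity) (integrable_norm_sq hf.memLp)).mp h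
  have h2 : Continuous fun x => ‖f x‖ ^ 2 := hf.continuous_self.norm.pow 2
  have h3 := (h2.ae_eq_iff_eq volume continuous_zero).mp h1
  funext x
  have h4 := congrFun h3 x
  simpa using h4

end Vale.Agent.P371
end
end

section

section

/-!
The one-soliton potential gives the lower bound on the one-bound-state constant.
-/

namespace Vale.Agent.P371

open MeasureTheory Filter Topology Set
open scoped ENNReal ComplexOrder Real

section ibp

/-- Integration by parts on an interval: `u` is an indefinite integral. -/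
lemma ibp_interval {u u' h h' : ℝ → ℝ} (hu : ∀ a b, u b - u a = ∫ x in a..b, u' x)
    (hui : ∀ a b, IntervalIntegrable u' volume a b) (hh : ∀ x, HasDerivAt h (h' x) x)
    (hhc : Continuous h') (a b : ℝ) :
    ∫ x in a..b, (u' x * h x + u x * h' x) = u b * h b - u a * h a := by
  have hu_eq : u = fun x => u a + ∫ t in a..x, u' t := by
    funext x
    rw [← hu a x]; ring
  have hu_ac : AbsolutelyContinuousOnInterval u a b := by
    have h1 := (hui a b).absolutelyContinuousOnInterval_intervalIntegral (c := a) (by simp only [left_mem_uIcc])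
    have h2 : AbsolutelyContinuousOnInterval (fun _ : ℝ => u a) a b :=
      (contDiff_const.contDiffOn).absolutelyContinuousOnInterval
    rw [hu_eq]
    exact h2.fun_add h1
  have hh_ac : AbsolutelyContinuousOnInterval h a b := by
    have h1 : ContDiff ℝ 1 h := by
      rw [contDiff_one_iff_deriv]
      refine ⟨fun x => (hh x).differentiableAt, ?_⟩
      have : deriv h = h' := funext fun x => (hh x).deriv
      rw [this]; exact hhc
    exact h1.contDiffOn.absolutelyContinuousOnInterval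
  rw [← hu_ac.integral_deriv_mul_eq_sub hh_ac]
  apply intervalIntegral.integral_congr_ae
  filter_upwards [(hui a b).ae_hasDerivAt_integral] with x hx hx3
  have h4 : HasDerivAt u (u' x) x := by
    have := hx (uIoc_subset_uIcc hx3) a (by simp only [left_mem_uIcc])
    have h5 := this.const_add (u a)
    rw [hu_eq]
    exact h5
  rw [h4.deriv, (hh x).deriv]

lemma ibp_line {u u' h h' : ℝ → ℝ} (hu : ∀ a b, u b - u a = ∫ x in a..b, u' x)
    (hu2 : MemLp u 2 volume) (hu'2 : MemLp u' 2 volume) (hh : ∀ x, HasDerivAt h (h' x) x)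
    (hhc : Continuous h') (hh2 : MemLp h 2 volume) (hh'2 : MemLp h' 2 volume) :
    ∫ x, (u' x * h x + u x * h' x) = 0 := by
  have hui : ∀ a b, IntervalIntegrable u' volume a b := fun a b =>
    intervalIntegrable_iff.mpr (((hu'2.locallyIntegrable (by norm_num)).integrableOn_isCompact
      isCompact_uIcc).mono_set uIoc_subset_uIcc)
  set φ : ℝ → ℝ := fun x => u' x * h x + u x * h' x with hφ
  have hφi : Integrable φ := (hu'2.integrable_mul hh2).add (hu2.integrable_mul hh'2)
  have hF : Integrable (fun x => u x * h x) := hu2.integrable_mul hh2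
  have key : ∀ a b, ∫ x in a..b, φ x = u b * h b - u a * h a := fun a b =>
    ibp_interval hu hui hh hhc a b
  have htop : Tendsto (fun x => u x * h x) atTop (𝓝 0) := by
    have h1 : Tendsto (fun x => u 0 * h 0 + ∫ t in (0:ℝ)..x, φ t) atTop
        (𝓝 (u 0 * h 0 + ∫ t in Ioi (0:ℝ), φ t)) :=
      tendsto_const_nhds.add
        (intervalIntegral_tendsto_integral_Ioi 0 hφi.integrableOn tendsto_id)
    have h2 : (fun x => u 0 * h 0 + ∫ t in (0:ℝ)..x, φ t) = fun x => u x * h x := by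
      funext x; rw [key]; ring
    rw [h2] at h1
    have h3 : IntegrableAtFilter (fun x => u x * h x) atTop :=
      ⟨univ, univ_mem, hF.integrableOn⟩
    have h4 := h3.eq_zero_of_tendsto (fun s hs => by
      rcases mem_atTop_sets.1 hs with ⟨b, hb⟩
      rw [← top_le_iff, ← Real.volume_Ici (a := b)]
      exact measure_mono hb) h1
    rwa [h4] at h1
  have hbot : Tendsto (fun x => u x * h x) atBot (𝓝 0) := by
    have h1 : Tendsto (fun x => u 0 * h 0 - ∫ t in x..(0:ℝ), φ t) atBot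
        (𝓝 (u 0 * h 0 - ∫ t in Iic (0:ℝ), φ t)) :=
      tendsto_const_nhds.sub
        (intervalIntegral_tendsto_integral_Iic 0 hφi.integrableOn tendsto_id)
    have h2 : (fun x => u 0 * h 0 - ∫ t in x..(0:ℝ), φ t) = fun x => u x * h x := by
      funext x; rw [key]; ring
    rw [h2] at h1
    have h3 : IntegrableAtFilter (fun x => u x * h x) atBot :=
      ⟨univ, univ_mem, hF.integrableOn⟩
    have h4 := h3.eq_zero_of_tendsto (fun s hs => by
      rcases mem_atBot_sets.1 hs with ⟨b, hb⟩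
      rw [← top_le_iff, ← Real.volume_Iic (a := b)]
      exact measure_mono hb) h1
    rwa [h4] at h1
  have h5 : Tendsto (fun n : ℝ => ∫ x in -n..n, φ x) atTop (𝓝 (∫ x, φ x)) :=
    intervalIntegral_tendsto_integral hφi tendsto_neg_atTop_atBot tendsto_id
  have h6 : Tendsto (fun n : ℝ => ∫ x in -n..n, φ x) atTop (𝓝 (0 - 0)) := by
    have : (fun n : ℝ => ∫ x in -n..n, φ x) = fun n => u n * h n - u (-n) * h (-n) := by
      funext n; rw [key]
    rw [this]
    exact htop.sub (hbot.comp tendsto_neg_atTop_atBot)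
  have := tendsto_nhds_unique h5 h6
  simpa using this

lemma ibp_complex {G G' : ℝ → ℂ} (hG : ∀ a b, G b - G a = ∫ x in a..b, G' x)
    (hG2 : MemLp G 2 volume) (hG'2 : MemLp G' 2 volume) {h h' : ℝ → ℝ}
    (hh : ∀ x, HasDerivAt h (h' x) x) (hhc : Continuous h') (hh2 : MemLp h 2 volume)
    (hh'2 : MemLp h' 2 volume) :
    ∫ x, (G' x * (h x : ℂ) + G x * (h' x : ℂ)) = 0 := by
  have hGi : ∀ a b, IntervalIntegrable G' volume a b := fun a b =>
    intervalIntegrable_iff.mpr (((hG'2.locallyIntegrable (by norm_num)).integrableOn_isCompact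
      isCompact_uIcc).mono_set uIoc_subset_uIcc)
  have hhC : MemLp (fun x => (h x : ℂ)) 2 volume := hh2.ofReal
  have hhC' : MemLp (fun x => (h' x : ℂ)) 2 volume := hh'2.ofReal
  have hint : Integrable (fun x => G' x * (h x : ℂ) + G x * (h' x : ℂ)) :=
    (hG'2.integrable_mul hhC).add (hG2.integrable_mul hhC')
  have hre : ∀ a b, (G b).re - (G a).re = ∫ x in a..b, (G' x).re := by
    intro a b
    have := Complex.reCLM.intervalIntegral_comp_comm (hGi a b)
    simp only [Complex.reCLM_apply] at this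
    rw [this, ← hG, Complex.sub_re]
  have him : ∀ a b, (G b).im - (G a).im = ∫ x in a..b, (G' x).im := by
    intro a b
    have := Complex.imCLM.intervalIntegral_comp_comm (hGi a b)
    simp only [Complex.imCLM_apply] at this
    rw [this, ← hG, Complex.sub_im]
  have h1 := ibp_line hre hG2.re hG'2.re hh hhc hh2 hh'2
  have h2 := ibp_line him hG2.im hG'2.im hh hhc hh2 hh'2
  apply Complex.ext
  · have := Complex.reCLM.integral_comp_comm hint
    simp only [Complex.reCLM_apply] at this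
    rw [← this, Complex.zero_re, ← h1]
    congr 1
    funext x
    simp
  · have := Complex.imCLM.integral_comp_comm hint
    simp only [Complex.imCLM_apply] at this
    rw [← this, Complex.zero_im, ← h2]
    congr 1
    funext x
    simp

end ibp

section sech

/-- the function `1 / cosh² (q x)` -/
noncomputable def sech2 (q x : ℝ) : ℝ := 1 / Real.cosh (q * x) ^ 2

lemma sech2_pos (q x : ℝ) : 0 < sech2 q x := by
  unfold sech2
  have := Real.cosh_pos (q * x)
  positivity

lemma sech2_le_one (q x : ℝ) : sech2 q x ≤ 1 := by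
  unfold sech2
  rw [div_le_one (by have := Real.cosh_pos (q * x); positivity)]
  exact one_le_pow₀ (Real.one_le_cosh _)

lemma sech2_continuous (q : ℝ) : Continuous (sech2 q) := by
  unfold sech2
  refine continuous_const.div (by fun_prop) fun x => ?_
  have := Real.cosh_pos (q * x)
  positivity

lemma sigmoid_mul (y : ℝ) :
    Real.sigmoid (2 * y) * (1 - Real.sigmoid (2 * y)) = 1 / (4 * Real.cosh y ^ 2) := by
  have e1 : 0 < Real.exp (2 * y) := Real.exp_pos _
  have e2 : Real.exp (-(2 * y)) = (Real.exp (2 * y))⁻¹ := Real.exp_neg _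
  have e3 : Real.exp (2 * y) = Real.exp y ^ 2 := by rw [← Real.exp_nat_mul]; norm_num
  have e4 : 0 < Real.exp y := Real.exp_pos _
  rw [Real.sigmoid_def, Real.cosh_eq, Real.exp_neg y, e2, e3]
  field_simp
  ring

lemma sech2_beta {q p : ℝ} (hq : 0 < q) (hp : 0 < p) :
    Integrable (fun x => sech2 q x ^ p) ∧
      ∫ x, sech2 q x ^ p = 4 ^ p * ProbabilityTheory.beta p p / (2 * q) := by
  have hβ := ProbabilityTheory.beta_pos hp hp
  set β := ProbabilityTheory.beta p p with hβdef
  set f : ℝ → ℝ := fun x => Real.sigmoid (2 * (q * x)) with hf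
  have hrange : f '' univ = Ioo 0 1 := by
    rw [image_univ, ← Real.range_sigmoid]
    ext t
    constructor
    · rintro ⟨x, rfl⟩
      exact ⟨_, rfl⟩
    · rintro ⟨y, rfl⟩
      refine ⟨y / (2 * q), ?_⟩
      simp only [hf]
      congr 1
      (clear * - hq; field_simp)
  have hder : ∀ x ∈ (univ : Set ℝ), HasDerivWithinAt f
      (Real.sigmoid (2 * (q * x)) * (1 - Real.sigmoid (2 * (q * x))) * (2 * q)) univ x := by
    intro x _
    have h1 : HasDerivAt (fun x : ℝ => 2 * (q * x)) (2 * q) x := by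
      have := ((hasDerivAt_id x).const_mul q).const_mul 2
      simpa using this
    exact ((Real.hasDerivAt_sigmoid _).comp x h1).hasDerivWithinAt
  have hinj : InjOn f univ := by
    intro x _ y _ hxy
    have := Real.sigmoid_injective hxy
    have h2 : (0:ℝ) < 2 * q := by positivity
    nlinarith only [this, hq]
  have hmain := lintegral_image_eq_lintegral_abs_deriv_mul MeasurableSet.univ hder hinj
    (ProbabilityTheory.betaPDF p p)
  have hone : ∫⁻ t in f '' univ, ProbabilityTheory.betaPDF p p t = 1 := by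
    rw [hrange, ← ProbabilityTheory.lintegral_betaPDF_eq_one hp hp,
      ProbabilityTheory.lintegral_betaPDF]
    refine setLIntegral_congr_fun measurableSet_Ioo fun t ht => ?_
    exact ProbabilityTheory.betaPDF_of_pos_lt_one ht.1 ht.2
  rw [hone, Measure.restrict_univ] at hmain
  set c : ℝ := 2 * q / (β * 4 ^ p) with hc
  have hcpos : 0 < c := by positivity
  have hpt : ∀ x, ENNReal.ofReal
      |Real.sigmoid (2 * (q * x)) * (1 - Real.sigmoid (2 * (q * x))) * (2 * q)| *
        ProbabilityTheory.betaPDF p p (f x) = ENNReal.ofReal c * ENNReal.ofReal (sech2 q x ^ p) := by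
    intro x
    have t0 : 0 < f x := Real.sigmoid_pos _
    have t1 : f x < 1 := Real.sigmoid_lt_one _
    have t1' : 0 < 1 - f x := by linarith only [t1]
    have hs : sech2 q x = 4 * (f x * (1 - f x)) := by
      simp only [hf]
      rw [sigmoid_mul]
      unfold sech2
      have := Real.cosh_pos (q * x)
      field_simp
    rw [ProbabilityTheory.betaPDF_of_pos_lt_one t0 t1, hs]
    change ENNReal.ofReal |f x * (1 - f x) * (2 * q)| * _ = _
    rw [abs_of_pos (by (clear * - t0 t1 hq; positivity)), ← ENNReal.ofReal_mul (by positivity),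
      ← ENNReal.ofReal_mul hcpos.le, Real.mul_rpow (by norm_num) (by positivity),
      Real.mul_rpow t0.le t1'.le, Real.rpow_sub_one t0.ne', Real.rpow_sub_one t1'.ne', hc]
    congr 1
    have h4 : (0:ℝ) < 4 ^ p := by positivity
    rw [← hβdef]
    (clear * - t0 t1' hβ hq; field_simp)
  have hI : ENNReal.ofReal c * ∫⁻ x, ENNReal.ofReal (sech2 q x ^ p) = 1 := by
    rw [← lintegral_const_mul' _ _ ENNReal.ofReal_ne_top, hmain]
    exact (lintegral_congr hpt).symm
  have hval : ∫⁻ x, ENNReal.ofReal (sech2 q x ^ p) = ENNReal.ofReal c⁻¹ := by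
    have h1 : ENNReal.ofReal c ≠ 0 := by simpa only [ne_eq, ENNReal.ofReal_eq_zero, not_le] using hcpos
    rw [ENNReal.ofReal_inv_of_pos hcpos]
    exact ENNReal.eq_inv_of_mul_eq_one_left (by rw [mul_comm]; exact hI)
  have hmeas : AEStronglyMeasurable (fun x => sech2 q x ^ p) volume :=
    ((sech2_continuous q).rpow_const fun x => Or.inl (sech2_pos q x).ne').aestronglyMeasurable
  have hnn : ∀ x, 0 ≤ sech2 q x ^ p := fun x => Real.rpow_nonneg (sech2_pos q x).le _
  constructor
  · refine ⟨hmeas, ?_⟩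
    rw [hasFiniteIntegral_iff_ofReal (Eventually.of_forall hnn), hval]
    exact ENNReal.ofReal_lt_top
  · rw [integral_eq_lintegral_of_nonneg_ae (Eventually.of_forall hnn) hmeas, hval,
      ENNReal.toReal_ofReal (by positivity), hc, inv_div]
    ring

end sech

section soliton

variable {q : ℝ}

/-- the ground state `cosh(q x)^(-1/q)` -/
noncomputable def psi (q x : ℝ) : ℝ := Real.cosh (q * x) ^ (-(1 / q))

/-- `tanh (q x)` -/
noncomputable def tn (q x : ℝ) : ℝ := Real.sinh (q * x) / Real.cosh (q * x)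

lemma psi_pos (q x : ℝ) : 0 < psi q x := Real.rpow_pos_of_pos (Real.cosh_pos _) _

lemma one_sub_tn_sq (q x : ℝ) : 1 - tn q x ^ 2 = sech2 q x := by
  unfold tn sech2
  have h := Real.cosh_pos (q * x)
  have h2 := Real.cosh_sq (q * x)
  field_simp
  linarith only [h2]

lemma hasDerivAt_tn (q x : ℝ) : HasDerivAt (tn q) (q * sech2 q x) x := by
  have h1 : HasDerivAt (fun x : ℝ => q * x) q x := by simpa using (hasDerivAt_id x).const_mul q
  have hs := (Real.hasDerivAt_sinh (q * x)).comp x h1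
  have hc := (Real.hasDerivAt_cosh (q * x)).comp x h1
  have h := hs.div hc (Real.cosh_pos _).ne'
  refine h.congr_deriv ?_
  unfold sech2
  have h0 := Real.cosh_pos (q * x)
  have h2 := Real.cosh_sq (q * x)
  simp only [Function.comp_apply]
  field_simp
  rw [h2]
  ring

lemma hasDerivAt_psi (hq : 0 < q) (x : ℝ) : HasDerivAt (psi q) (-(tn q x * psi q x)) x := by
  have h1 : HasDerivAt (fun x : ℝ => q * x) q x := by simpa using (hasDerivAt_id x).const_mul q
  have hc := (Real.hasDerivAt_cosh (q * x)).comp x h1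
  have h0 := Real.cosh_pos (q * x)
  have h := hc.rpow_const (p := -(1 / q)) (Or.inl h0.ne')
  refine h.congr_deriv ?_
  unfold tn psi
  simp only [Function.comp_apply]
  rw [Real.rpow_sub_one h0.ne']
  field_simp

lemma hasDerivAt_psi' (hq : 0 < q) (x : ℝ) : HasDerivAt (fun x => -(tn q x * psi q x))
    ((1 - (1 + q) * sech2 q x) * psi q x) x := by
  have h := ((hasDerivAt_tn q x).mul (hasDerivAt_psi hq x)).neg
  refine h.congr_deriv ?_
  have h2 := one_sub_tn_sq q x
  have h3 : tn q x ^ 2 = 1 - sech2 q x := by linarith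
  have : -(q * sech2 q x * psi q x + tn q x * -(tn q x * psi q x)) =
    (tn q x ^ 2 - q * sech2 q x) * psi q x := by ring
  rw [this, h3]
  ring

lemma abs_tn_le (q x : ℝ) : |tn q x| ≤ 1 := by
  have h := one_sub_tn_sq q x
  have h1 := sech2_pos q x
  rw [← sq_le_one_iff_abs_le_one]
  linarith

lemma continuous_psi (q : ℝ) : Continuous (psi q) := by
  unfold psi
  exact (Real.continuous_cosh.comp (by fun_prop)).rpow_const fun x => Or.inl (Real.cosh_pos _).ne'

lemma continuous_tn (q : ℝ) : Continuous (tn q) :=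
  continuous_iff_continuousAt.mpr fun x => (hasDerivAt_tn q x).continuousAt

lemma memLp_psi (hq : 0 < q) : MemLp (psi q) 2 volume := by
  rw [memLp_two_iff_integrable_sq (continuous_psi q).aestronglyMeasurable]
  have h := (sech2_beta hq (show 0 < 1 / q by positivity)).1
  refine h.congr (Eventually.of_forall fun x => ?_)
  simp only
  unfold psi sech2
  have h0 := Real.cosh_pos (q * x)
  rw [one_div, Real.inv_rpow (by positivity), ← Real.rpow_natCast (Real.cosh (q * x)) 2,
    ← Real.rpow_mul h0.le, ← Real.rpow_natCast _ 2, ← Real.rpow_mul h0.le, ← Real.rpow_neg h0.le]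
  congr 1
  push_cast
  ring

lemma memLp_psi' (hq : 0 < q) : MemLp (fun x => -(tn q x * psi q x)) 2 volume := by
  refine (memLp_psi hq).of_le ((continuous_tn q).mul (continuous_psi q)).neg.aestronglyMeasurable
    (Eventually.of_forall fun x => ?_)
  rw [norm_neg, norm_mul]
  have := abs_tn_le q x
  calc ‖tn q x‖ * ‖psi q x‖ ≤ 1 * ‖psi q x‖ := by
        gcongr
        exact this
    _ = ‖psi q x‖ := one_mul _

lemma memLp_psi'' (hq : 0 < q) : MemLp (fun x => (1 - (1 + q) * sech2 q x) * psi q x) 2 volume := by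
  have hc : Continuous fun x => (1 - (1 + q) * sech2 q x) * psi q x :=
    (continuous_const.sub (continuous_const.mul (sech2_continuous q))).mul (continuous_psi q)
  refine MemLp.of_le_mul (c := 1 + q) (memLp_psi hq) hc.aestronglyMeasurable
    (Eventually.of_forall fun x => ?_)
  rw [norm_mul]
  gcongr
  have h1 := sech2_pos q x
  have h2 := sech2_le_one q x
  rw [Real.norm_eq_abs, abs_le]
  constructor <;> nlinarith

/-- the unit vector of `ℂ¹` -/
noncomputable def e1 : EuclideanSpace ℂ (Fin 1) := EuclideanSpace.single 0 1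

/-- vector valued ground state -/
noncomputable def fs (q x : ℝ) : EuclideanSpace ℂ (Fin 1) := ((psi q x : ℝ) : ℂ) • e1

noncomputable def fs' (q x : ℝ) : EuclideanSpace ℂ (Fin 1) := ((-(tn q x * psi q x) : ℝ) : ℂ) • e1

/-- the potential -/
noncomputable def Ws (q x : ℝ) : Matrix (Fin 1) (Fin 1) ℂ :=
  (((1 + q) * sech2 q x : ℝ) : ℂ) • (1 : Matrix (Fin 1) (Fin 1) ℂ)

lemma norm_e1 : ‖e1‖ = 1 := by simp [e1]

lemma isH1_fs (hq : 0 < q) : IsH1 (fs q) (fs' q) where
  memLp := by
    have h := (memLp_psi hq).ofReal (K := ℂ)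
    refine h.of_le ?_ (Eventually.of_forall fun x => ?_)
    · unfold fs
      exact ((Complex.continuous_ofReal.comp (continuous_psi q)).smul
        continuous_const).aestronglyMeasurable
    · simp [fs, norm_smul, norm_e1]
  memLp_deriv := by
    have h := (memLp_psi' hq).ofReal (K := ℂ)
    refine h.of_le ?_ (Eventually.of_forall fun x => ?_)
    · unfold fs'
      exact ((Complex.continuous_ofReal.comp
        ((continuous_tn q).mul (continuous_psi q)).neg).smul
        continuous_const).aestronglyMeasurable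
    · simp only [fs', Complex.ofReal_neg, Complex.ofReal_mul, neg_smul, norm_neg, norm_smul, Complex.norm_mul, Complex.norm_real, Real.norm_eq_abs, norm_e1, mul_one, Complex.coe_algebraMap, Std.le_refl]
  ftc := by
    intro a b
    symm
    apply intervalIntegral.integral_eq_sub_of_hasDerivAt
    · intro x _
      exact (hasDerivAt_psi hq x).ofReal_comp.smul_const e1
    · have : Continuous (fs' q) := by
        unfold fs'
        exact (Complex.continuous_ofReal.comp
          ((continuous_tn q).mul (continuous_psi q)).neg).smul continuous_const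
      exact this.intervalIntegrable a b

lemma isEigenfunction_fs (hq : 0 < q) : IsEigenfunction (Ws q) (-1) (fs q) (fs' q) where
  isH1 := isH1_fs hq
  form_eq := by
    intro g g' hg
    set G : ℝ → ℂ := fun x => inner ℂ e1 (g x) with hG
    set G' : ℝ → ℂ := fun x => inner ℂ e1 (g' x) with hG'
    have hg'i : ∀ a b, IntervalIntegrable g' volume a b := fun a b =>
      intervalIntegrable_iff.mpr (((hg.memLp_deriv.locallyIntegrable (by norm_num)).integrableOn_isCompact
        isCompact_uIcc).mono_set uIoc_subset_uIcc)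
    have hGftc : ∀ a b, G b - G a = ∫ x in a..b, G' x := by
      intro a b
      have := (innerSL ℂ e1).intervalIntegral_comp_comm (hg'i a b)
      simp only [innerSL_apply_apply] at this
      simp only [hG, hG']
      rw [this, ← hg.ftc, inner_sub_right]
    have hG2 : MemLp G 2 volume := (innerSL ℂ e1).comp_memLp' hg.memLp
    have hG'2 : MemLp G' 2 volume := (innerSL ℂ e1).comp_memLp' hg.memLp_deriv
    have hcont : Continuous fun x => (1 - (1 + q) * sech2 q x) * psi q x :=
      (continuous_const.sub (continuous_const.mul (sech2_continuous q))).mul (continuous_psi q)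
    have key := ibp_complex hGftc hG2 hG'2 (hasDerivAt_psi' hq) hcont (memLp_psi' hq)
      (memLp_psi'' hq)
    have key2 := congrArg (starRingEnd ℂ) key
    rw [← integral_conj, map_zero] at key2
    have c1 : ∀ x, inner ℂ (g' x) (fs' q x) =
        ((-(tn q x * psi q x) : ℝ) : ℂ) * (starRingEnd ℂ) (G' x) := by
      intro x
      simp only [fs', hG']
      rw [inner_smul_right, inner_conj_symm]
    have c2 : ∀ x, inner ℂ (g x) (Matrix.toEuclideanLin (Ws q x) (fs q x)) =
        (((1 + q) * sech2 q x * psi q x : ℝ) : ℂ) * (starRingEnd ℂ) (G x) := by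
      intro x
      have : Matrix.toEuclideanLin (Ws q x) (fs q x) =
          (((1 + q) * sech2 q x * psi q x : ℝ) : ℂ) • e1 := by
        unfold Ws fs
        rw [map_smul, map_smul, LinearMap.smul_apply]
        have h1 : Matrix.toEuclideanLin (1 : Matrix (Fin 1) (Fin 1) ℂ) = LinearMap.id := by
          ext v i
          simp only [Matrix.toLpLin_one, LinearMap.id_coe, id_eq]
        rw [h1, LinearMap.id_apply, smul_smul]
        congr 1
        push_cast
        ring
      rw [this, inner_smul_right]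
      simp only [hG]
      rw [inner_conj_symm]
    have c3 : ∀ x, inner ℂ (g x) (fs q x) = ((psi q x : ℝ) : ℂ) * (starRingEnd ℂ) (G x) := by
      intro x
      simp only [fs, hG]
      rw [inner_smul_right, inner_conj_symm]
    simp only [c1, c2, c3]
    have hGc : MemLp (fun x => (starRingEnd ℂ) (G x)) 2 volume := hG2.star
    have hG'c : MemLp (fun x => (starRingEnd ℂ) (G' x)) 2 volume := hG'2.star
    have i1 : Integrable fun x => ((-(tn q x * psi q x) : ℝ) : ℂ) * (starRingEnd ℂ) (G' x) :=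
      ((memLp_psi' hq).ofReal (K := ℂ)).integrable_mul hG'c
    have i3 : Integrable fun x => ((psi q x : ℝ) : ℂ) * (starRingEnd ℂ) (G x) :=
      ((memLp_psi hq).ofReal (K := ℂ)).integrable_mul hGc
    have m2 : MemLp (fun x => (1 + q) * sech2 q x * psi q x) 2 volume := by
      have h := (memLp_psi hq).sub (memLp_psi'' hq)
      refine h.congr_norm ?_ (Eventually.of_forall fun x => ?_)
      · exact ((continuous_const.mul (sech2_continuous q)).mul
          (continuous_psi q)).aestronglyMeasurable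
      · simp only [Pi.sub_apply]
        congr 1
        ring
    have i2 : Integrable fun x => (((1 + q) * sech2 q x * psi q x : ℝ) : ℂ) *
        (starRingEnd ℂ) (G x) := (m2.ofReal (K := ℂ)).integrable_mul hGc
    have i12 : Integrable fun x => ((-(tn q x * psi q x) : ℝ) : ℂ) * (starRingEnd ℂ) (G' x) -
        (((1 + q) * sech2 q x * psi q x : ℝ) : ℂ) * (starRingEnd ℂ) (G x) := i1.sub i2
    rw [← integral_sub i1 i2]
    have : (∫ x, (((-(tn q x * psi q x) : ℝ) : ℂ) * (starRingEnd ℂ) (G' x) -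
        (((1 + q) * sech2 q x * psi q x : ℝ) : ℂ) * (starRingEnd ℂ) (G x))) +
        ∫ x, ((psi q x : ℝ) : ℂ) * (starRingEnd ℂ) (G x) = 0 := by
      rw [← integral_add i12 i3, ← key2]
      congr 1
      funext x
      simp only [map_add, map_mul, Complex.conj_ofReal]
      push_cast
      ring
    rw [Complex.ofReal_neg, Complex.ofReal_one]
    linear_combination this

lemma trPow_smul_one {p c : ℝ} :
    trPow p (((c : ℝ) : ℂ) • (1 : Matrix (Fin 1) (Fin 1) ℂ)) = c ^ p := by
  have hH : (((c : ℝ) : ℂ) • (1 : Matrix (Fin 1) (Fin 1) ℂ)).IsHermitian := by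
    rw [Matrix.IsHermitian, Matrix.conjTranspose_smul, Matrix.conjTranspose_one]
    simp only [RCLike.star_def, Complex.conj_ofReal, Complex.coe_smul]
  have htr := hH.trace_eq_sum_eigenvalues
  simp only [Finset.univ_unique, Fin.default_eq_zero, Finset.sum_singleton,
    Matrix.trace_smul, Matrix.trace_one, Fintype.card_fin] at htr
  have h1 : hH.eigenvalues 0 = c := by
    have : ((c : ℝ) : ℂ) = ((hH.eigenvalues 0 : ℝ) : ℂ) := by simpa only [Complex.coe_smul, Fin.isValue, Complex.ofReal_inj, Nat.cast_one, smul_eq_mul, mul_one,     Complex.coe_algebraMap] using htr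
    exact_mod_cast this.symm
  unfold trPow
  rw [dif_pos hH]
  simp only [Finset.univ_unique, Fin.default_eq_zero, Fin.isValue, Complex.coe_smul, Finset.sum_singleton, h1]

lemma isPotential_Ws (hq : 0 < q) {p : ℝ} (hp : 0 < p) : IsPotential p (Ws q) where
  measurable := by
    intro i j
    unfold Ws
    have h1 : Continuous fun x => (((1 + q) * sech2 q x : ℝ) : ℂ) *
        (1 : Matrix (Fin 1) (Fin 1) ℂ) i j :=
      (Complex.continuous_ofReal.comp (continuous_const.mul (sech2_continuous q))).mul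
        continuous_const
    exact h1.measurable
  posSemidef := by
    intro x
    unfold Ws
    have h0 : 0 ≤ (1 + q) * sech2 q x := by
      have := sech2_pos q x
      (clear * - hq this; positivity)
    have h1 : (0 : ℂ) ≤ (((1 + q) * sech2 q x : ℝ) : ℂ) := by
      exact_mod_cast h0
    exact Matrix.PosSemidef.one.smul h1
  integrable := by
    unfold Ws
    simp only [trPow_smul_one]
    have h := (sech2_beta hq hp).1.const_mul ((1 + q) ^ p)
    refine h.congr (Eventually.of_forall fun x => ?_)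
    simp only
    rw [Real.mul_rpow (by positivity) (sech2_pos q x).le]

lemma integral_Ws (hq : 0 < q) {p : ℝ} (hp : 0 < p) : ∫ x, trPow p (Ws q x) =
    (1 + q) ^ p * (4 ^ p * ProbabilityTheory.beta p p / (2 * q)) := by
  unfold Ws
  simp only [trPow_smul_one]
  rw [← (sech2_beta hq hp).2, ← integral_const_mul]
  congr 1
  funext x
  rw [Real.mul_rpow (by positivity) (sech2_pos q x).le]

lemma fs_ne_zero (q : ℝ) : fs q ≠ 0 := by
  intro h
  have h1 := congrFun h 0
  have h2 : ‖fs q 0‖ = psi q 0 := by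
    simp [fs, norm_smul, norm_e1, abs_of_pos (psi_pos q 0)]
  rw [h1] at h2
  have := psi_pos q 0
  simp at h2
  linarith only [this, h2]

lemma one_le_groundMean (hq : 0 < q) (γ : ℝ) : 1 ≤ groundMean γ (Ws q) := by
  unfold groundMean
  refine le_iSup_of_le (-1) (le_iSup_of_le (fs q) (le_iSup_of_le (fs' q)
    (le_iSup_of_le ⟨by norm_num, isEigenfunction_fs hq⟩ (le_iSup_of_le (fs_ne_zero q) ?_))))
  simp

lemma soliton_const {γ : ℝ} (hγ : 1 / 2 < γ) :
    2 * ((γ - 1 / 2) / (γ + 1 / 2)) ^ (γ - 1 / 2) * Lcl γ =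
      ((1 + 1 / (γ - 1 / 2)) ^ (γ + 1 / 2) * (4 ^ (γ + 1 / 2) *
        ProbabilityTheory.beta (γ + 1 / 2) (γ + 1 / 2) / (2 * (1 / (γ - 1 / 2)))))⁻¹ := by
  obtain ⟨p, rfl⟩ : ∃ p, γ = p - 1 / 2 := ⟨γ + 1 / 2, by ring⟩
  have hp : 1 < p := by linarith only [hγ]
  have e1 : p - 1 / 2 - 1 / 2 = p - 1 := by ring
  have e2 : p - 1 / 2 + 1 / 2 = p := by ring
  unfold Lcl ProbabilityTheory.beta
  have e3 : p - 1 / 2 + 1 = p + 1 / 2 := by ring
  have e4 : p - 1 / 2 + 3 / 2 = p + 1 := by ring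
  rw [e1, e2, e3, e4, Real.Gamma_add_one (by linarith only [hp] : p ≠ 0)]
  have hdup := Real.Gamma_mul_Gamma_add_half p
  have hp0 : 0 < p := by linarith only [hp]
  have hp1 : 0 < p - 1 := by linarith only [hp]
  have g1 := Real.Gamma_pos_of_pos hp0
  have g2 := Real.Gamma_pos_of_pos (show 0 < p + 1 / 2 by linarith only [hp])
  have g3 := Real.Gamma_pos_of_pos (show 0 < 2 * p by linarith only [hp])
  have hpi := Real.sqrt_pos.mpr Real.pi_pos
  have e5 : 1 + 1 / (p - 1) = p / (p - 1) := by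
    field_simp
    ring
  rw [e5, Real.div_rpow hp1.le hp0.le, Real.div_rpow hp0.le hp1.le, Real.rpow_sub_one hp0.ne',
    Real.rpow_sub_one hp1.ne', ← two_mul]
  have e6 : (4:ℝ) ^ p = 2 ^ (2 * p) := by
    rw [show (4:ℝ) = 2 ^ (2:ℝ) by norm_num, ← Real.rpow_mul (by norm_num)]
  have e7 : (2:ℝ) ^ (1 - 2 * p) = 2 / 2 ^ (2 * p) := by
    rw [Real.rpow_sub (by norm_num), Real.rpow_one]
  rw [e7] at hdup
  rw [e6]
  set a := (2:ℝ) ^ (2 * p) with ha
  have ha0 : 0 < a := by positivity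
  have h1 : Real.Gamma (2 * p) = Real.Gamma p * Real.Gamma (p + 1 / 2) * a / (2 * √π) := by
    field_simp at hdup ⊢
    linarith only [hdup]
  rw [h1]
  have hb : 0 < p ^ p := by positivity
  have hc : 0 < (p - 1) ^ p := by positivity
  (clear * - hp ha0 hp1; field_simp)

/-- T3 : the soliton gives the lower bound, for every `γ > 1/2`. -/
theorem LTone_ge {γ : ℝ} (hγ : 1 / 2 < γ) :
    ENNReal.ofReal (2 * ((γ - 1 / 2) / (γ + 1 / 2)) ^ (γ - 1 / 2) * Lcl γ) ≤ LTone γ := by
  have hq : 0 < 1 / (γ - 1 / 2) := by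
    have : 0 < γ - 1 / 2 := by linarith
    positivity
  have hp : 0 < γ + 1 / 2 := by linarith only [hγ]
  have hI := integral_Ws hq hp
  have hpos : 0 < ∫ x, trPow (γ + 1 / 2) (Ws (1 / (γ - 1 / 2)) x) := by
    rw [hI]
    have := ProbabilityTheory.beta_pos hp hp
    positivity
  rw [soliton_const hγ, ← hI, ENNReal.ofReal_inv_of_pos hpos]
  unfold LTone
  refine le_iSup_of_le (Ws (1 / (γ - 1 / 2))) (le_iSup_of_le (isPotential_Ws hq hp)
    (le_iSup_of_le hpos.ne' ?_))
  rw [← one_div]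
  exact ENNReal.div_le_div_right (one_le_groundMean hq γ) _

end soliton

end Vale.Agent.P371
end
end

section

section

/-!
The value of the sharp constant.
-/

namespace Vale.Agent.P371.G

open MeasureTheory
open scoped ComplexOrder

theorem beta_real {p : ℝ} (hp : 0 < p) :
    ∫ t in (0:ℝ)..1, t ^ (p - 1) * (1 - t) ^ (p - 1) = ProbabilityTheory.beta p p := by
  rw [ProbabilityTheory.beta_eq_betaIntegralReal p p hp hp, Complex.betaIntegral]
  have h : ∫ x in (0:ℝ)..1, (x : ℂ) ^ ((p : ℂ) - 1) * (1 - (x : ℂ)) ^ ((p : ℂ) - 1) =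
      ((∫ t in (0:ℝ)..1, t ^ (p - 1) * (1 - t) ^ (p - 1) : ℝ) : ℂ) := by
    rw [← intervalIntegral.integral_ofReal]
    refine intervalIntegral.integral_congr fun x hx => ?_
    rw [Set.uIcc_of_le zero_le_one] at hx
    have h1 : (1 : ℂ) - (x : ℂ) = ((1 - x : ℝ) : ℂ) := by push_cast; ring
    have h2 : (p : ℂ) - 1 = ((p - 1 : ℝ) : ℂ) := by push_cast; ring
    rw [h1, h2, ← Complex.ofReal_cpow hx.1, ← Complex.ofReal_cpow (by linarith [hx.2]),
      ← Complex.ofReal_mul]
  rw [h, Complex.ofReal_re]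

theorem integral_one_sub_sq {p : ℝ} (hp : 1 ≤ p) :
    ∫ y in (-1 : ℝ)..1, (1 - y ^ 2) ^ (p - 1) = 4 ^ p * ProbabilityTheory.beta p p / 2 := by
  have h := intervalIntegral.smul_integral_comp_mul_sub (a := (0:ℝ)) (b := 1)
    (f := fun y : ℝ => (1 - y ^ 2) ^ (p - 1)) 2 1
  norm_num at h
  rw [← h, ← beta_real (by linarith)]
  have h1 : ∫ x in (0:ℝ)..1, (1 - (2 * x - 1) ^ 2) ^ (p - 1) =
      ∫ x in (0:ℝ)..1, 4 ^ (p - 1) * (x ^ (p - 1) * (1 - x) ^ (p - 1)) := by
    refine intervalIntegral.integral_congr fun x hx => ?_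
    rw [Set.uIcc_of_le zero_le_one] at hx
    have hx1 : 0 ≤ 1 - x := by linarith [hx.2]
    rw [← Real.mul_rpow hx.1 hx1, ← Real.mul_rpow (by norm_num) (mul_nonneg hx.1 hx1)]
    congr 1
    ring
  rw [h1, intervalIntegral.integral_const_mul, Real.rpow_sub_one (by norm_num)]
  ring

theorem Cg_eq {γ : ℝ} (hγ : 1 / 2 < γ) :
    Cg γ = 2 * ((γ - 1 / 2) / (γ + 1 / 2)) ^ (γ - 1 / 2) * Lcl γ := by
  rw [soliton_const hγ, Cg]
  have e : γ - 1 / 2 = (γ + 1 / 2) - 1 := by ring
  have h1 : ∫ y in (-1 : ℝ)..1, (1 - y ^ 2) ^ (γ - 1 / 2) =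
      4 ^ (γ + 1 / 2) * ProbabilityTheory.beta (γ + 1 / 2) (γ + 1 / 2) / 2 := by
    rw [e]
    have := integral_one_sub_sq (p := γ + 1 / 2) (by linarith only [hγ])
    exact this
  rw [h1]
  set s := γ - 1 / 2 with hs
  set p := γ + 1 / 2 with hp
  have hs0 : 0 < s := by linarith only [hγ, hs]
  have hp0 : 0 < p := by linarith only [hγ, hs]
  have hB := ProbabilityTheory.beta_pos hp0 hp0
  have h4 : (0:ℝ) < 4 ^ p := by positivity
  have e2 : 1 + 1 / s = p / s := by
    have : p = s + 1 := by rw [hs, hp]; ring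
    rw [this]; (clear * - hs0; field_simp)
  rw [e2, Real.div_rpow hs0.le hp0.le, Real.div_rpow hp0.le hs0.le]
  have h5 : 0 < s ^ p := Real.rpow_pos_of_pos hs0 _
  have h6 : 0 < p ^ p := Real.rpow_pos_of_pos hp0 _
  field_simp

theorem Cg_pos {γ : ℝ} (hγ : 1 / 2 < γ) : 0 < Cg γ := by
  rw [Cg_eq hγ, Lcl]
  have h1 : 0 < γ - 1 / 2 := by linarith
  have h2 : 0 < γ + 1 / 2 := by linarith only [hγ]
  have h3 := Real.Gamma_pos_of_pos (show 0 < γ + 1 by linarith only [hγ])
  have h4 := Real.Gamma_pos_of_pos (show 0 < γ + 3 / 2 by linarith only [hγ])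
  have := Real.pi_pos
  positivity

end Vale.Agent.P371.G
end
end

section

section

open Matrix
open scoped ComplexOrder

namespace Vale.Agent.P371

variable {N : ℕ}

/-- Sylvester operator. -/
noncomputable def syl (A : Matrix (Fin N) (Fin N) ℂ) (s : ℝ) (Z : Matrix (Fin N) (Fin N) ℂ) :
    Matrix (Fin N) (Fin N) ℂ := A * Z + Z * A + (s : ℂ) • Z

/-- sum of squares of the entries -/
noncomputable def fro (V : Matrix (Fin N) (Fin N) ℂ) : ℝ := ∑ i, ∑ j, ‖V i j‖ ^ 2

lemma fro_nonneg (V : Matrix (Fin N) (Fin N) ℂ) : 0 ≤ fro V :=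
  Finset.sum_nonneg fun _ _ => Finset.sum_nonneg fun _ _ => by positivity

lemma fro_eq_trace (V : Matrix (Fin N) (Fin N) ℂ) : (fro V : ℂ) = trace (Vᴴ * V) := by
  simp only [fro, trace, diag, mul_apply, conjTranspose_apply]
  rw [Finset.sum_comm]
  push_cast
  refine Finset.sum_congr rfl fun i _ => Finset.sum_congr rfl fun j _ => ?_
  rw [RCLike.star_def, ← Complex.normSq_eq_conj_mul_self, Complex.normSq_eq_norm_sq]
  push_cast
  rfl

lemma fro_eq_zero {V : Matrix (Fin N) (Fin N) ℂ} (h : fro V = 0) : V = 0 := by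
  ext i j
  have h1 := (Finset.sum_eq_zero_iff_of_nonneg
    (fun i _ => Finset.sum_nonneg fun j _ => by positivity)).1 h i (Finset.mem_univ i)
  have h2 := (Finset.sum_eq_zero_iff_of_nonneg (fun j _ => by (clear * -; positivity))).1 h1 j (Finset.mem_univ j)
  simpa using h2

lemma norm_entry_sq_le_fro (V : Matrix (Fin N) (Fin N) ℂ) (i j : Fin N) :
    ‖V i j‖ ^ 2 ≤ fro V := by
  unfold fro
  refine le_trans ?_ (Finset.single_le_sum (f := fun i => ∑ j, ‖V i j‖ ^ 2)
    (fun i _ => Finset.sum_nonneg fun j _ => by positivity) (Finset.mem_univ i))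
  exact Finset.single_le_sum (f := fun j => ‖V i j‖ ^ 2) (fun j _ => by positivity)
    (Finset.mem_univ j)

/-- The spectral condition on `A`. -/
structure Spec (ε : ℝ) (A : Matrix (Fin N) (Fin N) ℂ) : Prop where
  lo : (A - (ε : ℂ) • (1 : Matrix (Fin N) (Fin N) ℂ)).PosSemidef
  hi : (((Real.pi / 2 - ε : ℝ) : ℂ) • (1 : Matrix (Fin N) (Fin N) ℂ) - A).PosSemidef

lemma trace_re_nonneg {M : Matrix (Fin N) (Fin N) ℂ} (h : M.PosSemidef) : 0 ≤ (trace M).re := by
  have := h.trace_nonneg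
  exact (Complex.nonneg_iff.1 this).1

lemma syl_trace (A : Matrix (Fin N) (Fin N) ℂ) (s : ℝ) (V : Matrix (Fin N) (Fin N) ℂ) :
    trace (Vᴴ * syl A s V) = trace (Vᴴ * A * V) + trace (V * A * Vᴴ) + s * fro V := by
  rw [fro_eq_trace, syl, mul_add, mul_add, trace_add, trace_add, Matrix.mul_assoc]
  congr 1
  · congr 1
    rw [trace_mul_comm]
  · simp only [Complex.coe_smul, Algebra.mul_smul_comm, trace_smul, Complex.real_smul]

lemma Spec.isHermitian {ε : ℝ} {A : Matrix (Fin N) (Fin N) ℂ} (h : Spec ε A) :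
    A.IsHermitian := by
  have h1 := h.lo.isHermitian
  have h2 : ((ε : ℂ) • (1 : Matrix (Fin N) (Fin N) ℂ)).IsHermitian := by
    simp only [IsHermitian, Complex.coe_smul, conjTranspose_smul, star_trivial, conjTranspose_one]
  have := h1.add h2
  simpa only [Complex.coe_smul, sub_add_cancel] using this

lemma trace_conj_lo {ε : ℝ} {A : Matrix (Fin N) (Fin N) ℂ} (h : Spec ε A)
    (V : Matrix (Fin N) (Fin N) ℂ) : ε * fro V ≤ (trace (Vᴴ * A * V)).re := by
  have h1 := trace_re_nonneg (h.lo.conjTranspose_mul_mul_same V)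
  have h2 : Vᴴ * (A - (ε : ℂ) • (1 : Matrix (Fin N) (Fin N) ℂ)) * V =
      Vᴴ * A * V - (ε : ℂ) • (Vᴴ * V) := by
    simp only [Complex.coe_smul, mul_sub, Algebra.mul_smul_comm, mul_one, sub_mul, Algebra.smul_mul_assoc]
  rw [h2, trace_sub, trace_smul, ← fro_eq_trace] at h1
  simp only [smul_eq_mul, Complex.sub_re, Complex.mul_re, Complex.ofReal_re, Complex.ofReal_im, mul_zero, sub_zero, sub_nonneg] at h1
  linarith

lemma trace_conj_hi {ε : ℝ} {A : Matrix (Fin N) (Fin N) ℂ} (h : Spec ε A)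
    (V : Matrix (Fin N) (Fin N) ℂ) : (trace (Vᴴ * A * V)).re ≤ (Real.pi / 2 - ε) * fro V := by
  have h1 := trace_re_nonneg (h.hi.conjTranspose_mul_mul_same V)
  have h2 : Vᴴ * (((Real.pi / 2 - ε : ℝ) : ℂ) • (1 : Matrix (Fin N) (Fin N) ℂ) - A) * V =
      ((Real.pi / 2 - ε : ℝ) : ℂ) • (Vᴴ * V) - Vᴴ * A * V := by
    simp only [Complex.ofReal_sub, Complex.ofReal_div, Complex.ofReal_ofNat, mul_sub, Algebra.mul_smul_comm, mul_one, sub_mul, Algebra.smul_mul_assoc]
  rw [h2, trace_sub, trace_smul, ← fro_eq_trace] at h1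
  rw [smul_eq_mul, ← Complex.ofReal_mul, Complex.sub_re, Complex.ofReal_re] at h1
  linarith

lemma fro_conjTranspose (V : Matrix (Fin N) (Fin N) ℂ) : fro Vᴴ = fro V := by
  unfold fro
  rw [Finset.sum_comm]
  simp only [conjTranspose_apply, RCLike.star_def, RCLike.norm_conj]

lemma syl_coercive {ε : ℝ} {A : Matrix (Fin N) (Fin N) ℂ} (h : Spec ε A) {s : ℝ}
    (hs : 0 ≤ s ∨ s ≤ -Real.pi) (V : Matrix (Fin N) (Fin N) ℂ) :
    2 * ε * fro V ≤ |(trace (Vᴴ * syl A s V)).re| := by
  have e := congrArg Complex.re (syl_trace A s V)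
  have a1 := trace_conj_lo h V
  have a2 := trace_conj_hi h V
  have a3 := trace_conj_lo h Vᴴ
  have a4 := trace_conj_hi h Vᴴ
  rw [conjTranspose_conjTranspose, fro_conjTranspose] at a3 a4
  have f0 := fro_nonneg V
  rw [Complex.add_re, Complex.add_re, ← Complex.ofReal_mul, Complex.ofReal_re] at e
  rw [e]
  rcases hs with hs | hs
  · refine le_trans ?_ (le_abs_self _)
    nlinarith only [a1, a3, hs, f0]
  · refine le_trans ?_ (neg_le_abs _)
    nlinarith only [a2, a4, hs, f0]

lemma trace_mul_abs_le {ε : ℝ} (hε : 0 < ε) (V W : Matrix (Fin N) (Fin N) ℂ) :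
    |(trace (Vᴴ * W)).re| ≤ ε * fro V + fro W / (4 * ε) := by
  have h1 : |(trace (Vᴴ * W)).re| ≤ ∑ i, ∑ j, ‖V i j‖ * ‖W i j‖ := by
    refine le_trans (Complex.abs_re_le_norm _) ?_
    simp only [trace, diag, mul_apply, conjTranspose_apply]
    rw [Finset.sum_comm]
    refine le_trans (norm_sum_le _ _) (Finset.sum_le_sum fun i _ => ?_)
    refine le_trans (norm_sum_le _ _) (Finset.sum_le_sum fun j _ => ?_)
    simp
  refine h1.trans ?_
  unfold fro
  rw [Finset.mul_sum, Finset.sum_div, ← Finset.sum_add_distrib]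
  refine Finset.sum_le_sum fun i _ => ?_
  rw [Finset.mul_sum, Finset.sum_div, ← Finset.sum_add_distrib]
  refine Finset.sum_le_sum fun j _ => ?_
  have : ε * ‖V i j‖ ^ 2 + ‖W i j‖ ^ 2 / (4 * ε) - ‖V i j‖ * ‖W i j‖ =
      (2 * ε * ‖V i j‖ - ‖W i j‖) ^ 2 / (4 * ε) := by
    field_simp
    ring
  have h2 : 0 ≤ (2 * ε * ‖V i j‖ - ‖W i j‖) ^ 2 / (4 * ε) := by (clear * - hε; positivity)
  linarith

lemma syl_bound {ε : ℝ} (hε : 0 < ε) {A : Matrix (Fin N) (Fin N) ℂ} (h : Spec ε A) {s : ℝ}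
    (hs : 0 ≤ s ∨ s ≤ -Real.pi) (V : Matrix (Fin N) (Fin N) ℂ) :
    fro V ≤ fro (syl A s V) / (4 * ε ^ 2) := by
  have h1 := syl_coercive h hs V
  have h2 := trace_mul_abs_le hε V (syl A s V)
  have h3 : ε * fro V ≤ fro (syl A s V) / (4 * ε) := by linarith
  rw [le_div_iff₀ (by positivity)] at h3 ⊢
  nlinarith only [h3]

/-- Sylvester operator as a linear map -/
noncomputable def sylL (A : Matrix (Fin N) (Fin N) ℂ) (s : ℝ) :
    Matrix (Fin N) (Fin N) ℂ →ₗ[ℂ] Matrix (Fin N) (Fin N) ℂ where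
  toFun := syl A s
  map_add' X Y := by simp only [syl, mul_add, add_mul, smul_add]; abel
  map_smul' c X := by
    simp only [syl, RingHom.id_apply, smul_add, Matrix.mul_smul, Matrix.smul_mul]
    rw [smul_comm]

lemma syl_sub (A : Matrix (Fin N) (Fin N) ℂ) (s : ℝ) (X Y : Matrix (Fin N) (Fin N) ℂ) :
    syl A s (X - Y) = syl A s X - syl A s Y := (sylL A s).map_sub X Y

lemma syl_injective {ε : ℝ} (hε : 0 < ε) {A : Matrix (Fin N) (Fin N) ℂ} (h : Spec ε A) {s : ℝ}
    (hs : 0 ≤ s ∨ s ≤ -Real.pi) : Function.Injective (sylL A s) := by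
  rw [← LinearMap.ker_eq_bot, LinearMap.ker_eq_bot']
  intro V hV
  have h1 := syl_bound hε h hs V
  have h2 : syl A s V = 0 := hV
  rw [h2] at h1
  have h3 : fro (0 : Matrix (Fin N) (Fin N) ℂ) = 0 := by simp only [fro, Matrix.zero_apply, norm_zero, ne_eq, OfNat.ofNat_ne_zero, not_false_eq_true, zero_pow, Finset.sum_const_zero]
  rw [h3] at h1
  have h4 := fro_nonneg V
  exact fro_eq_zero (le_antisymm (by simpa only [zero_div] using h1) h4)

lemma syl_exists {ε : ℝ} (hε : 0 < ε) {A : Matrix (Fin N) (Fin N) ℂ} (h : Spec ε A) {s : ℝ}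
    (hs : 0 ≤ s ∨ s ≤ -Real.pi) (P : Matrix (Fin N) (Fin N) ℂ) : ∃ Z, syl A s Z = P := by
  have h1 := (LinearMap.injective_iff_surjective (f := sylL A s)).1 (syl_injective hε h hs)
  exact h1 P

open Classical in
/-- The solution of the Sylvester equation. -/
noncomputable def sol (A : Matrix (Fin N) (Fin N) ℂ) (s : ℝ) (P : Matrix (Fin N) (Fin N) ℂ) :
    Matrix (Fin N) (Fin N) ℂ :=
  if h : ∃ Z, syl A s Z = P then Classical.choose h else 0

lemma syl_sol {ε : ℝ} (hε : 0 < ε) {A : Matrix (Fin N) (Fin N) ℂ} (h : Spec ε A) {s : ℝ}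
    (hs : 0 ≤ s ∨ s ≤ -Real.pi) (P : Matrix (Fin N) (Fin N) ℂ) : syl A s (sol A s P) = P := by
  have h1 := syl_exists hε h hs P
  rw [sol, dif_pos h1]
  exact Classical.choose_spec h1

lemma sol_unique {ε : ℝ} (hε : 0 < ε) {A : Matrix (Fin N) (Fin N) ℂ} (h : Spec ε A) {s : ℝ}
    (hs : 0 ≤ s ∨ s ≤ -Real.pi) {P Z : Matrix (Fin N) (Fin N) ℂ} (hZ : syl A s Z = P) :
    Z = sol A s P :=
  syl_injective hε h hs (by
    change syl A s Z = syl A s (sol A s P)
    rw [syl_sol hε h hs, hZ])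

lemma syl_conjTranspose {A : Matrix (Fin N) (Fin N) ℂ} (hA : A.IsHermitian) (s : ℝ)
    (Z : Matrix (Fin N) (Fin N) ℂ) : (syl A s Z)ᴴ = syl A s Zᴴ := by
  simp only [syl, conjTranspose_add, conjTranspose_mul, conjTranspose_smul, hA.eq]
  simp [add_comm]

lemma sol_isHermitian {ε : ℝ} (hε : 0 < ε) {A : Matrix (Fin N) (Fin N) ℂ} (h : Spec ε A) {s : ℝ}
    (hs : 0 ≤ s ∨ s ≤ -Real.pi) {P : Matrix (Fin N) (Fin N) ℂ} (hP : P.IsHermitian) :
    (sol A s P).IsHermitian := by
  refine (sol_unique hε h hs ?_)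
  rw [← syl_conjTranspose h.isHermitian, syl_sol hε h hs, hP.eq]

lemma sol_bound {ε : ℝ} (hε : 0 < ε) {A : Matrix (Fin N) (Fin N) ℂ} (h : Spec ε A) {s : ℝ}
    (hs : 0 ≤ s ∨ s ≤ -Real.pi) (P : Matrix (Fin N) (Fin N) ℂ) :
    fro (sol A s P) ≤ fro P / (4 * ε ^ 2) := by
  have := syl_bound hε h hs (sol A s P)
  rwa [syl_sol hε h hs] at this

end Vale.Agent.P371
end
end

section

section

open Matrix Filter MeasureTheory Set
open scoped ComplexOrder Topology

namespace Vale.Agent.P371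

variable {N : ℕ}

lemma trace_mul_sub_trace_mul {A₁ A₂ Z₁ Z₂ P₁ P₂ : Matrix (Fin N) (Fin N) ℂ} {s : ℝ}
    (h₁ : syl A₁ s Z₁ = P₁) (h₂ : syl A₂ s Z₂ = P₂) :
    trace (P₁ * Z₁) - trace (P₂ * Z₂) = trace ((P₁ - P₂) * (Z₁ + Z₂)) -
      trace ((A₁ - A₂) * (Z₁ * Z₂ + Z₂ * Z₁)) := by
  have key : trace (P₁ * Z₂) - trace (P₂ * Z₁) = trace ((A₁ - A₂) * (Z₁ * Z₂ + Z₂ * Z₁)) := by
    rw [← h₁, ← h₂]
    simp only [syl, add_mul, mul_add, sub_mul, trace_add, trace_sub, Matrix.smul_mul, trace_smul,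
      Matrix.mul_assoc]
    have e1 : trace (Z₁ * (A₁ * Z₂)) = trace (A₁ * (Z₂ * Z₁)) := by
      rw [trace_mul_comm, Matrix.mul_assoc]
    have e2 : trace (Z₂ * (A₂ * Z₁)) = trace (A₂ * (Z₁ * Z₂)) := by
      rw [trace_mul_comm, Matrix.mul_assoc]
    have e3 : trace (Z₁ * Z₂) = trace (Z₂ * Z₁) := trace_mul_comm _ _
    rw [e1, e2, e3]
    ring
  rw [← key]
  simp only [sub_mul, mul_add, trace_add, trace_sub]
  ring

lemma continuous_fro : Continuous (fro : Matrix (Fin N) (Fin N) ℂ → ℝ) := by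
  unfold fro
  fun_prop

lemma fro_zero : fro (0 : Matrix (Fin N) (Fin N) ℂ) = 0 := by simp only [fro, Matrix.zero_apply, norm_zero, ne_eq, OfNat.ofNat_ne_zero, not_false_eq_true, zero_pow, Finset.sum_const_zero]

lemma tendsto_of_fro {α : Type*} {l : Filter α} {f : α → Matrix (Fin N) (Fin N) ℂ}
    {L : Matrix (Fin N) (Fin N) ℂ} (h : Tendsto (fun a => fro (f a - L)) l (𝓝 0)) :
    Tendsto f l (𝓝 L) := by
  refine tendsto_pi_nhds.2 fun i => tendsto_pi_nhds.2 fun j => ?_
  rw [tendsto_iff_norm_sub_tendsto_zero]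
  have h1 : Tendsto (fun a => ‖f a i j - L i j‖ ^ 2) l (𝓝 0) :=
    squeeze_zero (fun a => by positivity) (fun a => norm_entry_sq_le_fro (f a - L) i j) h
  have h2 := (Real.continuous_sqrt.tendsto 0).comp h1
  simpa only [Function.comp_def, Real.sqrt_sq (norm_nonneg _), Real.sqrt_zero] using h2

lemma continuousAt_sol {ε : ℝ} (hε : 0 < ε) {s : ℝ} (hs : 0 ≤ s ∨ s ≤ -Real.pi)
    {X : Type*} [TopologicalSpace X]
    {A P : X → Matrix (Fin N) (Fin N) ℂ} (hA : ∀ x, Spec ε (A x)) {x₀ : X}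
    (hAc : ContinuousAt A x₀) (hPc : ContinuousAt P x₀) :
    ContinuousAt (fun x => sol (A x) s (P x)) x₀ := by
  set Z₀ := sol (A x₀) s (P x₀) with hZ₀
  have hZ₀' : syl (A x₀) s Z₀ = P x₀ := syl_sol hε (hA x₀) hs _
  refine tendsto_of_fro ?_
  have hb : ∀ x, fro (sol (A x) s (P x) - Z₀) ≤
      fro ((P x - P x₀) - ((A x - A x₀) * Z₀ + Z₀ * (A x - A x₀))) / (4 * ε ^ 2) := by
    intro x
    have h1 := syl_bound hε (hA x) hs (sol (A x) s (P x) - Z₀)
    rw [syl_sub, syl_sol hε (hA x) hs] at h1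
    have h2 : P x - syl (A x) s Z₀ =
        (P x - P x₀) - ((A x - A x₀) * Z₀ + Z₀ * (A x - A x₀)) := by
      rw [← hZ₀']
      simp only [syl, sub_mul, mul_sub]
      abel
    rwa [h2] at h1
  refine squeeze_zero (fun _ => fro_nonneg _) hb ?_
  have hc : ContinuousAt (fun x => fro ((P x - P x₀) - ((A x - A x₀) * Z₀ + Z₀ * (A x - A x₀)))
      / (4 * ε ^ 2)) x₀ := by
    refine ContinuousAt.div_const (continuous_fro.continuousAt.comp ?_) _
    refine (hPc.sub continuousAt_const).sub (ContinuousAt.add ?_ ?_)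
    · exact ContinuousAt.comp (f := fun x => A x - A x₀)
        (g := fun M : Matrix (Fin N) (Fin N) ℂ => M * Z₀)
        (by fun_prop) (hAc.sub continuousAt_const)
    · exact ContinuousAt.comp (f := fun x => A x - A x₀)
        (g := fun M : Matrix (Fin N) (Fin N) ℂ => Z₀ * M)
        (by fun_prop) (hAc.sub continuousAt_const)
  have h3 := hc.tendsto
  simpa only [sub_self, zero_mul, mul_zero, add_zero, fro_zero, zero_div] using h3

/-- Product rule where the second factor is only continuous. -/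
lemma hasDerivAt_sub_mul_continuous {f g : ℝ → ℂ} {f' : ℂ} {x : ℝ} (hf : HasDerivAt f f' x)
    (hg : ContinuousAt g x) : HasDerivAt (fun y => (f y - f x) * g y) (f' * g x) x := by
  rw [hasDerivAt_iff_tendsto_slope] at hf ⊢
  have h1 := hf.mul (hg.tendsto.mono_left (nhdsWithin_le_nhds (s := {x}ᶜ)))
  refine h1.congr fun y => ?_
  simp only [slope, vsub_eq_sub, sub_self, zero_mul, sub_zero, smul_mul_assoc]

lemma continuous_trace_re : Continuous (fun M : Matrix (Fin N) (Fin N) ℂ => (trace M).re) := by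
  have : Continuous (fun M : Matrix (Fin N) (Fin N) ℂ => trace M) :=
    Continuous.matrix_trace continuous_id
  exact Complex.continuous_re.comp this

/-- derivative of `Re tr (P Z)` where `Z` solves the Sylvester equation. -/
lemma hasDerivAt_trace_sol {ε : ℝ} (hε : 0 < ε) {s : ℝ} (hs : 0 ≤ s ∨ s ≤ -Real.pi)
    {A P : ℝ → Matrix (Fin N) (Fin N) ℂ} (hA : ∀ x, Spec ε (A x)) {x₀ : ℝ}
    {A' P' : Matrix (Fin N) (Fin N) ℂ}
    (hAd : ∀ i j, HasDerivAt (fun x => A x i j) (A' i j) x₀)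
    (hPd : ∀ i j, HasDerivAt (fun x => P x i j) (P' i j) x₀) :
    HasDerivAt (fun x => (trace (P x * sol (A x) s (P x))).re)
      (2 * (trace (P' * sol (A x₀) s (P x₀))).re -
        2 * (trace (A' * (sol (A x₀) s (P x₀) * sol (A x₀) s (P x₀)))).re) x₀ := by
  have hAc : ContinuousAt A x₀ :=
    continuousAt_pi.2 fun i => continuousAt_pi.2 fun j => (hAd i j).continuousAt
  have hPc : ContinuousAt P x₀ :=
    continuousAt_pi.2 fun i => continuousAt_pi.2 fun j => (hPd i j).continuousAt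
  have hZc := continuousAt_sol hε hs hA hAc hPc
  set Z : ℝ → Matrix (Fin N) (Fin N) ℂ := fun x => sol (A x) s (P x) with hZ
  have hform : ∀ x, trace (P x * Z x) = trace (P x₀ * Z x₀) +
      (∑ i, ∑ j, (P x i j - P x₀ i j) * ((Z x + Z x₀) j i) -
       ∑ i, ∑ j, (A x i j - A x₀ i j) * ((Z x * Z x₀ + Z x₀ * Z x) j i)) := by
    intro x
    have h1 : trace (P x * Z x) - trace (P x₀ * Z x₀) = trace ((P x - P x₀) * (Z x + Z x₀)) -
        trace ((A x - A x₀) * (Z x * Z x₀ + Z x₀ * Z x)) :=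
      trace_mul_sub_trace_mul (syl_sol hε (hA x) hs (P x)) (syl_sol hε (hA x₀) hs (P x₀))
    have h2 : trace (P x * Z x) = trace (P x₀ * Z x₀) + (trace (P x * Z x) - trace (P x₀ * Z x₀)) := by
      ring
    rw [h2, h1]
    simp only [trace, mul_apply, diag, Matrix.sub_apply]
  have hPart1 : HasDerivAt (fun x => ∑ i, ∑ j, (P x i j - P x₀ i j) * ((Z x + Z x₀) j i))
      (∑ i, ∑ j, P' i j * ((Z x₀ + Z x₀) j i)) x₀ := by
    refine HasDerivAt.fun_sum fun i _ => HasDerivAt.fun_sum fun j _ => ?_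
    refine hasDerivAt_sub_mul_continuous (hPd i j) ?_
    have : ContinuousAt (fun x => Z x + Z x₀) x₀ := hZc.add continuousAt_const
    exact (continuousAt_pi.1 ((continuousAt_pi.1 this) j)) i
  have hPart2 : HasDerivAt (fun x => ∑ i, ∑ j, (A x i j - A x₀ i j) *
      ((Z x * Z x₀ + Z x₀ * Z x) j i))
      (∑ i, ∑ j, A' i j * ((Z x₀ * Z x₀ + Z x₀ * Z x₀) j i)) x₀ := by
    refine HasDerivAt.fun_sum fun i _ => HasDerivAt.fun_sum fun j _ => ?_
    refine hasDerivAt_sub_mul_continuous (hAd i j) ?_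
    have : ContinuousAt (fun x => Z x * Z x₀ + Z x₀ * Z x) x₀ := by
      refine ContinuousAt.add ?_ ?_
      · exact ContinuousAt.comp (f := Z) (g := fun M : Matrix (Fin N) (Fin N) ℂ => M * Z x₀)
          (by fun_prop) hZc
      · exact ContinuousAt.comp (f := Z) (g := fun M : Matrix (Fin N) (Fin N) ℂ => Z x₀ * M)
          (by fun_prop) hZc
    exact (continuousAt_pi.1 ((continuousAt_pi.1 this) j)) i
  have hall := ((hPart1.sub hPart2).const_add (trace (P x₀ * Z x₀)))
  have hall2 : HasDerivAt (fun x => trace (P x * Z x))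
      (∑ i, ∑ j, P' i j * ((Z x₀ + Z x₀) j i) -
        ∑ i, ∑ j, A' i j * ((Z x₀ * Z x₀ + Z x₀ * Z x₀) j i)) x₀ := by
    refine hall.congr_of_eventuallyEq (Eventually.of_forall fun x => ?_)
    simpa only [Matrix.add_apply, Pi.sub_apply] using hform x
  have hre : HasDerivAt (fun x => (trace (P x * Z x)).re)
      (∑ i, ∑ j, P' i j * ((Z x₀ + Z x₀) j i) -
        ∑ i, ∑ j, A' i j * ((Z x₀ * Z x₀ + Z x₀ * Z x₀) j i)).re x₀ := by
    have h5 := (Complex.reCLM.hasFDerivAt (x := trace (P x₀ * Z x₀))).comp_hasDerivAt x₀ hall2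
    exact h5
  have e1 : ∑ i, ∑ j, P' i j * ((Z x₀ + Z x₀) j i) = 2 * trace (P' * Z x₀) := by
    simp only [trace, mul_apply, diag, Matrix.add_apply, Finset.mul_sum]
    refine Finset.sum_congr rfl fun i _ => Finset.sum_congr rfl fun j _ => ?_
    ring
  have e2 : ∑ i, ∑ j, A' i j * ((Z x₀ * Z x₀ + Z x₀ * Z x₀) j i) =
      2 * trace (A' * (Z x₀ * Z x₀)) := by
    rw [trace, Finset.mul_sum]
    refine Finset.sum_congr rfl fun i _ => ?_
    rw [diag_apply, mul_apply, Finset.mul_sum]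
    refine Finset.sum_congr rfl fun j _ => ?_
    rw [Matrix.add_apply]
    ring
  rw [e1, e2] at hre
  convert hre using 1
  simp only [hZ, Complex.sub_re, Complex.mul_re, Complex.re_ofNat, Complex.im_ofNat, zero_mul, sub_zero]

/-- comparison lemma for absolute continuity -/
lemma ac_of_dist_le {F H : ℝ → ℝ} {a b K : ℝ} 
    (hH : AbsolutelyContinuousOnInterval H a b)
    (h : ∀ x ∈ uIcc a b, ∀ y ∈ uIcc a b, |F x - F y| ≤ K * |H x - H y|) :
    AbsolutelyContinuousOnInterval F a b := by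
  unfold AbsolutelyContinuousOnInterval at *
  have h0 : Tendsto (fun E : ℕ × (ℕ → ℝ × ℝ) => K * ∑ i ∈ Finset.range E.1,
      dist (H (E.2 i).1) (H (E.2 i).2))
      (AbsolutelyContinuousOnInterval.totalLengthFilter ⊓
        𝓟 (AbsolutelyContinuousOnInterval.disjWithin a b)) (𝓝 0) := by
    simpa only [mul_zero] using hH.const_mul K
  refine squeeze_zero' (Eventually.of_forall fun E => Finset.sum_nonneg fun _ _ => dist_nonneg) 
    ?_ h0
  have hmem : ∀ᶠ E in (AbsolutelyContinuousOnInterval.totalLengthFilter ⊓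
        𝓟 (AbsolutelyContinuousOnInterval.disjWithin a b)), 
        E ∈ AbsolutelyContinuousOnInterval.disjWithin a b := 
    (eventually_principal.2 fun x hx => hx).filter_mono inf_le_right
  filter_upwards [hmem] with E hE
  rw [Finset.mul_sum]
  refine Finset.sum_le_sum fun i hi => ?_
  have := hE.1 i hi
  rw [Real.dist_eq, Real.dist_eq]
  exact h _ this.1 _ this.2

end Vale.Agent.P371
end
end

section

section

open Matrix Filter MeasureTheory Set
open scoped ComplexOrder Topology InnerProductSpace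

namespace Vale.Agent.P371

variable {N : ℕ} {E : Type*} [NormedAddCommGroup E] [InnerProductSpace ℂ E]

/-- Gram matrix of a family of vectors. -/
noncomputable def gramM (v w : Fin N → E) : Matrix (Fin N) (Fin N) ℂ :=
  Matrix.of fun i j => inner ℂ (v i) (w j)

lemma gramM_isHermitian (v : Fin N → E) : (gramM v v).IsHermitian := by
  ext i j
  simp [gramM, conjTranspose_apply]

/-- the completed square -/
lemma quad_nonneg (ψ φ : Fin N → E) (Q : Matrix (Fin N) (Fin N) ℂ) (hQ : Q.IsHermitian) :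
    (trace (Q * (gramM φ ψ + gramM ψ φ))).re - (trace (Q * Q * gramM ψ ψ)).re ≤
      ∑ j, ‖φ j‖ ^ 2 := by
  have h0 : 0 ≤ ∑ j, ‖φ j - ∑ i, Q i j • ψ i‖ ^ 2 := Finset.sum_nonneg fun _ _ => by positivity
  have hexp : ∀ j, ‖φ j - ∑ i, Q i j • ψ i‖ ^ 2 = ‖φ j‖ ^ 2 -
      2 * (∑ i, Q i j * inner ℂ (φ j) (ψ i)).re +
      (∑ i, ∑ k, star (Q i j) * Q k j * inner ℂ (ψ i) (ψ k)).re := by
    intro j
    rw [@norm_sub_sq ℂ]
    congr 2
    · congr 1
      rw [inner_sum]
      simp only [inner_smul_right, map_sum, RCLike.mul_re, RCLike.re_to_complex, RCLike.im_to_complex, Finset.sum_sub_distrib, Complex.re_sum, Complex.mul_re]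
    · rw [← inner_self_eq_norm_sq (𝕜 := ℂ), sum_inner]
      simp only [inner_sum, inner_smul_left, inner_smul_right]
      simp only [RCLike.re_to_complex, starRingEnd_apply]
      congr 1
      refine Finset.sum_congr rfl fun i _ => Finset.sum_congr rfl fun k _ => by ring
  have hQs : ∀ i j, star (Q i j) = Q j i := fun i j => by
    have := congrFun (congrFun hQ j) i
    simpa [conjTranspose_apply] using this
  have h1 : (trace (Q * (gramM φ ψ + gramM ψ φ))).re =
      2 * (∑ j, ∑ i, Q i j * inner ℂ (φ j) (ψ i)).re := by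
    have e1 : trace (Q * (gramM φ ψ + gramM ψ φ)) =
        (∑ j, ∑ i, Q i j * inner ℂ (φ j) (ψ i)) + star (∑ j, ∑ i, Q i j * inner ℂ (φ j) (ψ i)) := by
      rw [mul_add, trace_add]
      congr 1
      · rw [trace]
        simp only [gramM, diag_apply, mul_apply, of_apply]
        rw [Finset.sum_comm]
      · rw [trace]
        simp only [diag_apply, mul_apply, gramM, of_apply, star_sum, star_mul', hQs]
        refine Finset.sum_congr rfl fun i _ => Finset.sum_congr rfl fun k _ => ?_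
        congr 1
        rw [← inner_conj_symm]
        rfl
    rw [e1, Complex.add_re]
    have : (star (∑ j, ∑ i, Q i j * inner ℂ (φ j) (ψ i))).re =
        (∑ j, ∑ i, Q i j * inner ℂ (φ j) (ψ i)).re := Complex.conj_re _
    rw [this]
    ring
  have h2 : (trace (Q * Q * gramM ψ ψ)).re =
      ∑ j, (∑ i, ∑ k, star (Q i j) * Q k j * inner ℂ (ψ i) (ψ k)).re := by
    rw [← Complex.re_sum]
    congr 1
    have e2 : trace (Q * Q * gramM ψ ψ) =
        ∑ k, ∑ i, ∑ j, Q k j * Q j i * inner ℂ (ψ i) (ψ k) := by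
      rw [trace]
      refine Finset.sum_congr rfl fun k _ => ?_
      rw [diag_apply, mul_apply]
      refine Finset.sum_congr rfl fun i _ => ?_
      rw [mul_apply, Finset.sum_mul]
      rfl
    rw [e2]
    have e3 : ∀ j, ∑ i, ∑ k, star (Q i j) * Q k j * inner ℂ (ψ i) (ψ k) =
        ∑ k, ∑ i, Q k j * Q j i * inner ℂ (ψ i) (ψ k) := fun j => by
      rw [Finset.sum_comm]
      exact Finset.sum_congr rfl fun i _ => Finset.sum_congr rfl fun k _ => by rw [hQs]; ring
    rw [Finset.sum_congr rfl fun j _ => e3 j]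
    rw [Finset.sum_comm (f := fun j k => ∑ i, Q k j * Q j i * inner ℂ (ψ i) (ψ k))]
    exact Finset.sum_congr rfl fun k _ => Finset.sum_comm
  rw [h1, h2]
  have h3 : ∑ j, ‖φ j - ∑ i, Q i j • ψ i‖ ^ 2 = ∑ j, ‖φ j‖ ^ 2 -
      2 * (∑ j, ∑ i, Q i j * inner ℂ (φ j) (ψ i)).re +
      ∑ j, (∑ i, ∑ k, star (Q i j) * Q k j * inner ℂ (ψ i) (ψ k)).re := by
    rw [Finset.sum_congr rfl fun j _ => hexp j]
    rw [Finset.sum_add_distrib, Finset.sum_sub_distrib, Complex.re_sum, Finset.mul_sum]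
  linarith only [h0, h3]

end Vale.Agent.P371
end
end

section

section

open Matrix Filter MeasureTheory Set
open scoped ComplexOrder Topology InnerProductSpace

namespace Vale.Agent.P371

variable {N m : ℕ}

lemma IsH1.locallyIntegrable_deriv {f f' : ℝ → EuclideanSpace ℂ (Fin m)} (h : IsH1 f f') :
    LocallyIntegrable f' volume := h.memLp_deriv.locallyIntegrable (by norm_num)

lemma IsH1.intervalIntegrable {f f' : ℝ → EuclideanSpace ℂ (Fin m)} (h : IsH1 f f') (a b : ℝ) :
    IntervalIntegrable f' volume a b :=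
  (h.locallyIntegrable_deriv.integrableOn_isCompact isCompact_uIcc).intervalIntegrable

lemma IsH1.continuous {f f' : ℝ → EuclideanSpace ℂ (Fin m)} (h : IsH1 f f') : Continuous f := by
  have h1 : f = fun x => f 0 + ∫ t in (0:ℝ)..x, f' t := by
    ext1 x
    rw [← h.ftc 0 x]
    abel
  rw [h1]
  exact continuous_const.add (intervalIntegral.continuous_primitive h.intervalIntegrable 0)

lemma IsH1.ae_hasDerivAt {f f' : ℝ → EuclideanSpace ℂ (Fin m)} (h : IsH1 f f') :
    ∀ᵐ x, HasDerivAt f (f' x) x := by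
  filter_upwards [_root_.LocallyIntegrable.ae_hasDerivAt_integral h.locallyIntegrable_deriv] with x hx
  have h1 : f = fun x => f 0 + ∫ t in (0:ℝ)..x, f' t := by
    ext1 x
    rw [← h.ftc 0 x]
    abel
  have := (hx 0).const_add (f 0)
  rw [← h1] at this
  exact this

lemma integrable_inner_of_memLp {f g : ℝ → EuclideanSpace ℂ (Fin m)} (hf : MemLp f 2 volume)
    (hg : MemLp g 2 volume) : Integrable (fun x => inner ℂ (f x) (g x)) volume := by
  have h1 : Integrable (fun x => ‖f x‖ * ‖g x‖) volume :=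
    hf.norm.integrable_mul hg.norm
  refine h1.mono (hf.aestronglyMeasurable.inner hg.aestronglyMeasurable) ?_
  filter_upwards with x
  simpa only [norm_mul, norm_norm] using norm_inner_le_norm (𝕜 := ℂ) (f x) (g x)

lemma hasDerivAt_gramC {f : Fin N → ℝ → EuclideanSpace ℂ (Fin m)} 
    {v : Fin N → EuclideanSpace ℂ (Fin m)} {x : ℝ}
    (h : ∀ j, HasDerivAt (f j) (v j) x) (i j : Fin N) :
    HasDerivAt (fun x => gramC f x i j)
      ((gramM v (fun i => f i x) + gramM (fun i => f i x) v) i j) x := by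
  have := (h i).inner ℂ (h j)
  simp only [gramC, gramM, Matrix.add_apply, Matrix.of_apply]
  rw [add_comm]
  exact this

lemma continuous_gramC {f : Fin N → ℝ → EuclideanSpace ℂ (Fin m)} (h : ∀ j, Continuous (f j)) :
    Continuous (gramC f) := by
  refine continuous_pi fun i => continuous_pi fun j => ?_
  exact (h i).inner (h j)

lemma IsH1.norm_sub_le {f f' : ℝ → EuclideanSpace ℂ (Fin m)} (h : IsH1 f f') (x y : ℝ) :
    ‖f x - f y‖ ≤ |∫ t in y..x, ‖f' t‖| := by
  rw [h.ftc y x]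
  exact intervalIntegral.norm_integral_le_abs_integral_norm

end Vale.Agent.P371
end
end

section

section

/-!
A positivity lemma obtained from the Phragmen-Lindelof principle in a strip.
-/

namespace Vale.Agent.P371

open Complex Filter Topology Set

section Strip

variable {ι : Type*} [Fintype ι]

/-- The exponential sum `∑ y_i exp(i ζ t_i)`. -/
noncomputable def expSum (y t : ι → ℝ) (z : ℂ) : ℂ :=
  ∑ i, (y i : ℂ) * Complex.exp (Complex.I * z * (t i : ℂ))

lemma expSum_im (y t : ι → ℝ) (z : ℂ) :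
    (expSum y t z).im = ∑ i, y i * Real.exp (-(z.im) * t i) * Real.sin (z.re * t i) := by
  unfold expSum
  rw [Complex.im_sum]
  refine Finset.sum_congr rfl fun i _ => ?_
  rw [Complex.im_ofReal_mul, Complex.exp_im]
  have h1 : (Complex.I * z * (t i : ℂ)).re = -(z.im) * t i := by
    simp [Complex.mul_re]
  have h2 : (Complex.I * z * (t i : ℂ)).im = z.re * t i := by
    simp [Complex.mul_im]
  rw [h1, h2]
  ring

lemma norm_expSum_le (y t : ι → ℝ) {T : ℝ} (ht : ∀ i, |t i| ≤ T) (z : ℂ) :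
    ‖expSum y t z‖ ≤ (∑ i, |y i|) * Real.exp (T * |z.im|) := by
  unfold expSum
  rw [Finset.sum_mul]
  refine (norm_sum_le _ _).trans (Finset.sum_le_sum fun i _ => ?_)
  rw [norm_mul, Complex.norm_real, Real.norm_eq_abs, Complex.norm_exp]
  refine mul_le_mul_of_nonneg_left ?_ (abs_nonneg _)
  apply Real.exp_le_exp.mpr
  have h1 : (Complex.I * z * (t i : ℂ)).re = -(z.im) * t i := by
    simp [Complex.mul_re]
  rw [h1]
  calc -(z.im) * t i ≤ |(-(z.im)) * t i| := le_abs_self _
    _ = |z.im| * |t i| := by rw [abs_mul, abs_neg]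
    _ ≤ |z.im| * T := mul_le_mul_of_nonneg_left (ht i) (abs_nonneg _)
    _ = T * |z.im| := mul_comm _ _

lemma differentiable_expSum (y t : ι → ℝ) : Differentiable ℂ (expSum y t) := by
  unfold expSum
  fun_prop

/-- If `∑ y_i exp(-l t_i) sin t_i ≥ 0` for all real `l` and `|t_i| ≤ T < π`, then
`∑ y_i sin (μ t_i) ≥ 0` for `0 ≤ μ ≤ 1`. -/
theorem strip_pos (y t : ι → ℝ) {T : ℝ} (ht : ∀ i, |t i| ≤ T) (hT : T < Real.pi)
    (h : ∀ l : ℝ, 0 ≤ ∑ i, y i * Real.exp (-l * t i) * Real.sin (t i))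
    {μ : ℝ} (hμ0 : 0 ≤ μ) (hμ1 : μ ≤ 1) : 0 ≤ ∑ i, y i * Real.sin (μ * t i) := by
  have hnorm : ∀ z : ℂ, ‖Complex.exp (Complex.I * expSum y t z)‖
      = Real.exp (-(expSum y t z).im) := by
    intro z
    rw [Complex.norm_exp]
    simp [Complex.mul_re]
  have hnorm' : ∀ z : ℂ, ‖Complex.exp (Complex.I * expSum y t z)‖
      ≤ Real.exp ((∑ i, |y i|) * Real.exp (T * |z.im|)) := by
    intro z
    rw [hnorm]
    apply Real.exp_le_exp.mpr
    calc -(expSum y t z).im ≤ |(expSum y t z).im| := neg_le_abs _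
      _ ≤ ‖expSum y t z‖ := Complex.abs_im_le_norm _
      _ ≤ _ := norm_expSum_le y t ht z
  have key : ‖Complex.exp (Complex.I * expSum y t (μ : ℂ))‖ ≤ 1 := by
    refine PhragmenLindelof.vertical_strip (a := 0) (b := 1)
      (f := fun z => Complex.exp (Complex.I * expSum y t z)) ?_ ?_ ?_ ?_ ?_ ?_
    · apply Differentiable.diffContOnCl
      exact ((differentiable_expSum y t).const_mul _).cexp
    · refine ⟨T, by simpa using hT, ∑ i, |y i|, ?_⟩
      apply Asymptotics.IsBigO.of_bound 1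
      refine Filter.Eventually.of_forall fun z => ?_
      rw [one_mul, Real.norm_eq_abs, abs_of_pos (Real.exp_pos _)]
      exact hnorm' z
    · intro z hz
      show ‖Complex.exp (Complex.I * expSum y t z)‖ ≤ 1
      rw [hnorm, expSum_im, hz]
      simp only [neg_mul, zero_mul, Real.sin_zero, mul_zero, Finset.sum_const_zero, neg_zero, Real.exp_zero, Std.le_refl]
    · intro z hz
      show ‖Complex.exp (Complex.I * expSum y t z)‖ ≤ 1
      rw [hnorm, expSum_im, hz, Real.exp_le_one_iff, neg_nonpos]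
      simpa only [neg_mul, one_mul] using h z.im
    · simpa only [ofReal_re] using hμ0
    · simpa using hμ1
  rw [hnorm, expSum_im, Real.exp_le_one_iff, neg_nonpos] at key
  simpa only [ge_iff_le, ofReal_im, neg_zero, zero_mul, Real.exp_zero, mul_one, ofReal_re] using key

end Strip

end Vale.Agent.P371
end
end

section

section

/-!
Positivity of `∑ Re(v̄_i P_ij v_j) sin(μ(a_i+a_j)+c)/sin(a_i+a_j)` for positive semidefinite `P`.
-/

namespace Vale.Agent.P371

open Complex Filter Topology Set Matrix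
open scoped ComplexOrder ComplexConjugate

variable {ι : Type*} [Fintype ι]

/-- The real part of `v̄_i P_ij v_j`. -/
noncomputable def qij (P : Matrix ι ι ℂ) (v : ι → ℂ) (i j : ι) : ℝ :=
  (conj (v i) * P i j * v j).re

lemma qf_symm {P : Matrix ι ι ℂ} (hP : P.IsHermitian) (v : ι → ℂ) (i j : ι) :
    qij P v i j = qij P v j i := by
  unfold qij
  have h : P j i = conj (P i j) := by
    rw [← hP.apply j i]; rfl
  rw [h]
  have : conj (v j) * conj (P i j) * v i = conj (conj (v i) * P i j * v j) := by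
    simp only [map_mul, Complex.conj_conj]; ring
  rw [this, Complex.conj_re]

lemma qf_sum_nonneg {P : Matrix ι ι ℂ} (hP : P.PosSemidef) (v : ι → ℂ) :
    0 ≤ ∑ i, ∑ j, qij P v i j := by
  have h := hP.dotProduct_mulVec_nonneg v
  have h2 : (0 : ℝ) ≤ (star v ⬝ᵥ P *ᵥ v).re := (Complex.nonneg_iff.mp h).1
  have h3 : star v ⬝ᵥ P *ᵥ v = ∑ i, ∑ j, conj (v i) * P i j * v j := by
    simp only [dotProduct, mulVec, Pi.star_apply, Finset.mul_sum]
    refine Finset.sum_congr rfl fun i _ => Finset.sum_congr rfl fun j _ => ?_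
    simp only [RCLike.star_def]
    ring
  rw [h3, Complex.re_sum] at h2
  refine h2.trans (le_of_eq (Finset.sum_congr rfl fun i _ => ?_))
  rw [Complex.re_sum]
  rfl

lemma qf_smul_real (P : Matrix ι ι ℂ) (v : ι → ℂ) (r : ι → ℝ) (i j : ι) :
    qij P (fun i => (r i : ℂ) * v i) i j = r i * r j * qij P v i j := by
  unfold qij
  have : conj ((r i : ℂ) * v i) * P i j * ((r j : ℂ) * v j)
      = ((r i * r j : ℝ) : ℂ) * (conj (v i) * P i j * v j) := by
    simp only [map_mul, Complex.conj_ofReal, Complex.ofReal_mul]; ring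
  rw [this, Complex.re_ofReal_mul]

section

variable {ε : ℝ} {a : ι → ℝ}

lemma sin_add_pos (hε : 0 < ε) (h0 : ∀ i, ε ≤ a i) (h1 : ∀ i, a i ≤ Real.pi / 2 - ε) (i j : ι) :
    0 < Real.sin (a i + a j) := by
  apply Real.sin_pos_of_pos_of_lt_pi
  · linarith [h0 i, h0 j]
  · linarith only [hε, h1 i, h1 j]

/-- The kernel `sin(μ(x+y))/sin(x+y)` is positive. -/
theorem formA (hε : 0 < ε) (h0 : ∀ i, ε ≤ a i) (h1 : ∀ i, a i ≤ Real.pi / 2 - ε)
    {P : Matrix ι ι ℂ} (hP : P.PosSemidef) (v : ι → ℂ) {μ : ℝ} (hμ0 : 0 ≤ μ) (hμ1 : μ ≤ 1) :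
    0 ≤ ∑ i, ∑ j, qij P v i j * (Real.sin (μ * (a i + a j)) / Real.sin (a i + a j)) := by
  have key := strip_pos (ι := ι × ι) (fun p => qij P v p.1 p.2 / Real.sin (a p.1 + a p.2))
    (fun p => a p.1 + a p.2) (T := Real.pi - 2 * ε) ?_ (by linarith) ?_ hμ0 hμ1
  · rw [Fintype.sum_prod_type] at key
    refine key.trans (le_of_eq (Finset.sum_congr rfl fun i _ => Finset.sum_congr rfl fun j _ => ?_))
    ring
  · intro p
    rw [abs_le]
    constructor <;> linarith only [h1 p.1, h1 p.2, hε, h0 p.1, h0 p.2]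
  · intro l
    rw [Fintype.sum_prod_type]
    have h2 := qf_sum_nonneg hP (fun i => ((Real.exp (-l * a i) : ℝ) : ℂ) * v i)
    refine h2.trans (le_of_eq (Finset.sum_congr rfl fun i _ => Finset.sum_congr rfl fun j _ => ?_))
    rw [qf_smul_real]
    have hs : Real.sin (a i + a j) ≠ 0 := (sin_add_pos hε h0 h1 i j).ne'
    have he : Real.exp (-l * (a i + a j)) = Real.exp (-l * a i) * Real.exp (-l * a j) := by
      rw [← Real.exp_add]; ring_nf
    simp only [he]
    field_simp

theorem formB (hε : 0 < ε) (h0 : ∀ i, ε ≤ a i) (h1 : ∀ i, a i ≤ Real.pi / 2 - ε)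
    {P : Matrix ι ι ℂ} (hP : P.PosSemidef) (v : ι → ℂ) {μ : ℝ} (hμ0 : 0 ≤ μ) (hμ1 : μ ≤ 1) :
    0 ≤ ∑ i, ∑ j, qij P v i j *
      (Real.sin (μ * (Real.pi - (a i + a j))) / Real.sin (a i + a j)) := by
  have key := formA (a := fun i => Real.pi / 2 - a i) hε (fun i => by linarith only [h1 i])
    (fun i => by linarith only [h0 i]) hP v hμ0 hμ1
  refine key.trans (le_of_eq (Finset.sum_congr rfl fun i _ => Finset.sum_congr rfl fun j _ => ?_))
  have e1 : Real.pi / 2 - a i + (Real.pi / 2 - a j) = Real.pi - (a i + a j) := by ring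
  rw [e1, Real.sin_pi_sub]

theorem formC (hε : 0 < ε) (h0 : ∀ i, ε ≤ a i) (h1 : ∀ i, a i ≤ Real.pi / 2 - ε)
    {P : Matrix ι ι ℂ} (hP : P.PosSemidef) (v : ι → ℂ) {μ c : ℝ} (hμ0 : 0 < μ) (hμ1 : μ < 1)
    (hc0 : 0 ≤ c) (hc1 : c ≤ (1 - μ) * Real.pi) :
    0 ≤ ∑ i, ∑ j, qij P v i j * (Real.sin (μ * (a i + a j) + c) / Real.sin (a i + a j)) := by
  have hpi := Real.pi_pos
  have hs : 0 < Real.sin (μ * Real.pi) := by
    apply Real.sin_pos_of_pos_of_lt_pi
    · positivity
    · nlinarith only [hμ1, hpi]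
  have hA := formA hε h0 h1 hP v hμ0.le hμ1.le
  have hB := formB hε h0 h1 hP v hμ0.le hμ1.le
  have hα : 0 ≤ Real.sin (μ * Real.pi + c) / Real.sin (μ * Real.pi) := by
    apply div_nonneg _ hs.le
    apply Real.sin_nonneg_of_nonneg_of_le_pi
    · positivity
    · linarith only [hc1]
  have hβ : 0 ≤ Real.sin c / Real.sin (μ * Real.pi) := by
    apply div_nonneg _ hs.le
    apply Real.sin_nonneg_of_nonneg_of_le_pi hc0
    nlinarith only [hc1, hμ0, hpi]
  have key : ∀ t : ℝ, Real.sin (μ * t + c)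
      = Real.sin (μ * Real.pi + c) / Real.sin (μ * Real.pi) * Real.sin (μ * t)
        + Real.sin c / Real.sin (μ * Real.pi) * Real.sin (μ * (Real.pi - t)) := by
    intro t
    have e : μ * (Real.pi - t) = μ * Real.pi - μ * t := by ring
    rw [e, Real.sin_sub, Real.sin_add (μ * t) c, Real.sin_add (μ * Real.pi) c]
    field_simp
    ring
  have := add_nonneg (mul_nonneg hα hA) (mul_nonneg hβ hB)
  refine this.trans (le_of_eq ?_)
  simp only [Finset.mul_sum]
  rw [← Finset.sum_add_distrib]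
  refine Finset.sum_congr rfl fun i _ => ?_
  rw [← Finset.sum_add_distrib]
  refine Finset.sum_congr rfl fun j _ => ?_
  rw [key (a i + a j)]
  ring

/-- The form of the lemma that is used : `∑ Re(v̄ᵢ Pᵢⱼ vⱼ) sin(2μ aᵢ + 2(1-μ) z)/sin(aᵢ+aⱼ) ≥ 0`. -/
theorem formD (hε : 0 < ε) (h0 : ∀ i, ε ≤ a i) (h1 : ∀ i, a i ≤ Real.pi / 2 - ε)
    {P : Matrix ι ι ℂ} (hP : P.PosSemidef) (v : ι → ℂ) {μ z : ℝ} (hμ0 : 0 < μ) (hμ1 : μ < 1)
    (hz0 : 0 ≤ z) (hz1 : z ≤ Real.pi / 2) :
    0 ≤ ∑ i, ∑ j, qij P v i j *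
      (Real.sin (2 * μ * a i + 2 * (1 - μ) * z) / Real.sin (a i + a j)) := by
  have hc0 : 0 ≤ 2 * (1 - μ) * z := by
    have : 0 ≤ 1 - μ := by linarith only [hμ1]
    (clear * - hμ1 hz0; positivity)
  have hc1 : 2 * (1 - μ) * z ≤ (1 - μ) * Real.pi := by nlinarith only [hμ1, hz1]
  have H1 := formC hε h0 h1 hP (fun i => ((Real.cos (μ * a i) : ℝ) : ℂ) * v i) hμ0 hμ1 hc0 hc1
  have H2 := formC hε h0 h1 hP (fun i => ((Real.sin (μ * a i) : ℝ) : ℂ) * v i) hμ0 hμ1 hc0 hc1
  have hsymm : ∑ i, ∑ j, qij P v i j *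
      (Real.sin (2 * μ * a i + 2 * (1 - μ) * z) / Real.sin (a i + a j))
      = ∑ i, ∑ j, qij P v i j *
      (Real.sin (2 * μ * a j + 2 * (1 - μ) * z) / Real.sin (a i + a j)) := by
    rw [Finset.sum_comm]
    refine Finset.sum_congr rfl fun i _ => Finset.sum_congr rfl fun j _ => ?_
    rw [qf_symm hP.isHermitian v j i, add_comm (a j) (a i)]
  have hsum : ∑ i, ∑ j, qij P v i j *
      (Real.sin (2 * μ * a i + 2 * (1 - μ) * z) / Real.sin (a i + a j))
      + ∑ i, ∑ j, qij P v i j *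
      (Real.sin (2 * μ * a j + 2 * (1 - μ) * z) / Real.sin (a i + a j))
      = 2 * (∑ i, ∑ j, qij P (fun i => ((Real.cos (μ * a i) : ℝ) : ℂ) * v i) i j *
          (Real.sin (μ * (a i + a j) + 2 * (1 - μ) * z) / Real.sin (a i + a j))
        + ∑ i, ∑ j, qij P (fun i => ((Real.sin (μ * a i) : ℝ) : ℂ) * v i) i j *
          (Real.sin (μ * (a i + a j) + 2 * (1 - μ) * z) / Real.sin (a i + a j))) := by
    rw [← Finset.sum_add_distrib, ← Finset.sum_add_distrib, Finset.mul_sum]
    refine Finset.sum_congr rfl fun i _ => ?_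
    rw [← Finset.sum_add_distrib, ← Finset.sum_add_distrib, Finset.mul_sum]
    refine Finset.sum_congr rfl fun j _ => ?_
    rw [qf_smul_real, qf_smul_real]
    have hs : Real.sin (a i + a j) ≠ 0 := (sin_add_pos hε h0 h1 i j).ne'
    have e1 : 2 * μ * a i + 2 * (1 - μ) * z
        = (μ * (a i + a j) + 2 * (1 - μ) * z) + μ * (a i - a j) := by ring
    have e2 : 2 * μ * a j + 2 * (1 - μ) * z
        = (μ * (a i + a j) + 2 * (1 - μ) * z) - μ * (a i - a j) := by ring
    have e3 : μ * (a i - a j) = μ * a i - μ * a j := by ring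
    rw [e1, e2, Real.sin_add (μ * (a i + a j) + 2 * (1 - μ) * z),
      Real.sin_sub (μ * (a i + a j) + 2 * (1 - μ) * z), e3, Real.cos_sub]
    ring
  have : 0 ≤ 2 * ∑ i, ∑ j, qij P v i j *
      (Real.sin (2 * μ * a i + 2 * (1 - μ) * z) / Real.sin (a i + a j)) := by
    calc (0 : ℝ) ≤ 2 * (∑ i, ∑ j, qij P (fun i => ((Real.cos (μ * a i) : ℝ) : ℂ) * v i) i j *
          (Real.sin (μ * (a i + a j) + 2 * (1 - μ) * z) / Real.sin (a i + a j))
        + ∑ i, ∑ j, qij P (fun i => ((Real.sin (μ * a i) : ℝ) : ℂ) * v i) i j *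
          (Real.sin (μ * (a i + a j) + 2 * (1 - μ) * z) / Real.sin (a i + a j))) := by
            have := add_nonneg H1 H2
            linarith only [H1, H2]
      _ = _ := by rw [← hsum, ← hsymm]; ring
  linarith only [H1, H2, hsymm, hsum]

end

end Vale.Agent.P371
end
end

section

section

/-!
The trilinear inequality `∑ (∫₀¹ sin(2τaᵢ+2(1-τ)aⱼ) dτ - (sin 2aᵢ + sin 2aⱼ)/2) Re(XᵢⱼXⱼₖXₖᵢ) ≥ 0`
for `Xᵢⱼ = Pᵢⱼ / sin(aᵢ+aⱼ)` and `P` positive semidefinite.
-/

namespace Vale.Agent.P371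

open Complex Filter Topology Set Matrix MeasureTheory
open scoped ComplexOrder ComplexConjugate

variable {ι : Type*} [Fintype ι]

/-- `Xᵢⱼ = Pᵢⱼ / sin(aᵢ+aⱼ)`. -/
noncomputable def Xc (a : ι → ℝ) (P : Matrix ι ι ℂ) (i j : ι) : ℂ :=
  P i j / ((Real.sin (a i + a j) : ℝ) : ℂ)

/-- `Re (XᵢⱼXⱼₖXₖᵢ)`. -/
noncomputable def Tc (a : ι → ℝ) (P : Matrix ι ι ℂ) (i j k : ι) : ℝ :=
  (Xc a P i j * Xc a P j k * Xc a P k i).re

lemma Xc_conj {a : ι → ℝ} {P : Matrix ι ι ℂ} (hP : P.IsHermitian) (i j : ι) :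
    conj (Xc a P i j) = Xc a P j i := by
  unfold Xc
  have h : conj (P i j) = P j i := by
    rw [← hP.apply j i]; rfl
  rw [map_div₀, h, Complex.conj_ofReal, add_comm (a i)]

lemma Tc_cyc (a : ι → ℝ) (P : Matrix ι ι ℂ) (i j k : ι) : Tc a P i j k = Tc a P j k i := by
  unfold Tc
  congr 1
  ring

lemma Tc_rev {a : ι → ℝ} {P : Matrix ι ι ℂ} (hP : P.IsHermitian) (i j k : ι) :
    Tc a P i j k = Tc a P i k j := by
  unfold Tc
  rw [← Complex.conj_re]
  simp only [map_mul, Xc_conj hP]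
  congr 1
  ring

lemma Tc_eq_qf {a : ι → ℝ} {P : Matrix ι ι ℂ} (hP : P.IsHermitian) (i j k : ι) (r : ι → ℝ) :
    qij P (fun j => ((r j : ℝ) : ℂ) * Xc a P j k) i j / Real.sin (a i + a j)
      = r i * r j * Tc a P i j k := by
  rw [qf_smul_real]
  unfold qij Tc
  have h1 : Xc a P i j * Xc a P j k * Xc a P k i
      = ((1 / Real.sin (a i + a j) : ℝ) : ℂ) * (conj (Xc a P i k) * P i j * Xc a P j k) := by
    rw [Xc_conj hP]
    have : Xc a P i j = ((1 / Real.sin (a i + a j) : ℝ) : ℂ) * P i j := by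
      unfold Xc
      push_cast
      ring
    rw [this]
    ring
  rw [h1, Complex.re_ofReal_mul]
  ring

lemma lin_hasDerivAt (x y τ : ℝ) :
    HasDerivAt (fun τ : ℝ => 2 * τ * x + 2 * (1 - τ) * y) (2 * (x - y)) τ := by
  have h := ((hasDerivAt_id' τ).const_mul (2 * (x - y))).add_const (2 * y)
  exact (h.congr_of_eventuallyEq (Eventually.of_forall fun s => by ring)).congr_deriv (by ring)

/-- The function `φ(τ)`. -/
noncomputable def phiT (a : ι → ℝ) (P : Matrix ι ι ℂ) (τ : ℝ) : ℝ :=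
  ∑ i, ∑ j, ∑ k, Real.sin (2 * τ * a i + 2 * (1 - τ) * a j) * Tc a P i j k

lemma phiT_hasDerivAt (a : ι → ℝ) (P : Matrix ι ι ℂ) (τ : ℝ) :
    HasDerivAt (phiT a P)
      (∑ i, ∑ j, ∑ k, Real.cos (2 * τ * a i + 2 * (1 - τ) * a j) * (2 * (a i - a j))
        * Tc a P i j k) τ := by
  unfold phiT
  refine HasDerivAt.fun_sum fun i _ => HasDerivAt.fun_sum fun j _ => HasDerivAt.fun_sum fun k _ => ?_
  have h1 := lin_hasDerivAt (a i) (a j) τ
  exact (h1.sin).mul_const _

lemma phiT_hasDerivAt' (a : ι → ℝ) (P : Matrix ι ι ℂ) (τ : ℝ) :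
    HasDerivAt (fun τ => ∑ i, ∑ j, ∑ k, Real.cos (2 * τ * a i + 2 * (1 - τ) * a j)
        * (2 * (a i - a j)) * Tc a P i j k)
      (∑ i, ∑ j, ∑ k, -(4 * ((a i - a j) ^ 2 * Real.sin (2 * τ * a i + 2 * (1 - τ) * a j)
        * Tc a P i j k))) τ := by
  refine HasDerivAt.fun_sum fun i _ => HasDerivAt.fun_sum fun j _ => HasDerivAt.fun_sum fun k _ => ?_
  have h1 := lin_hasDerivAt (a i) (a j) τ
  exact (((h1.cos).mul_const (2 * (a i - a j))).mul_const (Tc a P i j k)).congr_deriv (by ring)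

section

variable {ε : ℝ} {a : ι → ℝ} {P : Matrix ι ι ℂ}

/-- One of the two apex terms. -/
lemma apex_nonneg (hε : 0 < ε) (h0 : ∀ i, ε ≤ a i) (h1 : ∀ i, a i ≤ Real.pi / 2 - ε)
    (hP : P.PosSemidef) {μ : ℝ} (hμ0 : 0 < μ) (hμ1 : μ < 1) (k : ι) :
    0 ≤ ∑ i, ∑ j, Real.sin (2 * μ * a i + 2 * (1 - μ) * a k)
      * ((a i - a k) * (a j - a k) * Tc a P i j k) := by
  have h := formD hε h0 h1 hP (fun j => ((a j - a k : ℝ) : ℂ) * Xc a P j k) hμ0 hμ1
    (z := a k) (by linarith only [hε, h0 k]) (by linarith only [hε, h1 k])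
  refine h.trans (le_of_eq (Finset.sum_congr rfl fun i _ => Finset.sum_congr rfl fun j _ => ?_))
  rw [← Tc_eq_qf hP.isHermitian i j k (fun j => a j - a k)]
  ring

lemma deriv2_nonpos (hε : 0 < ε) (h0 : ∀ i, ε ≤ a i) (h1 : ∀ i, a i ≤ Real.pi / 2 - ε)
    (hP : P.PosSemidef) {τ : ℝ} (hτ0 : 0 < τ) (hτ1 : τ < 1) :
    ∑ i, ∑ j, ∑ k, -(4 * ((a i - a j) ^ 2 * Real.sin (2 * τ * a i + 2 * (1 - τ) * a j)
        * Tc a P i j k)) ≤ 0 := by
  set w : ι → ι → ℝ := fun i j => Real.sin (2 * τ * a i + 2 * (1 - τ) * a j) with hw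
  -- first apex
  have A1 : 0 ≤ ∑ k, ∑ i, ∑ j, w k i * ((a i - a k) * (a j - a k) * Tc a P i j k) := by
    refine Finset.sum_nonneg fun k _ => ?_
    have h := apex_nonneg hε h0 h1 hP (μ := 1 - τ) (by linarith) (by linarith) k
    refine h.trans (le_of_eq (Finset.sum_congr rfl fun i _ => Finset.sum_congr rfl fun j _ => ?_))
    congr 1
    simp only [hw]
    congr 1
    ring
  have A2 : 0 ≤ ∑ k, ∑ i, ∑ j, w i k * ((a i - a k) * (a j - a k) * Tc a P i j k) :=
    Finset.sum_nonneg fun k _ => apex_nonneg hε h0 h1 hP hτ0 hτ1 k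
  have B1 : ∑ k, ∑ i, ∑ j, w k i * ((a i - a k) * (a j - a k) * Tc a P i j k)
      = ∑ i, ∑ j, ∑ k, w i j * ((a i - a j) * (a i - a k) * Tc a P i j k) := by
    refine Finset.sum_congr rfl fun i _ => Finset.sum_congr rfl fun j _ =>
      Finset.sum_congr rfl fun k _ => ?_
    rw [Tc_cyc a P i j k]
    ring
  have B2 : ∑ k, ∑ i, ∑ j, w i k * ((a i - a k) * (a j - a k) * Tc a P i j k)
      = ∑ i, ∑ j, ∑ k, w i j * ((a j - a i) * (a j - a k) * Tc a P i j k) := by
    rw [Finset.sum_comm]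
    refine Finset.sum_congr rfl fun i _ => Finset.sum_congr rfl fun j _ =>
      Finset.sum_congr rfl fun k _ => ?_
    rw [Tc_rev hP.isHermitian i j k]
    ring
  have hsum : ∑ i, ∑ j, ∑ k, -(4 * ((a i - a j) ^ 2 * w i j * Tc a P i j k))
      = -4 * (∑ i, ∑ j, ∑ k, w i j * ((a i - a j) * (a i - a k) * Tc a P i j k)
        + ∑ i, ∑ j, ∑ k, w i j * ((a j - a i) * (a j - a k) * Tc a P i j k)) := by
    simp only [← Finset.sum_add_distrib, Finset.mul_sum]
    refine Finset.sum_congr rfl fun i _ => Finset.sum_congr rfl fun j _ =>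
      Finset.sum_congr rfl fun k _ => ?_
    ring
  rw [hsum, ← B1, ← B2]
  linarith

lemma phiT_concave (hε : 0 < ε) (h0 : ∀ i, ε ≤ a i) (h1 : ∀ i, a i ≤ Real.pi / 2 - ε)
    (hP : P.PosSemidef) : ConcaveOn ℝ (Icc (0 : ℝ) 1) (phiT a P) := by
  refine concaveOn_of_hasDerivWithinAt2_nonpos (convex_Icc 0 1)
    (fun x _ => (phiT_hasDerivAt a P x).continuousAt.continuousWithinAt)
    (fun x _ => (phiT_hasDerivAt a P x).hasDerivWithinAt)
    (fun x _ => (phiT_hasDerivAt' a P x).hasDerivWithinAt) ?_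
  intro x hx
  rw [interior_Icc] at hx
  exact deriv2_nonpos hε h0 h1 hP hx.1 hx.2

/-- The averaged kernel : `∫₀¹ sin(2τx+2(1-τ)y) dτ = sin(x+y) sinc(x-y)`. -/
lemma integral_sin_segment (x y : ℝ) :
    ∫ τ in (0 : ℝ)..1, Real.sin (2 * τ * x + 2 * (1 - τ) * y) = Real.sin (x + y) * Real.sinc (x - y) := by
  by_cases h : x = y
  · subst h
    have : ∀ τ : ℝ, Real.sin (2 * τ * x + 2 * (1 - τ) * x) = Real.sin (x + x) := by
      intro τ; congr 1; ring
    simp [this]
  · have hne : x - y ≠ 0 := sub_ne_zero.mpr h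
    rw [Real.sinc_of_ne_zero hne]
    have hder : ∀ τ ∈ Set.uIcc (0 : ℝ) 1, HasDerivAt
        (fun τ : ℝ => -Real.cos (2 * τ * x + 2 * (1 - τ) * y) / (2 * (x - y)))
        (Real.sin (2 * τ * x + 2 * (1 - τ) * y)) τ := by
      intro τ _
      exact (((lin_hasDerivAt x y τ).cos.neg).div_const (2 * (x - y))).congr_deriv
        (by field_simp)
    rw [intervalIntegral.integral_eq_sub_of_hasDerivAt hder]
    · have e1 : 2 * (1 : ℝ) * x + 2 * (1 - 1) * y = (x + y) + (x - y) := by ring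
      have e2 : 2 * (0 : ℝ) * x + 2 * (1 - 0) * y = (x + y) - (x - y) := by ring
      rw [e1, e2, Real.cos_add (x + y) (x - y), Real.cos_sub (x + y) (x - y)]
      field_simp
      ring
    · apply Continuous.intervalIntegrable
      fun_prop

/-- The trilinear inequality. -/
theorem trilinear_nonneg (hε : 0 < ε) (h0 : ∀ i, ε ≤ a i) (h1 : ∀ i, a i ≤ Real.pi / 2 - ε)
    (hP : P.PosSemidef) :
    0 ≤ ∑ i, ∑ j, ∑ k, (Real.sin (a i + a j) * Real.sinc (a i - a j)
      - Real.sin (a i + a j) * Real.cos (a i - a j)) * Tc a P i j k := by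
  have hc := phiT_concave hε h0 h1 hP
  have hcont : Continuous (phiT a P) :=
    continuous_iff_continuousAt.mpr fun x => (phiT_hasDerivAt a P x).continuousAt
  have hle : ∫ τ in (0 : ℝ)..1, ((1 - τ) * phiT a P 0 + τ * phiT a P 1)
      ≤ ∫ τ in (0 : ℝ)..1, phiT a P τ := by
    apply intervalIntegral.integral_mono_on zero_le_one
    · apply Continuous.intervalIntegrable; fun_prop
    · exact hcont.intervalIntegrable _ _
    · intro τ hτ
      have := hc.2 (left_mem_Icc.mpr zero_le_one) (right_mem_Icc.mpr zero_le_one)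
        (sub_nonneg.mpr hτ.2) hτ.1 (by ring)
      simpa only [ge_iff_le, smul_eq_mul, mul_zero, mul_one, zero_add] using this
  have hleft : ∫ τ in (0 : ℝ)..1, ((1 - τ) * phiT a P 0 + τ * phiT a P 1)
      = (phiT a P 0 + phiT a P 1) / 2 := by
    have hder : ∀ τ ∈ Set.uIcc (0 : ℝ) 1, HasDerivAt
        (fun τ : ℝ => (τ - τ ^ 2 / 2) * phiT a P 0 + τ ^ 2 / 2 * phiT a P 1)
        ((1 - τ) * phiT a P 0 + τ * phiT a P 1) τ := by
      intro τ _
      have h2 : HasDerivAt (fun τ : ℝ => τ ^ 2 / 2) τ τ :=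
        ((hasDerivAt_pow 2 τ).div_const 2).congr_deriv (by simp only [Nat.cast_ofNat, Nat.add_one_sub_one, pow_one, ne_eq, OfNat.ofNat_ne_zero, not_false_eq_true, mul_div_cancel_left₀])
      have h3 : HasDerivAt (fun τ : ℝ => τ - τ ^ 2 / 2) (1 - τ) τ := (hasDerivAt_id' τ).sub h2
      exact (h3.mul_const _).add (h2.mul_const _)
    rw [intervalIntegral.integral_eq_sub_of_hasDerivAt hder]
    · ring
    · apply Continuous.intervalIntegrable; fun_prop
  have hright : ∫ τ in (0 : ℝ)..1, phiT a P τ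
      = ∑ i, ∑ j, ∑ k, Real.sin (a i + a j) * Real.sinc (a i - a j) * Tc a P i j k := by
    unfold phiT
    rw [intervalIntegral.integral_finsetSum]
    · refine Finset.sum_congr rfl fun i _ => ?_
      rw [intervalIntegral.integral_finsetSum]
      · refine Finset.sum_congr rfl fun j _ => ?_
        rw [intervalIntegral.integral_finsetSum]
        · refine Finset.sum_congr rfl fun k _ => ?_
          rw [intervalIntegral.integral_mul_const, integral_sin_segment]
        · intro k _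
          apply Continuous.intervalIntegrable; fun_prop
      · intro k _
        apply Continuous.intervalIntegrable; fun_prop
    · intro k _
      apply Continuous.intervalIntegrable; fun_prop
  have hends : (phiT a P 0 + phiT a P 1) / 2
      = ∑ i, ∑ j, ∑ k, Real.sin (a i + a j) * Real.cos (a i - a j) * Tc a P i j k := by
    unfold phiT
    rw [← Finset.sum_add_distrib, Finset.sum_div]
    refine Finset.sum_congr rfl fun i _ => ?_
    rw [← Finset.sum_add_distrib, Finset.sum_div]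
    refine Finset.sum_congr rfl fun j _ => ?_
    rw [← Finset.sum_add_distrib, Finset.sum_div]
    refine Finset.sum_congr rfl fun k _ => ?_
    have e1 : 2 * (1 : ℝ) * a i + 2 * (1 - 1) * a j = (a i + a j) + (a i - a j) := by ring
    have e2 : 2 * (0 : ℝ) * a i + 2 * (1 - 0) * a j = (a i + a j) - (a i - a j) := by ring
    rw [e1, e2, Real.sin_add (a i + a j) (a i - a j), Real.sin_sub (a i + a j) (a i - a j)]
    ring
  rw [hleft, hends, hright] at hle
  have : ∑ i, ∑ j, ∑ k, (Real.sin (a i + a j) * Real.sinc (a i - a j)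
      - Real.sin (a i + a j) * Real.cos (a i - a j)) * Tc a P i j k
      = ∑ i, ∑ j, ∑ k, Real.sin (a i + a j) * Real.sinc (a i - a j) * Tc a P i j k
        - ∑ i, ∑ j, ∑ k, Real.sin (a i + a j) * Real.cos (a i - a j) * Tc a P i j k := by
    simp only [← Finset.sum_sub_distrib, sub_mul]
  rw [this]
  linarith only [hle]

end

end Vale.Agent.P371
end
end

section

section

/-!
Uniform estimates for symmetric partial sums of the cotangent series.
-/

namespace Vale.Agent.P371

open Complex Filter Topology Set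

/-- Symmetric partial sums of `∑ 1/(t+nπ)`. -/
noncomputable def SM (M : ℕ) (t : ℝ) : ℝ := ∑ n ∈ Finset.Icc (-(M : ℤ)) M, 1 / (t + n * Real.pi)

/-- Symmetric partial sums of `∑ 1/((t+nπ)(s+nπ))`. -/
noncomputable def TM (M : ℕ) (t s : ℝ) : ℝ :=
  ∑ n ∈ Finset.Icc (-(M : ℤ)) M, 1 / ((t + n * Real.pi) * (s + n * Real.pi))

lemma sum_Icc_succ {E : Type*} [AddCommMonoid E] (f : ℤ → E) (M : ℕ) :
    ∑ n ∈ Finset.Icc (-((M + 1 : ℕ) : ℤ)) ((M + 1 : ℕ) : ℤ), f n
      = (f (-((M : ℤ) + 1)) + f ((M : ℤ) + 1)) + ∑ n ∈ Finset.Icc (-(M : ℤ)) M, f n := by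
  have h : Finset.Icc (-((M + 1 : ℕ) : ℤ)) ((M + 1 : ℕ) : ℤ)
      = insert (-((M : ℤ) + 1)) (insert ((M : ℤ) + 1) (Finset.Icc (-(M : ℤ)) M)) := by
    ext x
    simp only [Finset.mem_Icc, Finset.mem_insert]
    push_cast
    omega
  rw [h, Finset.sum_insert, Finset.sum_insert, add_assoc]
  · simp only [Finset.mem_Icc, add_le_iff_nonpos_right, Int.reduceLE, and_false, not_false_eq_true]
  · simp only [Finset.mem_insert, Finset.mem_Icc]
    omega

lemma SM_succ (M : ℕ) (t : ℝ) :
    SM (M + 1) t = (1 / (t - (M + 1) * Real.pi) + 1 / (t + (M + 1) * Real.pi)) + SM M t := by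
  unfold SM
  rw [sum_Icc_succ]
  congr 2
  · push_cast; congr 1; ring
  · push_cast; rfl

lemma TM_succ (M : ℕ) (t s : ℝ) :
    TM (M + 1) t s = (1 / ((t - (M + 1) * Real.pi) * (s - (M + 1) * Real.pi))
      + 1 / ((t + (M + 1) * Real.pi) * (s + (M + 1) * Real.pi))) + TM M t s := by
  unfold TM
  rw [sum_Icc_succ]
  congr 2
  · push_cast; congr 1; ring
  · push_cast; rfl

lemma ne_zero_of_mem {t : ℝ} (h0 : 0 < t) (h1 : t < Real.pi) (n : ℤ) : t + n * Real.pi ≠ 0 := by
  have hpi := Real.pi_pos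
  intro h
  rcases le_or_gt 0 n with hn | hn
  · have : (0 : ℝ) ≤ (n : ℝ) * Real.pi := by (clear * - hn; positivity)
    linarith
  · have h2 : (n : ℝ) ≤ -1 := by exact_mod_cast (by omega : n ≤ -1)
    nlinarith only [h1, h, h0, h2]

lemma SM_eq_range (M : ℕ) (t : ℝ) :
    SM M t = 1 / t + ∑ n ∈ Finset.range M,
      (1 / (t - ((n : ℝ) + 1) * Real.pi) + 1 / (t + ((n : ℝ) + 1) * Real.pi)) := by
  induction M with
  | zero => simp only [SM, CharP.cast_eq_zero, neg_zero, Finset.Icc_self, one_div, Finset.sum_singleton, Int.cast_zero, zero_mul, add_zero, Finset.range_zero, Finset.sum_empty]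
  | succ M ih =>
    rw [SM_succ, ih, Finset.sum_range_succ]
    ring

lemma tendsto_SM {t : ℝ} (h0 : 0 < t) (h1 : t < Real.pi) :
    Tendsto (fun M => SM M t) atTop (𝓝 (Real.cos t / Real.sin t)) := by
  have hpi := Real.pi_pos
  have hpi' : (Real.pi : ℂ) ≠ 0 := by exact_mod_cast hpi.ne'
  have hx : ((t / Real.pi : ℝ) : ℂ) ∈ Complex.integerComplement := by
    rw [Complex.mem_integerComplement_iff]
    rintro ⟨n, hn⟩
    have hn' : (n : ℝ) = t / Real.pi := by exact_mod_cast hn
    have : t + ((-n : ℤ) : ℝ) * Real.pi = 0 := by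
      push_cast
      rw [hn']
      field_simp
      ring
    exact ne_zero_of_mem h0 h1 (-n) this
  have key := tendsto_logDeriv_euler_cot_sub hx
  have hre : Tendsto (fun n : ℕ => (∑ j ∈ Finset.range n, cotTerm ((t / Real.pi : ℝ) : ℂ) j).re)
      atTop (𝓝 ((Real.pi * Complex.cot (Real.pi * ((t / Real.pi : ℝ) : ℂ))
        - 1 / ((t / Real.pi : ℝ) : ℂ)).re)) :=
    (Complex.continuous_re.tendsto _).comp key
  have e1 : ∀ n : ℕ, (∑ j ∈ Finset.range n, cotTerm ((t / Real.pi : ℝ) : ℂ) j).re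
      = Real.pi * (SM n t - 1 / t) := by
    intro n
    rw [SM_eq_range, add_sub_cancel_left, Finset.mul_sum, Complex.re_sum]
    refine Finset.sum_congr rfl fun j _ => ?_
    have hj : cotTerm ((t / Real.pi : ℝ) : ℂ) j
        = ((1 / (t / Real.pi - ((j : ℝ) + 1)) + 1 / (t / Real.pi + ((j : ℝ) + 1)) : ℝ) : ℂ) := by
      unfold cotTerm
      push_cast
      ring
    rw [hj, Complex.ofReal_re]
    have e2 : t / Real.pi - ((j : ℝ) + 1) = (t - ((j : ℝ) + 1) * Real.pi) / Real.pi := by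
      (clear * -; field_simp)
    have e3 : t / Real.pi + ((j : ℝ) + 1) = (t + ((j : ℝ) + 1) * Real.pi) / Real.pi := by
      (clear * - h0; field_simp)
    rw [e2, e3, one_div_div, one_div_div]
    ring
  have e2 : (Real.pi * Complex.cot (Real.pi * ((t / Real.pi : ℝ) : ℂ))
        - 1 / ((t / Real.pi : ℝ) : ℂ)).re = Real.pi * (Real.cos t / Real.sin t - 1 / t) := by
    have h3 : (Real.pi : ℂ) * ((t / Real.pi : ℝ) : ℂ) = (t : ℂ) := by
      push_cast
      field_simp
    have h4 : (Real.pi * Complex.cot (Real.pi * ((t / Real.pi : ℝ) : ℂ))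
        - 1 / ((t / Real.pi : ℝ) : ℂ))
        = ((Real.pi * (Real.cos t / Real.sin t - 1 / t) : ℝ) : ℂ) := by
      rw [h3, Complex.cot]
      push_cast
      field_simp
    rw [h4, Complex.ofReal_re]
  simp only [e1, e2] at hre
  have h5 := (hre.const_mul (Real.pi⁻¹)).add_const (1 / t)
  have e3 : ∀ x : ℝ, Real.pi⁻¹ * (Real.pi * (x - 1 / t)) + 1 / t = x := by
    intro x
    field_simp
    ring
  simpa only [e3] using h5

/-- Increments of order `1/n - 1/(n+1)` give the tail bound `1/M`. -/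
lemma tail_bound {u : ℕ → ℝ} {L : ℝ} (hu : Tendsto u atTop (𝓝 L))
    (hinc : ∀ n : ℕ, 1 ≤ n → |u (n + 1) - u n| ≤ 1 / (n : ℝ) - 1 / ((n : ℝ) + 1))
    {M : ℕ} (hM : 1 ≤ M) : |u M - L| ≤ 1 / (M : ℝ) := by
  have h : ∀ k : ℕ, |u M - u (M + k)| ≤ 1 / (M : ℝ) - 1 / ((M + k : ℕ) : ℝ) := by
    intro k
    induction k with
    | zero => simp
    | succ k ih =>
      have h1 := hinc (M + k) (by omega)
      have e : u M - u (M + (k + 1)) = (u M - u (M + k)) - (u (M + k + 1) - u (M + k)) := by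
        rw [← add_assoc]; ring
      rw [e]
      refine (abs_sub _ _).trans ((add_le_add ih h1).trans (le_of_eq ?_))
      push_cast
      ring
  have hlim : Tendsto (fun k => |u M - u (M + k)|) atTop (𝓝 |u M - L|) := by
    have : Tendsto (fun k => u (M + k)) atTop (𝓝 L) := by
      simpa [add_comm] using (tendsto_add_atTop_iff_nat M).mpr hu
    exact (tendsto_const_nhds.sub this).abs
  refine le_of_tendsto hlim (Eventually.of_forall fun k => (h k).trans ?_)
  have : (0 : ℝ) ≤ 1 / ((M + k : ℕ) : ℝ) := by positivity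
  linarith only [this]

lemma four_le_pi_sq : (4 : ℝ) ≤ Real.pi ^ 2 := by
  have := Real.pi_gt_three
  nlinarith only [this]

lemma SM_inc {t : ℝ} (h0 : 0 < t) (h1 : t < Real.pi) (n : ℕ) (hn : 1 ≤ n) :
    |SM (n + 1) t - SM n t| ≤ 1 / (n : ℝ) - 1 / ((n : ℝ) + 1) := by
  have hpi := Real.pi_pos
  have hpi3 := Real.pi_gt_three
  have hn' : (1 : ℝ) ≤ n := by exact_mod_cast hn
  rw [SM_succ, add_sub_cancel_right]
  have hA : 0 < (n + 1) * Real.pi - t := by nlinarith only [h1, h0]
  have hB : 0 < t + (n + 1) * Real.pi := by positivity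
  have e : 1 / (t - (n + 1) * Real.pi) + 1 / (t + (n + 1) * Real.pi)
      = -(2 * t / (((n + 1) * Real.pi - t) * (t + (n + 1) * Real.pi))) := by
    have : t - (n + 1) * Real.pi ≠ 0 := by intro h; linarith only [hA, h]
    field_simp
    ring
  have e2 : 1 / (n : ℝ) - 1 / ((n : ℝ) + 1) = 1 / (n * (n + 1)) := by field_simp; ring
  rw [e, abs_neg, abs_of_nonneg (by positivity), e2, div_le_div_iff₀ (by positivity) (by positivity)]
  have h2 : n * Real.pi ≤ (n + 1) * Real.pi - t := by nlinarith only [h1]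
  have h3 : (n + 1) * Real.pi ≤ t + (n + 1) * Real.pi := by linarith only [h0]
  have h4 : n * Real.pi * ((n + 1) * Real.pi)
      ≤ ((n + 1) * Real.pi - t) * (t + (n + 1) * Real.pi) :=
    mul_le_mul h2 h3 (by positivity) hA.le
  have h5 : 2 * t * (n * (n + 1)) ≤ n * Real.pi * ((n + 1) * Real.pi) := by
    have : 2 * t ≤ Real.pi ^ 2 := by nlinarith only [h1, hpi3]
    nlinarith only [mul_le_mul_of_nonneg_right this (by positivity : (0 : ℝ) ≤ n * (n + 1))]
  linarith only [h4, h5]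

lemma TM_inc {t s : ℝ} (h0 : 0 < t) (h1 : t < Real.pi) (k0 : 0 < s) (k1 : s < Real.pi)
    (n : ℕ) (hn : 1 ≤ n) :
    |TM (n + 1) t s - TM n t s| ≤ 1 / (n : ℝ) - 1 / ((n : ℝ) + 1) := by
  have hpi := Real.pi_pos
  have hpi3 := Real.pi_gt_three
  have hn' : (1 : ℝ) ≤ n := by exact_mod_cast hn
  rw [TM_succ, add_sub_cancel_right]
  have e2 : 1 / (n : ℝ) - 1 / ((n : ℝ) + 1) = 1 / (n * (n + 1)) := by field_simp; ring
  have e : 1 / ((t - (n + 1) * Real.pi) * (s - (n + 1) * Real.pi))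
      = 1 / (((n + 1) * Real.pi - t) * ((n + 1) * Real.pi - s)) := by
    congr 1; ring
  have ht : n * Real.pi ≤ (n + 1) * Real.pi - t := by nlinarith only [h1]
  have hs : n * Real.pi ≤ (n + 1) * Real.pi - s := by nlinarith only [k1]
  have hnp : 0 < n * Real.pi := by positivity
  have b1 : 1 / (((n + 1) * Real.pi - t) * ((n + 1) * Real.pi - s))
      ≤ 1 / (n * Real.pi * (n * Real.pi)) := by
    apply one_div_le_one_div_of_le (by positivity)
    exact mul_le_mul ht hs hnp.le (by linarith only [h1, hnp])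
  have b2 : 1 / ((t + (n + 1) * Real.pi) * (s + (n + 1) * Real.pi))
      ≤ 1 / (n * Real.pi * (n * Real.pi)) := by
    apply one_div_le_one_div_of_le (by positivity)
    exact mul_le_mul (by nlinarith only [h0, hpi3]) (by nlinarith only [k0, hpi3]) hnp.le (by positivity)
  have p1 : 0 < ((n + 1) * Real.pi - t) * ((n + 1) * Real.pi - s) :=
    mul_pos (by linarith only [h1, hnp]) (by linarith only [k1, hnp])
  rw [e, e2, abs_of_nonneg (by (clear * - p1 h0 hn k0; positivity))]
  have b3 : 1 / (n * Real.pi * (n * Real.pi)) + 1 / (n * Real.pi * (n * Real.pi))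
      ≤ 1 / ((n : ℝ) * (n + 1)) := by
    rw [← two_mul, mul_one_div, div_le_div_iff₀ (by positivity) (by positivity)]
    (clear * - hn'; nlinarith [four_le_pi_sq, mul_pos (by linarith : (0 : ℝ) < n) (by linarith : (0 : ℝ) < n)])
  linarith only [b1, b2, b3]

lemma SM_bound {t : ℝ} (h0 : 0 < t) (h1 : t < Real.pi) {M : ℕ} (hM : 1 ≤ M) :
    |SM M t - Real.cos t / Real.sin t| ≤ 1 / (M : ℝ) :=
  tail_bound (tendsto_SM h0 h1) (fun n hn => SM_inc h0 h1 n hn) hM

lemma TM_eq {t s : ℝ} (h0 : 0 < t) (h1 : t < Real.pi) (k0 : 0 < s) (k1 : s < Real.pi)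
    (hts : t ≠ s) (M : ℕ) : TM M t s = (SM M t - SM M s) / (s - t) := by
  unfold TM SM
  rw [← Finset.sum_sub_distrib, Finset.sum_div]
  refine Finset.sum_congr rfl fun n _ => ?_
  have := ne_zero_of_mem h0 h1 n
  have := ne_zero_of_mem k0 k1 n
  have : s - t ≠ 0 := sub_ne_zero.mpr hts.symm
  field_simp
  ring

lemma TM_bound_of_ne {t s : ℝ} (h0 : 0 < t) (h1 : t < Real.pi) (k0 : 0 < s) (k1 : s < Real.pi)
    (hts : t ≠ s) {M : ℕ} (hM : 1 ≤ M) :
    |TM M t s - Real.sinc (t - s) / (Real.sin t * Real.sin s)| ≤ 1 / (M : ℝ) := by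
  refine tail_bound (u := fun M => TM M t s) ?_ (fun n hn => TM_inc h0 h1 k0 k1 n hn) hM
  have h := ((tendsto_SM h0 h1).sub (tendsto_SM k0 k1)).div_const (s - t)
  have e : (Real.cos t / Real.sin t - Real.cos s / Real.sin s) / (s - t)
      = Real.sinc (t - s) / (Real.sin t * Real.sin s) := by
    have hst : s - t ≠ 0 := sub_ne_zero.mpr hts.symm
    have hts' : t - s ≠ 0 := sub_ne_zero.mpr hts
    have h2 : Real.sin t ≠ 0 := (Real.sin_pos_of_pos_of_lt_pi h0 h1).ne'
    have h3 : Real.sin s ≠ 0 := (Real.sin_pos_of_pos_of_lt_pi k0 k1).ne'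
    rw [Real.sinc_of_ne_zero hts', Real.sin_sub]
    rw [show t - s = -(s - t) by ring]
    field_simp
    ring
  rw [e] at h
  refine h.congr fun M => ?_
  rw [TM_eq h0 h1 k0 k1 hts M]

lemma TM_bound {t s : ℝ} (h0 : 0 < t) (h1 : t < Real.pi) (k0 : 0 < s) (k1 : s < Real.pi)
    {M : ℕ} (hM : 1 ≤ M) :
    |TM M t s - Real.sinc (t - s) / (Real.sin t * Real.sin s)| ≤ 1 / (M : ℝ) := by
  by_cases hts : t = s
  · subst hts
    -- approximate by `s → t`, `s ≠ t`
    have hcont : ContinuousAt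
        (fun s => |TM M t s - Real.sinc (t - s) / (Real.sin t * Real.sin s)|) t := by
      have hT : ContinuousAt (fun s => TM M t s) t := by
        unfold TM
        apply tendsto_finsetSum
        intro n _
        have := ne_zero_of_mem h0 h1 n
        have : ContinuousAt (fun s : ℝ => 1 / ((t + n * Real.pi) * (s + n * Real.pi))) t := by
          refine ContinuousAt.div (by fun_prop) (by fun_prop) ?_
          (clear * - this; positivity)
        exact this
      have hS : ContinuousAt (fun s => Real.sinc (t - s) / (Real.sin t * Real.sin s)) t := by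
        have h2 : Real.sin t ≠ 0 := (Real.sin_pos_of_pos_of_lt_pi h0 h1).ne'
        refine ContinuousAt.div ?_ (by (clear * -; fun_prop)) (mul_ne_zero h2 h2)
        exact (Real.continuous_sinc.comp (continuous_const.sub continuous_id)).continuousAt
      exact (hT.sub hS).abs
    have hlim : Tendsto (fun s => |TM M t s - Real.sinc (t - s) / (Real.sin t * Real.sin s)|)
        (𝓝[≠] t) (𝓝 |TM M t t - Real.sinc (t - t) / (Real.sin t * Real.sin t)|) :=
      hcont.tendsto.mono_left nhdsWithin_le_nhds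
    refine le_of_tendsto hlim ?_
    have hmem : Ioo 0 Real.pi ∈ 𝓝[≠] t := mem_nhdsWithin_of_mem_nhds (Ioo_mem_nhds h0 h1)
    filter_upwards [hmem, self_mem_nhdsWithin] with s hs hne
    exact TM_bound_of_ne h0 h1 hs.1 hs.2 (fun h => hne h.symm) hM
  · exact TM_bound_of_ne h0 h1 k0 k1 hts hM

/-- Uniform convergence of the truncated kernel on `[δ, π - δ]`. -/
theorem kernel_bound {δ : ℝ} (hδ : 0 < δ) : ∃ C : ℝ, 0 < C ∧ ∀ M : ℕ, 1 ≤ M → ∀ t s : ℝ,
    δ ≤ t → t ≤ Real.pi - δ → δ ≤ s → s ≤ Real.pi - δ →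
    |(TM M t s - SM M t * SM M s)
      - (1 + (Real.sinc (t - s) - Real.cos (t - s)) / (Real.sin t * Real.sin s))| ≤ C / M := by
  obtain ⟨B, hB⟩ := (isCompact_Icc (a := δ) (b := Real.pi - δ)).exists_bound_of_continuousOn
    (f := fun t => Real.cos t / Real.sin t) (by
      refine ContinuousOn.div (by fun_prop) (by fun_prop) ?_
      intro t ht
      exact (Real.sin_pos_of_pos_of_lt_pi (by linarith [ht.1]) (by linarith [ht.2])).ne')
  refine ⟨2 * |B| + 2, by positivity, ?_⟩
  intro M hM t s ht0 ht1 hs0 hs1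
  have h0 : 0 < t := by linarith only [hδ, ht0]
  have h1 : t < Real.pi := by linarith only [hδ, ht1]
  have k0 : 0 < s := by linarith only [hδ, hs0]
  have k1 : s < Real.pi := by linarith only [hδ, hs1]
  have hsint : Real.sin t ≠ 0 := (Real.sin_pos_of_pos_of_lt_pi h0 h1).ne'
  have hsins : Real.sin s ≠ 0 := (Real.sin_pos_of_pos_of_lt_pi k0 k1).ne'
  have hM' : (1 : ℝ) ≤ M := by exact_mod_cast hM
  have bt : |Real.cos t / Real.sin t| ≤ |B| := (hB t ⟨ht0, ht1⟩).trans (le_abs_self B)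
  have bs : |Real.cos s / Real.sin s| ≤ |B| := (hB s ⟨hs0, hs1⟩).trans (le_abs_self B)
  have a1 := SM_bound h0 h1 hM
  have a2 := SM_bound k0 k1 hM
  have a3 := TM_bound h0 h1 k0 k1 hM
  have hM1 : 1 / (M : ℝ) ≤ 1 := by
    rw [div_le_one (by linarith only [hM'])]; exact hM'
  have a4 : |SM M s| ≤ |B| + 1 := by
    have : SM M s = (SM M s - Real.cos s / Real.sin s) + Real.cos s / Real.sin s := by ring
    rw [this]
    refine (abs_add_le _ _).trans ?_
    linarith only [bs, a2, hM1]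
  have e : (TM M t s - SM M t * SM M s)
      - (1 + (Real.sinc (t - s) - Real.cos (t - s)) / (Real.sin t * Real.sin s))
      = (TM M t s - Real.sinc (t - s) / (Real.sin t * Real.sin s))
        - ((SM M t - Real.cos t / Real.sin t) * SM M s
          + Real.cos t / Real.sin t * (SM M s - Real.cos s / Real.sin s)) := by
    rw [Real.cos_sub]
    field_simp
    ring
  rw [e]
  have b1 : |(SM M t - Real.cos t / Real.sin t) * SM M s| ≤ 1 / M * (|B| + 1) := by
    rw [abs_mul]
    exact mul_le_mul a1 a4 (abs_nonneg _) (by positivity)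
  have b2 : |Real.cos t / Real.sin t * (SM M s - Real.cos s / Real.sin s)| ≤ |B| * (1 / M) := by
    rw [abs_mul]
    exact mul_le_mul bt a2 (abs_nonneg _) (abs_nonneg _)
  have b3 := abs_add_le ((SM M t - Real.cos t / Real.sin t) * SM M s)
    (Real.cos t / Real.sin t * (SM M s - Real.cos s / Real.sin s))
  refine (abs_sub _ _).trans ?_
  have e5 : (2 * |B| + 2) / (M : ℝ) = 1 / M + (1 / M * (|B| + 1) + |B| * (1 / M)) := by
    field_simp; ring
  rw [e5]
  linarith only [a3, b1, b2, b3]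

end Vale.Agent.P371
end
end

section

section

/-!
The pointwise trilinear inequality for matrices : limit of the truncated trilinear form, lower
bound by `tr P³`, and a uniform bound.
-/

namespace Vale.Agent.P371

open Complex Filter Topology Set Matrix
open scoped ComplexOrder ComplexConjugate

variable {N : ℕ}

/-- `Re (Pᵢₖ Pₖⱼ Pⱼᵢ)`. -/
noncomputable def pr (P : Matrix (Fin N) (Fin N) ℂ) (i j k : Fin N) : ℝ :=
  (P i k * P k j * P j i).re

/-- The truncated kernel. -/
noncomputable def kM (M : ℕ) (t s : ℝ) : ℝ := TM M t s - SM M t * SM M s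

/-- The limit kernel. -/
noncomputable def kInf (t s : ℝ) : ℝ :=
  1 + (Real.sinc (t - s) - Real.cos (t - s)) / (Real.sin t * Real.sin s)

lemma trace_cube_eq (P : Matrix (Fin N) (Fin N) ℂ) :
    (P * P * P).trace.re = ∑ i, ∑ j, ∑ k, pr P i j k := by
  unfold Matrix.trace pr
  rw [Complex.re_sum]
  refine Finset.sum_congr rfl fun i _ => ?_
  rw [Matrix.diag_apply, Matrix.mul_apply, Complex.re_sum]
  refine Finset.sum_congr rfl fun j _ => ?_
  rw [Matrix.mul_apply, Finset.sum_mul, Complex.re_sum]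

/-- The trilinear form in a basis where the Sylvester equations are diagonal. -/
lemma triF_diag {a : Fin N → ℝ} {P : Matrix (Fin N) (Fin N) ℂ} {Z : ℤ → Matrix (Fin N) (Fin N) ℂ}
    (hZ : ∀ n i j, Z n i j = P i j * ((1 / (a i + a j + n * Real.pi) : ℝ) : ℂ)) (M : ℕ) :
    triF Z P M = ∑ i, ∑ j, ∑ k, kM M (a i + a k) (a k + a j) * pr P i j k := by
  unfold triF Matrix.trace pr
  rw [Complex.re_sum]
  refine Finset.sum_congr rfl fun i _ => ?_
  rw [Matrix.diag_apply, Matrix.mul_apply, Complex.re_sum]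
  refine Finset.sum_congr rfl fun j _ => ?_
  have h1 : (∑ n ∈ Finset.Icc (-(M : ℤ)) M, Z n * Z n) i j
      = ∑ k, ((TM M (a i + a k) (a k + a j) : ℝ) : ℂ) * (P i k * P k j) := by
    rw [Matrix.sum_apply]
    simp only [Matrix.mul_apply]
    rw [Finset.sum_comm]
    refine Finset.sum_congr rfl fun k _ => ?_
    unfold TM
    rw [Complex.ofReal_sum, Finset.sum_mul]
    refine Finset.sum_congr rfl fun n _ => ?_
    rw [hZ, hZ]
    have : (1 / ((a i + a k + n * Real.pi) * (a k + a j + n * Real.pi)) : ℝ)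
        = 1 / (a i + a k + n * Real.pi) * (1 / (a k + a j + n * Real.pi)) := by
      rw [one_div_mul_one_div]
    rw [this, Complex.ofReal_mul]
    ring
  have h2 : ∀ i j, (∑ n ∈ Finset.Icc (-(M : ℤ)) M, Z n) i j
      = ((SM M (a i + a j) : ℝ) : ℂ) * P i j := by
    intro i j
    rw [Matrix.sum_apply]
    unfold SM
    rw [Complex.ofReal_sum, Finset.sum_mul]
    refine Finset.sum_congr rfl fun n _ => ?_
    rw [hZ]
    ring
  have h3 : ((∑ n ∈ Finset.Icc (-(M : ℤ)) M, Z n) * (∑ n ∈ Finset.Icc (-(M : ℤ)) M, Z n)) i j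
      = ∑ k, ((SM M (a i + a k) * SM M (a k + a j) : ℝ) : ℂ) * (P i k * P k j) := by
    rw [Matrix.mul_apply]
    refine Finset.sum_congr rfl fun k _ => ?_
    rw [h2, h2, Complex.ofReal_mul]
    ring
  rw [Matrix.sub_apply, h1, h3, ← Finset.sum_sub_distrib, Finset.sum_mul, Complex.re_sum]
  refine Finset.sum_congr rfl fun k _ => ?_
  unfold kM
  rw [← sub_mul, ← Complex.ofReal_sub, mul_assoc, Complex.re_ofReal_mul]

lemma pr_eq_Tc {a : Fin N → ℝ} {P : Matrix (Fin N) (Fin N) ℂ} (hP : P.IsHermitian)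
    (hs : ∀ i j, Real.sin (a i + a j) ≠ 0) (i j k : Fin N) :
    pr P i j k = Real.sin (a i + a k) * Real.sin (a k + a j) * Real.sin (a i + a j)
      * Tc a P i j k := by
  rw [Tc_rev hP]
  unfold pr Tc Xc
  have h1 : ((Real.sin (a i + a k) : ℝ) : ℂ) ≠ 0 := by exact_mod_cast hs i k
  have h2 : ((Real.sin (a k + a j) : ℝ) : ℂ) ≠ 0 := by exact_mod_cast hs k j
  have h3 : ((Real.sin (a j + a i) : ℝ) : ℂ) ≠ 0 := by exact_mod_cast hs j i
  have e : P i k * P k j * P j i
      = ((Real.sin (a i + a k) * Real.sin (a k + a j) * Real.sin (a j + a i) : ℝ) : ℂ)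
        * (P i k / ((Real.sin (a i + a k) : ℝ) : ℂ) * (P k j / ((Real.sin (a k + a j) : ℝ) : ℂ))
          * (P j i / ((Real.sin (a j + a i) : ℝ) : ℂ))) := by
    rw [Complex.ofReal_mul, Complex.ofReal_mul]
    field_simp
  rw [e, Complex.re_ofReal_mul, add_comm (a i) (a j)]

/-- Lower bound for the limit form. -/
lemma limit_ge {ε : ℝ} {a : Fin N → ℝ} {P : Matrix (Fin N) (Fin N) ℂ} (hε : 0 < ε)
    (h0 : ∀ i, ε ≤ a i) (h1 : ∀ i, a i ≤ Real.pi / 2 - ε) (hP : P.PosSemidef) :
    (P * P * P).trace.re ≤ ∑ i, ∑ j, ∑ k, kInf (a i + a k) (a k + a j) * pr P i j k := by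
  have hs : ∀ i j, Real.sin (a i + a j) ≠ 0 := fun i j => (sin_add_pos hε h0 h1 i j).ne'
  have h := trilinear_nonneg hε h0 h1 hP
  have e : ∑ i, ∑ j, ∑ k, kInf (a i + a k) (a k + a j) * pr P i j k
      = ∑ i, ∑ j, ∑ k, pr P i j k
        + ∑ i, ∑ j, ∑ k, (Real.sin (a i + a j) * Real.sinc (a i - a j)
          - Real.sin (a i + a j) * Real.cos (a i - a j)) * Tc a P i j k := by
    simp only [← Finset.sum_add_distrib]
    refine Finset.sum_congr rfl fun i _ => Finset.sum_congr rfl fun j _ =>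
      Finset.sum_congr rfl fun k _ => ?_
    have hd : a i + a k - (a k + a j) = a i - a j := by ring
    unfold kInf
    rw [hd, add_mul, one_mul]
    congr 1
    rw [pr_eq_Tc hP.isHermitian hs i j k]
    have := hs i k
    have := hs k j
    field_simp
  rw [e, ← trace_cube_eq]
  linarith only [h]

open scoped MatrixOrder in
lemma exists_factor {P : Matrix (Fin N) (Fin N) ℂ} (hP : P.PosSemidef) :
    ∃ B : Matrix (Fin N) (Fin N) ℂ, P = Bᴴ * B :=
  CStarAlgebra.nonneg_iff_eq_star_mul_self.mp hP.nonneg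

/-- Entries of a positive semidefinite matrix are bounded by the trace. -/
lemma norm_entry_le_trace {P : Matrix (Fin N) (Fin N) ℂ} (hP : P.PosSemidef) (i j : Fin N) :
    ‖P i j‖ ≤ P.trace.re := by
  obtain ⟨B, rfl⟩ := exists_factor hP
  have htr : (Bᴴ * B).trace.re = ∑ l, ∑ k, ‖B k l‖ ^ 2 := by
    unfold Matrix.trace
    rw [Complex.re_sum]
    refine Finset.sum_congr rfl fun l _ => ?_
    rw [Matrix.diag_apply, Matrix.mul_apply, Complex.re_sum]
    refine Finset.sum_congr rfl fun k _ => ?_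
    rw [Matrix.conjTranspose_apply, RCLike.star_def, ← Complex.normSq_eq_conj_mul_self,
      Complex.ofReal_re, Complex.normSq_eq_norm_sq]
  have hcol : ∀ l, ∑ k, ‖B k l‖ ^ 2 ≤ (Bᴴ * B).trace.re := by
    intro l
    rw [htr]
    exact Finset.single_le_sum (f := fun l => ∑ k, ‖B k l‖ ^ 2)
      (fun l _ => Finset.sum_nonneg fun k _ => sq_nonneg _) (Finset.mem_univ l)
  calc ‖(Bᴴ * B) i j‖ ≤ ∑ k, ‖B k i‖ * ‖B k j‖ := by
        rw [Matrix.mul_apply]
        refine (norm_sum_le _ _).trans (le_of_eq (Finset.sum_congr rfl fun k _ => ?_))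
        rw [norm_mul, Matrix.conjTranspose_apply, norm_star]
    _ ≤ ∑ k, (‖B k i‖ ^ 2 / 2 + ‖B k j‖ ^ 2 / 2) :=
        Finset.sum_le_sum fun k _ => by nlinarith [sq_nonneg (‖B k i‖ - ‖B k j‖)]
    _ = (∑ k, ‖B k i‖ ^ 2) / 2 + (∑ k, ‖B k j‖ ^ 2) / 2 := by
        rw [Finset.sum_add_distrib, Finset.sum_div, Finset.sum_div]
    _ ≤ (Bᴴ * B).trace.re := by linarith [hcol i, hcol j]

lemma abs_pr_le {P : Matrix (Fin N) (Fin N) ℂ} (hP : P.PosSemidef) (i j k : Fin N) :
    |pr P i j k| ≤ P.trace.re ^ 3 := by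
  unfold pr
  refine (Complex.abs_re_le_norm _).trans ?_
  rw [norm_mul, norm_mul]
  have h1 := norm_entry_le_trace hP i k
  have h2 := norm_entry_le_trace hP k j
  have h3 := norm_entry_le_trace hP j i
  have ht : 0 ≤ P.trace.re := (norm_nonneg _).trans h1
  calc ‖P i k‖ * ‖P k j‖ * ‖P j i‖ ≤ P.trace.re * P.trace.re * P.trace.re := by gcongr
    _ = P.trace.re ^ 3 := by ring

lemma kM_zero (t s : ℝ) : kM 0 t s = 0 := by
  unfold kM TM SM
  simp only [CharP.cast_eq_zero, neg_zero, Finset.Icc_self, mul_comm, one_div, _root_.mul_inv_rev, Finset.sum_singleton, Int.cast_zero, mul_zero, add_zero, sub_self]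

/-- Uniform bound for the truncated kernel. -/
lemma kM_bounded {δ : ℝ} (hδ : 0 < δ) : ∃ C : ℝ, 0 < C ∧ ∀ M : ℕ, ∀ t s : ℝ,
    δ ≤ t → t ≤ Real.pi - δ → δ ≤ s → s ≤ Real.pi - δ → |kM M t s| ≤ C := by
  obtain ⟨C, hC, hb⟩ := kernel_bound hδ
  obtain ⟨B, hB⟩ := (isCompact_Icc (a := δ) (b := Real.pi - δ)).exists_bound_of_continuousOn
    (f := fun t => 1 / Real.sin t) (by
      refine ContinuousOn.div (by fun_prop) (by fun_prop) ?_
      intro t ht
      exact (Real.sin_pos_of_pos_of_lt_pi (by linarith [ht.1]) (by linarith [ht.2])).ne')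
  refine ⟨C + (1 + 2 * (|B| * |B|)), by (clear * - hC; positivity), ?_⟩
  intro M t s ht0 ht1 hs0 hs1
  rcases Nat.eq_zero_or_pos M with hM | hM
  · subst hM
    rw [kM_zero, abs_zero]
    positivity
  have h1 := hb M hM t s ht0 ht1 hs0 hs1
  have hM' : (1 : ℝ) ≤ M := by exact_mod_cast hM
  have h2 : C / M ≤ C := by
    rw [div_le_iff₀ (by linarith only [hM'])]
    nlinarith only [hC, hM']
  have bt : |1 / Real.sin t| ≤ |B| := (hB t ⟨ht0, ht1⟩).trans (le_abs_self B)
  have bs : |1 / Real.sin s| ≤ |B| := (hB s ⟨hs0, hs1⟩).trans (le_abs_self B)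
  have h3 : |kInf t s| ≤ 1 + 2 * (|B| * |B|) := by
    unfold kInf
    refine (abs_add_le _ _).trans ?_
    rw [abs_one]
    gcongr
    have e : (Real.sinc (t - s) - Real.cos (t - s)) / (Real.sin t * Real.sin s)
        = (Real.sinc (t - s) - Real.cos (t - s)) * (1 / Real.sin t * (1 / Real.sin s)) := by
      rw [one_div_mul_one_div, mul_one_div]
    rw [e, abs_mul, abs_mul]
    have h4 : |Real.sinc (t - s) - Real.cos (t - s)| ≤ 2 := by
      refine (abs_sub _ _).trans ?_
      linarith only [Real.abs_sinc_le_one (t - s), Real.abs_cos_le_one (t - s)]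
    exact mul_le_mul h4 (mul_le_mul bt bs (abs_nonneg _) (abs_nonneg _)) (by (clear * -; positivity))
      (by norm_num)
  have e : kM M t s = (kM M t s - kInf t s) + kInf t s := by ring
  rw [e]
  refine (abs_add_le _ _).trans ?_
  have h5 : |kM M t s - kInf t s| ≤ C / M := h1
  linarith only [h2, h3, h5]

lemma tendsto_kM {t s : ℝ} (h0 : 0 < t) (h1 : t < Real.pi) (k0 : 0 < s) (k1 : s < Real.pi) :
    Tendsto (fun M => kM M t s) atTop (𝓝 (kInf t s)) := by
  set δ := min (min t (Real.pi - t)) (min s (Real.pi - s)) with hδd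
  have hδ : 0 < δ := by
    simp only [hδd, lt_min_iff]
    exact ⟨⟨h0, by linarith⟩, ⟨k0, by linarith⟩⟩
  have e1 : δ ≤ t := (min_le_left _ _).trans (min_le_left _ _)
  have e2 : t ≤ Real.pi - δ := by
    have : δ ≤ Real.pi - t := (min_le_left _ _).trans (min_le_right _ _)
    linarith
  have e3 : δ ≤ s := (min_le_right _ _).trans (min_le_left _ _)
  have e4 : s ≤ Real.pi - δ := by
    have : δ ≤ Real.pi - s := (min_le_right _ _).trans (min_le_right _ _)
    linarith
  obtain ⟨C, hC, hb⟩ := kernel_bound hδ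
  rw [tendsto_iff_norm_sub_tendsto_zero]
  refine squeeze_zero' (Eventually.of_forall fun _ => norm_nonneg _) ?_
    (tendsto_const_div_atTop_nhds_zero_nat C)
  filter_upwards [eventually_ge_atTop 1] with M hM
  exact hb M hM t s e1 e2 e3 e4

/-- Reduction to the eigenbasis of `A`. -/
lemma reduce {A P : Matrix (Fin N) (Fin N) ℂ} (hA : A.IsHermitian) (hP : P.PosSemidef)
    (hpos : ∀ i j (n : ℤ), hA.eigenvalues i + hA.eigenvalues j + n * Real.pi ≠ 0)
    {Z : ℤ → Matrix (Fin N) (Fin N) ℂ} (hZ : ∀ n, IsSyl A P n (Z n)) :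
    ∃ (P' : Matrix (Fin N) (Fin N) ℂ) (Z' : ℤ → Matrix (Fin N) (Fin N) ℂ),
      P'.PosSemidef ∧ P'.trace = P.trace ∧ (P' * P' * P').trace = (P * P * P).trace ∧
      (∀ M, triF Z' P' M = triF Z P M) ∧
      ∀ n i j, Z' n i j
        = P' i j * ((1 / (hA.eigenvalues i + hA.eigenvalues j + n * Real.pi) : ℝ) : ℂ) := by
  set U : Matrix (Fin N) (Fin N) ℂ := (hA.eigenvectorUnitary : Matrix (Fin N) (Fin N) ℂ) with hU
  have hUU : star U * U = 1 := (Unitary.mem_iff.mp hA.eigenvectorUnitary.2).1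
  have hUU' : U * star U = 1 := (Unitary.mem_iff.mp hA.eigenvectorUnitary.2).2
  set D : Matrix (Fin N) (Fin N) ℂ := diagonal (fun i => ((hA.eigenvalues i : ℝ) : ℂ)) with hD
  have hAD : A = U * D * star U := by
    have := hA.spectral_theorem
    rw [Unitary.conjStarAlgAut_apply] at this
    exact this
  have hmul : ∀ X Y : Matrix (Fin N) (Fin N) ℂ,
      (star U * X * U) * (star U * Y * U) = star U * (X * Y) * U := by
    intro X Y
    calc (star U * X * U) * (star U * Y * U) = star U * X * (U * star U) * Y * U := by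
          simp only [Matrix.mul_assoc]
      _ = _ := by rw [hUU', Matrix.mul_one]; simp only [Matrix.mul_assoc]
  have htr : ∀ X : Matrix (Fin N) (Fin N) ℂ, (star U * X * U).trace = X.trace := by
    intro X
    rw [Matrix.trace_mul_comm, ← Matrix.mul_assoc, hUU', Matrix.one_mul]
  refine ⟨star U * P * U, fun n => star U * Z n * U, ?_, htr P, ?_, ?_, ?_⟩
  · have := hP.conjTranspose_mul_mul_same U
    exact this
  · rw [hmul, hmul, htr]
  · intro M
    unfold triF
    congr 1
    have e1 : ∑ n ∈ Finset.Icc (-(M : ℤ)) M, (star U * Z n * U) * (star U * Z n * U)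
        = star U * (∑ n ∈ Finset.Icc (-(M : ℤ)) M, Z n * Z n) * U := by
      rw [Finset.mul_sum, Finset.sum_mul]
      exact Finset.sum_congr rfl fun n _ => hmul _ _
    have e2 : ∑ n ∈ Finset.Icc (-(M : ℤ)) M, (star U * Z n * U)
        = star U * (∑ n ∈ Finset.Icc (-(M : ℤ)) M, Z n) * U := by
      rw [Finset.mul_sum, Finset.sum_mul]
    rw [e1, e2, hmul, ← Matrix.sub_mul, ← Matrix.mul_sub, hmul, htr]
  · intro n i j
    have h := hZ n
    unfold IsSyl at h
    set c : ℂ := (((n : ℝ) * (Real.pi / 2) : ℝ) : ℂ) with hc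
    have hDU : star U * A = D * star U := by
      rw [hAD, ← Matrix.mul_assoc, ← Matrix.mul_assoc, hUU, Matrix.one_mul]
    have hUD : A * U = U * D := by
      rw [hAD, Matrix.mul_assoc, hUU, Matrix.mul_one]
    have h' : (D + c • 1) * (star U * Z n * U) + (star U * Z n * U) * (D + c • 1)
        = star U * P * U := by
      rw [← h]
      have e1 : (D + c • 1) * (star U * Z n * U) = star U * ((A + c • 1) * Z n) * U := by
        calc (D + c • 1) * (star U * Z n * U) = (D * star U + c • star U) * Z n * U := by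
              simp only [Matrix.add_mul, Matrix.smul_mul, Matrix.one_mul, Matrix.mul_assoc]
          _ = (star U * A + c • star U) * Z n * U := by rw [hDU]
          _ = star U * ((A + c • 1) * Z n) * U := by
              simp only [Matrix.add_mul, Matrix.mul_add, Matrix.smul_mul, Matrix.mul_smul,
                Matrix.one_mul, Matrix.mul_assoc]
      have e2 : (star U * Z n * U) * (D + c • 1) = star U * (Z n * (A + c • 1)) * U := by
        calc (star U * Z n * U) * (D + c • 1) = star U * Z n * (U * D + c • U) := by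
              simp only [Matrix.mul_add, Matrix.mul_smul, Matrix.mul_one, Matrix.mul_assoc]
          _ = star U * Z n * (A * U + c • U) := by rw [hUD]
          _ = star U * (Z n * (A + c • 1)) * U := by
              simp only [Matrix.add_mul, Matrix.mul_add, Matrix.smul_mul, Matrix.mul_smul,
                Matrix.mul_one, Matrix.mul_assoc]
      rw [e1, e2, ← Matrix.add_mul, ← Matrix.mul_add]
    have hij := congrFun (congrFun h' i) j
    have hDc : D + c • (1 : Matrix (Fin N) (Fin N) ℂ)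
        = diagonal (fun i => ((hA.eigenvalues i : ℝ) : ℂ) + c) := by
      rw [hD, ← diagonal_one, ← diagonal_smul, diagonal_add]
      congr 1
      ext i
      simp
    rw [hDc, Matrix.add_apply, Matrix.diagonal_mul, Matrix.mul_diagonal] at hij
    rw [← hij]
    have hne : ((hA.eigenvalues i + hA.eigenvalues j + n * Real.pi : ℝ) : ℂ) ≠ 0 := by
      exact_mod_cast hpos i j n
    have hcc : c = ((n * Real.pi : ℝ) : ℂ) / 2 := by
      rw [hc]; push_cast; ring
    rw [hcc]
    push_cast at hne ⊢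
    field_simp
    ring

section

variable {A P : Matrix (Fin N) (Fin N) ℂ}

lemma sum_ne_zero_of_mem (hA : A.IsHermitian) (h0 : ∀ i, 0 < hA.eigenvalues i)
    (h1 : ∀ i, hA.eigenvalues i < Real.pi / 2) (i j : Fin N) (n : ℤ) :
    hA.eigenvalues i + hA.eigenvalues j + n * Real.pi ≠ 0 :=
  ne_zero_of_mem (by linarith [h0 i, h0 j]) (by linarith only [h1 i, h1 j]) n

/-- A uniform gap exists for finitely many eigenvalues in `(0, π/2)`. -/
lemma exists_gap {a : Fin N → ℝ} (h0 : ∀ i, 0 < a i) (h1 : ∀ i, a i < Real.pi / 2) :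
    ∃ ε : ℝ, 0 < ε ∧ (∀ i, ε ≤ a i) ∧ ∀ i, a i ≤ Real.pi / 2 - ε := by
  have hfin : ∀ f : Fin N → ℝ, (∀ i, 0 < f i) → ∃ ε : ℝ, 0 < ε ∧ ∀ i, ε ≤ f i := by
    intro f hf
    rcases isEmpty_or_nonempty (Fin N) with h | h
    · exact ⟨1, one_pos, fun i => (h.false i).elim⟩
    · obtain ⟨i0, hi0⟩ := Finite.exists_min f
      exact ⟨f i0, hf i0, hi0⟩
  obtain ⟨ε, hε, h⟩ := hfin (fun i => min (a i) (Real.pi / 2 - a i))
    (fun i => lt_min (h0 i) (by linarith only [h1 i]))
  refine ⟨ε, hε, fun i => (h i).trans (min_le_left _ _), fun i => ?_⟩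
  have := (h i).trans (min_le_right _ _)
  linarith only [this]

/-- Limit of the truncated trilinear form and its lower bound. -/
theorem trilinear_limit (hA : A.IsHermitian)
    (hA0 : ∀ i, 0 < hA.eigenvalues i) (hA1 : ∀ i, hA.eigenvalues i < Real.pi / 2)
    (hP : P.PosSemidef) (Z : ℤ → Matrix (Fin N) (Fin N) ℂ) (hZ : ∀ n, IsSyl A P n (Z n)) :
    ∃ L : ℝ, Tendsto (fun M : ℕ => triF Z P M) atTop (𝓝 L) ∧ (P * P * P).trace.re ≤ L := by
  obtain ⟨P', Z', hP', -, htr3, htri, hZ'⟩ := reduce hA hP (sum_ne_zero_of_mem hA hA0 hA1) hZ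
  obtain ⟨ε, hε, h0, h1⟩ := exists_gap hA0 hA1
  refine ⟨∑ i, ∑ j, ∑ k, kInf (hA.eigenvalues i + hA.eigenvalues k)
    (hA.eigenvalues k + hA.eigenvalues j) * pr P' i j k, ?_, ?_⟩
  · simp only [← htri, triF_diag hZ']
    refine tendsto_finsetSum _ fun i _ => tendsto_finsetSum _ fun j _ =>
      tendsto_finsetSum _ fun k _ => ?_
    refine (tendsto_kM ?_ ?_ ?_ ?_).mul_const _
    · linarith [hA0 i, hA0 k]
    · linarith only [hA1 i, hA1 k]
    · linarith [hA0 k, hA0 j]
    · linarith [hA1 k, hA1 j]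
  · rw [← htr3]
    exact limit_ge hε h0 h1 hP'

/-- Uniform bound for the truncated trilinear form. -/
theorem trilinear_bound (N : ℕ) {ε : ℝ} (hε : 0 < ε) : ∃ C : ℝ, ∀ (A P : Matrix (Fin N) (Fin N) ℂ)
    (hA : A.IsHermitian) (_ : ∀ i, ε ≤ hA.eigenvalues i)
    (_ : ∀ i, hA.eigenvalues i ≤ Real.pi / 2 - ε)
    (_ : P.PosSemidef) (Z : ℤ → Matrix (Fin N) (Fin N) ℂ) (_ : ∀ n, IsSyl A P n (Z n)) (M : ℕ),
    |triF Z P M| ≤ C * P.trace.re ^ 3 := by
  obtain ⟨C, hC, hb⟩ := kM_bounded (δ := 2 * ε) (by linarith)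
  refine ⟨∑ _i : Fin N, ∑ _j : Fin N, ∑ _k : Fin N, C, ?_⟩
  intro A P hA h0 h1 hP Z hZ M
  obtain ⟨P', Z', hP', htr, -, htri, hZ'⟩ := reduce hA hP
    (sum_ne_zero_of_mem hA (fun i => hε.trans_le (h0 i)) (fun i => by linarith only [hε, h1 i])) hZ
  rw [← htri, triF_diag hZ', ← htr, Finset.sum_mul]
  refine (Finset.abs_sum_le_sum_abs _ _).trans (Finset.sum_le_sum fun i _ => ?_)
  rw [Finset.sum_mul]
  refine (Finset.abs_sum_le_sum_abs _ _).trans (Finset.sum_le_sum fun j _ => ?_)
  rw [Finset.sum_mul]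
  refine (Finset.abs_sum_le_sum_abs _ _).trans (Finset.sum_le_sum fun k _ => ?_)
  rw [abs_mul]
  refine mul_le_mul (hb M _ _ ?_ ?_ ?_ ?_) (abs_pr_le hP' i j k) (abs_nonneg _) hC.le
  · linarith [h0 i, h0 k]
  · linarith [h1 i, h1 k]
  · linarith only [h0 k, h0 j]
  · linarith only [h1 k, h1 j]

end

end Vale.Agent.P371
end
end

section

section

namespace Vale.Agent.P371

open MeasureTheory Filter Topology Matrix
open scoped ENNReal ComplexOrder Real

/-- embedding of `ℂ` into `ℂ^(k+1)` as the first coordinate -/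
noncomputable def emb (k : ℕ) : EuclideanSpace ℂ (Fin 1) →L[ℂ] EuclideanSpace ℂ (Fin (k + 1)) :=
  LinearMap.toContinuousLinearMap
    { toFun := fun v => EuclideanSpace.single 0 (v 0)
      map_add' := fun u v => by
        ext i
        by_cases h : i = 0
        · subst h; simp
        · simp [h]
      map_smul' := fun a v => by
        ext i
        by_cases h : i = 0
        · subst h; simp
        · simp [h] }

theorem emb_apply (k : ℕ) (v : EuclideanSpace ℂ (Fin 1)) :
    emb k v = EuclideanSpace.single 0 (v 0) := rfl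

theorem inner_emb (k : ℕ) (u v : EuclideanSpace ℂ (Fin 1)) :
    (inner ℂ (emb k u) (emb k v) : ℂ) = inner ℂ u v := by
  rw [emb_apply, emb_apply, EuclideanSpace.inner_single_left, PiLp.inner_apply]
  simp [mul_comm]

theorem emb_matrix (k : ℕ) (W : Matrix (Fin 1) (Fin 1) ℂ) (v : EuclideanSpace ℂ (Fin 1)) :
    Matrix.toEuclideanLin
      (diagonal (fun i : Fin (k + 1) => if i = 0 then W 0 0 else 0)) (emb k v) =
      emb k (Matrix.toEuclideanLin W v) := by
  ext i
  rw [emb_apply, emb_apply, Matrix.toLpLin_apply, Matrix.toLpLin_apply]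
  simp only [Matrix.mulVec_diagonal]
  by_cases h : i = 0
  · subst h
    simp [Matrix.mulVec, dotProduct]
  · simp [h]

theorem scalar_eq {W : Matrix (Fin 1) (Fin 1) ℂ} (hW : W.PosSemidef) :
    W 0 0 = ((W 0 0).re : ℂ) := by
  have h := hW.isHermitian.apply 0 0
  exact (Complex.conj_eq_iff_re.mp h).symm

theorem trPow_scalar (p : ℝ) {W : Matrix (Fin 1) (Fin 1) ℂ} (hW : W.PosSemidef) :
    trPow p W = (W 0 0).re ^ p := by
  have e : W = diagonal fun i : Fin 1 => (((W 0 0).re : ℝ) : ℂ) := by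
    ext i j
    have hi : i = 0 := Subsingleton.elim _ _
    have hj : j = 0 := Subsingleton.elim _ _
    subst hi; subst hj
    rw [diagonal_apply_eq]
    exact scalar_eq hW
  have h := trPow_diagonal p (fun _ : Fin 1 => (W 0 0).re)
  rw [← e] at h
  rw [h]
  simp

/-- the potential with one scalar block -/
noncomputable def blk (k : ℕ) (W : ℝ → Matrix (Fin 1) (Fin 1) ℂ) (x : ℝ) :
    Matrix (Fin (k + 1)) (Fin (k + 1)) ℂ :=
  diagonal (fun i : Fin (k + 1) => if i = 0 then W x 0 0 else 0)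

theorem blk_eq (k : ℕ) {W : ℝ → Matrix (Fin 1) (Fin 1) ℂ} {x : ℝ} (hW : (W x).PosSemidef) :
    blk k W x = diagonal (fun i : Fin (k + 1) => (((if i = 0 then (W x 0 0).re else 0 : ℝ)) : ℂ)) := by
  rw [blk]
  congr 1
  funext i
  by_cases h : i = 0
  · rw [if_pos h, if_pos h]; exact scalar_eq hW
  · rw [if_neg h, if_neg h]; simp

theorem trPow_blk {p : ℝ} (hp : p ≠ 0) (k : ℕ) {W : ℝ → Matrix (Fin 1) (Fin 1) ℂ} {x : ℝ}
    (hW : (W x).PosSemidef) : trPow p (blk k W x) = trPow p (W x) := by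
  rw [blk_eq k hW, trPow_diagonal, trPow_scalar p hW]
  rw [Finset.sum_eq_single 0]
  · simp
  · intro i _ hi
    simp [hi, Real.zero_rpow hp]
  · intro h
    exact absurd (Finset.mem_univ _) h

theorem isPotential_blk {p : ℝ} (hp : p ≠ 0) (k : ℕ) {W : ℝ → Matrix (Fin 1) (Fin 1) ℂ}
    (hW : IsPotential p W) : IsPotential p (blk k W) where
  measurable i j := by
    by_cases h : i = j
    · subst h
      by_cases h0 : i = 0
      · subst h0
        simp only [blk, diagonal_apply_eq, if_true]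
        exact hW.measurable 0 0
      · simp only [blk, diagonal_apply_eq, if_neg h0]
        exact measurable_const
    · simp only [blk, diagonal_apply_ne _ h]
      exact measurable_const
  posSemidef x := by
    rw [blk]
    apply Matrix.PosSemidef.diagonal
    intro i
    by_cases h : i = 0
    · simp only [if_pos h]
      exact (hW.posSemidef x).diag_nonneg
    · simp [if_neg h]
  integrable := by
    have : (fun x => trPow p (blk k W x)) = fun x => trPow p (W x) := by
      funext x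
      exact trPow_blk hp k (hW.posSemidef x)
    rw [this]
    exact hW.integrable

theorem groundMean_le_rieszMean (γ : ℝ) (k : ℕ) (W : ℝ → Matrix (Fin 1) (Fin 1) ℂ) :
    groundMean γ W ≤ rieszMean γ (blk k W) := by
  unfold groundMean
  refine iSup_le fun lam => iSup_le fun f => iSup_le fun f' => iSup_le fun h => iSup_le fun hne => ?_
  have hf := h.2.isH1
  have hpos : 0 < ∫ x, ‖f x‖ ^ 2 := by
    have h1 : 0 ≤ ∫ x, ‖f x‖ ^ 2 := integral_nonneg fun x => by positivity
    rcases h1.lt_or_eq with h2 | h2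
    · exact h2
    · exact absurd (isH1_zero_of_integral hf h2.symm) hne
  set I := ∫ x, ‖f x‖ ^ 2 with hI
  set T : EuclideanSpace ℂ (Fin 1) →L[ℂ] EuclideanSpace ℂ (Fin (k + 1)) :=
    (((√I)⁻¹ : ℝ) : ℂ) • emb k with hT
  have hTa : ∀ v, T v = (((√I)⁻¹ : ℝ) : ℂ) • emb k v := fun v => rfl
  have hg := hf.comp T
  unfold rieszMean
  refine le_iSup_of_le 1 <| le_iSup_of_le (fun _ => lam) <|
    le_iSup_of_le (fun _ x => T (f x)) <| le_iSup_of_le (fun _ x => T (f' x)) <|
    le_iSup_of_le ?_ <| le_iSup_of_le ?_ ?_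
  · intro _
    refine ⟨h.1, hg, ?_⟩
    intro g g' hgg
    have h1 := h.2.form_eq _ _ (hgg.comp (ContinuousLinearMap.adjoint T))
    have e1 : ∀ x, (inner ℂ (g' x) (T (f' x)) : ℂ) =
        inner ℂ (ContinuousLinearMap.adjoint T (g' x)) (f' x) := fun x => by
      rw [ContinuousLinearMap.adjoint_inner_left]
    have e2 : ∀ x, (inner ℂ (g x) (T (f x)) : ℂ) =
        inner ℂ (ContinuousLinearMap.adjoint T (g x)) (f x) := fun x => by
      rw [ContinuousLinearMap.adjoint_inner_left]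
    have e3 : ∀ x, (inner ℂ (g x) (Matrix.toEuclideanLin (blk k W x) (T (f x))) : ℂ) =
        inner ℂ (ContinuousLinearMap.adjoint T (g x)) (Matrix.toEuclideanLin (W x) (f x)) := by
      intro x
      rw [ContinuousLinearMap.adjoint_inner_left, hTa, hTa, map_smul, blk, emb_matrix]
    simp only [e1, e2, e3]
    exact h1
  · intro i j
    have hij : i = j := Subsingleton.elim _ _
    rw [if_pos hij]
    have e1 : ∀ x, (inner ℂ (T (f x)) (T (f x)) : ℂ) = ((I⁻¹ * ‖f x‖ ^ 2 : ℝ) : ℂ) := by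
      intro x
      rw [hTa, inner_smul_left, inner_smul_right, inner_emb, inner_self_re', Complex.conj_ofReal,
        ← mul_assoc, ← Complex.ofReal_mul, ← Complex.ofReal_mul]
      congr 2
      rw [← mul_inv, Real.mul_self_sqrt hpos.le]
    simp only [e1]
    rw [integral_complex_ofReal, integral_const_mul, ← hI, inv_mul_cancel₀ hpos.ne']
    simp
  · simp

theorem LTone_le_LTconst {γ : ℝ} {m : ℕ} (hγ : 1 / 2 < γ) (hm : 1 ≤ m) : LTone γ ≤ LTconst γ m := by
  obtain ⟨k, rfl⟩ : ∃ k, m = k + 1 := ⟨m - 1, by omega⟩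
  have hp : γ + 1 / 2 ≠ 0 := by
    have : 0 < γ + 1 / 2 := by linarith only [hγ]
    exact this.ne'
  unfold LTone
  refine iSup_le fun W => iSup_le fun hW => iSup_le fun hne => ?_
  have he : (fun x => trPow (γ + 1 / 2) (blk k W x)) = fun x => trPow (γ + 1 / 2) (W x) := by
    funext x
    exact trPow_blk hp k (hW.posSemidef x)
  unfold LTconst
  refine le_iSup_of_le (blk k W) <| le_iSup_of_le (isPotential_blk hp k hW) <|
    le_iSup_of_le (by rw [he]; exact hne) ?_
  rw [he]
  exact ENNReal.div_le_div_right (groundMean_le_rieszMean γ k W) _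

end Vale.Agent.P371
end
end

section

section

/-!
Klein inequalities for powers and the trace inequality `tr (V W V^*)^p ≤ tr W^p` for contractions.
-/

namespace Vale.Agent.P371.PI

open Vale.Agent.P371.G

open Matrix
open scoped ComplexOrder Matrix.Norms.L2Operator

variable {n m : ℕ}

theorem trPow_eq_trace {p : ℝ} {Z : Matrix (Fin n) (Fin n) ℂ} (hZ : Z.IsHermitian) :
    trPow p Z = (cfc (fun x : ℝ => x ^ p) Z).trace.re := by
  rw [trace_cfc hZ, Complex.ofReal_re, trPow, dif_pos hZ]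

theorem cfc_one_eq {Z : Matrix (Fin n) (Fin n) ℂ} (hZ : Z.IsHermitian) :
    cfc (fun _ : ℝ => (1 : ℝ)) Z = 1 := by
  have := cfc_const_one ℝ Z (ha := hZ)
  simpa using this

theorem cfc_id_eq {Z : Matrix (Fin n) (Fin n) ℂ} (hZ : Z.IsHermitian) :
    cfc (fun x : ℝ => x) Z = Z := cfc_id' ℝ Z (ha := hZ)

/-- scalar Klein inequality, `γ ≥ 1` -/
theorem scalar_klein {γ x y : ℝ} (hγ : 1 ≤ γ) (hx : 0 ≤ x) (hy : 0 < y) :
    0 ≤ x ^ γ - y ^ γ - γ * y ^ (γ - 1) * (x - y) := by
  have h := one_add_mul_self_le_rpow_one_add (s := x / y - 1) (by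
    have : 0 ≤ x / y := by positivity
    linarith) hγ
  have e1 : 1 + (x / y - 1) = x / y := by ring
  rw [e1, Real.div_rpow hx hy.le] at h
  have hyp : 0 < y ^ γ := Real.rpow_pos_of_pos hy _
  have h2 : (1 + γ * (x / y - 1)) * y ^ γ ≤ x ^ γ := by
    rwa [le_div_iff₀ hyp] at h
  have e2 : y ^ (γ - 1) = y ^ γ / y := Real.rpow_sub_one hy.ne' γ
  have e3 : (1 + γ * (x / y - 1)) * y ^ γ = y ^ γ + γ * (y ^ γ / y) * (x - y) := by
    (clear * - hy; field_simp)
  rw [e3] at h2
  rw [e2]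
  linarith only [h2]

/-- scalar Klein inequality, `0 ≤ γ ≤ 1` -/
theorem scalar_klein' {γ x y : ℝ} (h0 : 0 ≤ γ) (hγ : γ ≤ 1) (hx : 0 ≤ x) (hy : 0 < y) :
    0 ≤ y ^ γ + γ * y ^ (γ - 1) * (x - y) - x ^ γ := by
  have h := rpow_one_add_le_one_add_mul_self (s := x / y - 1) (by
    have : 0 ≤ x / y := by positivity
    linarith only [this]) h0 hγ
  have e1 : 1 + (x / y - 1) = x / y := by ring
  rw [e1, Real.div_rpow hx hy.le] at h
  have hyp : 0 < y ^ γ := Real.rpow_pos_of_pos hy _
  have h2 : x ^ γ ≤ (1 + γ * (x / y - 1)) * y ^ γ := by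
    rwa [div_le_iff₀ hyp] at h
  have e2 : y ^ (γ - 1) = y ^ γ / y := Real.rpow_sub_one hy.ne' γ
  have e3 : (1 + γ * (x / y - 1)) * y ^ γ = y ^ γ + γ * (y ^ γ / y) * (x - y) := by
    field_simp
  rw [e3] at h2
  rw [e2]
  linarith only [h2]

theorem cfc_mul_pow {γ : ℝ} {X : Matrix (Fin n) (Fin n) ℂ} (hX : X.PosDef) :
    cfc (fun x : ℝ => x ^ (γ - 1)) X * X = cfc (fun x : ℝ => x ^ γ) X := by
  have hXh : IsSelfAdjoint X := hX.isHermitian
  have hpos : ∀ x ∈ spectrum ℝ X, 0 < x := by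
    intro x hx
    obtain ⟨i, rfl⟩ := (hX.isHermitian.spectrum_real_eq_range_eigenvalues ▸ hx)
    exact hX.eigenvalues_pos i
  have hc : ContinuousOn (fun x : ℝ => x ^ (γ - 1)) (spectrum ℝ X) := fun x hx =>
    (Real.continuousAt_rpow_const x _ (Or.inl (hpos x hx).ne')).continuousWithinAt
  conv_lhs => rw [← cfc_id_eq hX.isHermitian, cfc_id_eq hX.isHermitian]
  have h1 : X = cfc (fun x : ℝ => x) X := (cfc_id_eq hX.isHermitian).symm
  conv_lhs => arg 2; rw [h1]
  rw [← cfc_mul (fun x : ℝ => x ^ (γ - 1)) (fun x : ℝ => x) X hc continuousOn_id]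
  refine cfc_congr fun x hx => ?_
  have := Real.rpow_sub_one (hpos x hx).ne' γ
  rw [this, div_mul_cancel₀ _ (hpos x hx).ne']

/-- Klein, `γ ≥ 1` : `tr E^γ ≥ tr Λ^γ + γ tr Λ^(γ-1) (E - Λ)` -/
theorem klein_ge {γ : ℝ} (hγ : 1 ≤ γ) {E L : Matrix (Fin n) (Fin n) ℂ} (hE : E.PosSemidef)
    (hL : L.PosDef) :
    trPow γ L + γ * (cfc (fun x : ℝ => x ^ (γ - 1)) L * (E - L)).trace.re ≤ trPow γ E := by
  have hEh := hE.isHermitian
  have hLh := hL.isHermitian
  have key := klein_nonneg hEh hLh (Finset.univ : Finset (Fin 4))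
    (fun k x => if k = 0 then x ^ γ else if k = 1 then -1 else if k = 2 then -(γ * x) else γ)
    (fun k y => if k = 0 then 1 else if k = 1 then y ^ γ else if k = 2 then y ^ (γ - 1) else y ^ γ)
    (by
      intro i j
      have h1 := scalar_klein hγ (hE.eigenvalues_nonneg i) (hL.eigenvalues_pos j)
      have h2 : hLh.eigenvalues j ^ (γ - 1) * hLh.eigenvalues j = hLh.eigenvalues j ^ γ := by
        rw [Real.rpow_sub_one (hL.eigenvalues_pos j).ne', div_mul_cancel₀ _ (hL.eigenvalues_pos j).ne']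
      simp only [Fin.sum_univ_four, Fin.isValue, if_true, if_false, one_ne_zero,
        Fin.reduceEq]
      nlinarith)
  simp only [Fin.isValue, Fin.sum_univ_four, Fin.reduceEq, if_false, if_true, one_ne_zero] at key
  have e1 : cfc (fun _ : ℝ => (-1 : ℝ)) E = -1 := by
    have := cfc_const (-1 : ℝ) E (ha := hEh)
    simpa only [map_neg, map_one] using this
  have e2 : cfc (fun x : ℝ => -(γ * x)) E = (-γ : ℝ) • E := by
    have h3 : (fun x : ℝ => -(γ * x)) = fun x : ℝ => (-γ) * x := by funext x; ring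
    rw [h3]
    exact cfc_const_mul_id (-γ : ℝ) E (ha := hEh)
  have e3 : cfc (fun _ : ℝ => (γ : ℝ)) E = (γ : ℝ) • (1 : Matrix (Fin n) (Fin n) ℂ) := by
    have := cfc_const (γ : ℝ) E (ha := hEh)
    rw [this, Algebra.algebraMap_eq_smul_one]
  rw [e1, e2, e3, cfc_one_eq hLh] at key
  rw [trPow_eq_trace hEh, trPow_eq_trace hLh]
  have e4 := cfc_mul_pow (γ := γ) hL
  have e5 : (cfc (fun x : ℝ => x ^ (γ - 1)) L * (E - L)).trace.re =
      (E * cfc (fun x : ℝ => x ^ (γ - 1)) L).trace.re - (cfc (fun x : ℝ => x ^ γ) L).trace.re := by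
    rw [mul_sub, e4, Matrix.trace_sub, Complex.sub_re, Matrix.trace_mul_comm]
  rw [e5]
  simp only [mul_one, neg_mul, one_mul, Matrix.trace_neg, Complex.neg_re, Matrix.smul_mul,
    Matrix.trace_smul, Complex.real_smul, Complex.re_ofReal_mul] at key
  linarith only [key]

/-- Klein, `0 ≤ γ ≤ 1` : `tr Λ^γ ≤ tr E^γ + γ tr E^(γ-1) (Λ - E)` -/
theorem klein_le {γ : ℝ} (h0 : 0 ≤ γ) (hγ : γ ≤ 1) {E L : Matrix (Fin n) (Fin n) ℂ}
    (hL : L.PosSemidef) (hE : E.PosDef) :
    trPow γ L ≤ trPow γ E + γ * (cfc (fun x : ℝ => x ^ (γ - 1)) E * (L - E)).trace.re := by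
  have hEh := hE.isHermitian
  have hLh := hL.isHermitian
  have key := klein_nonneg hLh hEh (Finset.univ : Finset (Fin 4))
    (fun k x => if k = 0 then -x ^ γ else if k = 1 then 1 else if k = 2 then γ * x else -γ)
    (fun k y => if k = 0 then 1 else if k = 1 then y ^ γ else if k = 2 then y ^ (γ - 1) else y ^ γ)
    (by
      intro i j
      have h1 := scalar_klein' h0 hγ (hL.eigenvalues_nonneg i) (hE.eigenvalues_pos j)
      have h2 : hEh.eigenvalues j ^ (γ - 1) * hEh.eigenvalues j = hEh.eigenvalues j ^ γ := by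
        rw [Real.rpow_sub_one (hE.eigenvalues_pos j).ne', div_mul_cancel₀ _ (hE.eigenvalues_pos j).ne']
      simp only [Fin.sum_univ_four, Fin.isValue, if_true, if_false, one_ne_zero,
        Fin.reduceEq]
      nlinarith)
  simp only [Fin.isValue, Fin.sum_univ_four, Fin.reduceEq, if_false, if_true, one_ne_zero] at key
  have e0 : cfc (fun x : ℝ => -x ^ γ) L = -cfc (fun x : ℝ => x ^ γ) L := cfc_neg _ _
  have e2 : cfc (fun x : ℝ => γ * x) L = (γ : ℝ) • L := cfc_const_mul_id (γ : ℝ) L (ha := hLh)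
  have e3 : cfc (fun _ : ℝ => (-γ : ℝ)) L = (-γ : ℝ) • (1 : Matrix (Fin n) (Fin n) ℂ) := by
    have := cfc_const (-γ : ℝ) L (ha := hLh)
    rw [this, Algebra.algebraMap_eq_smul_one]
  rw [e0, e2, e3, cfc_one_eq hLh, cfc_one_eq hEh] at key
  rw [trPow_eq_trace hEh, trPow_eq_trace hLh]
  have e4 := cfc_mul_pow (γ := γ) hE
  have e5 : (cfc (fun x : ℝ => x ^ (γ - 1)) E * (L - E)).trace.re =
      (L * cfc (fun x : ℝ => x ^ (γ - 1)) E).trace.re - (cfc (fun x : ℝ => x ^ γ) E).trace.re := by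
    rw [mul_sub, e4, Matrix.trace_sub, Complex.sub_re, Matrix.trace_mul_comm]
  rw [e5]
  simp only [mul_one, neg_mul, one_mul, Matrix.trace_neg, Complex.neg_re, Matrix.smul_mul,
    Matrix.trace_smul, Complex.real_smul, Complex.re_ofReal_mul] at key
  linarith only [key]

end Vale.Agent.P371.PI
end
end

section

section

/-!
Comparison for Lyapunov type matrix differential inequalities.
-/

namespace Vale.Agent.P371.G

open Set Topology Metric Matrix
open scoped Matrix.Norms.L2Operator ComplexOrder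

set_option linter.unusedSectionVars false

variable {n : Type*} [Fintype n] [DecidableEq n]

/-- real part of the quadratic form of a matrix -/
noncomputable def qf (A : Matrix n n ℂ) (v : n → ℂ) : ℝ := (star v ⬝ᵥ A *ᵥ v).re

lemma qf_add (A B : Matrix n n ℂ) (v : n → ℂ) : qf (A + B) v = qf A v + qf B v := by
  simp only [qf, add_mulVec, dotProduct_add, Complex.add_re]

lemma qf_sub (A B : Matrix n n ℂ) (v : n → ℂ) : qf (A - B) v = qf A v - qf B v := by
  simp only [qf, sub_mulVec, dotProduct_sub, Complex.sub_re]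

lemma qf_smul (r : ℝ) (A : Matrix n n ℂ) (v : n → ℂ) : qf (r • A) v = r * qf A v := by
  simp only [qf, smul_mulVec, dotProduct_smul, Complex.real_smul, Complex.mul_re, Complex.ofReal_re, Complex.ofReal_im, zero_mul, sub_zero]

lemma qf_one (v : n → ℂ) : qf (1 : Matrix n n ℂ) v = ∑ i, ‖v i‖ ^ 2 := by
  simp only [qf, one_mulVec, dotProduct, Pi.star_apply, Complex.re_sum]
  refine Finset.sum_congr rfl fun i _ => ?_
  rw [Complex.star_def, ← Complex.normSq_eq_conj_mul_self, Complex.normSq_eq_norm_sq]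
  exact Complex.ofReal_re _

lemma qf_one_pos {v : n → ℂ} (hv : v ≠ 0) : 0 < qf (1 : Matrix n n ℂ) v := by
  rw [qf_one]
  obtain ⟨i, hi⟩ := Function.ne_iff.1 hv
  refine Finset.sum_pos' (fun _ _ => by positivity) ⟨i, Finset.mem_univ _, ?_⟩
  have : v i ≠ 0 := hi
  positivity

lemma qf_one_eq_norm (v : n → ℂ) :
    qf (1 : Matrix n n ℂ) v = ‖(WithLp.toLp 2 v : EuclideanSpace ℂ n)‖ ^ 2 := by
  rw [qf_one, EuclideanSpace.norm_sq_eq]

lemma qf_eq_inner (A : Matrix n n ℂ) (v : n → ℂ) :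
    qf A v = (inner ℂ (WithLp.toLp 2 v : EuclideanSpace ℂ n)
      (WithLp.toLp 2 (A *ᵥ v) : EuclideanSpace ℂ n)).re := by
  rw [EuclideanSpace.inner_eq_star_dotProduct, dotProduct_comm]
  rfl

lemma abs_qf_le (A : Matrix n n ℂ) (v : n → ℂ) : |qf A v| ≤ ‖A‖ * qf (1 : Matrix n n ℂ) v := by
  rw [qf_eq_inner, qf_one_eq_norm]
  refine (Complex.abs_re_le_norm _).trans ((norm_inner_le_norm _ _).trans ?_)
  have h := l2_opNorm_mulVec A (WithLp.toLp 2 v : EuclideanSpace ℂ n)
  calc _ ≤ ‖(WithLp.toLp 2 v : EuclideanSpace ℂ n)‖ * (‖A‖ * ‖(WithLp.toLp 2 v : EuclideanSpace ℂ n)‖) := by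
        gcongr
        exact h
    _ = _ := by ring

/-- `qf` as a real linear map in the matrix -/
noncomputable def qfL (v : n → ℂ) : Matrix n n ℂ →L[ℝ] ℝ :=
  LinearMap.toContinuousLinearMap
    { toFun := fun A => qf A v
      map_add' := fun A B => qf_add A B v
      map_smul' := fun r A => by simpa using qf_smul r A v }

lemma posSemidef_iff_qf {A : Matrix n n ℂ} : A.PosSemidef ↔ A.IsHermitian ∧ ∀ v, 0 ≤ qf A v := by
  rw [posSemidef_iff_dotProduct_mulVec]
  refine and_congr_right fun hA => forall_congr' fun v => ?_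
  have him : (star v ⬝ᵥ A *ᵥ v).im = 0 := by
    have := hA.im_star_dotProduct_mulVec_self v
    simpa only [RCLike.im_to_complex] using this
  rw [Complex.le_def]
  simp only [Complex.zero_re, Complex.zero_im, him, and_true, qf]

lemma continuous_qf : Continuous fun p : Matrix n n ℂ × (n → ℂ) => qf p.1 p.2 := by
  unfold qf
  fun_prop

lemma qf_mul_zero_right {A X : Matrix n n ℂ} {v : n → ℂ} {r : ℝ} (h : X *ᵥ v = r • v) :
    qf (A * X) v = r * qf A v := by
  simp only [qf]
  rw [← mulVec_mulVec, h, mulVec_smul, dotProduct_smul]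
  simp only [Complex.real_smul, Complex.mul_re, Complex.ofReal_re, Complex.ofReal_im, zero_mul, sub_zero]

lemma qf_conjTranspose (A : Matrix n n ℂ) (v : n → ℂ) : qf Aᴴ v = qf A v := by
  have h : star v ⬝ᵥ Aᴴ *ᵥ v = star (star v ⬝ᵥ A *ᵥ v) := by
    rw [← star_dotProduct, star_mulVec, dotProduct_mulVec]
  rw [qf, h]
  simp only [RCLike.star_def, Complex.conj_re, qf]

lemma qf_smul_vec (A : Matrix n n ℂ) (r : ℝ) (v : n → ℂ) :
    qf A ((r : ℂ) • v) = r ^ 2 * qf A v := by
  simp only [qf, mulVec_smul, star_smul, smul_dotProduct, dotProduct_smul]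
  simp only [smul_eq_mul, Complex.star_def, Complex.conj_ofReal]
  rw [← mul_assoc, ← Complex.ofReal_mul, Complex.re_ofReal_mul]
  ring

lemma normalize_mem {v : n → ℂ} (hv : v ≠ 0) : ((‖v‖⁻¹ : ℝ) : ℂ) • v ∈ sphere (0 : n → ℂ) 1 := by
  have : ‖v‖ ≠ 0 := norm_ne_zero_iff.2 hv
  simp only [Complex.ofReal_inv, mem_sphere_iff_norm, sub_zero, norm_smul, norm_inv, Complex.norm_real, norm_norm, ne_eq, this, not_false_eq_true, inv_mul_cancel₀]

/-- first time argument with a strict differential inequality -/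
lemma posDef_of_strict {a b : ℝ} {X X' : ℝ → Matrix n n ℂ}
    (hX : ∀ t ∈ Icc a b, HasDerivWithinAt X (X' t) (Icc a b) t)
    (hherm : ∀ t ∈ Icc a b, (X t).IsHermitian)
    (h0 : ∀ v, v ≠ 0 → 0 < qf (X a) v)
    (h : ∀ t ∈ Icc a b, ∀ v, v ≠ 0 → X t *ᵥ v = 0 → 0 < qf (X' t) v) :
    ∀ t ∈ Icc a b, ∀ v, v ≠ 0 → 0 < qf (X t) v := by
  by_contra hcon
  push Not at hcon
  obtain ⟨t1, ht1, v1, hv1, hq1⟩ := hcon
  have hcont : ContinuousOn X (Icc a b) := fun t ht => (hX t ht).continuousWithinAt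
  -- the compact set of bad pairs
  set B : Set (ℝ × (n → ℂ)) := (Icc a b ×ˢ sphere (0 : n → ℂ) 1) ∩
    (fun p : ℝ × (n → ℂ) => qf (X p.1) p.2) ⁻¹' (Iic 0) with hB
  have hcq : ContinuousOn (fun p : ℝ × (n → ℂ) => qf (X p.1) p.2)
      (Icc a b ×ˢ sphere (0 : n → ℂ) 1) := by
    have hm : MapsTo (Prod.fst : ℝ × (n → ℂ) → ℝ) (Icc a b ×ˢ sphere (0 : n → ℂ) 1)
        (Icc a b) := fun p hp => hp.1
    have h0 : ContinuousOn (fun p : ℝ × (n → ℂ) => X p.1)
        (Icc a b ×ˢ sphere (0 : n → ℂ) 1) :=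
      ContinuousOn.comp hcont continuousOn_fst hm
    have h1 : ContinuousOn (fun p : ℝ × (n → ℂ) => (X p.1, p.2))
        (Icc a b ×ˢ sphere (0 : n → ℂ) 1) :=
      ContinuousOn.prodMk h0 continuousOn_snd
    exact (continuous_qf.comp_continuousOn h1 :)
  have hK : IsCompact (Icc a b ×ˢ sphere (0 : n → ℂ) 1) :=
    isCompact_Icc.prod (isCompact_sphere _ _)
  have hBc : IsCompact B :=
    hK.of_isClosed_subset (hcq.preimage_isClosed_of_isClosed hK.isClosed isClosed_Iic)
      inter_subset_left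
  have hBne : B.Nonempty := by
    refine ⟨(t1, ((‖v1‖⁻¹ : ℝ) : ℂ) • v1), ⟨ht1, normalize_mem hv1⟩, ?_⟩
    change qf (X t1) (((‖v1‖⁻¹ : ℝ) : ℂ) • v1) ≤ 0
    rw [qf_smul_vec]
    exact mul_nonpos_of_nonneg_of_nonpos (by positivity) hq1
  obtain ⟨⟨t0, v0⟩, ⟨⟨ht0, hv0⟩, hq0⟩, hmin⟩ := hBc.exists_isMinOn hBne continuous_fst.continuousOn
  simp only [mem_preimage, mem_Iic] at hq0
  have hv0ne : v0 ≠ 0 := by
    rintro rfl
    simp only [mem_sphere_iff_norm, sub_self, norm_zero, zero_ne_one] at hv0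
  -- before `t0` everything is positive
  have hbefore : ∀ t ∈ Icc a b, t < t0 → ∀ v, v ≠ 0 → 0 < qf (X t) v := by
    intro t ht htt v hv
    by_contra hle
    rw [not_lt] at hle
    have hmem : (t, ((‖v‖⁻¹ : ℝ) : ℂ) • v) ∈ B := by
      refine ⟨⟨ht, normalize_mem hv⟩, ?_⟩
      change qf (X t) (((‖v‖⁻¹ : ℝ) : ℂ) • v) ≤ 0
      rw [qf_smul_vec]
      exact mul_nonpos_of_nonneg_of_nonpos (by positivity) hle
    have := hmin hmem
    simp only [mem_ofPred_eq] at this
    linarith only [htt, this]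
  have hat0 : a < t0 := by
    rcases eq_or_lt_of_le ht0.1 with h2 | h2
    · have := h0 v0 hv0ne
      rw [h2] at this
      exact absurd hq0 (not_le.2 this)
    · exact h2
  -- positivity at `t0` in the weak sense
  have hne : (𝓝[Ico a t0] t0).NeBot := by
    rw [← mem_closure_iff_nhdsWithin_neBot, closure_Ico hat0.ne]
    exact right_mem_Icc.2 hat0.le
  have hsub : Ico a t0 ⊆ Icc a b := fun t ht => ⟨ht.1, ht.2.le.trans ht0.2⟩
  have hpsd : (X t0).PosSemidef := by
    rw [posSemidef_iff_qf]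
    refine ⟨hherm t0 ht0, fun v => ?_⟩
    have hlim : Filter.Tendsto (fun t => qf (X t) v) (𝓝[Ico a t0] t0) (𝓝 (qf (X t0) v)) := by
      have h3 : ContinuousWithinAt (fun t => qfL v (X t)) (Icc a b) t0 :=
        (qfL v).continuous.continuousAt.comp_continuousWithinAt (hcont t0 ht0)
      exact (h3.mono hsub)
    refine ge_of_tendsto hlim ?_
    filter_upwards [self_mem_nhdsWithin] with t ht
    rcases eq_or_ne v 0 with rfl | hv
    · simp only [qf, star_zero, mulVec_zero, dotProduct_zero, Complex.zero_re, Std.le_refl]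
    · exact (hbefore t (hsub ht) ht.2 v hv).le
  have hz : X t0 *ᵥ v0 = 0 := by
    rw [← hpsd.dotProduct_mulVec_zero_iff]
    have h4 := (posSemidef_iff_qf.1 hpsd).2 v0
    have h5 : qf (X t0) v0 = 0 := le_antisymm hq0 h4
    apply Complex.ext
    · exact h5
    · simpa only [Complex.zero_im, RCLike.im_to_complex] using (hherm t0 ht0).im_star_dotProduct_mulVec_self v0
  have hder : HasDerivWithinAt (fun t => qf (X t) v0) (qf (X' t0) v0) (Icc a b) t0 :=
    (qfL v0).hasFDerivAt.comp_hasDerivWithinAt t0 (hX t0 ht0)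
  have hpos := h t0 ht0 v0 hv0ne hz
  have hq00 : qf (X t0) v0 = 0 := by simp only [qf, hz, dotProduct_zero, Complex.zero_re]
  have hslope := (hasDerivWithinAt_iff_tendsto_slope.1 hder)
  have hsub2 : Ico a t0 ⊆ Icc a b \ {t0} := fun t ht => ⟨hsub ht, ht.2.ne⟩
  have h6 := (hslope.mono_left (nhdsWithin_mono _ hsub2)).eventually (lt_mem_nhds hpos)
  obtain ⟨t, ht, htI⟩ := (h6.and self_mem_nhdsWithin).exists
  have h7 := hbefore t (hsub htI) htI.2 v0 hv0ne
  rw [slope_def_field, hq00, sub_zero] at ht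
  have h8 : qf (X t) v0 / (t - t0) < 0 := div_neg_of_pos_of_neg h7 (by linarith only [htI])
  linarith only [ht, h8]

/-- comparison principle for Lyapunov differential inequalities -/
theorem posSemidef_of_lyapunov {a b : ℝ} {X X' G : ℝ → Matrix n n ℂ} {g : ℝ}
    (hX : ∀ t ∈ Icc a b, HasDerivWithinAt X (X' t) (Icc a b) t)
    (hherm : ∀ t ∈ Icc a b, (X t).IsHermitian)
    (h0 : (X a).PosSemidef) (hG : ∀ t ∈ Icc a b, ‖G t‖ ≤ g)
    (h : ∀ t ∈ Icc a b, ∀ v, 0 ≤ qf (X' t - (G t * X t + X t * (G t)ᴴ)) v) :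
    ∀ t ∈ Icc a b, (X t).PosSemidef := by
  intro t ht
  have hg : 0 ≤ g := (norm_nonneg _).trans (hG t ht)
  rw [posSemidef_iff_qf]
  refine ⟨hherm t ht, fun v => ?_⟩
  rcases eq_or_ne v 0 with rfl | hv
  · simp only [qf, star_zero, mulVec_zero, dotProduct_zero, Complex.zero_re, Std.le_refl]
  set L : ℝ := 2 * g + 1 with hL
  have key : ∀ ε : ℝ, 0 < ε → 0 < qf (X t + (ε * Real.exp (L * (t - a))) • (1 : Matrix n n ℂ)) v := by
    intro ε hε
    have hd : ∀ s ∈ Icc a b, HasDerivWithinAt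
        (fun s => X s + (ε * Real.exp (L * (s - a))) • (1 : Matrix n n ℂ))
        (X' s + (ε * (Real.exp (L * (s - a)) * L)) • (1 : Matrix n n ℂ)) (Icc a b) s := by
      intro s hs
      refine (hX s hs).add (HasDerivWithinAt.smul_const ?_ _)
      have h1 : HasDerivAt (fun s : ℝ => L * (s - a)) L s := by
        simpa using ((hasDerivAt_id s).sub_const a).const_mul L
      exact (h1.exp.const_mul ε).hasDerivWithinAt
    refine posDef_of_strict hd ?_ ?_ ?_ t ht v hv
    · intro s hs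
      refine (hherm s hs).add ?_
      rw [IsHermitian, conjTranspose_smul, conjTranspose_one]
      simp
    · intro w hw
      rw [qf_add, qf_smul]
      have := (posSemidef_iff_qf.1 h0).2 w
      have h2 := qf_one_pos hw
      positivity
    · intro s hs w hw hz
      have hXw : X s *ᵥ w = (-(ε * Real.exp (L * (s - a)))) • w := by
        rw [add_mulVec, smul_mulVec, one_mulVec] at hz
        rw [neg_smul]
        exact eq_neg_of_add_eq_zero_left hz
      have h1 := h s hs w
      rw [qf_sub, qf_add, qf_mul_zero_right hXw] at h1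
      have h2 : qf (X s * (G s)ᴴ) w = -(ε * Real.exp (L * (s - a))) * qf (G s) w := by
        have : X s * (G s)ᴴ = (G s * X s)ᴴ := by
          rw [conjTranspose_mul, (hherm s hs).eq]
        rw [this, qf_conjTranspose, qf_mul_zero_right hXw]
      rw [h2] at h1
      rw [qf_add, qf_smul]
      have h3 := abs_qf_le (G s) w
      have h4 := qf_one_pos hw
      have h5 := hG s hs
      have h6 : 0 < ε * Real.exp (L * (s - a)) := by positivity
      have h7 : qf (G s) w ≤ g * qf (1 : Matrix n n ℂ) w :=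
        (le_abs_self _).trans (h3.trans (by (clear * - h5 h4; gcongr)))
      have h8 : (ε * Real.exp (L * (s - a))) * qf (G s) w ≤
          (ε * Real.exp (L * (s - a))) * (g * qf (1 : Matrix n n ℂ) w) := by (clear * - h7 hε; gcongr)
      have h9 : 0 < (ε * Real.exp (L * (s - a))) * qf (1 : Matrix n n ℂ) w := by (clear * - hε h4; positivity)
      linarith
  have h1 : ∀ ε : ℝ, 0 < ε → -(ε * (Real.exp (L * (t - a)) * qf (1 : Matrix n n ℂ) v)) < qf (X t) v := by
    intro ε hε
    have := key ε hε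
    rw [qf_add, qf_smul] at this
    linarith
  by_contra hneg
  rw [not_le] at hneg
  have hc : 0 < Real.exp (L * (t - a)) * qf (1 : Matrix n n ℂ) v :=
    mul_pos (Real.exp_pos _) (qf_one_pos hv)
  have h2 := h1 (-qf (X t) v / (Real.exp (L * (t - a)) * qf (1 : Matrix n n ℂ) v))
    (div_pos (by linarith) hc)
  rw [div_mul_cancel₀ _ hc.ne'] at h2
  linarith

end Vale.Agent.P371.G
end
end

section

section

/-!
Elementary facts on Hermitian matrices (operator norm, lowest eigenvector).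
-/

namespace Vale.Agent.P371.G

open Set Topology Metric Matrix
open scoped Matrix.Norms.L2Operator ComplexOrder

set_option linter.unusedSectionVars false

variable {n : Type*} [Fintype n] [DecidableEq n]

lemma norm_unitary_le (U : Matrix.unitaryGroup n ℂ) : ‖(U : Matrix n n ℂ)‖ ≤ 1 := by
  have h : ‖(U : Matrix n n ℂ)‖ * ‖(U : Matrix n n ℂ)‖ = ‖(1 : Matrix n n ℂ)‖ := by
    rw [← l2_opNorm_conjTranspose_mul_self]
    congr 1
    exact U.2.1
  have h1 : ‖(1 : Matrix n n ℂ)‖ ≤ 1 := by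
    rw [← diagonal_one, l2_opNorm_diagonal]
    exact (pi_norm_le_iff_of_nonneg zero_le_one).2 fun i => by simp
  nlinarith only [h, h1]

lemma norm_le_of_eigenvalues {F : Matrix n n ℂ} (hF : F.IsHermitian) {r : ℝ} (hr : 0 ≤ r)
    (h : ∀ i, |hF.eigenvalues i| ≤ r) : ‖F‖ ≤ r := by
  have h1 : ‖(Matrix.diagonal (RCLike.ofReal ∘ hF.eigenvalues) : Matrix n n ℂ)‖ ≤ r := by
    rw [l2_opNorm_diagonal]
    exact (pi_norm_le_iff_of_nonneg hr).2 fun i => by simpa only [Complex.coe_algebraMap, Function.comp_apply, Complex.norm_real, Real.norm_eq_abs] using h i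
  have h2 := hF.spectral_theorem
  rw [Unitary.conjStarAlgAut_apply] at h2
  have h3 : ∀ (U V : Matrix n n ℂ) (D : Matrix n n ℂ), ‖U‖ ≤ 1 → ‖V‖ ≤ 1 → ‖D‖ ≤ r →
      ‖U * D * V‖ ≤ r := by
    intro U V D hU hV hD
    calc ‖U * D * V‖ ≤ ‖U * D‖ * ‖V‖ := norm_mul_le _ _
      _ ≤ (‖U‖ * ‖D‖) * ‖V‖ := by gcongr; exact norm_mul_le _ _
      _ ≤ (1 * r) * 1 := by (clear * - hU hD hV hr; gcongr)
      _ = r := by ring
  have h4 := h3 _ _ _ (norm_unitary_le hF.eigenvectorUnitary)
    (norm_unitary_le (star hF.eigenvectorUnitary)) h1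
  exact (congrArg norm h2).trans_le h4

lemma eigenvectorBasis_ne_zero {F : Matrix n n ℂ} (hF : F.IsHermitian) (i : n) :
    (⇑(hF.eigenvectorBasis i) : n → ℂ) ≠ 0 := by
  intro h
  have h1 := hF.eigenvectorBasis.orthonormal.1 i
  have h2 : hF.eigenvectorBasis i = 0 := by
    ext j
    exact congrFun h j
  rw [h2, norm_zero] at h1
  exact zero_ne_one h1

lemma qf_eigenvector {F : Matrix n n ℂ} {v : n → ℂ} {r : ℝ} (h : F *ᵥ v = r • v) :
    qf F v = r * qf (1 : Matrix n n ℂ) v := by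
  have := qf_mul_zero_right (A := (1 : Matrix n n ℂ)) h
  rwa [one_mul] at this

lemma norm_le_of_qf {F : Matrix n n ℂ} (hF : F.IsHermitian) {r : ℝ} (hr : 0 ≤ r)
    (h : ∀ v, |qf F v| ≤ r * qf (1 : Matrix n n ℂ) v) : ‖F‖ ≤ r := by
  refine norm_le_of_eigenvalues hF hr fun i => ?_
  have h1 := h (⇑(hF.eigenvectorBasis i))
  rw [qf_eigenvector (hF.mulVec_eigenvectorBasis i), abs_mul,
    abs_of_pos (qf_one_pos (eigenvectorBasis_ne_zero hF i))] at h1
  exact le_of_mul_le_mul_right h1 (qf_one_pos (eigenvectorBasis_ne_zero hF i))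

lemma re_trace_eq_sum {F : Matrix n n ℂ} (hF : F.IsHermitian) :
    F.trace.re = ∑ i, hF.eigenvalues i := by
  rw [hF.trace_eq_sum_eigenvalues]
  simp only [Complex.coe_algebraMap, Complex.re_sum, Complex.ofReal_re]

lemma norm_le_trace {K : Matrix n n ℂ} (hK : K.PosSemidef) : ‖K‖ ≤ K.trace.re := by
  have h0 : ∀ i, 0 ≤ hK.1.eigenvalues i := hK.eigenvalues_nonneg
  rw [re_trace_eq_sum hK.1]
  refine norm_le_of_eigenvalues hK.1 (Finset.sum_nonneg fun i _ => h0 i) fun i => ?_
  rw [abs_of_nonneg (h0 i)]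
  exact Finset.single_le_sum (f := hK.1.eigenvalues) (fun j _ => h0 j) (Finset.mem_univ i)

lemma exists_lowest [Nonempty n] {K : Matrix n n ℂ} (hK : K.IsHermitian) :
    ∃ (k : ℝ) (e : n → ℂ), e ≠ 0 ∧ K *ᵥ e = k • e ∧
      ∀ v, k * qf (1 : Matrix n n ℂ) v ≤ qf K v := by
  obtain ⟨i, hi⟩ := Finite.exists_min hK.eigenvalues
  refine ⟨hK.eigenvalues i, hK.eigenvectorBasis i, eigenvectorBasis_ne_zero hK i,
    hK.mulVec_eigenvectorBasis i, ?_⟩
  have hps : (K - hK.eigenvalues i • (1 : Matrix n n ℂ)).PosSemidef := by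
    have h1 : K - hK.eigenvalues i • (1 : Matrix n n ℂ)
        = (hK.eigenvectorUnitary : Matrix n n ℂ) *
          Matrix.diagonal (fun j => ((hK.eigenvalues j - hK.eigenvalues i : ℝ) : ℂ)) *
          (hK.eigenvectorUnitary : Matrix n n ℂ)ᴴ := by
      have h2 : (Matrix.diagonal (fun j => ((hK.eigenvalues j - hK.eigenvalues i : ℝ) : ℂ)) :
          Matrix n n ℂ) = Matrix.diagonal (RCLike.ofReal ∘ hK.eigenvalues)
            - hK.eigenvalues i • (1 : Matrix n n ℂ) := by
        ext a b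
        by_cases hab : a = b
        · subst hab; simp
        · simp only [Complex.ofReal_sub, ne_eq, hab, not_false_eq_true, diagonal_apply_ne, Complex.coe_algebraMap, Matrix.sub_apply, Matrix.smul_apply, one_apply_ne, smul_zero, sub_self]
      rw [h2, mul_sub, sub_mul]
      congr 1
      · conv_lhs => rw [hK.spectral_theorem, Unitary.conjStarAlgAut_apply]
        rfl
      · rw [mul_smul_comm, mul_one, smul_mul_assoc]
        congr 1
        exact hK.eigenvectorUnitary.2.2.symm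
    rw [h1]
    refine PosSemidef.mul_mul_conjTranspose_same ?_ _
    rw [posSemidef_diagonal_iff]
    intro j
    have := hi j
    exact_mod_cast sub_nonneg.2 this
  intro v
  have := (posSemidef_iff_qf.1 hps).2 v
  rw [qf_sub, qf_smul] at this
  linarith

/-- Hermitian part -/
noncomputable def hp (K : Matrix n n ℂ) : Matrix n n ℂ := (1 / 2 : ℝ) • (K + Kᴴ)

lemma hp_isHermitian (K : Matrix n n ℂ) : (hp K).IsHermitian := by
  rw [IsHermitian, hp, conjTranspose_smul, conjTranspose_add, conjTranspose_conjTranspose, add_comm]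
  simp only [one_div, star_trivial, smul_add]

lemma hp_eq_self {K : Matrix n n ℂ} (hK : K.IsHermitian) : hp K = K := by
  rw [hp, hK.eq, ← two_smul ℝ K, smul_smul]
  norm_num

lemma qf_hp (K : Matrix n n ℂ) (v : n → ℂ) : qf (hp K) v = qf K v := by
  rw [hp, qf_smul, qf_add, qf_conjTranspose]
  ring

lemma norm_hp_le (K : Matrix n n ℂ) : ‖hp K‖ ≤ ‖K‖ := by
  rw [hp, norm_smul]
  calc ‖(1 / 2 : ℝ)‖ * ‖K + Kᴴ‖ ≤ 1 / 2 * (‖K‖ + ‖Kᴴ‖) := by
        gcongr
        · norm_num
        · exact norm_add_le _ _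
    _ = ‖K‖ := by rw [l2_opNorm_conjTranspose]; ring

lemma continuous_hp : Continuous (hp : Matrix n n ℂ → Matrix n n ℂ) := by
  unfold hp
  fun_prop

lemma posDef_of_qf {K : Matrix n n ℂ} (hK : K.IsHermitian) (h : ∀ v, v ≠ 0 → 0 < qf K v) :
    K.PosDef := by
  rw [posDef_iff_dotProduct_mulVec]
  refine ⟨hK, fun v hv => ?_⟩
  have him : (star v ⬝ᵥ K *ᵥ v).im = 0 := by
    have := hK.im_star_dotProduct_mulVec_self v
    simpa only [RCLike.im_to_complex] using this
  rw [Complex.lt_def]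
  exact ⟨by simpa only [Complex.zero_re, qf] using h v hv, by simp only [Complex.zero_im, him]⟩

end Vale.Agent.P371.G
end
end

section

section

open MeasureTheory Matrix Set Topology

namespace Vale.Agent.P371.Ext

/-- The determinant as a continuous multilinear function of the rows. -/
noncomputable def detC (n : ℕ) : ContinuousMultilinearMap ℝ (fun _ : Fin n => (Fin n → ℝ)) ℝ :=
  { toMultilinearMap := (Matrix.detRowAlternating : (Fin n → ℝ) [⋀^Fin n]→ₗ[ℝ] ℝ).toMultilinearMap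
    cont := by
      have : Continuous fun a : Fin n → (Fin n → ℝ) => Matrix.det (Matrix.of a) := by
        apply Continuous.matrix_det
        exact continuous_id
      exact this }

lemma detC_apply (n : ℕ) (a : Fin n → (Fin n → ℝ)) : detC n a = Matrix.det (Matrix.of a) := rfl

lemma detC_swap {n : ℕ} (a : Fin n → (Fin n → ℝ)) {i j : Fin n} (hij : i ≠ j) :
    detC n (a ∘ Equiv.swap i j) = - detC n a :=
  (Matrix.detRowAlternating : (Fin n → ℝ) [⋀^Fin n]→ₗ[ℝ] ℝ).map_swap a hij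

variable {n : ℕ}

/-- rows of the (transposed) Jacobian matrix -/
noncomputable def rows (f : (Fin n → ℝ) → (Fin n → ℝ)) (x : Fin n → ℝ) : Fin n → (Fin n → ℝ) :=
  fun j => fderiv ℝ f x (Pi.single j 1)

lemma det_fderiv_eq (f : (Fin n → ℝ) → (Fin n → ℝ)) (x : Fin n → ℝ) :
    (fderiv ℝ f x).det = detC n (rows f x) := by
  rw [detC_apply, ContinuousLinearMap.det, ← LinearMap.det_toMatrix', ← Matrix.det_transpose]
  congr 1

lemma cramer_rows (a : Fin n → (Fin n → ℝ)) (u : Fin n → ℝ) :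
    ∑ j, detC n (Function.update a j u) • a j = detC n a • u := by
  have h := Matrix.mulVec_cramer (Matrix.of a)ᵀ u
  rw [Matrix.det_transpose] at h
  ext k
  have hk := congrFun h k
  simp only [Matrix.mulVec, dotProduct, Matrix.transpose_apply, Matrix.of_apply,
    Matrix.cramer_transpose_apply] at hk
  simp only [Finset.sum_apply, Pi.smul_apply, smul_eq_mul, detC_apply]
  rw [Pi.smul_apply, smul_eq_mul] at hk
  rw [← hk]
  refine Finset.sum_congr rfl fun j _ => ?_
  rw [mul_comm]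
  rfl

lemma hasFDerivAt_rows {f : (Fin n → ℝ) → (Fin n → ℝ)} (hf : ContDiff ℝ 2 f) (x : Fin n → ℝ)
    (i : Fin n) :
    HasFDerivAt (fun y => rows f y i)
      ((ContinuousLinearMap.apply ℝ (Fin n → ℝ) (Pi.single i (1 : ℝ))).comp
        (fderiv ℝ (fderiv ℝ f) x)) x := by
  have h1 : HasFDerivAt (fderiv ℝ f) (fderiv ℝ (fderiv ℝ f) x) x := by
    have : ContDiff ℝ 1 (fderiv ℝ f) := hf.fderiv_right (by norm_num)
    exact (this.differentiable (by norm_num) x).hasFDerivAt
  exact (ContinuousLinearMap.apply ℝ (Fin n → ℝ) (Pi.single i (1 : ℝ))).hasFDerivAt.comp x h1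

/-- antisymmetric double sums vanish -/
lemma sum_antisymm {T : Fin n → Fin n → ℝ} (hT : ∀ i j, i ≠ j → T i j = - T j i) :
    ∑ j, ∑ i, (if i = j then 0 else T i j) = 0 := by
  have h1 : ∑ j, ∑ i, (if i = j then 0 else T i j) = ∑ j, ∑ i, (if i = j then 0 else T j i) := by
    rw [Finset.sum_comm]
    refine Finset.sum_congr rfl fun i _ => Finset.sum_congr rfl fun j _ => ?_
    by_cases h : i = j
    · simp [h]
    · simp [h, Ne.symm h]
  have h2 : ∑ j, ∑ i, (if i = j then 0 else T j i) = - ∑ j, ∑ i, (if i = j then 0 else T i j) := by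
    rw [← Finset.sum_neg_distrib]
    refine Finset.sum_congr rfl fun i _ => ?_
    rw [← Finset.sum_neg_distrib]
    refine Finset.sum_congr rfl fun j _ => ?_
    by_cases h : j = i
    · simp [h]
    · simp [h, hT i j (Ne.symm h)]
  linarith only [h1, h2]

lemma hasFDerivAt_upd {f u : (Fin n → ℝ) → (Fin n → ℝ)} (hf : ContDiff ℝ 2 f) {x : Fin n → ℝ}
    {u' : (Fin n → ℝ) →L[ℝ] (Fin n → ℝ)}
    (hu : HasFDerivAt u u' x) (j : Fin n) :
    HasFDerivAt (fun y => Function.update (rows f y) j (u y))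
      (ContinuousLinearMap.pi fun i => if i = j then u' else
        ((ContinuousLinearMap.apply ℝ (Fin n → ℝ) (Pi.single i (1 : ℝ))).comp
        (fderiv ℝ (fderiv ℝ f) x))) x := by
  rw [hasFDerivAt_pi]
  intro i
  by_cases h : i = j
  · subst h
    simpa only [Function.update_self, ↓reduceIte, hasFDerivAt_pi'] using hu
  · simpa only [ne_eq, h, not_false_eq_true, Function.update_of_ne, ↓reduceIte, hasFDerivAt_pi'] using     hasFDerivAt_rows hf x i

lemma swap_update {a : Fin n → (Fin n → ℝ)} {u b : Fin n → ℝ} {i j : Fin n} (h : i ≠ j) :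
    (Function.update (Function.update a j u) i b) ∘ Equiv.swap i j
      = Function.update (Function.update a i u) j b := by
  funext k
  simp only [Function.comp_apply]
  by_cases hi : k = i
  · subst hi
    rw [Equiv.swap_apply_left]
    simp [h, h.symm]
  · by_cases hj : k = j
    · subst hj
      rw [Equiv.swap_apply_right]
      simp
    · rw [Equiv.swap_apply_of_ne_of_ne hi hj]
      simp [hi, hj]

/-- **Piola identity** -/
lemma piola {f u : (Fin n → ℝ) → (Fin n → ℝ)} (hf : ContDiff ℝ 2 f) {x : Fin n → ℝ}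
    {u' : (Fin n → ℝ) →L[ℝ] (Fin n → ℝ)} (hu : HasFDerivAt u u' x) :
    ∑ j, fderiv ℝ (fun y => detC n (Function.update (rows f y) j (u y))) x (Pi.single j 1)
      = ∑ j, detC n (Function.update (rows f x) j (u' (Pi.single j 1))) := by
  set B : Fin n → Fin n → (Fin n → ℝ) := fun i j =>
    fderiv ℝ (fderiv ℝ f) x (Pi.single j 1) (Pi.single i 1) with hB
  have hBs : ∀ i j, B i j = B j i := by
    intro i j
    have := (hf.contDiffAt (x := x)).isSymmSndFDerivAt (by simp)
    exact this _ _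
  set a := rows f x with ha
  have key : ∀ j, fderiv ℝ (fun y => detC n (Function.update (rows f y) j (u y))) x (Pi.single j 1)
      = detC n (Function.update a j (u' (Pi.single j 1))) +
        ∑ i, (if i = j then 0 else detC n (Function.update (Function.update a j (u x)) i (B i j))) := by
    intro j
    have h1 := ((detC n).hasFDerivAt (Function.update (rows f x) j (u x))).comp x
      (hasFDerivAt_upd hf hu j)
    have h2 : fderiv ℝ (fun y => detC n (Function.update (rows f y) j (u y))) x = _ :=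
      h1.fderiv
    rw [h2]
    simp only [ContinuousLinearMap.comp_apply, ContinuousMultilinearMap.linearDeriv_apply,
      ContinuousLinearMap.pi_apply]
    rw [← Finset.add_sum_erase Finset.univ _ (Finset.mem_univ j)]
    congr 1
    · simp [Function.update_idem, ha]
    · rw [← Finset.add_sum_erase Finset.univ (fun i => if i = j then 0 else _) (Finset.mem_univ j)]
      simp only [if_true, zero_add]
      refine Finset.sum_congr rfl fun i hi => ?_
      have hij : i ≠ j := Finset.ne_of_mem_erase hi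
      simp only [if_neg hij]
      rfl
  rw [Finset.sum_congr rfl fun j _ => key j, Finset.sum_add_distrib]
  rw [sum_antisymm (T := fun i j => detC n (Function.update (Function.update a j (u x)) i (B i j)))]
  · simp only [add_zero]
  · intro i j hij
    have h3 := detC_swap (Function.update (Function.update a j (u x)) i (B i j)) hij
    rw [swap_update hij] at h3
    rw [hBs j i, h3]
    simp

lemma contDiff_rows {f : (Fin n → ℝ) → (Fin n → ℝ)} {m k : WithTop ℕ∞} (hf : ContDiff ℝ m f)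
    (hk : k + 1 ≤ m) : ContDiff ℝ k (rows f) := by
  rw [contDiff_pi]
  intro i
  exact (hf.fderiv_right hk).clm_apply contDiff_const

lemma differentiable_upd {f u : (Fin n → ℝ) → (Fin n → ℝ)} (hf : ContDiff ℝ 2 f)
    (hu : Differentiable ℝ u) (j : Fin n) :
    Differentiable ℝ (fun y => detC n (Function.update (rows f y) j (u y))) := by
  intro x
  exact (((detC n).hasFDerivAt (Function.update (rows f x) j (u x))).comp x
      (hasFDerivAt_upd hf (hu x).hasFDerivAt j)).differentiableAt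

lemma div_eq {f u : (Fin n → ℝ) → (Fin n → ℝ)} {φ : (Fin n → ℝ) → ℝ} (hf : ContDiff ℝ 2 f)
    (hu : Differentiable ℝ u) (hφ : Differentiable ℝ φ) (x : Fin n → ℝ) :
    ∑ j, fderiv ℝ (fun y => φ (f y) * detC n (Function.update (rows f y) j (u y))) x
        (Pi.single j 1)
      = fderiv ℝ φ (f x) (u x) * detC n (rows f x)
        + φ (f x) * ∑ j, detC n (Function.update (rows f x) j (rows u x j)) := by
  have hfd : Differentiable ℝ f := hf.differentiable (by norm_num)
  have h1 : ∀ j, fderiv ℝ (fun y => φ (f y) * detC n (Function.update (rows f y) j (u y))) x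
      (Pi.single j 1) = fderiv ℝ φ (f x) (detC n (Function.update (rows f x) j (u x)) • rows f x j)
        + φ (f x) * fderiv ℝ (fun y => detC n (Function.update (rows f y) j (u y))) x
          (Pi.single j 1) := by
    intro j
    have hφf : HasFDerivAt (fun y => φ (f y)) ((fderiv ℝ φ (f x)).comp (fderiv ℝ f x)) x :=
      (hφ (f x)).hasFDerivAt.comp x (hfd x).hasFDerivAt
    have h2 : HasFDerivAt (fun y => φ (f y) * detC n (Function.update (rows f y) j (u y))) _ x :=
      hφf.mul (differentiable_upd hf hu j x).hasFDerivAt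
    rw [h2.fderiv]
    simp only [_root_.add_apply, _root_.smul_apply,
      ContinuousLinearMap.comp_apply, smul_eq_mul, map_smul, rows]
    ring
  rw [Finset.sum_congr rfl fun j _ => h1 j, Finset.sum_add_distrib, ← map_sum, cramer_rows,
    ← Finset.mul_sum, piola hf (hu x).hasFDerivAt]
  simp only [map_smul, smul_eq_mul, rows]
  ring

lemma rows_add_smul {f u : (Fin n → ℝ) → (Fin n → ℝ)} (hf : Differentiable ℝ f)
    (hu : Differentiable ℝ u) (t : ℝ) (x : Fin n → ℝ) :
    rows (fun y => f y + t • u y) x = rows f x + t • rows u x := by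
  funext j
  simp only [rows, Pi.add_apply, Pi.smul_apply]
  have h : HasFDerivAt (fun y => f y + t • u y) (fderiv ℝ f x + t • fderiv ℝ u x) x :=
    (hf x).hasFDerivAt.add ((hu x).hasFDerivAt.const_smul t)
  rw [h.fderiv]
  rfl

lemma hasDerivAt_time {f u : (Fin n → ℝ) → (Fin n → ℝ)} {φ : (Fin n → ℝ) → ℝ}
    (hf : Differentiable ℝ f)
    (hu : Differentiable ℝ u) (hφ : Differentiable ℝ φ) (x : Fin n → ℝ) (t : ℝ) :
    HasDerivAt (fun s : ℝ => φ (f x + s • u x) * detC n (rows (fun y => f y + s • u y) x))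
      (fderiv ℝ φ (f x + t • u x) (u x) * detC n (rows (fun y => f y + t • u y) x)
        + φ (f x + t • u x) *
          ∑ j, detC n (Function.update (rows (fun y => f y + t • u y) x) j (rows u x j))) t := by
  have h0 : HasDerivAt (fun s : ℝ => f x + s • u x) (u x) t := by
    simpa using ((hasDerivAt_id t).smul_const (u x)).const_add (f x)
  have h1 : HasDerivAt (fun s : ℝ => φ (f x + s • u x)) (fderiv ℝ φ (f x + t • u x) (u x)) t :=
    (hφ (f x + t • u x)).hasFDerivAt.comp_hasDerivAt t h0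
  have h2 : HasDerivAt (fun s : ℝ => rows f x + s • rows u x) (rows u x) t := by
    simpa using ((hasDerivAt_id t).smul_const (rows u x)).const_add (rows f x)
  have h3 : HasDerivAt (fun s : ℝ => detC n (rows f x + s • rows u x))
      (∑ j, detC n (Function.update (rows f x + t • rows u x) j (rows u x j))) t := by
    have := ((detC n).hasFDerivAt (rows f x + t • rows u x)).comp_hasDerivAt t h2
    rwa [ContinuousMultilinearMap.linearDeriv_apply] at this
  simp only [rows_add_smul hf hu]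
  exact h1.mul h3

end Vale.Agent.P371.Ext
end
end

section

section

open MeasureTheory Matrix Set Topology

namespace Vale.Agent.P371.Ext

variable {n : ℕ}

lemma continuous_detC : Continuous (detC n) := (detC n).cont

/-- time derivative of the integrand -/
noncomputable def tder (φ : (Fin n → ℝ) → ℝ) (f u : (Fin n → ℝ) → (Fin n → ℝ)) (t : ℝ)
    (x : Fin n → ℝ) : ℝ :=
  fderiv ℝ φ (f x + t • u x) (u x) * detC n (rows f x + t • rows u x)
    + φ (f x + t • u x) *
      ∑ j, detC n (Function.update (rows f x + t • rows u x) j (rows u x j))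

lemma continuous_tder {φ : (Fin n → ℝ) → ℝ} {f u : (Fin n → ℝ) → (Fin n → ℝ)}
    (hφ : ContDiff ℝ 1 φ) (hf : ContDiff ℝ 2 f) (hu : ContDiff ℝ 2 u) :
    Continuous (fun q : ℝ × (Fin n → ℝ) => tder φ f u q.1 q.2) := by
  have h1 : Continuous (rows f) := (contDiff_rows (k := 1) hf (by norm_num)).continuous
  have h2 : Continuous (rows u) := (contDiff_rows (k := 1) hu (by norm_num)).continuous
  have h3 : Continuous f := hf.continuous
  have h4 : Continuous u := hu.continuous
  have h5 : Continuous φ := hφ.continuous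
  have h6 : Continuous (fderiv ℝ φ) := hφ.continuous_fderiv (by norm_num)
  have h7 : Continuous (detC n) := continuous_detC
  unfold tder
  refine Continuous.add (Continuous.mul ?_ ?_) (Continuous.mul ?_ ?_)
  · exact (h6.comp (by fun_prop)).clm_apply (by fun_prop)
  · exact h7.comp (by fun_prop)
  · exact h5.comp (by fun_prop)
  · refine continuous_finsetSum _ fun j _ => h7.comp ?_
    refine Continuous.update (by fun_prop) j ?_
    exact (continuous_apply j).comp (h2.comp continuous_snd)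

lemma integral_const_in_time {φ χ : (Fin n → ℝ) → ℝ} {f u : (Fin n → ℝ) → (Fin n → ℝ)}
    (hφ : ContDiff ℝ 1 φ) (hf : ContDiff ℝ 2 f) (hu : ContDiff ℝ 2 u)
    (hχ : ContDiff ℝ 1 χ) (hχc : HasCompactSupport χ)
    (h : ∀ t ∈ Icc (0:ℝ) 1, ∀ x, φ (f x + t • u x) ≠ 0 → fderiv ℝ χ x = 0) :
    ∫ x, χ x * (φ (f x + u x) * detC n (rows (fun y => f y + u y) x))
      = ∫ x, χ x * (φ (f x) * detC n (rows f x)) := by
  have hfd : Differentiable ℝ f := hf.differentiable (by norm_num)
  have hud : Differentiable ℝ u := hu.differentiable (by norm_num)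
  have hφd : Differentiable ℝ φ := hφ.differentiable (by norm_num)
  have c1 : Continuous (rows f) := (contDiff_rows (k := 1) hf (by norm_num)).continuous
  have c2 : Continuous (rows u) := (contDiff_rows (k := 1) hu (by norm_num)).continuous
  have c3 : Continuous f := hf.continuous
  have c4 : Continuous u := hu.continuous
  have c5 : Continuous φ := hφ.continuous
  have c7 : Continuous (detC n) := continuous_detC
  have c8 : Continuous χ := hχ.continuous
  set G : ℝ → (Fin n → ℝ) → ℝ := fun t x =>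
    χ x * (φ (f x + t • u x) * detC n (rows (fun y => f y + t • u y) x)) with hG
  set G' : ℝ → (Fin n → ℝ) → ℝ := fun t x => χ x * tder φ f u t x with hG'
  have hGcont : ∀ t, Continuous (G t) := by
    intro t
    simp only [hG, rows_add_smul hfd hud]
    exact c8.mul ((c5.comp (by fun_prop)).mul (c7.comp (by fun_prop)))
  have hG'cont : Continuous (fun q : ℝ × (Fin n → ℝ) => G' q.1 q.2) :=
    (c8.comp continuous_snd).mul (continuous_tder hφ hf hu)
  have hderiv : ∀ t x, HasDerivAt (fun s => G s x) (G' t x) t := by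
    intro t x
    have := (hasDerivAt_time hfd hud hφd x t).const_mul (χ x)
    simp only [hG, hG', tder]
    simpa only [rows_add_smul hfd hud] using this
  have hD : ∀ t, HasDerivAt (fun s => ∫ x, G s x) (∫ x, G' t x) t := by
    intro t
    have hK : IsCompact (Icc (t - 1) (t + 1) ×ˢ tsupport χ) := isCompact_Icc.prod hχc
    obtain ⟨C, hC⟩ := hK.exists_bound_of_continuousOn hG'cont.continuousOn
    refine (hasDerivAt_integral_of_dominated_loc_of_deriv_le (μ := volume) (F := G) (F' := G')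
      (bound := (tsupport χ).indicator (fun _ => C)) (s := Icc (t - 1) (t + 1)) (x₀ := t)
      (Icc_mem_nhds (by linarith) (by linarith)) ?_ ?_ ?_ ?_ ?_ ?_).2
    · exact Filter.Eventually.of_forall fun s => (hGcont s).aestronglyMeasurable
    · exact (hGcont t).integrable_of_hasCompactSupport (hχc.mul_right)
    · exact (hG'cont.comp (Continuous.prodMk_right t)).aestronglyMeasurable
    · refine Filter.Eventually.of_forall fun x s hs => ?_
      by_cases hx : x ∈ tsupport χ
      · rw [indicator_of_mem hx]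
        exact hC (s, x) ⟨hs, hx⟩
      · rw [indicator_of_notMem hx]
        simp [hG', image_eq_zero_of_notMem_tsupport hx]
    · rw [integrable_indicator_iff (isClosed_tsupport χ).measurableSet]
      exact integrableOn_const hχc.measure_lt_top.ne
    · exact Filter.Eventually.of_forall fun x s _ => hderiv s x
  have hzero : ∀ t ∈ Icc (0:ℝ) 1, ∫ x, G' t x = 0 := by
    intro t ht
    set ft : (Fin n → ℝ) → (Fin n → ℝ) := fun y => f y + t • u y with hft
    have hftC : ContDiff ℝ 2 ft := hf.add (hu.const_smul t)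
    set hj : Fin n → (Fin n → ℝ) → ℝ := fun j y =>
      φ (ft y) * detC n (Function.update (rows ft y) j (u y)) with hhj
    have hjC : ∀ j, ContDiff ℝ 1 (hj j) := by
      intro j
      refine (hφ.comp (hftC.of_le (by norm_num))).mul ?_
      refine (detC n).contDiff.comp ?_
      rw [contDiff_pi]
      intro i
      by_cases hij : i = j
      · subst hij
        simpa using hu.of_le (by norm_num)
      · simp only [Function.update_of_ne hij]
        exact contDiff_pi.1 (contDiff_rows (k := 1) hftC (by norm_num)) i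
    have e1 : ∀ x, G' t x = ∑ j, χ x * fderiv ℝ (hj j) x (Pi.single j 1) := by
      intro x
      rw [← Finset.mul_sum]
      simp only [hG', hhj]
      rw [div_eq hftC hud hφd x]
      simp only [tder, hft, rows_add_smul hfd hud]
    have hint : ∀ j, Integrable (fun x => χ x * fderiv ℝ (hj j) x (Pi.single j 1)) := by
      intro j
      refine Continuous.integrable_of_hasCompactSupport ?_ hχc.mul_right
      exact c8.mul (((hjC j).continuous_fderiv (by norm_num)).clm_apply continuous_const)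
    rw [integral_congr_ae (Filter.Eventually.of_forall e1), integral_finsetSum _ fun j _ => hint j]
    refine Finset.sum_eq_zero fun j _ => ?_
    have hz : ∀ x, fderiv ℝ χ x (Pi.single j 1) * hj j x = 0 := by
      intro x
      by_cases hx : φ (ft x) = 0
      · simp [hhj, hx]
      · rw [h t ht x hx]
        simp
    rw [integral_mul_fderiv_eq_neg_fderiv_mul_of_integrable]
    · simp [hz]
    · simp only [hz, integrable_fun_zero]
    · exact hint j
    · exact Continuous.integrable_of_hasCompactSupport (c8.mul (hjC j).continuous) hχc.mul_right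
    · exact fun x _ => (hχ.differentiable (by norm_num)) x
    · exact fun x _ => ((hjC j).differentiable (by norm_num)) x
  have hconst := constant_of_has_deriv_right_zero (f := fun s => ∫ x, G s x) (a := 0) (b := 1)
    (fun s _ => (hD s).continuousAt.continuousWithinAt) (fun s hs => by
      have := (hD s).hasDerivWithinAt (s := Ici s)
      rwa [hzero s ⟨hs.1, hs.2.le⟩] at this) 1 (by simp only [mem_Icc, zero_le_one, Std.le_refl, and_self])
  simpa only [hG, one_smul, zero_smul, add_zero] using hconst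

end Vale.Agent.P371.Ext
end
end

section

section

open MeasureTheory Matrix Set Topology Bornology
open scoped ContDiff Manifold

namespace Vale.Agent.P371.Ext

variable {n : ℕ}

lemma two_le_infty : (2 : WithTop ℕ∞) ≤ ∞ := WithTop.coe_le_coe.2 le_top

lemma exists_smooth_approx {f : (Fin n → ℝ) → (Fin n → ℝ)} {K : Set (Fin n → ℝ)}
    (hK : IsCompact K) (hf : ContinuousOn f K) {ε : ℝ} (hε : 0 < ε) :
    ∃ g : (Fin n → ℝ) → (Fin n → ℝ), ContDiff ℝ ∞ g ∧ ∀ x ∈ K, ‖g x - f x‖ < ε := by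
  obtain ⟨F, hF⟩ := ContinuousMap.exists_restrict_eq hK.isClosed
    (⟨K.domRestrict f, continuousOn_iff_continuous_domRestrict.1 hf⟩ : C(K, Fin n → ℝ))
  have hFf : ∀ x ∈ K, F x = f x := by
    intro x hx
    exact congrArg (fun G : C(K, Fin n → ℝ) => G ⟨x, hx⟩) hF
  have hd := ContinuousMap.dense_setOfPred_contDiff (E := Fin n → ℝ) (F := Fin n → ℝ) F
  rw [mem_closure_iff_nhds_basis
    (nhds_basis_uniformity Metric.uniformity_basis_dist.compactConvergenceUniformity)] at hd
  obtain ⟨g, hg1, hg2⟩ := hd (K, ε) ⟨hK, hε⟩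
  refine ⟨g, hg1, fun x hx => ?_⟩
  have := hg2 x hx
  rw [← hFf x hx, ← dist_eq_norm]
  exact this

lemma exists_cutoff {C W : Set (Fin n → ℝ)} (hC : IsCompact C) (hW : IsOpen W)
    (hWb : IsBounded W) (hCW : C ⊆ W) :
    ∃ χ : (Fin n → ℝ) → ℝ, ContDiff ℝ ∞ χ ∧ HasCompactSupport χ ∧ tsupport χ ⊆ W ∧
      ∀ x ∈ C, χ =ᶠ[𝓝 x] fun _ => 1 := by
  obtain ⟨χ, h0, h1, -⟩ := exists_contMDiffMap_zero_one_nhds_of_isClosed (n := ⊤)
    𝓘(ℝ, Fin n → ℝ) (s := Wᶜ) (t := C) hW.isClosed_compl hC.isClosed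
    (disjoint_left.2 fun x hx hx' => hx (hCW hx'))
  have hts : tsupport χ ⊆ W := by
    rw [Filter.eventually_iff_exists_mem] at h0
    obtain ⟨U, hU, hU0⟩ := h0
    rw [mem_nhdsSet_iff_exists] at hU
    obtain ⟨U', hU'o, hU'1, hU'2⟩ := hU
    have h2 : tsupport χ ⊆ U'ᶜ := by
      apply closure_minimal _ hU'o.isClosed_compl
      intro x hx hxU
      exact hx (hU0 x (hU'2 hxU))
    intro x hx
    by_contra hxW
    exact h2 hx (hU'1 hxW)
  refine ⟨χ, χ.contMDiff.contDiff, ?_, hts, ?_⟩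
  · exact Metric.isCompact_of_isClosed_isBounded (isClosed_tsupport _) (hWb.subset hts)
  · intro x hx
    exact (eventually_nhdsSet_iff_forall.1 h1) x hx

/-- A fixed smooth bump function on `ℝⁿ`, supported in the unit ball, with integral one. -/
noncomputable def bumpFun (n : ℕ) : ContDiffBump (0 : Fin n → ℝ) := ⟨1 / 2, 1, by norm_num, by norm_num⟩

noncomputable def phi (n : ℕ) : (Fin n → ℝ) → ℝ := (bumpFun n).normed volume

lemma phi_contDiff : ContDiff ℝ ∞ (phi n) := (bumpFun n).contDiff_normed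

lemma phi_integral : ∫ x, phi n x = 1 := (bumpFun n).integral_normed

lemma phi_zero {x : Fin n → ℝ} (hx : 1 ≤ ‖x‖) : phi n x = 0 := by
  have h : Function.support (phi n) = Metric.ball 0 1 := (bumpFun n).support_normed_eq
  by_contra h'
  have : x ∈ Function.support (phi n) := h'
  rw [h, mem_ball_zero_iff] at this
  linarith

lemma phi_ne_zero {x : Fin n → ℝ} (hx : phi n x ≠ 0) : ‖x‖ < 1 := by
  by_contra h
  exact hx (phi_zero (not_lt.1 h))

/-- The smooth degree integral -/
noncomputable def J (f : (Fin n → ℝ) → (Fin n → ℝ)) (W : Set (Fin n → ℝ)) : ℝ :=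
  ∫ x in W, phi n (f x) * detC n (rows f x)

lemma J_eq_cutoff {f : (Fin n → ℝ) → (Fin n → ℝ)} {W : Set (Fin n → ℝ)} (hW : IsOpen W)
    {χ : (Fin n → ℝ) → ℝ} (h1 : tsupport χ ⊆ W) (h2 : ∀ x ∈ W, ‖f x‖ < 1 → χ x = 1) :
    J f W = ∫ x, χ x * (phi n (f x) * detC n (rows f x)) := by
  rw [J, ← integral_indicator hW.measurableSet]
  refine integral_congr_ae (Filter.Eventually.of_forall fun x => ?_)
  by_cases hx : x ∈ W
  · simp only [indicator_of_mem hx]
    by_cases hf : phi n (f x) = 0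
    · simp [hf]
    · rw [h2 x hx (phi_ne_zero hf), one_mul]
  · simp only [indicator_of_notMem hx]
    rw [image_eq_zero_of_notMem_tsupport (fun h => hx (h1 h)), zero_mul]

lemma frontier_compact {W : Set (Fin n → ℝ)} (hWb : IsBounded W) : IsCompact (frontier W) :=
  Metric.isCompact_of_isClosed_isBounded isClosed_frontier
    (hWb.closure.subset frontier_subset_closure)

lemma closure_compact {W : Set (Fin n → ℝ)} (hWb : IsBounded W) : IsCompact (closure W) :=
  Metric.isCompact_of_isClosed_isBounded isClosed_closure hWb.closure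

/-- homotopy invariance for smooth maps -/
lemma J_homotopy {f g : (Fin n → ℝ) → (Fin n → ℝ)} {W : Set (Fin n → ℝ)} (hW : IsOpen W)
    (hWb : IsBounded W) (hf : ContDiff ℝ ∞ f) (hg : ContDiff ℝ ∞ g)
    (h : ∀ x ∈ frontier W, ∀ t ∈ Icc (0:ℝ) 1, 1 < ‖(1 - t) • f x + t • g x‖) :
    J f W = J g W := by
  set F : ℝ × (Fin n → ℝ) → (Fin n → ℝ) := fun q => (1 - q.1) • f q.2 + q.1 • g q.2 with hF
  have hFc : Continuous F := by
    have := hf.continuous
    have := hg.continuous
    (clear W hW hWb h hF; fun_prop)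
  set C0 : Set (ℝ × (Fin n → ℝ)) := (Icc (0:ℝ) 1 ×ˢ closure W) ∩ {q | ‖F q‖ ≤ 1} with hC0
  have hC0c : IsCompact C0 :=
    (isCompact_Icc.prod (closure_compact hWb)).inter_right
      (isClosed_le hFc.norm continuous_const)
  set C := Prod.snd '' C0 with hC
  have hCc : IsCompact C := hC0c.image continuous_snd
  have hCW : C ⊆ W := by
    rintro x ⟨⟨t, y⟩, ⟨⟨ht, hy⟩, hq⟩, rfl⟩
    simp only at ht hy hq ⊢
    by_contra hyW
    have hyf : y ∈ frontier W := by
      rw [hW.frontier_eq]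
      exact ⟨hy, hyW⟩
    have := h y hyf t ht
    simp only [hF, mem_ofPred_eq] at hq
    linarith only [this, hq]
  obtain ⟨χ, hχ1, hχ2, hχ3, hχ4⟩ := exists_cutoff hCc hW hWb hCW
  have e : ∀ t ∈ Icc (0:ℝ) 1, ∀ x ∈ closure W, ‖(1 - t) • f x + t • g x‖ ≤ 1 → x ∈ C := by
    intro t ht x hx hn
    exact ⟨(t, x), ⟨⟨ht, hx⟩, hn⟩, rfl⟩
  rw [J_eq_cutoff hW hχ3 (f := f), J_eq_cutoff hW hχ3 (f := g)]
  · have := integral_const_in_time (φ := phi n) (χ := χ) (f := f) (u := fun x => g x - f x)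
      (phi_contDiff.of_le (by exact_mod_cast le_top)) (hf.of_le two_le_infty)
      ((hg.sub hf).of_le two_le_infty)
      (hχ1.of_le (by exact_mod_cast le_top)) hχ2 ?_
    · simpa only [add_sub_cancel] using this.symm
    · intro t ht x hx
      by_cases hxW : x ∈ closure W
      · have hxC : x ∈ C := by
          apply e t ht x hxW
          have h1 : f x + t • (g x - f x) = (1 - t) • f x + t • g x := by
            rw [smul_sub, sub_smul, one_smul]; abel
          rw [← h1]
          exact (phi_ne_zero hx).le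
        have h2 := hχ4 x hxC
        rw [h2.fderiv_eq]
        simp
      · have h3 : χ =ᶠ[𝓝 x] fun _ => 0 := by
          have : (tsupport χ)ᶜ ∈ 𝓝 x :=
            (isClosed_tsupport χ).isOpen_compl.mem_nhds
              (fun h' => hxW (subset_closure (hχ3 h')))
          filter_upwards [this] with y hy
          exact image_eq_zero_of_notMem_tsupport hy
        rw [h3.fderiv_eq]
        simp
  · intro x hx hn
    have := hχ4 x (e 1 (by simp only [mem_Icc, zero_le_one, Std.le_refl, and_self]) x (subset_closure hx) (by simpa only [sub_self, zero_smul, one_smul, zero_add] using hn.le))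
    exact this.eq_of_nhds
  · intro x hx hn
    have := hχ4 x (e 0 (by simp only [mem_Icc, Std.le_refl, zero_le_one, and_self]) x (subset_closure hx) (by simpa only [sub_zero, one_smul, zero_smul, add_zero] using hn.le))
    exact this.eq_of_nhds

end Vale.Agent.P371.Ext
end
end

section

section

open MeasureTheory Matrix Set Topology Bornology
open scoped ContDiff Manifold

namespace Vale.Agent.P371.Ext

variable {n : ℕ}

/-- sign of a real number as a real number -/
noncomputable def sg (x : ℝ) : ℤ := ((SignType.sign x : SignType) : ℤ)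

lemma sg_pos {x : ℝ} (h : 0 < x) : sg x = 1 := by simp [sg, sign_pos h]

lemma sg_neg {x : ℝ} (h : x < 0) : sg x = -1 := by simp [sg, sign_neg h]

lemma sg_mul (x y : ℝ) : sg (x * y) = sg x * sg y := by simp only [sg, sign_mul, SignType.coe_mul]

lemma sg_mul_abs (x : ℝ) : (sg x : ℝ) * |x| = x := by
  rcases lt_trichotomy x 0 with h | h | h
  · rw [sg_neg h, abs_of_neg h]; push_cast; ring
  · simp [h]
  · rw [sg_pos h, abs_of_pos h]; push_cast; ring

lemma continuous_integrand {f : (Fin n → ℝ) → (Fin n → ℝ)} (hf : ContDiff ℝ ∞ f) :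
    Continuous fun x => phi n (f x) * detC n (rows f x) := by
  have h1 : Continuous (rows f) :=
    (contDiff_rows (k := 1) (hf.of_le two_le_infty) (by norm_num)).continuous
  exact (phi_contDiff.continuous.comp hf.continuous).mul (continuous_detC.comp h1)

lemma integrableOn_integrand {f : (Fin n → ℝ) → (Fin n → ℝ)} (hf : ContDiff ℝ ∞ f)
    {W : Set (Fin n → ℝ)} (hWb : IsBounded W) :
    IntegrableOn (fun x => phi n (f x) * detC n (rows f x)) W :=
  ((continuous_integrand hf).continuousOn.integrableOn_compact (closure_compact hWb)).mono_set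
    subset_closure

lemma J_sum {f : (Fin n → ℝ) → (Fin n → ℝ)} (hf : ContDiff ℝ ∞ f)
    {W : Set (Fin n → ℝ)} (hWb : IsBounded W) (hW : IsOpen W) {ι : Type*} (s : Finset ι)
    {U : ι → Set (Fin n → ℝ)} (hU : ∀ i ∈ s, IsOpen (U i)) (hUW : ∀ i ∈ s, U i ⊆ W)
    (hd : (s : Set ι).PairwiseDisjoint U)
    (h : ∀ x ∈ W, (∀ i ∈ s, x ∉ U i) → 1 ≤ ‖f x‖) :
    J f W = ∑ i ∈ s, J f (U i) := by
  have h1 : ∑ i ∈ s, J f (U i)
      = ∫ x in ⋃ i ∈ s, U i, phi n (f x) * detC n (rows f x) := by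
    rw [integral_biUnion_finset s (fun i hi => (hU i hi).measurableSet) hd
      (fun i hi => integrableOn_integrand hf (hWb.subset (hUW i hi)))]
    rfl
  rw [h1, J]
  have hsub : (⋃ i ∈ s, U i) ⊆ W := iUnion₂_subset hUW
  refine setIntegral_eq_of_subset_of_forall_sdiff_eq_zero hW.measurableSet hsub ?_
  intro x hx
  have h2 : ∀ i ∈ s, x ∉ U i := by
    intro i hi hxi
    exact hx.2 (mem_iUnion₂.2 ⟨i, hi, hxi⟩)
  rw [phi_zero (h x hx.1 h2), zero_mul]

lemma rows_smul {f : (Fin n → ℝ) → (Fin n → ℝ)} (hf : Differentiable ℝ f) (c : ℝ)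
    (x : Fin n → ℝ) : rows (fun y => c • f y) x = c • rows f x := by
  funext j
  simp only [rows, Pi.smul_apply]
  have h : HasFDerivAt (fun y => c • f y) (c • fderiv ℝ f x) x := (hf x).hasFDerivAt.const_smul c
  rw [h.fderiv]
  rfl

lemma detC_smul (c : ℝ) (a : Fin n → (Fin n → ℝ)) : detC n (c • a) = c ^ n * detC n a := by
  have h := (detC n).map_smul_univ (fun _ => c) a
  have h2 : (c • a) = fun i => c • a i := rfl
  rw [h2]
  simpa only [Finset.prod_const, Finset.card_univ, Fintype.card_fin, smul_eq_mul] using h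

/-- local computation of the degree integral at a nondegenerate zero -/
lemma local_regular {f : (Fin n → ℝ) → (Fin n → ℝ)} (hf : ContDiff ℝ ∞ f) {z : Fin n → ℝ}
    (hz : f z = 0) (hdet : (fderiv ℝ f z).det ≠ 0) {U : Set (Fin n → ℝ)} (hU : U ∈ 𝓝 z) :
    ∃ r > 0, Metric.closedBall z r ⊆ U ∧ (∀ x ∈ Metric.closedBall z r, f x = 0 → x = z) ∧
      ∃ Λ > (0 : ℝ), ∀ c ≥ Λ, J (fun x => c • f x) (Metric.ball z r) = sg (fderiv ℝ f z).det := by
  have hfd : Differentiable ℝ f := hf.differentiable (by simp)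
  have hst : HasStrictFDerivAt f
      (((fderiv ℝ f z).toContinuousLinearEquivOfDetNeZero hdet :
        (Fin n → ℝ) ≃L[ℝ] (Fin n → ℝ)) : (Fin n → ℝ) →L[ℝ] (Fin n → ℝ)) z := by
    rw [ContinuousLinearMap.coe_toContinuousLinearEquivOfDetNeZero]
    exact hf.contDiffAt.hasStrictFDerivAt (by simp)
  set e := hst.toOpenPartialHomeomorph f with he
  have hecoe : (e : (Fin n → ℝ) → (Fin n → ℝ)) = f := hst.toOpenPartialHomeomorph_coe
  have hez : z ∈ e.source := hst.mem_toOpenPartialHomeomorph_source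
  have hdc : Continuous fun x => (fderiv ℝ f x).det := by
    have h1 : Continuous (rows f) :=
      (contDiff_rows (k := 1) (hf.of_le two_le_infty) (by norm_num)).continuous
    simp only [det_fderiv_eq]
    exact continuous_detC.comp h1
  have hS : {x | 0 < (fderiv ℝ f x).det * (fderiv ℝ f z).det} ∈ 𝓝 z := by
    refine (isOpen_lt continuous_const (hdc.mul continuous_const)).mem_nhds ?_
    exact mul_self_pos.2 hdet
  have hN : U ∩ e.source ∩ {x | 0 < (fderiv ℝ f x).det * (fderiv ℝ f z).det} ∈ 𝓝 z :=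
    Filter.inter_mem (Filter.inter_mem hU (e.open_source.mem_nhds hez)) hS
  obtain ⟨r, hr, hrN⟩ := Metric.nhds_basis_closedBall.mem_iff.1 hN
  have hinj : InjOn f e.source := by
    have := e.injOn
    rwa [hecoe] at this
  refine ⟨r, hr, fun x hx => (hrN hx).1.1, fun x hx hx0 => ?_, ?_⟩
  · exact hinj (hrN hx).1.2 hez (by rw [hx0, hz])
  set B := Metric.ball z r with hB
  have hBN : B ⊆ Metric.closedBall z r := Metric.ball_subset_closedBall
  have hopen : IsOpen (f '' B) := by
    have := e.isOpen_image_of_subset_source (s := B) Metric.isOpen_ball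
      (fun x hx => (hrN (hBN hx)).1.2)
    rwa [hecoe] at this
  have h0 : (0 : Fin n → ℝ) ∈ f '' B := ⟨z, Metric.mem_ball_self hr, hz⟩
  obtain ⟨ρ, hρ, hρB⟩ := Metric.isOpen_iff.1 hopen 0 h0
  refine ⟨1 / ρ, by (clear * - hρ; positivity), fun c hc => ?_⟩
  have hc0 : 0 < c := lt_of_lt_of_le (by positivity) hc
  have hsg : ∀ x ∈ B, sg ((fderiv ℝ f x).det) = sg (fderiv ℝ f z).det := by
    intro x hx
    have h1 : 0 < (fderiv ℝ f x).det * (fderiv ℝ f z).det := (hrN (hBN hx)).2
    rcases lt_or_gt_of_ne hdet with h2 | h2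
    · rw [sg_neg h2, sg_neg (by nlinarith only [h1, h2])]
    · rw [sg_pos h2, sg_pos (by nlinarith only [h1, h2])]
  set F : (Fin n → ℝ) → (Fin n → ℝ) := fun x => c • f x with hF
  have hF' : ∀ x, HasFDerivAt F (c • fderiv ℝ f x) x := fun x =>
    (hfd x).hasFDerivAt.const_smul c
  have hFdet : ∀ x, (fderiv ℝ F x).det = c ^ n * (fderiv ℝ f x).det := by
    intro x
    rw [det_fderiv_eq, det_fderiv_eq, rows_smul hfd, detC_smul]
  have hFinj : InjOn F B := by
    intro x hx y hy hxy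
    have : f x = f y := smul_right_injective _ hc0.ne' hxy
    exact hinj (hrN (hBN hx)).1.2 (hrN (hBN hy)).1.2 this
  have h3 := integral_image_eq_integral_abs_det_fderiv_smul (μ := volume) (s := B) (f := F)
    (f' := fun x => fderiv ℝ F x) measurableSet_ball
    (fun x _ => ((hF' x).differentiableAt.hasFDerivAt).hasFDerivWithinAt) hFinj (phi n)
  have h4 : ∫ x in F '' B, phi n x = 1 := by
    rw [setIntegral_eq_integral_of_forall_compl_eq_zero, phi_integral]
    intro y hy
    by_contra h5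
    apply hy
    have h6 := phi_ne_zero h5
    have h7 : c⁻¹ • y ∈ f '' B := by
      apply hρB
      rw [mem_ball_zero_iff, norm_smul, norm_inv, Real.norm_eq_abs, abs_of_pos hc0]
      calc c⁻¹ * ‖y‖ < c⁻¹ * 1 := by
            apply mul_lt_mul_of_pos_left h6 (by (clear * - hc0; positivity))
        _ ≤ ρ := by
            rw [mul_one]
            rw [ge_iff_le, div_le_iff₀ hρ] at hc
            rw [inv_le_iff_one_le_mul₀ hc0]
            linarith only [hc]
    obtain ⟨x, hx, hxy⟩ := h7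
    refine ⟨x, hx, ?_⟩
    simp only [hF, hxy]
    rw [smul_smul, mul_inv_cancel₀ hc0.ne', one_smul]
  rw [h4] at h3
  have h8 : J F B = ∫ x in B, (sg (fderiv ℝ f z).det : ℝ) * (|(fderiv ℝ F x).det| • phi n (F x)) := by
    rw [J]
    refine setIntegral_congr_fun measurableSet_ball fun x hx => ?_
    simp only [smul_eq_mul]
    rw [← hsg x hx, ← det_fderiv_eq]
    have h9 : sg (fderiv ℝ F x).det = sg (fderiv ℝ f x).det := by
      rw [hFdet, sg_mul, sg_pos (by (clear * - hc0; positivity)), one_mul]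
    rw [← h9]
    have h10 := sg_mul_abs (fderiv ℝ F x).det
    calc phi n (F x) * (fderiv ℝ F x).det
        = phi n (F x) * ((sg (fderiv ℝ F x).det : ℝ) * |(fderiv ℝ F x).det|) := by rw [h10]
      _ = _ := by ring
  rw [h8, integral_const_mul, ← h3, mul_one]

end Vale.Agent.P371.Ext
end
end

section

section

open MeasureTheory Matrix Set Topology Bornology
open scoped ContDiff Manifold

namespace Vale.Agent.P371.Ext

variable {n : ℕ}

lemma exists_pos_lower_bound {K : Set (Fin n → ℝ)} (hK : IsCompact K)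
    {f : (Fin n → ℝ) → (Fin n → ℝ)} (hf : ContinuousOn f K) (h : ∀ x ∈ K, f x ≠ 0) :
    ∃ m > 0, ∀ x ∈ K, m ≤ ‖f x‖ := by
  rcases K.eq_empty_or_nonempty with rfl | hne
  · exact ⟨1, one_pos, by simp⟩
  · obtain ⟨x, hx, hm⟩ := hK.exists_isMinOn hne hf.norm
    exact ⟨‖f x‖, norm_pos_iff.2 (h x hx), fun y hy => hm hy⟩

/-- the degree integral at a regular value -/
lemma regular_formula {f : (Fin n → ℝ) → (Fin n → ℝ)} (hf : ContDiff ℝ ∞ f)
    {W : Set (Fin n → ℝ)} (hW : IsOpen W) (hWb : IsBounded W)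
    (hfr : ∀ x ∈ frontier W, f x ≠ 0)
    (hreg : ∀ x ∈ W, f x = 0 → (fderiv ℝ f x).det ≠ 0) :
    ∃ Z : Finset (Fin n → ℝ), (∀ z, z ∈ Z ↔ z ∈ W ∧ f z = 0) ∧
      ∃ Λ > (0 : ℝ), ∀ c ≥ Λ, J (fun x => c • f x) W = ∑ z ∈ Z, (sg (fderiv ℝ f z).det : ℝ) := by
  classical
  set Z0 : Set (Fin n → ℝ) := {z | z ∈ W ∧ f z = 0} with hZ0
  have hZ0' : Z0 = closure W ∩ f ⁻¹' {0} := by
    ext z
    constructor
    · rintro ⟨h1, h2⟩
      exact ⟨subset_closure h1, h2⟩
    · rintro ⟨h1, h2⟩
      refine ⟨?_, h2⟩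
      by_contra h3
      exact hfr z (by rw [hW.frontier_eq]; exact ⟨h1, h3⟩) h2
  have hZc : IsCompact Z0 := by
    rw [hZ0']
    exact (closure_compact hWb).inter_right (isClosed_singleton.preimage hf.continuous)
  -- finiteness
  have hfin : Z0.Finite := by
    have h1 : ∀ z ∈ Z0, ∃ V ∈ 𝓝 z, ∀ x ∈ V, f x = 0 → x = z := by
      intro z hz
      obtain ⟨r, hr, -, h2, -⟩ := local_regular hf hz.2 (hreg z hz.1 hz.2) Filter.univ_mem
      exact ⟨_, Metric.closedBall_mem_nhds z hr, h2⟩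
    choose! V hV hV' using h1
    obtain ⟨t, ht, ht'⟩ := hZc.elim_nhds_subcover V hV
    refine t.finite_toSet.subset fun x hx => ?_
    obtain ⟨z, hz, hxz⟩ := mem_iUnion₂.1 (ht' hx)
    rw [hV' z (ht z hz) x hxz hx.2]
    exact hz
  obtain ⟨U, hU, hUd⟩ := hfin.t2_separation
  have h1 : ∀ z ∈ Z0, ∃ r > 0, Metric.closedBall z r ⊆ U z ∩ W ∧
      ∃ Λ > (0 : ℝ), ∀ c ≥ Λ, J (fun x => c • f x) (Metric.ball z r) = sg (fderiv ℝ f z).det := by
    intro z hz
    obtain ⟨r, hr, h2, -, h3⟩ := local_regular hf hz.2 (hreg z hz.1 hz.2)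
      (Filter.inter_mem ((hU z).2.mem_nhds (hU z).1) (hW.mem_nhds hz.1))
    exact ⟨r, hr, h2, h3⟩
  choose! r hr hrU Λ hΛ hJ using h1
  refine ⟨hfin.toFinset, fun z => by simp [hZ0], ?_⟩
  set K : Set (Fin n → ℝ) := closure W \ ⋃ z ∈ hfin.toFinset, Metric.ball z (r z) with hK
  have hKc : IsCompact K :=
    (closure_compact hWb).diff (isOpen_biUnion fun z _ => Metric.isOpen_ball)
  obtain ⟨m, hm, hmK⟩ := exists_pos_lower_bound hKc hf.continuous.continuousOn (by
    intro x hx hx0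
    have hxZ : x ∈ Z0 := by rw [hZ0']; exact ⟨hx.1, hx0⟩
    exact hx.2 (mem_iUnion₂.2 ⟨x, by simpa using hxZ, Metric.mem_ball_self (hr x hxZ)⟩))
  refine ⟨1 / m + ∑ z ∈ hfin.toFinset, Λ z, ?_, ?_⟩
  · have : 0 ≤ ∑ z ∈ hfin.toFinset, Λ z :=
      Finset.sum_nonneg fun z hz => (hΛ z (by simpa using hz)).le
    (clear * - hfin hm this; positivity)
  · intro c hc
    have hs : 0 ≤ ∑ z ∈ hfin.toFinset, Λ z :=
      Finset.sum_nonneg fun z hz => (hΛ z (by simpa using hz)).le
    have hc0 : 0 < c := lt_of_lt_of_le (by (clear * - hfin hm hs; positivity)) hc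
    have hcs : ContDiff ℝ ∞ (fun x => c • f x) := hf.const_smul c
    rw [J_sum hcs hWb hW hfin.toFinset (U := fun z => Metric.ball z (r z))
      (fun z _ => Metric.isOpen_ball) ?_ ?_ ?_]
    · refine Finset.sum_congr rfl fun z hz => hJ z (by simpa using hz) c ?_
      have h2 : Λ z ≤ ∑ z ∈ hfin.toFinset, Λ z :=
        Finset.single_le_sum (fun y hy => (hΛ y (by simpa using hy)).le) hz
      have h3 : 0 ≤ 1 / m := by positivity
      linarith only [hc, h2, h3]
    · intro z hz x hx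
      exact (hrU z (by simpa using hz) (Metric.ball_subset_closedBall hx)).2
    · intro z hz w hw hzw
      have h2 := hUd (by simpa using hz) (by simpa using hw) hzw
      refine h2.mono ?_ ?_
      · intro x hx
        exact (hrU z (by simpa using hz) (Metric.ball_subset_closedBall hx)).1
      · intro x hx
        exact (hrU w (by simpa using hw) (Metric.ball_subset_closedBall hx)).1
    · intro x hx hxn
      have hxK : x ∈ K := ⟨subset_closure hx, by
        intro h2
        obtain ⟨z, hz, hxz⟩ := mem_iUnion₂.1 h2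
        exact hxn z hz hxz⟩
      have h2 := hmK x hxK
      rw [norm_smul, Real.norm_eq_abs, abs_of_pos hc0]
      have h3 : 1 / m ≤ c := by linarith only [hc, hs]
      rw [div_le_iff₀ hm] at h3
      nlinarith only [h3, hc0, h2]

/-- smooth approximations of a large multiple of `f` -/
def IsApprox (f : (Fin n → ℝ) → (Fin n → ℝ)) (W : Set (Fin n → ℝ))
    (g : (Fin n → ℝ) → (Fin n → ℝ)) : Prop :=
  ContDiff ℝ ∞ g ∧ ∃ c > (0 : ℝ), (∀ x ∈ frontier W, 3 ≤ c * ‖f x‖) ∧
    ∀ x ∈ closure W, ‖g x - c • f x‖ ≤ 1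

open Classical in
/-- real-valued Brouwer degree of `f` over `0` -/
noncomputable def degR (f : (Fin n → ℝ) → (Fin n → ℝ)) (W : Set (Fin n → ℝ)) : ℝ :=
  if h : ∃ g, IsApprox f W g then J h.choose W else 0

lemma approx_hom {f₀ f₁ g₀ g₁ : (Fin n → ℝ) → (Fin n → ℝ)} {W : Set (Fin n → ℝ)}
    (hW : IsOpen W) (hWb : IsBounded W) {c : ℝ}
    (hg₀ : ContDiff ℝ ∞ g₀) (hg₁ : ContDiff ℝ ∞ g₁)
    (h : ∀ x ∈ frontier W, ∀ t ∈ Icc (0:ℝ) 1, 3 ≤ ‖(1 - t) • (c • f₀ x) + t • (c • f₁ x)‖)
    (h₀ : ∀ x ∈ frontier W, ‖g₀ x - c • f₀ x‖ ≤ 1)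
    (h₁ : ∀ x ∈ frontier W, ‖g₁ x - c • f₁ x‖ ≤ 1) : J g₀ W = J g₁ W := by
  apply J_homotopy hW hWb hg₀ hg₁
  intro x hx t ht
  have h2 := h x hx t ht
  have h3 : (1 - t) • (c • f₀ x) + t • (c • f₁ x)
      = ((1 - t) • g₀ x + t • g₁ x) - ((1 - t) • (g₀ x - c • f₀ x) + t • (g₁ x - c • f₁ x)) := by
    simp only [smul_sub]; abel
  have h4 : ‖(1 - t) • (g₀ x - c • f₀ x) + t • (g₁ x - c • f₁ x)‖ ≤ 1 := by
    calc _ ≤ ‖(1 - t) • (g₀ x - c • f₀ x)‖ + ‖t • (g₁ x - c • f₁ x)‖ := norm_add_le _ _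
      _ = (1 - t) * ‖g₀ x - c • f₀ x‖ + t * ‖g₁ x - c • f₁ x‖ := by
          rw [norm_smul, norm_smul, Real.norm_eq_abs, Real.norm_eq_abs, abs_of_nonneg ht.1,
            abs_of_nonneg (by linarith [ht.2])]
      _ ≤ (1 - t) * 1 + t * 1 := by
          gcongr
          · linarith [ht.2]
          · exact h₀ x hx
          · exact ht.1
          · exact h₁ x hx
      _ = 1 := by ring
  rw [h3] at h2
  have h5 := norm_sub_le ((1 - t) • g₀ x + t • g₁ x)
    ((1 - t) • (g₀ x - c • f₀ x) + t • (g₁ x - c • f₁ x))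
  linarith only [h2, h4, h5]

lemma IsApprox.J_eq {f g g' : (Fin n → ℝ) → (Fin n → ℝ)} {W : Set (Fin n → ℝ)}
    (hW : IsOpen W) (hWb : IsBounded W) (h : IsApprox f W g) (h' : IsApprox f W g') :
    J g W = J g' W := by
  obtain ⟨hg, c, hc, h1, h2⟩ := h
  obtain ⟨hg', c', hc', h1', h2'⟩ := h'
  apply J_homotopy hW hWb hg hg'
  intro x hx t ht
  have h0 := frontier_subset_closure hx
  have h3 : ((1 - t) * c + t * c') • f x
      = ((1 - t) • g x + t • g' x) - ((1 - t) • (g x - c • f x) + t • (g' x - c' • f x)) := by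
    simp only [smul_sub, add_smul, smul_smul]; abel
  have h4 : ‖(1 - t) • (g x - c • f x) + t • (g' x - c' • f x)‖ ≤ 1 := by
    calc _ ≤ ‖(1 - t) • (g x - c • f x)‖ + ‖t • (g' x - c' • f x)‖ := norm_add_le _ _
      _ = (1 - t) * ‖g x - c • f x‖ + t * ‖g' x - c' • f x‖ := by
          rw [norm_smul, norm_smul, Real.norm_eq_abs, Real.norm_eq_abs, abs_of_nonneg ht.1,
            abs_of_nonneg (by linarith [ht.2])]
      _ ≤ (1 - t) * 1 + t * 1 := by
          gcongr
          · linarith [ht.2]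
          · exact h2 x h0
          · exact ht.1
          · exact h2' x h0
      _ = 1 := by ring
  have h5 : 3 ≤ ‖((1 - t) * c + t * c') • f x‖ := by
    rw [norm_smul, Real.norm_eq_abs, abs_of_nonneg (by nlinarith only [hc, hc', ht.1, ht.2])]
    have := h1 x hx
    have := h1' x hx
    (clear g g' hW hWb hg hc h2 hg' hc' h2' h0 h3 h4; nlinarith [ht.1, ht.2])
  rw [h3] at h5
  have h6 := norm_sub_le ((1 - t) • g x + t • g' x)
    ((1 - t) • (g x - c • f x) + t • (g' x - c' • f x))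
  linarith only [h4, h5, h6]

lemma IsApprox.degR_eq {f g : (Fin n → ℝ) → (Fin n → ℝ)} {W : Set (Fin n → ℝ)}
    (hW : IsOpen W) (hWb : IsBounded W) (h : IsApprox f W g) : degR f W = J g W := by
  have h' : ∃ g, IsApprox f W g := ⟨g, h⟩
  rw [degR, dif_pos h']
  exact IsApprox.J_eq hW hWb h'.choose_spec h

end Vale.Agent.P371.Ext
end
end

section

section

open MeasureTheory Matrix Set Topology Bornology
open scoped ContDiff Manifold

namespace Vale.Agent.P371.Ext

variable {n : ℕ}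

lemma exists_seg_lower_bound {K : Set (Fin n → ℝ)} (hK : IsCompact K)
    {f₀ f₁ : (Fin n → ℝ) → (Fin n → ℝ)} (hf₀ : ContinuousOn f₀ K) (hf₁ : ContinuousOn f₁ K)
    (h : ∀ x ∈ K, ∀ t ∈ Icc (0:ℝ) 1, (1 - t) • f₀ x + t • f₁ x ≠ 0) :
    ∃ m > 0, ∀ x ∈ K, ∀ t ∈ Icc (0:ℝ) 1, m ≤ ‖(1 - t) • f₀ x + t • f₁ x‖ := by
  rcases K.eq_empty_or_nonempty with rfl | hne
  · exact ⟨1, one_pos, by simp only [mem_empty_iff_false, mem_Icc, and_imp, IsEmpty.forall_iff, implies_true]⟩
  · have hc : ContinuousOn (fun q : ℝ × (Fin n → ℝ) => (1 - q.1) • f₀ q.2 + q.1 • f₁ q.2)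
        (Icc (0:ℝ) 1 ×ˢ K) := by
      have h0 : ContinuousOn (fun q : ℝ × (Fin n → ℝ) => f₀ q.2) (Icc (0:ℝ) 1 ×ˢ K) :=
        hf₀.comp continuousOn_snd (fun q hq => hq.2)
      have h1 : ContinuousOn (fun q : ℝ × (Fin n → ℝ) => f₁ q.2) (Icc (0:ℝ) 1 ×ˢ K) :=
        hf₁.comp continuousOn_snd (fun q hq => hq.2)
      exact ((continuous_const.sub continuous_fst).continuousOn.smul h0).add
        (continuous_fst.continuousOn.smul h1)
    obtain ⟨x, hx, hm⟩ := (isCompact_Icc.prod hK).exists_isMinOn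
      ((nonempty_Icc.2 zero_le_one).prod hne) hc.norm
    exact ⟨_, norm_pos_iff.2 (h x.2 hx.2 x.1 hx.1), fun y hy t ht => hm (a := (t, y)) ⟨ht, hy⟩⟩

lemma degR_homotopy {f₀ f₁ : (Fin n → ℝ) → (Fin n → ℝ)} {W : Set (Fin n → ℝ)}
    (hW : IsOpen W) (hWb : IsBounded W) (hf₀ : ContinuousOn f₀ (closure W))
    (hf₁ : ContinuousOn f₁ (closure W))
    (h : ∀ x ∈ frontier W, ∀ t ∈ Icc (0:ℝ) 1, (1 - t) • f₀ x + t • f₁ x ≠ 0) :
    degR f₀ W = degR f₁ W := by
  obtain ⟨m, hm, hmb⟩ := exists_seg_lower_bound (frontier_compact hWb)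
    (hf₀.mono frontier_subset_closure) (hf₁.mono frontier_subset_closure) h
  have hc : 0 < 3 / m := by positivity
  set c := 3 / m with hcdef
  have hcm : c * m = 3 := by rw [hcdef]; field_simp
  obtain ⟨g₀, hg₀, hg₀'⟩ := exists_smooth_approx (closure_compact hWb) (hf₀.const_smul c) one_pos
  obtain ⟨g₁, hg₁, hg₁'⟩ := exists_smooth_approx (closure_compact hWb) (hf₁.const_smul c) one_pos
  have hlow : ∀ x ∈ frontier W, ∀ t ∈ Icc (0:ℝ) 1,
      3 ≤ ‖(1 - t) • (c • f₀ x) + t • (c • f₁ x)‖ := by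
    intro x hx t ht
    have h1 : (1 - t) • (c • f₀ x) + t • (c • f₁ x) = c • ((1 - t) • f₀ x + t • f₁ x) := by
      rw [smul_add, smul_comm c, smul_comm c]
    rw [h1, norm_smul, Real.norm_eq_abs, abs_of_pos hc, ← hcm]
    exact mul_le_mul_of_nonneg_left (hmb x hx t ht) hc.le
  have hA₀ : IsApprox f₀ W g₀ := by
    refine ⟨hg₀, c, hc, fun x hx => ?_, fun x hx => (hg₀' x hx).le⟩
    have := hlow x hx 0 (by simp only [mem_Icc, Std.le_refl, zero_le_one, and_self])
    simpa only [ge_iff_le, sub_zero, one_smul, zero_smul, add_zero, norm_smul, Real.norm_eq_abs,     abs_of_pos hc] using this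
  have hA₁ : IsApprox f₁ W g₁ := by
    refine ⟨hg₁, c, hc, fun x hx => ?_, fun x hx => (hg₁' x hx).le⟩
    have := hlow x hx 1 (by simp only [mem_Icc, zero_le_one, Std.le_refl, and_self])
    simpa only [ge_iff_le, sub_self, zero_smul, one_smul, zero_add, norm_smul, Real.norm_eq_abs,     abs_of_pos hc] using this
  rw [hA₀.degR_eq hW hWb, hA₁.degR_eq hW hWb]
  exact approx_hom hW hWb hg₀ hg₁ hlow
    (fun x hx => (hg₀' x (frontier_subset_closure hx)).le)
    (fun x hx => (hg₁' x (frontier_subset_closure hx)).le)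

lemma degR_regular {f : (Fin n → ℝ) → (Fin n → ℝ)} (hf : ContDiff ℝ ∞ f)
    {W : Set (Fin n → ℝ)} (hW : IsOpen W) (hWb : IsBounded W)
    (hfr : ∀ x ∈ frontier W, f x ≠ 0)
    (hreg : ∀ x ∈ W, f x = 0 → (fderiv ℝ f x).det ≠ 0) :
    ∃ Z : Finset (Fin n → ℝ), (∀ z, z ∈ Z ↔ z ∈ W ∧ f z = 0) ∧
      degR f W = ∑ z ∈ Z, (sg (fderiv ℝ f z).det : ℝ) := by
  obtain ⟨Z, hZ, Λ, hΛ, hJ⟩ := regular_formula hf hW hWb hfr hreg
  refine ⟨Z, hZ, ?_⟩
  obtain ⟨m, hm, hmb⟩ := exists_pos_lower_bound (frontier_compact hWb)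
    hf.continuous.continuousOn hfr
  have hc : 0 < max Λ (3 / m) := lt_max_of_lt_left hΛ
  have hA : IsApprox f W (fun x => max Λ (3 / m) • f x) := by
    refine ⟨hf.const_smul _, max Λ (3 / m), hc, fun x hx => ?_, fun x _ => by simp only [sub_self, norm_zero, zero_le_one]⟩
    have h1 := hmb x hx
    have h2 : 3 / m ≤ max Λ (3 / m) := le_max_right _ _
    calc (3 : ℝ) = 3 / m * m := by (clear * - hm; field_simp)
      _ ≤ max Λ (3 / m) * ‖f x‖ := by (clear * - h2 h1 hm hΛ; gcongr)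
  rw [hA.degR_eq hW hWb, hJ _ (le_max_left _ _)]

lemma frontier_subset_of_pairwise {ι : Type*} {s : Finset ι} {U : ι → Set (Fin n → ℝ)}
    (hU : ∀ i ∈ s, IsOpen (U i)) (hd : (s : Set ι).PairwiseDisjoint U) {i : ι} (hi : i ∈ s)
    {x : Fin n → ℝ} (hx : x ∈ frontier (U i)) : ∀ j ∈ s, x ∉ U j := by
  intro j hj hxj
  rw [(hU i hi).frontier_eq] at hx
  by_cases hij : i = j
  · subst hij; exact hx.2 hxj
  · have h1 : (U j ∩ U i).Nonempty := mem_closure_iff.1 hx.1 (U j) (hU j hj) hxj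
    obtain ⟨z, hz1, hz2⟩ := h1
    exact disjoint_left.1 (hd hi hj hij) hz2 hz1

/-- additivity of the real-valued degree -/
lemma degR_sum {f : (Fin n → ℝ) → (Fin n → ℝ)} {W : Set (Fin n → ℝ)} (hWb : IsBounded W)
    (hW : IsOpen W) (hf : ContinuousOn f (closure W)) {ι : Type*} (s : Finset ι)
    {U : ι → Set (Fin n → ℝ)} (hU : ∀ i ∈ s, IsOpen (U i)) (hUW : ∀ i ∈ s, U i ⊆ W)
    (hd : (s : Set ι).PairwiseDisjoint U)
    (h : ∀ x ∈ closure W, f x = 0 → ∃ i ∈ s, x ∈ U i) :
    degR f W = ∑ i ∈ s, degR f (U i) := by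
  classical
  set K : Set (Fin n → ℝ) := closure W \ ⋃ i ∈ s, U i with hK
  have hKc : IsCompact K := (closure_compact hWb).diff (isOpen_biUnion fun i hi => hU i hi)
  obtain ⟨m, hm, hmb⟩ := exists_pos_lower_bound hKc (hf.mono sdiff_subset) (by
    intro x hx hx0
    obtain ⟨i, hi, hxi⟩ := h x hx.1 hx0
    exact hx.2 (mem_iUnion₂.2 ⟨i, hi, hxi⟩))
  have hc : 0 < 3 / m := by positivity
  set c := 3 / m with hcdef
  have hcm : c * m = 3 := by rw [hcdef]; field_simp
  obtain ⟨g, hg, hg'⟩ := exists_smooth_approx (closure_compact hWb) (hf.const_smul c) one_pos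
  have hlow : ∀ x ∈ K, 3 ≤ c * ‖f x‖ := by
    intro x hx
    rw [← hcm]
    exact mul_le_mul_of_nonneg_left (hmb x hx) hc.le
  have hKmem : ∀ x ∈ closure W, (∀ i ∈ s, x ∉ U i) → x ∈ K := by
    intro x hx hxn
    refine ⟨hx, fun h2 => ?_⟩
    obtain ⟨i, hi, hxi⟩ := mem_iUnion₂.1 h2
    exact hxn i hi hxi
  have hfrW : ∀ x ∈ frontier W, x ∈ K := by
    intro x hx
    refine hKmem x (frontier_subset_closure hx) fun i hi hxi => ?_
    rw [hW.frontier_eq] at hx
    exact hx.2 (hUW i hi hxi)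
  have hfrU : ∀ i ∈ s, ∀ x ∈ frontier (U i), x ∈ K := by
    intro i hi x hx
    exact hKmem x (closure_mono (hUW i hi) (frontier_subset_closure hx))
      (frontier_subset_of_pairwise hU hd hi hx)
  have hA : IsApprox f W g :=
    ⟨hg, c, hc, fun x hx => hlow x (hfrW x hx), fun x hx => (hg' x hx).le⟩
  have hAi : ∀ i ∈ s, IsApprox f (U i) g := fun i hi =>
    ⟨hg, c, hc, fun x hx => hlow x (hfrU i hi x hx),
      fun x hx => (hg' x (closure_mono (hUW i hi) hx)).le⟩
  rw [hA.degR_eq hW hWb, J_sum hg hWb hW s hU hUW hd]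
  · refine Finset.sum_congr rfl fun i hi => ?_
    rw [(hAi i hi).degR_eq (hU i hi) (hWb.subset (hUW i hi))]
  · intro x hx hxn
    have h1 := hlow x (hKmem x (subset_closure hx) hxn)
    have h2 : ‖g x - c • f x‖ ≤ 1 := (hg' x (subset_closure hx)).le
    have h3 : ‖c • f x‖ = c * ‖f x‖ := by rw [norm_smul, Real.norm_eq_abs, abs_of_pos hc]
    have h4 : ‖c • f x‖ ≤ ‖g x‖ + ‖g x - c • f x‖ := by
      calc ‖c • f x‖ = ‖g x - (g x - c • f x)‖ := by congr 1; abel
        _ ≤ _ := norm_sub_le _ _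
    linarith only [h1, h2, h3, h4]

end Vale.Agent.P371.Ext
end
end

section

section

open MeasureTheory Matrix Set Topology Bornology
open scoped ContDiff Manifold

namespace Vale.Agent.P371.Ext

variable {n : ℕ}

lemma degR_empty_zero {f : (Fin n → ℝ) → (Fin n → ℝ)} {W : Set (Fin n → ℝ)} (hWb : IsBounded W)
    (hW : IsOpen W) (hf : ContinuousOn f (closure W)) (h : ∀ x ∈ closure W, f x ≠ 0) :
    degR f W = 0 := by
  have := degR_sum hWb hW hf (∅ : Finset ℕ) (U := fun _ => ∅) (by simp only [Finset.notMem_empty, isOpen_empty, implies_true]) (by simp) (by simp)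
    (fun x hx h0 => absurd h0 (h x hx))
  simpa using this

lemma degR_id_sub {W : Set (Fin n → ℝ)} (hWb : IsBounded W)
    (hW : IsOpen W) {y : Fin n → ℝ} (hy : y ∈ W) : degR (fun x => x - y) W = 1 := by
  have hf : ContDiff ℝ ∞ (fun x : Fin n → ℝ => x - y) := contDiff_id.sub contDiff_const
  have hd : ∀ x : Fin n → ℝ, (fderiv ℝ (fun x : Fin n → ℝ => x - y) x).det = 1 := by
    intro x
    rw [fderiv_sub_const, fderiv_fun_id]
    exact LinearMap.det_id
  obtain ⟨Z, hZ, hZ'⟩ := degR_regular hf hW hWb (fun x hx h0 => by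
    rw [hW.frontier_eq] at hx
    exact hx.2 (by rwa [sub_eq_zero.1 h0])) (fun x _ _ => by rw [hd]; norm_num)
  have hZe : Z = {y} := by
    ext z
    rw [hZ, Finset.mem_singleton]
    constructor
    · rintro ⟨-, h⟩; exact sub_eq_zero.1 h
    · rintro rfl; exact ⟨hy, sub_self _⟩
  rw [hZ', hZe, Finset.sum_singleton, hd, sg_pos one_pos]
  norm_num

/-- Brouwer degree on `Fin n → ℝ` -/
def HasDeg0 (f : (Fin n → ℝ) → (Fin n → ℝ)) (W : Set (Fin n → ℝ)) (y : Fin n → ℝ) (d : ℤ) :
    Prop :=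
  IsOpen W ∧ IsBounded W ∧ ContinuousOn f (closure W) ∧ (∀ x ∈ frontier W, f x ≠ y) ∧
    degR (fun x => f x - y) W = d

variable {f g : (Fin n → ℝ) → (Fin n → ℝ)} {W : Set (Fin n → ℝ)} {y : Fin n → ℝ} {d d' : ℤ}

lemma HasDeg0.homotopy (h : HasDeg0 f W y d) (hg : ContinuousOn g (closure W))
    (hH : ∀ x ∈ frontier W, ∀ t ∈ Icc (0:ℝ) 1, (1 - t) • f x + t • g x ≠ y) :
    HasDeg0 g W y d := by
  obtain ⟨hW, hb, hf, hy, hd⟩ := h
  refine ⟨hW, hb, hg, fun x hx h0 => hH x hx 1 (by simp only [mem_Icc, zero_le_one, Std.le_refl, and_self]) (by simpa using h0), ?_⟩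
  rw [← hd]
  symm
  refine degR_homotopy hW hb (hf.sub continuousOn_const) (hg.sub continuousOn_const) ?_
  intro x hx t ht h0
  apply hH x hx t ht
  have h1 : (1 - t) • (f x - y) + t • (g x - y) = ((1 - t) • f x + t • g x) - y := by
    simp only [smul_sub, sub_smul, one_smul]; abel
  rw [h1] at h0
  exact sub_eq_zero.1 h0

lemma HasDeg0.of_id (hW : IsOpen W) (hb : IsBounded W) (hy : y ∈ W) :
    HasDeg0 (fun x => x) W y 1 := by
  refine ⟨hW, hb, continuousOn_id, fun x hx h0 => ?_, ?_⟩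
  · rw [hW.frontier_eq] at hx
    have h1 : x = y := h0
    exact hx.2 (by rwa [h1])
  · rw [degR_id_sub hb hW hy]; norm_num

lemma HasDeg0.exists_eq (h : HasDeg0 f W y d) (hd : d ≠ 0) : ∃ x ∈ W, f x = y := by
  obtain ⟨hW, hb, hf, hy, hdd⟩ := h
  by_contra hcon
  push Not at hcon
  apply hd
  have : degR (fun x => f x - y) W = 0 := by
    refine degR_empty_zero hb hW (hf.sub continuousOn_const) fun x hx h0 => ?_
    have h1 : f x = y := sub_eq_zero.1 h0
    by_cases hxW : x ∈ W
    · exact hcon x hxW h1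
    · exact hy x (by rw [hW.frontier_eq]; exact ⟨hx, hxW⟩) h1
  rw [this] at hdd
  exact_mod_cast hdd.symm

end Vale.Agent.P371.Ext
end
end

section

section

open MeasureTheory Matrix Set Topology Bornology
open scoped ContDiff Manifold

namespace Vale.Agent.P371.Ext

variable {n : ℕ}

end Vale.Agent.P371.Ext
end
end

section

section

open MeasureTheory Matrix Set Topology Bornology
open scoped ContDiff Manifold

namespace Vale.Agent.P371.Ext

section Zero

variable {n : ℕ} {f : (Fin n → ℝ) → (Fin n → ℝ)} {W : Set (Fin n → ℝ)} {y : Fin n → ℝ} {d : ℤ}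

end Zero

variable {E : Type*} [NormedAddCommGroup E] [NormedSpace ℝ E] [FiniteDimensional ℝ E]

/-- coordinates on a finite-dimensional space -/
noncomputable def coordL (E : Type*) [NormedAddCommGroup E] [NormedSpace ℝ E]
    [FiniteDimensional ℝ E] : E ≃L[ℝ] (Fin (Module.finrank ℝ E) → ℝ) :=
  (Module.finBasis ℝ E).equivFunL

/-- `HasDeg f W y d` : `W` is a bounded open set, `f` is continuous on its closure, does not take
the value `y` on the frontier and its Brouwer degree over `y` is `d`. -/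
def HasDeg (f : E → E) (W : Set E) (y : E) (d : ℤ) : Prop :=
  HasDeg0 (fun x => coordL E (f ((coordL E).symm x))) (coordL E '' W) (coordL E y) d

variable {f g : E → E} {W : Set E} {y : E} {d d' : ℤ}

lemma coordL_image_closure (W : Set E) : closure (coordL E '' W) = coordL E '' closure W :=
  ((coordL E).toHomeomorph.image_closure W).symm

lemma coordL_image_frontier (W : Set E) : frontier (coordL E '' W) = coordL E '' frontier W :=
  ((coordL E).toHomeomorph.image_frontier W).symm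

lemma coordL_isOpen {W : Set E} : IsOpen (coordL E '' W) ↔ IsOpen W :=
  (coordL E).toHomeomorph.isOpen_image

lemma coordL_isBounded {W : Set E} : IsBounded (coordL E '' W) ↔ IsBounded W := by
  constructor
  · intro h
    have h1 := (coordL E).symm.lipschitz.isBounded_image h
    have h2 : (coordL E).symm '' (coordL E '' W) = W := by
      rw [← image_comp]; simp
    rwa [h2] at h1
  · intro h
    exact (coordL E).lipschitz.isBounded_image h

lemma coordL_continuousOn {K : Set E} :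
    ContinuousOn (fun x => coordL E (f ((coordL E).symm x))) (coordL E '' K) ↔
      ContinuousOn f K := by
  constructor
  · intro h
    have h1 : ContinuousOn (fun x => (coordL E).symm ((fun x => coordL E (f ((coordL E).symm x)))
        (coordL E x))) K :=
      (coordL E).symm.continuous.comp_continuousOn
        (h.comp (coordL E).continuous.continuousOn (mapsTo_image _ _))
    simpa using h1
  · intro h
    refine (coordL E).continuous.comp_continuousOn
      (h.comp (coordL E).symm.continuous.continuousOn ?_)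
    rintro _ ⟨x, hx, rfl⟩
    simpa using hx

/-- linear homotopy (only the frontier matters); in particular `HasDeg` only depends on the
values of `f` on the frontier -/
theorem HasDeg.homotopy (h : HasDeg f W y d) (hg : ContinuousOn g (closure W))
    (hH : ∀ x ∈ frontier W, ∀ t ∈ Icc (0:ℝ) 1, (1 - t) • f x + t • g x ≠ y) :
    HasDeg g W y d := by
  refine HasDeg0.homotopy h ?_ ?_
  · rw [coordL_image_closure]; exact coordL_continuousOn.2 hg
  · rw [coordL_image_frontier]
    rintro _ ⟨x, hx, rfl⟩ t ht h0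
    simp only [ContinuousLinearEquiv.symm_apply_apply] at h0
    rw [← map_smul, ← map_smul, ← map_add] at h0
    exact hH x hx t ht ((coordL E).injective h0)

theorem HasDeg.of_id (hW : IsOpen W) (hb : IsBounded W) (hy : y ∈ W) :
    HasDeg (fun x : E => x) W y 1 := by
  have h := HasDeg0.of_id (coordL_isOpen.2 hW) (coordL_isBounded.2 hb) (mem_image_of_mem (coordL E) hy)
  unfold HasDeg
  simpa using h

theorem HasDeg.exists_eq (h : HasDeg f W y d) (hd : d ≠ 0) : ∃ x ∈ W, f x = y := by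
  obtain ⟨_, ⟨x, hx, rfl⟩, h0⟩ := HasDeg0.exists_eq h hd
  simp only [ContinuousLinearEquiv.symm_apply_apply] at h0
  exact ⟨x, hx, (coordL E).injective h0⟩

end Vale.Agent.P371.Ext
end
end

section

section

/-!
A bounded globally Lipschitz modification of the Riccati vector field.
-/

namespace Vale.Agent.P371.G

open Set Topology Metric
open scoped NNReal

set_option linter.unusedSectionVars false

/-- scalar cut-off, equal to `1` on the closed ball of radius `C` -/
noncomputable def cut {R : Type*} [NormedRing R] (C : ℝ) (F : R) : ℝ := C / max C ‖F‖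

section

variable {R : Type*} [NormedRing R] [NormedAlgebra ℝ R] {C : ℝ}

lemma max_pos' (hC : 0 < C) (F : R) : 0 < max C ‖F‖ := lt_max_of_lt_left hC

lemma cut_pos (hC : 0 < C) (F : R) : 0 < cut C F := div_pos hC (max_pos' hC F)

lemma cut_le_one (hC : 0 < C) (F : R) : cut C F ≤ 1 :=
  (div_le_one (max_pos' hC F)).2 (le_max_left _ _)

lemma cut_eq_one (hC : 0 < C) {F : R} (hF : ‖F‖ ≤ C) : cut C F = 1 := by
  rw [cut, max_eq_left hF, div_self hC.ne']

lemma norm_cut_smul_le (hC : 0 < C) (F : R) : ‖cut C F • F‖ ≤ C := by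
  rw [norm_smul, Real.norm_of_nonneg (cut_pos hC F).le, cut, div_mul_eq_mul_div,
    div_le_iff₀ (max_pos' hC F)]
  exact mul_le_mul_of_nonneg_left (le_max_right _ _) hC.le

lemma abs_cut_sub_le' (hC : 0 < C) (F G : R) :
    |cut C F - cut C G| * max C ‖G‖ ≤ ‖F - G‖ := by
  have hF := max_pos' hC F
  have hG := max_pos' hC G
  have h1 : cut C F - cut C G = C * (max C ‖G‖ - max C ‖F‖) / (max C ‖F‖ * max C ‖G‖) := by
    rw [cut, cut, div_sub_div _ _ hF.ne' hG.ne']
    ring
  have h2 : |max C ‖G‖ - max C ‖F‖| ≤ ‖F - G‖ := by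
    rw [max_comm C, max_comm C]
    refine (abs_max_sub_max_le_abs _ _ _).trans ?_
    rw [abs_sub_comm]
    exact abs_norm_sub_norm_le F G
  rw [h1, abs_div, abs_mul, abs_of_pos hC, abs_of_pos (mul_pos hF hG), div_mul_eq_mul_div,
    div_le_iff₀ (mul_pos hF hG)]
  calc C * |max C ‖G‖ - max C ‖F‖| * max C ‖G‖
      ≤ max C ‖F‖ * ‖F - G‖ * max C ‖G‖ := by
        gcongr
        exact le_max_left _ _
    _ = ‖F - G‖ * (max C ‖F‖ * max C ‖G‖) := by ring

lemma abs_cut_sub_le (hC : 0 < C) (F G : R) : |cut C F - cut C G| * C ≤ ‖F - G‖ :=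
  (mul_le_mul_of_nonneg_left (le_max_left _ _) (abs_nonneg _)).trans (abs_cut_sub_le' hC F G)

lemma norm_cut_smul_sub_le (hC : 0 < C) (F G : R) :
    ‖cut C F • F - cut C G • G‖ ≤ 2 * ‖F - G‖ := by
  have h1 : cut C F • F - cut C G • G = cut C F • (F - G) + (cut C F - cut C G) • G := by
    module
  rw [h1]
  refine (norm_add_le _ _).trans ?_
  rw [norm_smul, norm_smul, Real.norm_eq_abs, Real.norm_eq_abs, abs_of_pos (cut_pos hC F)]
  have h2 : |cut C F - cut C G| * ‖G‖ ≤ ‖F - G‖ :=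
    (mul_le_mul_of_nonneg_left (le_max_right _ _) (abs_nonneg _)).trans (abs_cut_sub_le' hC F G)
  have h3 : cut C F * ‖F - G‖ ≤ 1 * ‖F - G‖ := by
    gcongr
    exact cut_le_one hC F
  linarith

/-- the truncated Riccati vector field -/
noncomputable def ric (C : ℝ) (K F : R) : R :=
  (cut C F) ^ 2 • (K * K) - (cut C F • F) * (cut C F • F)

lemma ric_eq (K F : R) : ric C K F = (cut C F) ^ 2 • (K * K - F * F) := by
  rw [ric, smul_sub, smul_mul_smul_comm, pow_two]

lemma norm_ric_le (hC : 0 < C) {K : R} (hK : ‖K‖ ≤ C) (F : R) : ‖ric C K F‖ ≤ 2 * C ^ 2 := by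
  have h1 : ‖(cut C F) ^ 2 • (K * K)‖ ≤ C ^ 2 := by
    rw [norm_smul, Real.norm_of_nonneg (by positivity)]
    calc (cut C F) ^ 2 * ‖K * K‖ ≤ 1 ^ 2 * (C * C) := by
          gcongr
          · exact (cut_pos hC F).le
          · exact cut_le_one hC F
          · exact (norm_mul_le _ _).trans (by gcongr)
      _ = C ^ 2 := by ring
  have h2 : ‖(cut C F • F) * (cut C F • F)‖ ≤ C ^ 2 := by
    calc _ ≤ ‖cut C F • F‖ * ‖cut C F • F‖ := norm_mul_le _ _
      _ ≤ C * C := by
          gcongr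
          · exact norm_cut_smul_le hC F
          · exact norm_cut_smul_le hC F
      _ = C ^ 2 := by ring
  calc ‖ric C K F‖ ≤ ‖(cut C F) ^ 2 • (K * K)‖ + ‖(cut C F • F) * (cut C F • F)‖ := norm_sub_le _ _
    _ ≤ 2 * C ^ 2 := by linarith

lemma norm_ric_sub_le (hC : 0 < C) {K : R} (hK : ‖K‖ ≤ C) (F G : R) :
    ‖ric C K F - ric C K G‖ ≤ 6 * C * ‖F - G‖ := by
  have h0 : ric C K F - ric C K G = ((cut C F) ^ 2 - (cut C G) ^ 2) • (K * K)
      - ((cut C F • F - cut C G • G) * (cut C F • F)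
        + (cut C G • G) * (cut C F • F - cut C G • G)) := by
    rw [ric, ric, sub_smul, sub_mul, mul_sub]
    abel
  have h1 : ‖((cut C F) ^ 2 - (cut C G) ^ 2) • (K * K)‖ ≤ 2 * C * ‖F - G‖ := by
    rw [norm_smul, Real.norm_eq_abs]
    have e1 : (cut C F) ^ 2 - (cut C G) ^ 2 = (cut C F - cut C G) * (cut C F + cut C G) := by ring
    rw [e1, abs_mul, abs_of_pos (add_pos (cut_pos hC F) (cut_pos hC G))]
    have e2 : ‖K * K‖ ≤ C * C := (norm_mul_le _ _).trans (by gcongr)
    have e3 : cut C F + cut C G ≤ 2 := by linarith only [cut_le_one hC F, cut_le_one hC G]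
    have e4 := abs_cut_sub_le hC F G
    calc |cut C F - cut C G| * (cut C F + cut C G) * ‖K * K‖
        ≤ |cut C F - cut C G| * 2 * (C * C) := by
          (clear * - e3 e2; gcongr)
      _ = (|cut C F - cut C G| * C) * (2 * C) := by ring
      _ ≤ ‖F - G‖ * (2 * C) := by gcongr
      _ = _ := by ring
  have h2 : ‖(cut C F • F - cut C G • G) * (cut C F • F)‖ ≤ 2 * C * ‖F - G‖ := by
    calc _ ≤ ‖cut C F • F - cut C G • G‖ * ‖cut C F • F‖ := norm_mul_le _ _
      _ ≤ (2 * ‖F - G‖) * C := by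
          gcongr
          · exact norm_cut_smul_sub_le hC F G
          · exact norm_cut_smul_le hC F
      _ = _ := by ring
  have h3 : ‖(cut C G • G) * (cut C F • F - cut C G • G)‖ ≤ 2 * C * ‖F - G‖ := by
    calc _ ≤ ‖cut C G • G‖ * ‖cut C F • F - cut C G • G‖ := norm_mul_le _ _
      _ ≤ C * (2 * ‖F - G‖) := by
          gcongr
          · exact norm_cut_smul_le hC G
          · exact norm_cut_smul_sub_le hC F G
      _ = _ := by ring
  rw [h0]
  refine (norm_sub_le _ _).trans ?_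
  have h4 := norm_add_le ((cut C F • F - cut C G • G) * (cut C F • F))
    ((cut C G • G) * (cut C F • F - cut C G • G))
  linarith only [h1, h2, h3, h4]

lemma continuous_cut (hC : 0 < C) : Continuous (cut C : R → ℝ) := by
  unfold cut
  exact continuous_const.div (by fun_prop) (fun F => (max_pos' hC F).ne')

lemma continuous_ric (hC : 0 < C) : Continuous fun p : R × R => ric C p.1 p.2 := by
  unfold ric
  have h := continuous_cut (R := R) hC
  have h2 : Continuous fun p : R × R => cut C p.2 := h.comp continuous_snd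
  fun_prop

end

end Vale.Agent.P371.G
end
end

section

section

/-!
Flows of globally Lipschitz vector fields depending on a parameter in a compact set.
-/

namespace Vale.Agent.P371.G

open Set Topology Metric
open scoped NNReal

variable {P E : Type*} [PseudoMetricSpace P] [NormedAddCommGroup E] [NormedSpace ℝ E]
  [CompleteSpace E]

omit [CompleteSpace E] in
lemma derivIcc_to_Ici {f : ℝ → E} {f' : E} {a b t : ℝ} (ht : t ∈ Ico a b)
    (h : HasDerivWithinAt f f' (Icc a b) t) : HasDerivWithinAt f f' (Ici t) t := by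
  refine h.mono_of_mem_nhdsWithin ?_
  have : Icc t b ∈ 𝓝[≥] t := Icc_mem_nhdsGE ht.2
  exact Filter.mem_of_superset this (Icc_subset_Icc_left ht.1)

theorem exists_solution {a b : ℝ} (hab : a ≤ b) (v : ℝ → E → E) (x0 : E) (L M : ℝ≥0)
    (hL : ∀ t ∈ Icc a b, LipschitzWith L (v t)) (hM : ∀ t ∈ Icc a b, ∀ x, ‖v t x‖ ≤ M)
    (hv : ∀ x, ContinuousOn (fun t => v t x) (Icc a b)) :
    ∃ f : ℝ → E, f a = x0 ∧ ∀ t ∈ Icc a b, HasDerivWithinAt f (v t (f t)) (Icc a b) t := by
  have hpl : IsPicardLindelof v (⟨a, left_mem_Icc.2 hab⟩ : Icc a b) x0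
      (M * Real.toNNReal (b - a)) 0 M L := by
    refine ⟨fun t ht => (hL t ht).lipschitzOnWith, fun x _ => hv x, fun t ht x _ => hM t ht x, ?_⟩
    simp only [NNReal.coe_mul, NNReal.coe_zero, sub_zero, sub_self]
    rw [max_eq_left (sub_nonneg.2 hab), Real.coe_toNNReal _ (sub_nonneg.2 hab)]
  exact hpl.exists_eq_forall_mem_Icc_hasDerivWithinAt₀

theorem exists_flow {S : Set P} (hS : IsCompact S) {a b : ℝ} (hab : a ≤ b)
    (v : P → ℝ → E → E) (x0 : P → E) (L M : ℝ≥0)
    (hL : ∀ p ∈ S, ∀ t ∈ Icc a b, LipschitzWith L (v p t))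
    (hM : ∀ p ∈ S, ∀ t ∈ Icc a b, ∀ x, ‖v p t x‖ ≤ M)
    (hv : ContinuousOn (fun q : P × ℝ × E => v q.1 q.2.1 q.2.2) (S ×ˢ Icc a b ×ˢ univ))
    (hx0 : ContinuousOn x0 S) :
    ∃ Φ : P → ℝ → E, (∀ p ∈ S, Φ p a = x0 p ∧
        ∀ t ∈ Icc a b, HasDerivWithinAt (Φ p) (v p t (Φ p t)) (Icc a b) t) ∧
      ContinuousOn (fun p => Φ p b) S := by
  have hex : ∀ p : P, ∃ f : ℝ → E, p ∈ S → (f a = x0 p ∧
      ∀ t ∈ Icc a b, HasDerivWithinAt f (v p t (f t)) (Icc a b) t) := by
    intro p
    by_cases hp : p ∈ S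
    · obtain ⟨f, hf⟩ := exists_solution hab (v p) (x0 p) L M (hL p hp) (hM p hp) (by
        intro x
        refine hv.comp (f := fun t => (p, t, x)) (by fun_prop) ?_
        intro t ht
        exact ⟨hp, ht, mem_univ _⟩)
      exact ⟨f, fun _ => hf⟩
    · exact ⟨fun _ => 0, fun h => absurd h hp⟩
  choose Φ hΦ using hex
  refine ⟨Φ, hΦ, ?_⟩
  intro p hp
  obtain ⟨h0, h1⟩ := hΦ p hp
  have hcf : ContinuousOn (Φ p) (Icc a b) := fun t ht => (h1 t ht).continuousWithinAt
  -- the function `(q, t) ↦ v q t (Φ p t)` is uniformly continuous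
  have hc : ContinuousOn (fun q : P × ℝ => v q.1 q.2 (Φ p q.2)) (S ×ˢ Icc a b) := by
    refine hv.comp (f := fun q : P × ℝ => (q.1, q.2, Φ p q.2)) ?_ ?_
    · refine continuousOn_fst.prodMk (continuousOn_snd.prodMk ?_)
      exact hcf.comp continuousOn_snd (fun q hq => hq.2)
    · intro q hq
      exact ⟨hq.1, hq.2, mem_univ _⟩
  have huc : UniformContinuousOn (fun q : P × ℝ => v q.1 q.2 (Φ p q.2)) (S ×ˢ Icc a b) :=
    (hS.prod isCompact_Icc).uniformContinuousOn_of_continuous hc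
  rw [Metric.continuousWithinAt_iff]
  intro ε hε
  -- choose `η` with gronwallBound η L η (b - a) < ε
  have hg : Filter.Tendsto (fun η : ℝ => gronwallBound η L η (b - a)) (𝓝 0) (𝓝 0) := by
    have : Continuous (fun η : ℝ => gronwallBound η L η (b - a)) := by
      unfold gronwallBound
      split_ifs
      · fun_prop
      · fun_prop
    have h2 := this.tendsto 0
    rwa [gronwallBound_ε0_δ0] at h2
  have hg' : ∀ᶠ η in 𝓝[>] (0:ℝ), gronwallBound η L η (b - a) < ε :=
    (hg.mono_left nhdsWithin_le_nhds).eventually (gt_mem_nhds hε)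
  obtain ⟨η, hη, hηpos⟩ := (hg'.and self_mem_nhdsWithin).exists
  rw [Metric.uniformContinuousOn_iff] at huc
  obtain ⟨δ1, hδ1, huc⟩ := huc η hηpos
  obtain ⟨δ2, hδ2, hx⟩ := Metric.continuousWithinAt_iff.1 (hx0 p hp) η hηpos
  refine ⟨min δ1 δ2, lt_min hδ1 hδ2, ?_⟩
  intro q hq hqp
  obtain ⟨h2, h3⟩ := hΦ q hq
  have hcg : ContinuousOn (Φ q) (Icc a b) := fun t ht => (h3 t ht).continuousWithinAt
  have key := dist_le_of_approx_trajectories_ODE_of_mem (v := v q) (K := L) (s := fun _ => univ)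
    (f := Φ q) (g := Φ p) (f' := fun t => v q t (Φ q t)) (g' := fun t => v p t (Φ p t))
    (a := a) (b := b) (εf := 0) (εg := η) (δ := η)
    (fun t ht => (hL q hq t (Ico_subset_Icc_self ht)).lipschitzOnWith) hcg
    (fun t ht => derivIcc_to_Ici ht (h3 t (Ico_subset_Icc_self ht)))
    (fun t _ => by simp) (fun _ _ => trivial) hcf
    (fun t ht => derivIcc_to_Ici ht (h1 t (Ico_subset_Icc_self ht)))
    (fun t ht => ?_) (fun _ _ => trivial) ?_ b (right_mem_Icc.2 hab)
  · rw [zero_add] at key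
    exact key.trans_lt hη
  · have := huc (p, t) ⟨hp, Ico_subset_Icc_self ht⟩ (q, t) ⟨hq, Ico_subset_Icc_self ht⟩ (by
      rw [Prod.dist_eq, dist_self, max_eq_left dist_nonneg, dist_comm]
      exact hqp.trans_le (min_le_left _ _))
    exact this.le
  · rw [h0, h2]
    exact (hx hq (hqp.trans_le (min_le_right _ _))).le

end Vale.Agent.P371.G
end
end

section

section

/-!
A priori bounds for matrix Riccati equations `F' = c (K² - F²) - Q` with `F(a) = K`, `F(b) = -K`.
-/

namespace Vale.Agent.P371.G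

open Set Topology Metric Matrix MeasureTheory
open scoped Matrix.Norms.L2Operator ComplexOrder

set_option linter.unusedSectionVars false

variable {n : Type*} [Fintype n] [DecidableEq n]

open scoped MatrixOrder in
lemma exists_eq_conjTranspose_mul_self {A : Matrix n n ℂ} (hA : A.PosSemidef) :
    ∃ C : Matrix n n ℂ, A = Cᴴ * C :=
  (CStarAlgebra.nonneg_iff_eq_star_mul_self (a := A)).1 (nonneg_iff_posSemidef.2 hA)

lemma ric_trace_mul_nonneg {A B : Matrix n n ℂ} (hA : A.PosSemidef) (hB : B.PosSemidef) :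
    0 ≤ (A * B).trace.re := by
  obtain ⟨C, rfl⟩ := exists_eq_conjTranspose_mul_self hA
  have h : (Cᴴ * C * B).trace = (C * B * Cᴴ).trace := by
    rw [Matrix.mul_assoc, trace_mul_comm]
  rw [h]
  exact (Complex.le_def.1 (hB.mul_mul_conjTranspose_same C).trace_nonneg).1

section

variable {a b : ℝ} {K : Matrix n n ℂ} {F Q : ℝ → Matrix n n ℂ} {c : ℝ → ℝ}

theorem riccati_upper (hK : K.IsHermitian)
    (hF : ∀ t ∈ Icc a b, HasDerivWithinAt F (c t • (K * K - F t * F t) - Q t) (Icc a b) t)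
    (hFh : ∀ t ∈ Icc a b, (F t).IsHermitian) (hQ : ∀ t ∈ Icc a b, (Q t).PosSemidef)
    {B : ℝ} (hc : ∀ t ∈ Icc a b, |c t| ≤ B) (h0 : F a = K) :
    ∀ t ∈ Icc a b, (K - F t).PosSemidef := by
  intro t ht
  have hcont : ContinuousOn F (Icc a b) := fun t ht => (hF t ht).continuousWithinAt
  obtain ⟨M, hM⟩ := isCompact_Icc.exists_bound_of_continuousOn hcont
  have hB : 0 ≤ B := (abs_nonneg _).trans (hc t ht)
  refine posSemidef_of_lyapunov (X := fun t => K - F t) (G := fun t => (-(c t / 2)) • (K + F t))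
    (X' := fun t => -(c t • (K * K - F t * F t) - Q t)) (g := B / 2 * (‖K‖ + M))
    ?_ ?_ ?_ ?_ ?_ t ht
  · intro s hs
    exact (hF s hs).const_sub K
  · intro s hs
    exact hK.sub (hFh s hs)
  · simp only [h0, sub_self]
    exact PosSemidef.zero
  · intro s hs
    rw [norm_smul, Real.norm_eq_abs, abs_neg, abs_div, abs_two]
    gcongr
    · exact hc s hs
    · exact (norm_add_le _ _).trans (by gcongr; exact hM s hs)
  · intro s hs v
    have h1 : -(c s • (K * K - F s * F s) - Q s) - ((-(c s / 2)) • (K + F s) * (K - F s)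
        + (K - F s) * ((-(c s / 2)) • (K + F s))ᴴ) = Q s := by
      rw [conjTranspose_smul, conjTranspose_add, hK.eq, (hFh s hs).eq, star_trivial,
        smul_mul_assoc, mul_smul_comm, ← smul_add]
      have h2 : (K + F s) * (K - F s) + (K - F s) * (K + F s)
          = (2 : ℝ) • (K * K - F s * F s) := by
        rw [two_smul]; noncomm_ring
      rw [h2, smul_smul]
      module
    rw [h1]
    exact (posSemidef_iff_qf.1 (hQ s hs)).2 v

theorem riccati_lower (hK : K.IsHermitian)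
    (hF : ∀ t ∈ Icc a b, HasDerivWithinAt F (c t • (K * K - F t * F t) - Q t) (Icc a b) t)
    (hFh : ∀ t ∈ Icc a b, (F t).IsHermitian) (hQ : ∀ t ∈ Icc a b, (Q t).PosSemidef)
    {B : ℝ} (hc : ∀ t ∈ Icc a b, |c t| ≤ B) (h1 : F b = -K) :
    ∀ t ∈ Icc a b, (K + F t).PosSemidef := by
  have hmaps : MapsTo (fun t => a + b - t) (Icc a b) (Icc a b) := by
    intro t ht
    constructor <;> [linarith [ht.2]; linarith [ht.1]]
  have key := riccati_upper (a := a) (b := b) (K := K) (F := fun t => -F (a + b - t))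
    (Q := fun t => Q (a + b - t)) (c := fun t => c (a + b - t)) hK ?_ ?_ ?_ (B := B) ?_ ?_
  · intro t ht
    have := key (a + b - t) (hmaps ht)
    simpa using this
  · intro t ht
    have h2 : HasDerivWithinAt (fun t => a + b - t) (-1) (Icc a b) t := by
      simpa only [id_eq] using ((hasDerivAt_id t).const_sub (a + b)).hasDerivWithinAt
    have h3 := (hF (a + b - t) (hmaps ht)).scomp t h2 hmaps
    have h4 := h3.neg
    refine h4.congr_deriv ?_
    simp only [neg_smul, one_smul, neg_neg, neg_mul_neg]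
  · intro t ht
    exact (hFh _ (hmaps ht)).neg
  · intro t ht
    exact hQ _ (hmaps ht)
  · intro t ht
    exact hc _ (hmaps ht)
  · simp [h1]

theorem riccati_trace (hab : a ≤ b)
    (hF : ∀ t ∈ Icc a b, HasDerivWithinAt F (c t • (K * K - F t * F t) - Q t) (Icc a b) t)
    (hc : ∀ t ∈ Icc a b, 0 ≤ c t)
    (hm : ∀ t ∈ Icc a b, (K - F t).PosSemidef) (hp : ∀ t ∈ Icc a b, (K + F t).PosSemidef)
    {T : ℝ} (hT : ∀ t ∈ Icc a b, (Q t).trace.re ≤ T) (h0 : F a = K) (h1 : F b = -K) :
    2 * K.trace.re ≤ T * (b - a) := by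
  have hd : ∀ t ∈ Icc a b, HasDerivWithinAt (fun t => (F t).trace.re + T * (t - a))
      ((c t • (K * K - F t * F t) - Q t).trace.re + T) (Icc a b) t := by
    intro t ht
    have h2 : HasDerivWithinAt (fun t => (F t).trace.re)
        ((c t • (K * K - F t * F t) - Q t).trace.re) (Icc a b) t := by
      let L : Matrix n n ℂ →L[ℝ] ℝ := LinearMap.toContinuousLinearMap
        { toFun := fun A => A.trace.re
          map_add' := fun A B => by simp only [trace_add, Complex.add_re]
          map_smul' := fun r A => by simp only [trace_smul, Complex.real_smul, Complex.mul_re, Complex.ofReal_re, Complex.ofReal_im, zero_mul, sub_zero, Real.ringHom_apply, smul_eq_mul] }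
      exact L.hasFDerivAt.comp_hasDerivWithinAt t (hF t ht)
    have h3 : HasDerivWithinAt (fun t => T * (t - a)) T (Icc a b) t := by
      simpa only [id_eq, mul_one] using (((hasDerivAt_id t).sub_const a).const_mul T).hasDerivWithinAt
    exact h2.add h3
  have hmono : MonotoneOn (fun t => (F t).trace.re + T * (t - a)) (Icc a b) := by
    refine monotoneOn_of_hasDerivWithinAt_nonneg (convex_Icc a b)
      (fun t ht => (hd t ht).continuousWithinAt)
      (fun t ht => (hd t (interior_subset ht)).mono interior_subset) ?_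
    intro t ht
    have ht' := interior_subset ht
    have h2 : (K * K - F t * F t).trace = ((K - F t) * (K + F t)).trace := by
      have h3 : (K - F t) * (K + F t) = K * K - F t * F t + (K * F t - F t * K) := by
        noncomm_ring
      rw [h3, trace_add, trace_sub (K * F t), trace_mul_comm K (F t), sub_self, add_zero]
    have h4 := ric_trace_mul_nonneg (hm t ht') (hp t ht')
    rw [trace_sub, trace_smul, Complex.sub_re, h2]
    have h5 : (c t • ((K - F t) * (K + F t)).trace).re = c t * ((K - F t) * (K + F t)).trace.re := by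
      simp only [Complex.real_smul, Complex.mul_re, Complex.ofReal_re, Complex.ofReal_im, zero_mul, sub_zero]
    rw [h5]
    have h6 := mul_nonneg (hc t ht') h4
    linarith [hT t ht']
  have := hmono (left_mem_Icc.2 hab) (right_mem_Icc.2 hab) hab
  simp only [h0, h1, trace_neg, Complex.neg_re, sub_self, mul_zero, add_zero] at this
  linarith only [this]

theorem riccati_eigen (hab : a ≤ b)
    (hF : ∀ t ∈ Icc a b, HasDerivWithinAt F (c t • (K * K - F t * F t) - Q t) (Icc a b) t)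
    (hFh : ∀ t ∈ Icc a b, (F t).IsHermitian)
    (hcc : ContinuousOn c (Icc a b)) (hQc : ContinuousOn Q (Icc a b))
    (hc : ∀ t ∈ Icc a b, 0 ≤ c t) (hc1 : ∀ t ∈ Icc a b, c t ≤ 1)
    (h0 : F a = K) (h1 : F b = -K) {k : ℝ} {e : n → ℂ} (he : K *ᵥ e = k • e)
    {d : ℝ} (hd : d * qf (1 : Matrix n n ℂ) e ≤ ∫ t in a..b, qf (Q t) e) (hne : e ≠ 0) :
    d ≤ 2 * k + (b - a) * k ^ 2 := by
  have hcF : ContinuousOn F (Icc a b) := fun t ht => (hF t ht).continuousWithinAt
  have hq1 := qf_one_pos hne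
  have hK2 : qf (K * K) e = k ^ 2 * qf (1 : Matrix n n ℂ) e := by
    rw [qf_mul_zero_right he, qf_eigenvector he]; ring
  have hcont' : ContinuousOn (fun t => c t • (K * K - F t * F t) - Q t) (Icc a b) :=
    (hcc.smul (continuousOn_const.sub (hcF.mul hcF))).sub hQc
  have hd1 : ∫ t in a..b, qf (c t • (K * K - F t * F t) - Q t) e
      = qf (F b) e - qf (F a) e := by
    refine intervalIntegral.integral_eq_sub_of_hasDeriv_right_of_le (f := fun t => qf (F t) e)
      hab ?_ ?_ ?_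
    · exact (qfL e).continuous.comp_continuousOn hcF
    · intro x hx
      have h2 := (hF x (Ioo_subset_Icc_self hx))
      have h3 := (qfL e).hasFDerivAt.comp_hasDerivWithinAt x h2
      exact (h3.hasDerivAt (Icc_mem_nhds hx.1 hx.2)).hasDerivWithinAt
    · refine ContinuousOn.intervalIntegrable ?_
      rw [uIcc_of_le hab]
      exact (qfL e).continuous.comp_continuousOn hcont'
  have hqQ : IntervalIntegrable (fun t => qf (Q t) e) volume a b := by
    refine ContinuousOn.intervalIntegrable ?_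
    rw [uIcc_of_le hab]
    exact (qfL e).continuous.comp_continuousOn hQc
  have hle : ∫ t in a..b, qf (c t • (K * K - F t * F t) - Q t) e
      ≤ ∫ t in a..b, (k ^ 2 * qf (1 : Matrix n n ℂ) e - qf (Q t) e) := by
    refine intervalIntegral.integral_mono_on hab ?_ ?_ ?_
    · refine ContinuousOn.intervalIntegrable ?_
      rw [uIcc_of_le hab]
      exact (qfL e).continuous.comp_continuousOn hcont'
    · exact intervalIntegrable_const.sub hqQ
    · intro t ht
      rw [qf_sub, qf_smul, qf_sub, hK2]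
      have h2 : 0 ≤ qf (F t * F t) e := by
        have h3 : (F t * F t).PosSemidef := by
          have := posSemidef_conjTranspose_mul_self (F t)
          rwa [(hFh t ht).eq] at this
        exact (posSemidef_iff_qf.1 h3).2 e
      have h4 : c t * (k ^ 2 * qf (1 : Matrix n n ℂ) e - qf (F t * F t) e)
          ≤ 1 * (k ^ 2 * qf (1 : Matrix n n ℂ) e) := by
        calc c t * (k ^ 2 * qf (1 : Matrix n n ℂ) e - qf (F t * F t) e)
            ≤ c t * (k ^ 2 * qf (1 : Matrix n n ℂ) e) := by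
              gcongr
              · exact hc t ht
              · linarith only [h2]
          _ ≤ 1 * (k ^ 2 * qf (1 : Matrix n n ℂ) e) := by
              gcongr
              exact hc1 t ht
      linarith only [h4]
  rw [hd1, h0, h1, intervalIntegral.integral_sub (intervalIntegrable_const) hqQ,
    intervalIntegral.integral_const] at hle
  have h5 : qf (-K) e = -qf K e := by
    have := qf_smul (-1) K e
    simpa using this
  rw [h5, qf_eigenvector he, smul_eq_mul] at hle
  have h6 : d * qf (1 : Matrix n n ℂ) e ≤ (2 * k + (b - a) * k ^ 2) * qf (1 : Matrix n n ℂ) e := by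
    linarith
  exact le_of_mul_le_mul_right h6 hq1

end

end Vale.Agent.P371.G
end
end

section

section

/-!
Existence of a positive definite `K` such that the solution of the Riccati equation
`F' = K² - F² - Q_K`, `F(a) = K`, ends at `F(b) = -K`.
-/

namespace Vale.Agent.P371.G

open Set Topology Metric Matrix MeasureTheory
open scoped Matrix.Norms.L2Operator ComplexOrder NNReal

set_option linter.unusedSectionVars false

variable {n : Type*} [Fintype n] [DecidableEq n]

/-- the domain on which the degree argument takes place -/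
def dom (n : Type*) [Fintype n] [DecidableEq n] (C δ : ℝ) : Set (Matrix n n ℂ) :=
  {K | ‖K‖ < C ∧ ∀ v, v ≠ 0 → δ * qf (1 : Matrix n n ℂ) v < qf K v}

lemma continuous_qf_left (v : n → ℂ) : Continuous fun K : Matrix n n ℂ => qf K v :=
  (qfL v).continuous

lemma isOpen_dom [Nonempty n] (C δ : ℝ) : IsOpen (dom n C δ) := by
  rw [Metric.isOpen_iff]
  rintro K ⟨hK1, hK2⟩
  obtain ⟨k, e, he, hKe, hk⟩ := exists_lowest (hp_isHermitian K)
  have hkδ : δ < k := by
    have h1 := hK2 e he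
    rw [← qf_hp K, qf_eigenvector hKe] at h1
    exact lt_of_mul_lt_mul_right h1 (qf_one_pos he).le
  refine ⟨min (C - ‖K‖) (k - δ), lt_min (by linarith) (by linarith), ?_⟩
  intro K' hK'
  rw [mem_ball, dist_eq_norm, lt_min_iff] at hK'
  refine ⟨?_, fun v hv => ?_⟩
  · have : ‖K'‖ ≤ ‖K' - K‖ + ‖K‖ := by
      calc ‖K'‖ = ‖(K' - K) + K‖ := by rw [sub_add_cancel]
        _ ≤ _ := norm_add_le _ _
    linarith only [hK', this]
  · have h1 := hk v
    rw [qf_hp] at h1
    have h2 := abs_qf_le (K' - K) v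
    rw [qf_sub] at h2
    have h3 := qf_one_pos hv
    have h4 : ‖K' - K‖ * qf (1 : Matrix n n ℂ) v < (k - δ) * qf (1 : Matrix n n ℂ) v := by
      gcongr
      exact hK'.2
    have h5 := (abs_le.1 h2).1
    linarith

lemma closure_dom_subset (C δ : ℝ) : closure (dom n C δ) ⊆
    {K | ‖K‖ ≤ C ∧ ∀ v, δ * qf (1 : Matrix n n ℂ) v ≤ qf K v} := by
  refine closure_minimal ?_ ?_
  · rintro K ⟨h1, h2⟩
    refine ⟨h1.le, fun v => ?_⟩
    rcases eq_or_ne v 0 with rfl | hv
    · simp only [qf, star_zero, mulVec_zero, dotProduct_zero, Complex.zero_re, mul_zero, Std.le_refl]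
    · exact (h2 v hv).le
  · have : {K : Matrix n n ℂ | ‖K‖ ≤ C ∧ ∀ v, δ * qf (1 : Matrix n n ℂ) v ≤ qf K v}
        = {K : Matrix n n ℂ | ‖K‖ ≤ C} ∩
          ⋂ v, {K : Matrix n n ℂ | δ * qf (1 : Matrix n n ℂ) v ≤ qf K v} := by
      ext; simp only [mem_ofPred_eq, mem_inter_iff, mem_iInter]
    rw [this]
    exact IsClosed.inter (isClosed_le continuous_norm continuous_const)
      (isClosed_iInter fun v => isClosed_le continuous_const (continuous_qf_left v))

lemma isBounded_dom (C δ : ℝ) : Bornology.IsBounded (dom n C δ) := by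
  refine (Metric.isBounded_ball (x := (0 : Matrix n n ℂ)) (r := C)).subset ?_
  rintro K ⟨h1, -⟩
  simpa using h1

lemma isCompact_closure_dom (C δ : ℝ) : IsCompact (closure (dom n C δ)) := by
  have : ProperSpace (Matrix n n ℂ) := FiniteDimensional.proper ℝ _
  exact (isBounded_dom C δ).isCompact_closure

section

variable {a b C : ℝ}

/-- the vector field of the homotopy -/
noncomputable def vf (C : ℝ) (Q : Matrix n n ℂ → ℝ → Matrix n n ℂ) (K0 : Matrix n n ℂ)
    (p : ℝ × Matrix n n ℂ) (t : ℝ) (F : Matrix n n ℂ) : Matrix n n ℂ :=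
  p.1 • ric C (hp p.2) F - ((1 - p.1) • Q K0 t + p.1 • Q (hp p.2) t)

lemma posDef_hp {K : Matrix n n ℂ} {δ : ℝ} (hδ : 0 < δ)
    (h : ∀ v, δ * qf (1 : Matrix n n ℂ) v ≤ qf K v) : (hp K).PosDef := by
  refine posDef_of_qf (hp_isHermitian K) fun v hv => ?_
  rw [qf_hp]
  exact (mul_pos hδ (qf_one_pos hv)).trans_le (h v)

/-- solutions of the truncated equation are Hermitian -/
lemma hermitian_of_sol {p : ℝ × Matrix n n ℂ} {Q : Matrix n n ℂ → ℝ → Matrix n n ℂ}
    {K0 : Matrix n n ℂ} {L : ℝ≥0} {F : ℝ → Matrix n n ℂ}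
    (hL : ∀ t ∈ Icc a b, LipschitzWith L (vf C Q K0 p t))
    (hQ0 : ∀ t ∈ Icc a b, (Q K0 t).IsHermitian) (hQ1 : ∀ t ∈ Icc a b, (Q (hp p.2) t).IsHermitian)
    (h0 : F a = hp p.2)
    (hF : ∀ t ∈ Icc a b, HasDerivWithinAt F (vf C Q K0 p t (F t)) (Icc a b) t) :
    ∀ t ∈ Icc a b, (F t).IsHermitian := by
  have hG : ∀ t ∈ Icc a b, HasDerivWithinAt (fun t => (F t)ᴴ) (vf C Q K0 p t (F t)ᴴ) (Icc a b) t := by
    intro t ht
    have h1 : HasDerivWithinAt (fun t => star (F t)) (star (vf C Q K0 p t (F t))) (Icc a b) t :=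
      (hF t ht).star
    have h2 : star (vf C Q K0 p t (F t)) = vf C Q K0 p t (F t)ᴴ := by
      have hcut : cut C (F t)ᴴ = cut C (F t) := by rw [cut, cut, l2_opNorm_conjTranspose]
      rw [star_eq_conjTranspose, vf, vf, ric_eq, ric_eq, conjTranspose_sub, conjTranspose_smul,
        conjTranspose_smul, conjTranspose_sub, conjTranspose_mul, conjTranspose_mul,
        conjTranspose_add, conjTranspose_smul, conjTranspose_smul, (hQ0 t ht).eq, (hQ1 t ht).eq,
        (hp_isHermitian p.2).eq, hcut]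
      simp only [star_trivial]
    rw [h2] at h1
    exact h1
  have hcF : ContinuousOn F (Icc a b) := fun t ht => (hF t ht).continuousWithinAt
  have hcG : ContinuousOn (fun t => (F t)ᴴ) (Icc a b) := fun t ht => (hG t ht).continuousWithinAt
  have heq := ODE_solution_unique_of_mem_Icc_right (v := vf C Q K0 p) (K := L)
    (s := fun _ => univ) (f := fun t => (F t)ᴴ) (g := F) (a := a) (b := b)
    (fun t ht => (hL t (Ico_subset_Icc_self ht)).lipschitzOnWith) hcG
    (fun t ht => derivIcc_to_Ici ht (hG t (Ico_subset_Icc_self ht))) (fun _ _ => trivial) hcF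
    (fun t ht => derivIcc_to_Ici ht (hF t (Ico_subset_Icc_self ht))) (fun _ _ => trivial)
    (by simp only [h0]; exact hp_isHermitian _)
  intro t ht
  exact heq ht

lemma skew_zero {X K : Matrix n n ℂ} (hX : X.IsHermitian)
    (h : X + hp K + (2 : ℝ) • (K - hp K) = 0) : K.IsHermitian ∧ X = -K := by
  have h1 : (K - hp K)ᴴ = -(K - hp K) := by
    rw [hp, conjTranspose_sub, conjTranspose_smul, conjTranspose_add, conjTranspose_conjTranspose,
      star_trivial]
    module
  have h2 := congrArg conjTranspose h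
  rw [conjTranspose_add, conjTranspose_add, hX.eq, (hp_isHermitian K).eq, conjTranspose_smul,
    h1, conjTranspose_zero, star_trivial] at h2
  have h3 : K - hp K = 0 := by
    have h4 : (4 : ℝ) • (K - hp K) = 0 := by
      calc (4 : ℝ) • (K - hp K) = (X + hp K + (2 : ℝ) • (K - hp K))
            - (X + hp K + (2 : ℝ) • -(K - hp K)) := by module
        _ = 0 := by rw [h, h2, sub_zero]
    exact (smul_eq_zero.1 h4).resolve_left (by norm_num)
  have h5 : K = hp K := sub_eq_zero.1 h3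
  refine ⟨h5 ▸ hp_isHermitian K, ?_⟩
  rw [h3, smul_zero, add_zero, ← h5] at h
  exact eq_neg_of_add_eq_zero_left h

/-- what one gets at a zero of the homotopy -/
lemma zero_facts [Nonempty n] (hab : a < b) {Q : Matrix n n ℂ → ℝ → Matrix n n ℂ} {T d δ : ℝ}
    (hδ : 0 < δ) (hδd : 2 * δ + (b - a) * δ ^ 2 < d) (hC : T * (b - a) / 2 < C) (hC0 : 0 < C)
    (hQc : ContinuousOn (fun p : Matrix n n ℂ × ℝ => Q p.1 p.2) ({K | K.PosDef} ×ˢ Icc a b))
    (hQ : ∀ K : Matrix n n ℂ, K.PosDef → ∀ t ∈ Icc a b, (Q K t).PosSemidef)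
    (hQT : ∀ K : Matrix n n ℂ, K.PosDef → ∀ t ∈ Icc a b, (Q K t).trace.re ≤ T)
    (hlow : ∀ K : Matrix n n ℂ, K.PosDef → 2 * K.trace.re ≤ T * (b - a) → ∀ (k : ℝ) (e : n → ℂ),
      K *ᵥ e = k • e → (∀ v, k * qf (1 : Matrix n n ℂ) v ≤ qf K v) →
      d * qf (1 : Matrix n n ℂ) e ≤ ∫ t in a..b, qf (Q K t) e)
    {K0 : Matrix n n ℂ} (hK0 : K0.PosDef)
    (hlow0 : ∀ e : n → ℂ, d * qf (1 : Matrix n n ℂ) e ≤ ∫ t in a..b, qf (Q K0 t) e)
    {s : ℝ} (hs : s ∈ Icc (0 : ℝ) 1) {K : Matrix n n ℂ}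
    (hK : ∀ v, δ * qf (1 : Matrix n n ℂ) v ≤ qf K v)
    (hKh : K.IsHermitian) {F : ℝ → Matrix n n ℂ}
    (hF : ∀ t ∈ Icc a b, HasDerivWithinAt F (vf C Q K0 (s, K) t (F t)) (Icc a b) t)
    (hFh : ∀ t ∈ Icc a b, (F t).IsHermitian) (h0 : F a = K) (h1 : F b = -K) :
    K ∈ dom n C δ ∧ 2 * K.trace.re ≤ T * (b - a) ∧
      (∀ t ∈ Icc a b, (K - F t).PosSemidef ∧ (K + F t).PosSemidef) := by
  have hKpd : K.PosDef := by
    have := posDef_hp hδ hK
    rwa [hp_eq_self hKh] at this
  have hcF : ContinuousOn F (Icc a b) := fun t ht => (hF t ht).continuousWithinAt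
  set c : ℝ → ℝ := fun t => s * (cut C (F t)) ^ 2 with hc
  set P : ℝ → Matrix n n ℂ := fun t => (1 - s) • Q K0 t + s • Q K t with hP
  have hF' : ∀ t ∈ Icc a b, HasDerivWithinAt F (c t • (K * K - F t * F t) - P t) (Icc a b) t := by
    intro t ht
    have := hF t ht
    rw [vf, ric_eq] at this
    simp only [hp_eq_self hKh, smul_smul] at this
    exact this
  have hPs : ∀ t ∈ Icc a b, (P t).PosSemidef := by
    intro t ht
    rw [posSemidef_iff_qf]
    refine ⟨?_, fun v => ?_⟩
    · rw [hP]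
      simp only [IsHermitian, conjTranspose_add, conjTranspose_smul, star_trivial,
        (hQ K0 hK0 t ht).1.eq, (hQ K hKpd t ht).1.eq]
    · simp only [hP]
      rw [qf_add, qf_smul, qf_smul]
      have h2 := (posSemidef_iff_qf.1 (hQ K0 hK0 t ht)).2 v
      have h3 := (posSemidef_iff_qf.1 (hQ K hKpd t ht)).2 v
      have := hs.1
      have : 0 ≤ 1 - s := by linarith only [hs.2]
      positivity
  have hc0 : ∀ t ∈ Icc a b, 0 ≤ c t := fun t _ => mul_nonneg hs.1 (sq_nonneg _)
  have hc1 : ∀ t ∈ Icc a b, c t ≤ 1 := by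
    intro t _
    have h2 := cut_le_one hC0 (F t)
    have h3 := (cut_pos hC0 (F t)).le
    calc s * (cut C (F t)) ^ 2 ≤ 1 * 1 ^ 2 := by
          gcongr
          exact hs.2
      _ = 1 := by norm_num
  have hcabs : ∀ t ∈ Icc a b, |c t| ≤ 1 := fun t ht => by
    rw [abs_of_nonneg (hc0 t ht)]; exact hc1 t ht
  have hcc : ContinuousOn c (Icc a b) := by
    have h2 : ContinuousOn (fun t => cut C (F t)) (Icc a b) :=
      ((continuous_cut hC0).comp_continuousOn hcF :)
    exact continuousOn_const.mul (h2.pow 2)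
  have hQK : ∀ K : Matrix n n ℂ, K.PosDef → ContinuousOn (fun t => Q K t) (Icc a b) := by
    intro K' hK'
    have hm : MapsTo (fun t : ℝ => (K', t)) (Icc a b) ({K | K.PosDef} ×ˢ Icc a b) :=
      fun t ht => ⟨hK', ht⟩
    have hcm : ContinuousOn (fun t : ℝ => (K', t)) (Icc a b) := by fun_prop
    exact (hQc.comp hcm hm :)
  have hPc : ContinuousOn P (Icc a b) := by
    have h2 : ContinuousOn (fun t => (1 - s) • Q K0 t) (Icc a b) :=
      ContinuousOn.const_smul (hQK K0 hK0) (1 - s)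
    have h3 : ContinuousOn (fun t => s • Q K t) (Icc a b) :=
      ContinuousOn.const_smul (hQK K hKpd) s
    exact ContinuousOn.add h2 h3
  have hm := riccati_upper hKh hF' hFh hPs hcabs h0
  have hp' := riccati_lower hKh hF' hFh hPs hcabs h1
  have hPT : ∀ t ∈ Icc a b, (P t).trace.re ≤ T := by
    intro t ht
    have h2 := hQT K0 hK0 t ht
    have h3 := hQT K hKpd t ht
    have h4 : (P t).trace.re = (1 - s) * (Q K0 t).trace.re + s * (Q K t).trace.re := by
      simp only [hP, trace_add, trace_smul, Complex.real_smul, Complex.ofReal_sub, Complex.ofReal_one, Complex.add_re, Complex.mul_re, Complex.sub_re, Complex.one_re, Complex.ofReal_re, Complex.sub_im, Complex.one_im, Complex.ofReal_im, sub_self, zero_mul, sub_zero]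
    rw [h4]
    have := hs.1
    have : 0 ≤ 1 - s := by linarith only [hs.2]
    nlinarith
  have htr := riccati_trace hab.le hF' hc0 hm hp' hPT h0 h1
  refine ⟨⟨?_, ?_⟩, htr, fun t ht => ⟨hm t ht, hp' t ht⟩⟩
  · have h2 := norm_le_trace hKpd.posSemidef
    linarith only [hC, htr, h2]
  · obtain ⟨k, e, he, hKe, hk⟩ := exists_lowest hKh
    have hkpos : 0 < k := by
      have h2 := hK e
      rw [qf_eigenvector hKe] at h2
      exact hδ.trans_le (le_of_mul_le_mul_right h2 (qf_one_pos he))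
    have hint : d * qf (1 : Matrix n n ℂ) e ≤ ∫ t in a..b, qf (P t) e := by
      have i1 : IntervalIntegrable (fun t => qf (Q K0 t) e) volume a b := by
        refine ContinuousOn.intervalIntegrable ?_
        rw [uIcc_of_le hab.le]
        exact (qfL e).continuous.comp_continuousOn (hQK K0 hK0)
      have i2 : IntervalIntegrable (fun t => qf (Q K t) e) volume a b := by
        refine ContinuousOn.intervalIntegrable ?_
        rw [uIcc_of_le hab.le]
        exact (qfL e).continuous.comp_continuousOn (hQK K hKpd)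
      have h2 : ∫ t in a..b, qf (P t) e
          = (1 - s) * (∫ t in a..b, qf (Q K0 t) e) + s * ∫ t in a..b, qf (Q K t) e := by
        simp only [hP, qf_add, qf_smul]
        rw [intervalIntegral.integral_add (i1.const_mul _) (i2.const_mul _),
          intervalIntegral.integral_const_mul, intervalIntegral.integral_const_mul]
      rw [h2]
      have h3 := hlow0 e
      have h4 := hlow K hKpd htr k e hKe hk
      have := hs.1
      have : 0 ≤ 1 - s := by linarith only [hs.2]
      (clear hδd hC hQc hcF hc hcc hQK hPc he hkpos i1 i2 h2; nlinarith)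
    have h5 := riccati_eigen hab.le hF' hFh hcc hPc hc0 hc1 h0 h1 hKe hint he
    have hδk : δ < k := by
      by_contra hle
      rw [not_lt] at hle
      have h6 : (b - a) * k ^ 2 ≤ (b - a) * δ ^ 2 := by
        have : 0 ≤ b - a := by linarith only [hab]
        (clear * - hkpos hle hab; gcongr)
      linarith only [hδd, h5, hle, h6]
    intro v hv
    exact (mul_lt_mul_of_pos_right hδk (qf_one_pos hv)).trans_le (hk v)

end

end Vale.Agent.P371.G
end
end

section

section

/-!
Trace functions of Hermitian matrices: spectral double sums, Klein's inequality,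
differentiability of trace functions along curves.
-/

namespace Vale.Agent.P371.GII

open Matrix Filter Topology
open scoped ComplexOrder MatrixOrder Matrix.Norms.L2Operator

variable {n : Type*} [Fintype n] [DecidableEq n]

/-- trace of a real function of a (Hermitian) matrix -/
noncomputable def trf (f : ℝ → ℝ) (M : Matrix n n ℂ) : ℝ := (cfc f M).trace.re

/-- overlap weights of the eigenbases of two Hermitian matrices -/
noncomputable def wt {X Y : Matrix n n ℂ} (hX : X.IsHermitian) (hY : Y.IsHermitian) (i j : n) : ℝ :=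
  Complex.normSq ((star (hX.eigenvectorUnitary : Matrix n n ℂ) *
    (hY.eigenvectorUnitary : Matrix n n ℂ)) i j)

theorem wt_nonneg {X Y : Matrix n n ℂ} (hX : X.IsHermitian) (hY : Y.IsHermitian) (i j : n) :
    0 ≤ wt hX hY i j := Complex.normSq_nonneg _

theorem cfc_eq_mul {X : Matrix n n ℂ} (hX : X.IsHermitian) (f : ℝ → ℝ) :
    cfc f X = (hX.eigenvectorUnitary : Matrix n n ℂ) *
      diagonal (fun i => ((f (hX.eigenvalues i) : ℝ) : ℂ)) *
      star (hX.eigenvectorUnitary : Matrix n n ℂ) := by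
  rw [hX.cfc_eq, Matrix.IsHermitian.cfc, Unitary.conjStarAlgAut_apply]
  rfl

theorem re_tr_cfc_mul_cfc {X Y : Matrix n n ℂ} (hX : X.IsHermitian) (hY : Y.IsHermitian)
    (f g : ℝ → ℝ) :
    (cfc f X * cfc g Y).trace.re
      = ∑ i, ∑ j, wt hX hY i j * (f (hX.eigenvalues i) * g (hY.eigenvalues j)) := by
  rw [cfc_eq_mul hX, cfc_eq_mul hY]
  set U := (hX.eigenvectorUnitary : Matrix n n ℂ)
  set V := (hY.eigenvectorUnitary : Matrix n n ℂ)
  set C := star U * V with hC
  have e1 : (U * diagonal (fun i => ((f (hX.eigenvalues i) : ℝ) : ℂ)) * star U *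
      (V * diagonal (fun i => ((g (hY.eigenvalues i) : ℝ) : ℂ)) * star V)).trace
      = (diagonal (fun i => ((f (hX.eigenvalues i) : ℝ) : ℂ)) *
        (C * (diagonal (fun i => ((g (hY.eigenvalues i) : ℝ) : ℂ)) * star C))).trace := by
    rw [Matrix.mul_assoc U, Matrix.mul_assoc U, Matrix.trace_mul_comm U]
    congr 1
    rw [hC, star_mul, star_star]
    simp only [Matrix.mul_assoc]
  rw [e1, Matrix.trace, Complex.re_sum]
  refine Finset.sum_congr rfl fun i _ => ?_
  rw [Matrix.diag_apply, Matrix.diagonal_mul, Matrix.mul_apply, Finset.mul_sum, Complex.re_sum]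
  refine Finset.sum_congr rfl fun j _ => ?_
  rw [Matrix.diagonal_mul, Matrix.star_apply]
  have : ((f (hX.eigenvalues i) : ℝ) : ℂ) * (C i j * (((g (hY.eigenvalues j) : ℝ) : ℂ) * star (C i j)))
      = ((Complex.normSq (C i j) * (f (hX.eigenvalues i) * g (hY.eigenvalues j)) : ℝ) : ℂ) := by
    rw [Complex.ofReal_mul, ← Complex.mul_conj, Complex.ofReal_mul]
    simp only [RCLike.star_def]
    ring
  rw [this, Complex.ofReal_re]
  rfl

theorem cfc_one_fun {X : Matrix n n ℂ} (hX : X.IsHermitian) : cfc (fun _ : ℝ => (1 : ℝ)) X = 1 :=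
  cfc_const_one ℝ X (ha := hX.isSelfAdjoint)

theorem cfc_id_fun {X : Matrix n n ℂ} (hX : X.IsHermitian) : cfc (fun x : ℝ => x) X = X :=
  cfc_id' ℝ X (ha := hX.isSelfAdjoint)

theorem cfc_mul_fun (f g : ℝ → ℝ) (X : Matrix n n ℂ) :
    cfc (fun x => f x * g x) X = cfc f X * cfc g X :=
  cfc_mul f g X (X.finite_real_spectrum.continuousOn f) (X.finite_real_spectrum.continuousOn g)

theorem trf_eq_sum {X Y : Matrix n n ℂ} (hX : X.IsHermitian) (hY : Y.IsHermitian) (f : ℝ → ℝ) :
    trf f X = ∑ i, ∑ j, wt hX hY i j * f (hX.eigenvalues i) := by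
  have := re_tr_cfc_mul_cfc hX hY f (fun _ => 1)
  rw [cfc_one_fun hY, mul_one] at this
  simpa only [trf, mul_one] using this

theorem trf_eq_sum' {X Y : Matrix n n ℂ} (hX : X.IsHermitian) (hY : Y.IsHermitian) (f : ℝ → ℝ) :
    trf f Y = ∑ i, ∑ j, wt hX hY i j * f (hY.eigenvalues j) := by
  have := re_tr_cfc_mul_cfc hX hY (fun _ => 1) f
  rw [cfc_one_fun hX, one_mul] at this
  simpa only [trf, one_mul] using this

theorem trf_eq {X : Matrix n n ℂ} (hX : X.IsHermitian) (f : ℝ → ℝ) :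
    trf f X = ∑ i, f (hX.eigenvalues i) := by
  rw [trf, cfc_eq_mul hX, Matrix.trace_mul_comm, ← Matrix.mul_assoc,
    Unitary.coe_star_mul_self, Matrix.one_mul, Matrix.trace_diagonal, Complex.re_sum]
  simp only [Complex.ofReal_re]

/-- Klein's inequality: if `f v ≥ f u + g u * (v - u)` on the spectra, then
`tr f(Y) ≥ tr f(X) + tr g(X)(Y - X)`. -/
theorem klein {X Y : Matrix n n ℂ} (hX : X.IsHermitian) (hY : Y.IsHermitian) {f g : ℝ → ℝ}
    (h : ∀ u ∈ spectrum ℝ X, ∀ v ∈ spectrum ℝ Y, f u + g u * (v - u) ≤ f v) :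
    trf f X + (cfc g X * (Y - X)).trace.re ≤ trf f Y := by
  have e1 : (cfc g X * Y).trace.re
      = ∑ i, ∑ j, wt hX hY i j * (g (hX.eigenvalues i) * hY.eigenvalues j) := by
    conv_lhs => rw [← cfc_id_fun hY]
    exact re_tr_cfc_mul_cfc hX hY g (fun y => y)
  have e2 : (cfc g X * X).trace.re
      = ∑ i, ∑ j, wt hX hY i j * (g (hX.eigenvalues i) * hX.eigenvalues i) := by
    have := trf_eq_sum hX hY (fun x => g x * x)
    rw [trf, cfc_mul_fun g (fun x => x), cfc_id_fun hX] at this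
    exact this
  rw [mul_sub, Matrix.trace_sub, Complex.sub_re, e1, e2, trf_eq_sum hX hY f, trf_eq_sum' hX hY f,
    ← Finset.sum_sub_distrib, ← Finset.sum_add_distrib]
  refine Finset.sum_le_sum fun i _ => ?_
  rw [← Finset.sum_sub_distrib, ← Finset.sum_add_distrib]
  refine Finset.sum_le_sum fun j _ => ?_
  have h1 := h _ (hX.eigenvalues_mem_spectrum_real i) _ (hY.eigenvalues_mem_spectrum_real j)
  have h2 := mul_le_mul_of_nonneg_left h1 (wt_nonneg hX hY i j)
  linarith only [h2]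


omit [DecidableEq n] in
theorem continuous_trace_re : Continuous (fun M : Matrix n n ℂ => M.trace.re) :=
  Complex.continuous_re.comp (continuous_id.matrix_trace)

/-- the real part of the trace as a continuous real-linear map -/
noncomputable def reTr : Matrix n n ℂ →L[ℝ] ℝ where
  toFun M := M.trace.re
  map_add' A B := by simp
  map_smul' c A := by simp
  cont := continuous_trace_re

/-- Derivative of a trace function along a curve of Hermitian matrices. `g` is the derivative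
(subgradient) of the convex function `f`. -/
theorem hasDerivWithinAt_trf {f g : ℝ → ℝ} {A : ℝ → Matrix n n ℂ} {A' : Matrix n n ℂ}
    {s : Set ℝ} {x : ℝ} {S : Set ℝ} (hK : ∀ u ∈ S, ∀ v ∈ S, f u + g u * (v - u) ≤ f v)
    (hA : HasDerivWithinAt A A' s x) (hx : x ∈ s) (hh : ∀ y ∈ s, (A y).IsHermitian)
    (hS : ∀ y ∈ s, spectrum ℝ (A y) ⊆ S)
    (hg : ContinuousWithinAt (fun y => cfc g (A y)) s x) :
    HasDerivWithinAt (fun y => trf f (A y)) (cfc g (A x) * A').trace.re s x := by
  rw [hasDerivWithinAt_iff_isLittleO]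
  have h1 : (fun y => (cfc g (A x) * (A y - A x - (y - x) • A')).trace.re) =o[𝓝[s] x]
      fun y => y - x := by
    have h0 := hasDerivWithinAt_iff_isLittleO.mp hA
    have hO : (fun y => (cfc g (A x) * (A y - A x - (y - x) • A')).trace.re) =O[𝓝[s] x]
        fun y => A y - A x - (y - x) • A' := by
      have : (fun y => (cfc g (A x) * (A y - A x - (y - x) • A')).trace.re)
          = fun y => (reTr.comp ((ContinuousLinearMap.mul ℝ (Matrix n n ℂ)) (cfc g (A x))))
            (A y - A x - (y - x) • A') := rfl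
      rw [this]
      exact ContinuousLinearMap.isBigO_comp _ _ _
    exact hO.trans_isLittleO h0
  have h2 : (fun y => ((cfc g (A y) - cfc g (A x)) * (A y - A x)).trace.re) =o[𝓝[s] x]
      fun y => y - x := by
    have hO : (fun y => ((cfc g (A y) - cfc g (A x)) * (A y - A x)).trace.re) =O[𝓝[s] x]
        fun y => (cfc g (A y) - cfc g (A x)) * (A y - A x) := by
      have : (fun y => ((cfc g (A y) - cfc g (A x)) * (A y - A x)).trace.re)
          = fun y => reTr ((cfc g (A y) - cfc g (A x)) * (A y - A x)) := rfl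
      rw [this]
      exact ContinuousLinearMap.isBigO_comp _ _ _
    have h3 : (fun y => cfc g (A y) - cfc g (A x)) =o[𝓝[s] x] fun _ => (1 : ℝ) := by
      rw [Asymptotics.isLittleO_one_iff]
      have := hg.tendsto.sub_const (cfc g (A x))
      rwa [sub_self] at this
    have h4 : (fun y => A y - A x) =O[𝓝[s] x] fun y => y - x := by
      have h0 := (hasDerivWithinAt_iff_isLittleO.mp hA).isBigO
      have h6 : (fun y : ℝ => (y - x) • A') =O[𝓝[s] x] fun y => y - x := by
        refine Asymptotics.IsBigO.of_bound ‖A'‖ (Filter.Eventually.of_forall fun y => ?_)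
        rw [norm_smul, mul_comm]
      have h7 := h0.add h6
      simpa only [sub_add_cancel] using h7
    have h5 := h3.mul_isBigO h4
    simp only [one_mul] at h5
    exact hO.trans_isLittleO h5
  refine Asymptotics.IsLittleO.of_bound fun c hc => ?_
  have h1' := h1.def (half_pos hc)
  have h2' := h2.def (half_pos hc)
  filter_upwards [h1', h2', self_mem_nhdsWithin] with y hy1 hy2 hys
  have k1 := klein (hh x hx) (hh y hys) (f := f) (g := g)
    (fun u hu v hv => hK u (hS x hx hu) v (hS y hys hv))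
  have k2 := klein (hh y hys) (hh x hx) (f := f) (g := g)
    (fun u hu v hv => hK u (hS y hys hu) v (hS x hx hv))
  have e1 : (cfc g (A x) * (A y - A x - (y - x) • A')).trace.re
      = (cfc g (A x) * (A y - A x)).trace.re - (y - x) * (cfc g (A x) * A').trace.re := by
    rw [mul_sub, Matrix.trace_sub, Complex.sub_re, mul_smul_comm, Matrix.trace_smul,
      Complex.smul_re, smul_eq_mul]
  have e2 : ((cfc g (A y) - cfc g (A x)) * (A y - A x)).trace.re
      = -(cfc g (A y) * (A x - A y)).trace.re - (cfc g (A x) * (A y - A x)).trace.re := by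
    rw [sub_mul, Matrix.trace_sub, Complex.sub_re, ← Complex.neg_re, ← Matrix.trace_neg,
      ← mul_neg, neg_sub]
  rw [e1] at hy1
  rw [e2] at hy2
  rw [Real.norm_eq_abs] at hy1 hy2 ⊢
  rw [smul_eq_mul, abs_le]
  have hy1' := abs_le.mp hy1
  have hy2' := abs_le.mp hy2
  constructor <;> linarith only [k1, hy1', k2, hy2']


end Vale.Agent.P371.GII
end
end

section

section

/-!
The matrices `H = √(K² + t)`, `A = H + F`, `B = H - F`; positivity, continuity, derivative in `x`.
-/

namespace Vale.Agent.P371.GII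

open Matrix Filter Topology Set
open scoped ComplexOrder MatrixOrder Matrix.Norms.L2Operator

variable {n : Type*} [Fintype n] [DecidableEq n]

theorem cfc_add_fun (f g : ℝ → ℝ) (X : Matrix n n ℂ) :
    cfc (fun x => f x + g x) X = cfc f X + cfc g X :=
  cfc_add X f g (X.finite_real_spectrum.continuousOn f) (X.finite_real_spectrum.continuousOn g)

theorem cfc_sub_fun (f g : ℝ → ℝ) (X : Matrix n n ℂ) :
    cfc (fun x => f x - g x) X = cfc f X - cfc g X :=
  cfc_sub f g X (X.finite_real_spectrum.continuousOn f) (X.finite_real_spectrum.continuousOn g)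

theorem cfc_const_fun {X : Matrix n n ℂ} (hX : X.IsHermitian) (r : ℝ) :
    cfc (fun _ : ℝ => r) X = (r : ℂ) • (1 : Matrix n n ℂ) := by
  rw [cfc_const r X hX.isSelfAdjoint, Algebra.algebraMap_eq_smul_one]
  ext i j
  simp

theorem cfc_comp_fun {X : Matrix n n ℂ} (hX : X.IsHermitian) (f g : ℝ → ℝ) :
    cfc (fun x => f (g x)) X = cfc f (cfc g X) :=
  cfc_comp' f g X (((X.finite_real_spectrum).image g).continuousOn f)
    (X.finite_real_spectrum.continuousOn g) hX.isSelfAdjoint

theorem posDef_cfc {X : Matrix n n ℂ} (hX : X.IsHermitian) {f : ℝ → ℝ}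
    (hf : ∀ i, 0 < f (hX.eigenvalues i)) : (cfc f X).PosDef := by
  rw [← isStrictlyPositive_iff_posDef,
    cfc_isStrictlyPositive_iff f X (X.finite_real_spectrum.continuousOn f) hX.isSelfAdjoint]
  intro x hx
  rw [hX.spectrum_real_eq_range_eigenvalues] at hx
  obtain ⟨i, rfl⟩ := hx
  exact hf i

theorem spectrum_posDef {X : Matrix n n ℂ} (hX : X.PosDef) : spectrum ℝ X ⊆ Ioi 0 := by
  rw [hX.isHermitian.spectrum_real_eq_range_eigenvalues]
  rintro _ ⟨i, rfl⟩
  exact hX.eigenvalues_pos i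

/-- `H_t = √(K² + t)` -/
noncomputable def Hm (K : Matrix n n ℂ) (t : ℝ) : Matrix n n ℂ := cfc (fun x : ℝ => √(x ^ 2 + t)) K

theorem Hm_sq {K : Matrix n n ℂ} (hK : K.IsHermitian) {t : ℝ} (ht : 0 ≤ t) :
    Hm K t * Hm K t = K * K + (t : ℂ) • (1 : Matrix n n ℂ) := by
  rw [Hm, ← cfc_mul_fun, ← cfc_const_fun hK t]
  conv_rhs => rw [← cfc_id_fun hK, ← cfc_mul_fun]
  rw [cfc_id_fun hK, ← cfc_add_fun]
  congr 1
  funext x
  rw [Real.mul_self_sqrt (by positivity)]
  ring

theorem Hm_sub_posDef {K : Matrix n n ℂ} (hK : K.IsHermitian) {t : ℝ} (ht : 0 < t) :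
    (Hm K t - K).PosDef := by
  have h : Hm K t - K = cfc (fun x : ℝ => √(x ^ 2 + t) - x) K := by
    rw [cfc_sub_fun, cfc_id_fun hK, Hm]
  rw [h]
  apply posDef_cfc hK
  intro i
  have : |hK.eigenvalues i| < √((hK.eigenvalues i) ^ 2 + t) := by
    rw [← Real.sqrt_sq_eq_abs]
    exact Real.sqrt_lt_sqrt (sq_nonneg _) (by linarith)
  linarith only [this, le_abs_self (hK.eigenvalues i)]

theorem posDef_add_Hm {K F : Matrix n n ℂ} (hK : K.IsHermitian) {t : ℝ} (ht : 0 < t)
    (hF : (K + F).PosSemidef) : (Hm K t + F).PosDef := by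
  have h := (Hm_sub_posDef hK ht).add_posSemidef hF
  convert! h using 1
  abel

theorem posDef_sub_Hm {K F : Matrix n n ℂ} (hK : K.IsHermitian) {t : ℝ} (ht : 0 < t)
    (hF : (K - F).PosSemidef) : (Hm K t - F).PosDef := by
  have h := (Hm_sub_posDef hK ht).add_posSemidef hF
  convert! h using 1
  abel

theorem continuousOn_log_cfc {X : Type*} [TopologicalSpace X] {s : Set X} {A : X → Matrix n n ℂ}
    (hA : ContinuousOn A s) (hp : ∀ x ∈ s, (A x).PosDef) :
    ContinuousOn (fun x => cfc Real.log (A x)) s := by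
  refine ContinuousOn.cfc_of_mem_nhdsSet (s := Ioi 0) Real.log ?_ hA
    (fun x hx => (hp x hx).isHermitian.isSelfAdjoint) ?_
  · rw [isOpen_Ioi.mem_nhdsSet]
    apply iUnion₂_subset
    intro x hx
    exact spectrum_posDef (hp x hx)
  · exact Real.continuousOn_log.mono fun x hx => (ne_of_gt hx)

theorem continuousOn_Hm {K : Matrix n n ℂ} (hK : K.IsHermitian) :
    Continuous (fun t => Hm K t) := by
  have h : (fun t => Hm K t) = fun t => (hK.eigenvectorUnitary : Matrix n n ℂ) *
      diagonal (fun i => ((√((hK.eigenvalues i) ^ 2 + t) : ℝ) : ℂ)) *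
      star (hK.eigenvectorUnitary : Matrix n n ℂ) := by
    funext t
    exact cfc_eq_mul hK _
  rw [h]
  fun_prop

/-- `φ₀(y) = y log y - y` -/
noncomputable def ph (y : ℝ) : ℝ := y * Real.log y - y

theorem ph_klein : ∀ u ∈ Ioi (0:ℝ), ∀ v ∈ Ioi (0:ℝ), ph u + Real.log u * (v - u) ≤ ph v := by
  intro u hu v hv
  have hu' : (0:ℝ) < u := hu
  have hv' : (0:ℝ) < v := hv
  have h1 : Real.log (u / v) ≤ u / v - 1 := Real.log_le_sub_one_of_pos (by positivity)
  rw [Real.log_div hu'.ne' hv'.ne'] at h1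
  have h2 := mul_le_mul_of_nonneg_left h1 hv'.le
  have h3 : v * (u / v - 1) = u - v := by (clear * - hv'; field_simp)
  rw [h3] at h2
  unfold ph
  linarith

/-- the potential at fixed `t` -/
noncomputable def pot (K F : Matrix n n ℂ) (t : ℝ) : ℝ :=
  trf ph (Hm K t + F) - trf ph (Hm K t - F) - Real.log t * F.trace.re

/-- `l̃ = log (H + F) + log (H - F) - log t` -/
noncomputable def lt (K F : Matrix n n ℂ) (t : ℝ) : Matrix n n ℂ :=
  cfc Real.log (Hm K t + F) + cfc Real.log (Hm K t - F) - (Real.log t : ℂ) • (1 : Matrix n n ℂ)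

theorem hasDerivWithinAt_pot {K : Matrix n n ℂ} (hK : K.IsHermitian) {t : ℝ} (ht : 0 < t)
    {s : Set ℝ} {F : ℝ → Matrix n n ℂ} {F' : Matrix n n ℂ} {x : ℝ}
    (hF : HasDerivWithinAt F F' s x) (hFc : ContinuousOn F s) (hx : x ∈ s)
    (h3 : ∀ y ∈ s, (K - F y).PosSemidef ∧ (K + F y).PosSemidef) :
    HasDerivWithinAt (fun y => pot K (F y) t) (lt K (F x) t * F').trace.re s x := by
  have hA : HasDerivWithinAt (fun y => Hm K t + F y) F' s x := hF.const_add _
  have hB : HasDerivWithinAt (fun y => Hm K t - F y) (-F') s x := hF.const_sub _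
  have pA : ∀ y ∈ s, (Hm K t + F y).PosDef := fun y hy => posDef_add_Hm hK ht (h3 y hy).2
  have pB : ∀ y ∈ s, (Hm K t - F y).PosDef := fun y hy => posDef_sub_Hm hK ht (h3 y hy).1
  have cA := continuousOn_log_cfc (continuousOn_const.add hFc) pA
  have cB := continuousOn_log_cfc (continuousOn_const.sub hFc) pB
  have d1 := hasDerivWithinAt_trf ph_klein hA hx (fun y hy => (pA y hy).isHermitian)
    (fun y hy => spectrum_posDef (pA y hy)) (cA x hx)
  have d2 := hasDerivWithinAt_trf ph_klein hB hx (fun y hy => (pB y hy).isHermitian)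
    (fun y hy => spectrum_posDef (pB y hy)) (cB x hx)
  have d3 : HasDerivWithinAt (fun y => (F y).trace.re) F'.trace.re s x :=
    (reTr (n := n)).hasFDerivAt.comp_hasDerivWithinAt x hF
  have d := (d1.sub d2).sub (d3.const_mul (Real.log t))
  refine d.congr_deriv ?_
  simp only [lt, sub_mul, add_mul, Matrix.trace_sub, Matrix.trace_add, Complex.sub_re,
    Complex.add_re, mul_neg, Matrix.trace_neg, Complex.neg_re, smul_mul_assoc, one_mul,
    Matrix.trace_smul, smul_eq_mul, Complex.re_ofReal_mul]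
  ring

end Vale.Agent.P371.GII
end
end

section

section

namespace Vale.Agent.P371.Ext

open Filter Topology Asymptotics NormedSpace

section banach

variable {𝔸 : Type*} [NormedRing 𝔸] [NormOneClass 𝔸]

theorem norm_pow_sub_pow_le {a b : 𝔸} {K : ℝ} (ha : ‖a‖ ≤ K) (hb : ‖b‖ ≤ K) (hK : 1 ≤ K) (N : ℕ) :
    ‖a ^ N - b ^ N‖ ≤ N * K ^ N * ‖a - b‖ := by
  have hK0 : 0 ≤ K := le_trans zero_le_one hK
  induction N with
  | zero => simp
  | succ N ih =>
    have h1 : a ^ (N + 1) - b ^ (N + 1) = a ^ N * (a - b) + (a ^ N - b ^ N) * b := by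
      rw [pow_succ, pow_succ]; noncomm_ring
    rw [h1]
    have h2 : ‖a ^ N * (a - b)‖ ≤ K ^ N * ‖a - b‖ := by
      refine (norm_mul_le _ _).trans ?_
      refine mul_le_mul_of_nonneg_right ?_ (norm_nonneg _)
      exact (norm_pow_le a N).trans (pow_le_pow_left₀ (norm_nonneg _) ha N)
    have h3 : ‖(a ^ N - b ^ N) * b‖ ≤ (N * K ^ N * ‖a - b‖) * K := by
      refine (norm_mul_le _ _).trans ?_
      exact mul_le_mul ih hb (norm_nonneg _) (by (clear * - hK; positivity))
    have h4 : K ^ N * ‖a - b‖ ≤ K ^ (N + 1) * ‖a - b‖ := by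
      refine mul_le_mul_of_nonneg_right ?_ (norm_nonneg _)
      exact pow_le_pow_right₀ hK (Nat.le_succ N)
    calc ‖a ^ N * (a - b) + (a ^ N - b ^ N) * b‖ ≤ K ^ (N + 1) * ‖a - b‖ + (N * K ^ N * ‖a - b‖) * K :=
          (norm_add_le _ _).trans (add_le_add (h2.trans h4) h3)
      _ = ((N + 1 : ℕ) : ℝ) * K ^ (N + 1) * ‖a - b‖ := by push_cast; ring

variable [NormedAlgebra ℝ 𝔸] [CompleteSpace 𝔸]

/-- Lie–Trotter limit along a curve with derivative `X` at `0+`. -/
theorem trotter_limit {f : ℝ → 𝔸} {X : 𝔸} (hf0 : f 0 = 1)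
    (hf : HasDerivWithinAt f X (Set.Ici 0) 0) {T : ℝ} (hT : 0 ≤ T) :
    Tendsto (fun N : ℕ => f (T / N) ^ N) atTop (𝓝 (exp (T • X))) := by
  set g : ℝ → 𝔸 := fun s => exp (s • X) with hg
  have hg0 : g 0 = 1 := by simp only [hg, zero_smul, exp_zero]
  have hgd : HasDerivWithinAt g X (Set.Ici 0) 0 := by
    have := (hasDerivAt_exp_smul_const X (0 : ℝ)).hasDerivWithinAt (s := Set.Ici 0)
    simpa only [zero_smul, exp_zero, one_mul] using this
  -- little-o facts
  have hT' : Tendsto (fun N : ℕ => T / (N : ℝ)) atTop (𝓝[Set.Ici 0] 0) := by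
    refine tendsto_nhdsWithin_iff.2 ⟨tendsto_const_div_atTop_nhds_zero_nat T, ?_⟩
    exact Eventually.of_forall (fun N => div_nonneg hT (Nat.cast_nonneg _))
  have hd : HasDerivWithinAt (fun s => f s - g s) (X - X) (Set.Ici 0) 0 := hf.sub hgd
  have hlo : (fun s : ℝ => f s - g s) =o[𝓝[Set.Ici 0] 0] (fun s : ℝ => s) := by
    have := hd.isLittleO
    simpa only [hf0, hg0, sub_self, sub_zero, smul_zero] using this
  have hfo : (fun s : ℝ => f s - 1 - s • X) =o[𝓝[Set.Ici 0] 0] (fun s : ℝ => s) := by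
    have := hf.isLittleO
    simpa only [hf0, sub_zero] using this
  have hgo : (fun s : ℝ => g s - 1 - s • X) =o[𝓝[Set.Ici 0] 0] (fun s : ℝ => s) := by
    have := hgd.isLittleO
    simpa only [hg0, sub_zero] using this
  set c : ℝ := ‖X‖ + 1 with hc
  have hbound : ∀ u : ℝ → 𝔸, (fun s : ℝ => u s - 1 - s • X) =o[𝓝[Set.Ici 0] 0] (fun s : ℝ => s) →
      ∀ᶠ N : ℕ in atTop, ‖u (T / N)‖ ≤ Real.exp (c * (T / N)) := by
    intro u hu
    have h1 := (hu.def (zero_lt_one)).filter_mono le_rfl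
    have h2 := hT'.eventually h1
    filter_upwards [h2] with N hN
    have hTN : 0 ≤ T / (N : ℝ) := div_nonneg hT (Nat.cast_nonneg _)
    rw [Real.norm_of_nonneg hTN, one_mul] at hN
    have h3 : ‖u (T / N)‖ ≤ 1 + (T / N) * ‖X‖ + T / N := by
      have : u (T / N) = (u (T / N) - 1 - (T / (N : ℝ)) • X) + 1 + (T / (N : ℝ)) • X := by abel
      rw [this]
      refine (norm_add₃_le).trans ?_
      rw [norm_one, norm_smul, Real.norm_of_nonneg hTN]
      linarith only [hN]
    refine h3.trans ?_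
    have := Real.add_one_le_exp (c * (T / N))
    rw [hc] at this ⊢
    nlinarith only [this]
  have hfb := hbound f hfo
  have hgb := hbound g hgo
  -- N * ‖f - g‖ → 0
  have hN0 : Tendsto (fun N : ℕ => (N : ℝ) * ‖f (T / N) - g (T / N)‖) atTop (𝓝 0) := by
    have h1 := (hlo.comp_tendsto hT').norm_left
    have h2 : (fun N : ℕ => (N : ℝ) * ‖f (T / N) - g (T / N)‖) =o[atTop]
        (fun N : ℕ => (N : ℝ) * (T / N)) :=
      (isBigO_refl (fun N : ℕ => (N : ℝ)) atTop).mul_isLittleO h1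
    have h3 : (fun N : ℕ => (N : ℝ) * (T / N)) =O[atTop] (fun _ : ℕ => (1 : ℝ)) := by
      refine IsBigO.of_bound T ?_
      filter_upwards [eventually_gt_atTop 0] with N hN
      have : (N : ℝ) ≠ 0 := by (clear * - hN; positivity)
      rw [mul_div_cancel₀ _ this, norm_one, mul_one, Real.norm_of_nonneg hT]
    exact (isLittleO_one_iff ℝ).1 (h2.trans_isBigO h3)
  have hgN : ∀ᶠ N : ℕ in atTop, g (T / N) ^ N = exp (T • X) := by
    filter_upwards [eventually_gt_atTop 0] with N hN
    have hNne : (N : ℝ) ≠ 0 := by positivity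
    simp only [hg]
    let _ : NormedAlgebra ℚ 𝔸 := NormedAlgebra.restrictScalars ℚ ℝ 𝔸
    rw [← exp_nsmul]
    congr 1
    rw [← Nat.cast_smul_eq_nsmul ℝ, smul_smul, mul_div_cancel₀ _ hNne]
  have hdiff : Tendsto (fun N : ℕ => f (T / N) ^ N - g (T / N) ^ N) atTop (𝓝 0) := by
    rw [tendsto_zero_iff_norm_tendsto_zero]
    have hup : Tendsto (fun N : ℕ => Real.exp (c * T) * ((N : ℝ) * ‖f (T / N) - g (T / N)‖)) atTop
        (𝓝 (Real.exp (c * T) * 0)) := hN0.const_mul _
    rw [mul_zero] at hup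
    refine squeeze_zero' (Eventually.of_forall fun _ => norm_nonneg _) ?_ hup
    filter_upwards [hfb, hgb, eventually_gt_atTop 0] with N h1 h2 hN
    have hNne : (N : ℝ) ≠ 0 := by (clear * - hN; positivity)
    have hTN : 0 ≤ T / (N : ℝ) := div_nonneg hT (Nat.cast_nonneg _)
    have hcp : 0 ≤ c := by (clear * -; positivity)
    have h3 := norm_pow_sub_pow_le h1 h2 (Real.one_le_exp (mul_nonneg hcp hTN)) N
    have h4 : Real.exp (c * (T / N)) ^ N = Real.exp (c * T) := by
      rw [← Real.exp_nat_mul]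
      congr 1
      (clear * - hNne; field_simp)
    rw [h4] at h3
    linarith only [h3]
  have := hdiff.add (tendsto_const_nhds (x := exp (T • X)) (f := atTop (α := ℕ)))
  rw [zero_add] at this
  refine this.congr' ?_
  filter_upwards [hgN] with N hN
  rw [hN]; abel

end banach

end Vale.Agent.P371.Ext
end
end

section

section

/-!
The Golden-Thompson inequality and the Gibbs variational inequality for complex matrices.
-/

namespace Vale.Agent.P371.G

open Matrix Filter Topology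
open scoped ComplexOrder Matrix.Norms.L2Operator MatrixOrder

variable {n : Type*} [Fintype n] [DecidableEq n]

set_option linter.unusedSectionVars false

section trace_pow

theorem mul_pow_succ_comm {R : Type*} [Monoid R] (X Y : R) (j : ℕ) :
    (X * Y) ^ (j + 1) = X * (Y * X) ^ j * Y := by
  induction j with
  | zero => simp
  | succ j ih => rw [pow_succ (X * Y) (j + 1), ih, pow_succ (Y * X) j]; simp only [mul_assoc]

theorem trace_mul_pow_comm (X Y : Matrix n n ℂ) (j : ℕ) :
    ((X * Y) ^ j).trace = ((Y * X) ^ j).trace := by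
  cases j with
  | zero => simp only [pow_zero, trace_one]
  | succ j =>
    rw [mul_pow_succ_comm, Matrix.trace_mul_comm, ← Matrix.mul_assoc, ← pow_succ']

theorem norm_trace_sq_le (M : Matrix n n ℂ) : ‖(M * M).trace‖ ≤ (Mᴴ * M).trace.re := by
  have h1 : (Mᴴ * M).trace.re = ∑ i, ∑ j, ‖M j i‖ ^ 2 := by
    simp only [Matrix.trace, Matrix.diag_apply, Matrix.mul_apply, Complex.re_sum,
      Matrix.conjTranspose_apply]
    refine Finset.sum_congr rfl fun i _ => Finset.sum_congr rfl fun j _ => ?_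
    rw [Complex.star_def, ← Complex.normSq_eq_conj_mul_self, Complex.ofReal_re,
      Complex.normSq_eq_norm_sq]
  have h2 : ‖(M * M).trace‖ ≤ ∑ i, ∑ j, ‖M i j‖ * ‖M j i‖ := by
    simp only [Matrix.trace, Matrix.diag_apply, Matrix.mul_apply]
    refine (norm_sum_le _ _).trans (Finset.sum_le_sum fun i _ => ?_)
    refine (norm_sum_le _ _).trans (Finset.sum_le_sum fun j _ => ?_)
    rw [norm_mul]
  have h3 : ∑ i, ∑ j, ‖M i j‖ * ‖M j i‖ ≤ ∑ i, ∑ j, (‖M i j‖ ^ 2 + ‖M j i‖ ^ 2) / 2 :=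
    Finset.sum_le_sum fun i _ => Finset.sum_le_sum fun j _ => by
      (clear * -; nlinarith [sq_nonneg (‖M i j‖ - ‖M j i‖)])
  have h4 : ∑ i, ∑ j, (‖M i j‖ ^ 2 + ‖M j i‖ ^ 2) / 2 = ∑ i, ∑ j, ‖M j i‖ ^ 2 := by
    simp only [← Finset.sum_div, Finset.sum_add_distrib]
    rw [Finset.sum_comm (f := fun i j => ‖M i j‖ ^ 2)]
    ring
  rw [h1]
  linarith only [h2, h3, h4]

theorem trace_mul_nonneg {P Q : Matrix n n ℂ} (hP : P.PosSemidef) (hQ : Q.PosSemidef) :
    0 ≤ (P * Q).trace := by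
  obtain ⟨R, rfl⟩ := CStarAlgebra.nonneg_iff_eq_star_mul_self.mp hP.nonneg
  rw [Matrix.mul_assoc, Matrix.trace_mul_comm, Matrix.mul_assoc]
  have h := hQ.mul_mul_conjTranspose_same R
  rw [← Matrix.mul_assoc]
  exact h.trace_nonneg

theorem norm_trace_mul_eq {P Q : Matrix n n ℂ} (hP : P.PosSemidef) (hQ : Q.PosSemidef) :
    ‖(P * Q).trace‖ = (P * Q).trace.re := by
  have h := trace_mul_nonneg hP hQ
  rw [Complex.le_def] at h
  have h2 : (P * Q).trace = (((P * Q).trace.re : ℝ) : ℂ) := by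
    apply Complex.ext
    · simp only [Complex.ofReal_re]
    · simpa using h.2.symm
  rw [h2, Complex.norm_real, Real.norm_of_nonneg h.1, Complex.ofReal_re]

theorem trace_mul_le_half {X Y : Matrix n n ℂ} (hX : X.IsHermitian) (hY : Y.IsHermitian) :
    (X * Y).trace.re ≤ ((X * X).trace.re + (Y * Y).trace.re) / 2 := by
  have h1 : 0 ≤ (star (X - Y) * (X - Y)).trace := (posSemidef_conjTranspose_mul_self (X - Y)).trace_nonneg
  have h2 : star (X - Y) = X - Y := (hX.sub hY)
  rw [h2] at h1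
  have h3 : ((X - Y) * (X - Y)).trace = (X * X).trace + (Y * Y).trace - 2 * (X * Y).trace := by
    rw [Matrix.sub_mul, Matrix.mul_sub, Matrix.mul_sub, Matrix.trace_sub, Matrix.trace_sub,
      Matrix.trace_sub, Matrix.trace_mul_comm Y X]
    ring
  rw [h3, Complex.le_def] at h1
  have := h1.1
  simp only [Complex.zero_re, Complex.sub_re, Complex.add_re, Complex.mul_re, Complex.re_ofNat, Complex.im_ofNat, zero_mul, sub_zero, sub_nonneg] at this
  linarith only [this]

theorem pos_sq {P : Matrix n n ℂ} (hP : P.PosSemidef) : (P * P).PosSemidef := by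
  have := posSemidef_conjTranspose_mul_self P
  rwa [hP.isHermitian] at this

/-- The two families of trace inequalities, by simultaneous induction. -/
theorem trace_ineqs (k : ℕ) :
    (∀ M : Matrix n n ℂ, ‖(M ^ 2 ^ (k + 1)).trace‖ ≤ ((Mᴴ * M) ^ 2 ^ k).trace.re) ∧
    (∀ P Q : Matrix n n ℂ, P.PosSemidef → Q.PosSemidef →
      ‖((P * Q) ^ 2 ^ k).trace‖ ≤ (P ^ 2 ^ k * Q ^ 2 ^ k).trace.re) := by
  induction k with
  | zero =>
    refine ⟨fun M => ?_, fun P Q hP hQ => ?_⟩
    · simpa only [zero_add, pow_one, pow_two, pow_zero] using norm_trace_sq_le M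
    · simpa only [pow_zero, pow_one] using (norm_trace_mul_eq hP hQ).le
  | succ k ih =>
    obtain ⟨hH, hG⟩ := ih
    have hG' : ∀ P Q : Matrix n n ℂ, P.PosSemidef → Q.PosSemidef →
        ‖((P * Q) ^ 2 ^ (k + 1)).trace‖ ≤ (P ^ 2 ^ (k + 1) * Q ^ 2 ^ (k + 1)).trace.re := by
      intro P Q hP hQ
      have h1 := hH (P * Q)
      have h2 : (P * Q)ᴴ * (P * Q) = Q * (P * P * Q) := by
        rw [conjTranspose_mul, hP.isHermitian, hQ.isHermitian]
        simp only [Matrix.mul_assoc]
      have h3 : ((Q * (P * P * Q)) ^ 2 ^ k).trace = ((P * P * (Q * Q)) ^ 2 ^ k).trace := by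
        rw [trace_mul_pow_comm]
        simp only [Matrix.mul_assoc]
      rw [h2, h3] at h1
      have h4 := hG (P * P) (Q * Q) (pos_sq hP) (pos_sq hQ)
      have h5 : (P * P) ^ 2 ^ k * (Q * Q) ^ 2 ^ k = P ^ 2 ^ (k + 1) * Q ^ 2 ^ (k + 1) := by
        rw [← pow_two, ← pow_two, ← pow_mul, ← pow_mul, pow_succ', mul_comm]
      rw [h5] at h4
      exact h1.trans ((Complex.re_le_norm _).trans h4)
    refine ⟨fun M => ?_, hG'⟩
    have h1 := hH (M * M)
    have h2 : (M * M) ^ 2 ^ (k + 1) = M ^ 2 ^ (k + 1 + 1) := by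
      rw [← pow_two, ← pow_mul, pow_succ' 2 (k + 1)]
    have h3 : (M * M)ᴴ * (M * M) = Mᴴ * (Mᴴ * M * M) := by
      rw [conjTranspose_mul]
      simp only [Matrix.mul_assoc]
    have h4 : ((Mᴴ * (Mᴴ * M * M)) ^ 2 ^ k).trace = ((Mᴴ * M * (M * Mᴴ)) ^ 2 ^ k).trace := by
      rw [trace_mul_pow_comm]
      simp only [Matrix.mul_assoc]
    rw [h2, h3, h4] at h1
    have hp1 : (Mᴴ * M).PosSemidef := posSemidef_conjTranspose_mul_self M
    have hp2 : (M * Mᴴ).PosSemidef := posSemidef_self_mul_conjTranspose M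
    have h5 := hG _ _ hp1 hp2
    have hq1 : ((Mᴴ * M) ^ 2 ^ k).IsHermitian := hp1.isHermitian.pow _
    have hq2 : ((M * Mᴴ) ^ 2 ^ k).IsHermitian := hp2.isHermitian.pow _
    have h6 := trace_mul_le_half hq1 hq2
    have h7 : (M * Mᴴ) ^ 2 ^ k * (M * Mᴴ) ^ 2 ^ k = (M * Mᴴ) ^ 2 ^ (k + 1) := by
      rw [← pow_two, ← pow_mul, pow_succ]
    have h8 : (Mᴴ * M) ^ 2 ^ k * (Mᴴ * M) ^ 2 ^ k = (Mᴴ * M) ^ 2 ^ (k + 1) := by
      rw [← pow_two, ← pow_mul, pow_succ]
    rw [h7, h8, trace_mul_pow_comm M Mᴴ] at h6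
    calc _ ≤ _ := h1
      _ ≤ _ := Complex.re_le_norm _
      _ ≤ _ := h5
      _ ≤ _ := h6
      _ = _ := by ring

end trace_pow

section exp

open NormedSpace

theorem exp_posSemidef {X : Matrix n n ℂ} (hX : X.IsHermitian) : (exp X).PosSemidef := by
  have h1 : exp X = exp ((1 / 2 : ℝ) • X) * exp ((1 / 2 : ℝ) • X) := by
    rw [← Matrix.exp_add_of_commute _ _ (Commute.refl _), ← add_smul]
    norm_num
  have h2 : ((1 / 2 : ℝ) • X).IsHermitian := by
    rw [IsHermitian, conjTranspose_smul, hX]; simp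
  rw [h1]
  have h3 := posSemidef_conjTranspose_mul_self (exp ((1 / 2 : ℝ) • X))
  rwa [h2.exp] at h3

theorem exp_smul_pow {X : Matrix n n ℂ} {N : ℕ} (hN : N ≠ 0) :
    exp ((1 / (N : ℝ)) • X) ^ N = exp X := by
  have h : exp X = exp (N • ((1 / (N : ℝ)) • X)) := by
    congr 1
    rw [← Nat.cast_smul_eq_nsmul ℝ, smul_smul, mul_one_div_cancel (by exact_mod_cast hN), one_smul]
  rw [h, Matrix.exp_nsmul]

/-- **Golden-Thompson** : `tr e^{X+Y} ≤ tr e^X e^Y`. -/
theorem golden_thompson {X Y : Matrix n n ℂ} (hX : X.IsHermitian) (hY : Y.IsHermitian) :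
    (exp (X + Y)).trace.re ≤ (exp X * exp Y).trace.re := by
  let f : ℝ → Matrix n n ℂ := fun t => exp (t • X) * exp (t • Y)
  have hd : HasDerivWithinAt f (X + Y) (Set.Ici 0) 0 := by
    have h1 := hasDerivAt_exp_smul_const X (0 : ℝ)
    have h2 := hasDerivAt_exp_smul_const Y (0 : ℝ)
    have h3 := (h1.mul h2).hasDerivWithinAt (s := Set.Ici 0)
    have h4 : exp ((0 : ℝ) • X) * X * exp ((0 : ℝ) • Y) + exp ((0 : ℝ) • X) * (exp ((0 : ℝ) • Y) * Y)
        = X + Y := by simp only [zero_smul, exp_zero, one_mul, mul_one]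
    rw [← h4]
    exact h3
  rcases isEmpty_or_nonempty n with hn | hn
  · simp only [trace, Finset.univ_eq_empty, diag_apply, Finset.sum_empty, Complex.zero_re, Std.le_refl]
  have hlim := Vale.Agent.P371.Ext.trotter_limit (f := f) (by simp only [zero_smul, exp_zero, mul_one, f]) hd zero_le_one
  rw [one_smul] at hlim
  have hlim2 := hlim.comp (tendsto_pow_atTop_atTop_of_one_lt (r := 2) one_lt_two)
  have hc : Continuous fun M : Matrix n n ℂ => M.trace.re := by fun_prop
  have hlim3 := (hc.tendsto _).comp hlim2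
  refine le_of_tendsto hlim3 (Eventually.of_forall fun k => ?_)
  have hN : ((2 ^ k : ℕ)) ≠ 0 := by positivity
  have hP : (exp ((1 / ((2 ^ k : ℕ) : ℝ)) • X)).PosSemidef := by
    apply exp_posSemidef
    rw [IsHermitian, conjTranspose_smul, hX]; simp
  have hQ : (exp ((1 / ((2 ^ k : ℕ) : ℝ)) • Y)).PosSemidef := by
    apply exp_posSemidef
    rw [IsHermitian, conjTranspose_smul, hY]; simp
  have h := (trace_ineqs k).2 _ _ hP hQ
  rw [exp_smul_pow hN, exp_smul_pow hN] at h
  exact (Complex.re_le_norm _).trans h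

end exp

section gibbs

open NormedSpace

theorem cfc_isHermitian (f : ℝ → ℝ) (A : Matrix n n ℂ) : (cfc f A).IsHermitian :=
  cfc_predicate (p := IsSelfAdjoint) f A

theorem exp_eq_cfc {X : Matrix n n ℂ} (hX : X.IsHermitian) : exp X = cfc Real.exp X :=
  (CFC.real_exp_eq_normedSpace_exp (a := X) hX).symm

theorem exp_log_eq {A : Matrix n n ℂ} (hA : A.PosDef) : exp (cfc Real.log A) = A := by
  rw [exp_eq_cfc (cfc_isHermitian _ _)]
  have h := cfc_comp (R := ℝ) (p := IsSelfAdjoint) Real.exp Real.log A hA.isHermitian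
    (by fun_prop) (by
      rw [continuousOn_iff_continuous_domRestrict]
      (clear * -; fun_prop))
  rw [← h]
  conv_rhs => rw [← cfc_id ℝ A hA.isHermitian]
  refine cfc_congr fun x hx => ?_
  have h1 : 0 < x := by
    rw [hA.isHermitian.spectrum_real_eq_range_eigenvalues] at hx
    obtain ⟨i, rfl⟩ := hx
    exact hA.eigenvalues_pos i
  simp [Real.exp_log h1]

theorem scalar_gibbs {z x : ℝ} (hz : 0 < z) : z * x - z * Real.log z + z ≤ Real.exp x := by
  have h := Real.add_one_le_exp (x - Real.log z)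
  rw [Real.exp_sub, Real.exp_log hz, le_div_iff₀ hz] at h
  linarith

/-- Gibbs variational inequality : `tr Z X - tr Z log Z + tr Z ≤ tr e^X`. -/
theorem gibbs {Z X : Matrix n n ℂ} (hZ : Z.PosDef) (hX : X.IsHermitian) :
    (Z * X).trace.re - (Z * cfc Real.log Z).trace.re + Z.trace.re ≤ (exp X).trace.re := by
  have h := klein_nonneg hZ.isHermitian hX (Finset.univ : Finset (Fin 4))
    ![fun _ => 1, fun z => -z, fun z => z * Real.log z, fun z => -z]
    ![Real.exp, fun x => x, fun _ => 1, fun _ => 1] (by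
      intro i j
      have := scalar_gibbs (z := hZ.isHermitian.eigenvalues i) (x := hX.eigenvalues j)
        (hZ.eigenvalues_pos i)
      simp only [cons_val', cons_val_fin_one, Fin.sum_univ_four, Fin.isValue, cons_val_zero, one_mul, cons_val_one, neg_mul, cons_val, mul_one, le_add_neg_iff_add_le, zero_add, ge_iff_le]
      linarith)
  simp only [Fin.sum_univ_four, Matrix.cons_val_zero, Matrix.cons_val_one, Matrix.cons_val] at h
  have e1 : cfc (fun _ : ℝ => (1 : ℝ)) Z = 1 := cfc_const_one ℝ Z hZ.isHermitian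
  have e2 : cfc (fun _ : ℝ => (1 : ℝ)) X = 1 := cfc_const_one ℝ X hX
  have e3 : cfc (fun z : ℝ => -z) Z = -Z := 
    (cfc_neg (R := ℝ) (fun z : ℝ => z) Z).trans (congrArg Neg.neg (cfc_id' ℝ Z hZ.isHermitian))
  have e4 : cfc (fun z : ℝ => z) X = X := cfc_id' ℝ X hX
  have e5 : cfc (fun z : ℝ => z * Real.log z) Z = Z * cfc Real.log Z := by
    have h := cfc_mul (R := ℝ) (fun z : ℝ => z) Real.log Z (by fun_prop) (by
      rw [continuousOn_iff_continuous_domRestrict]
      (clear * -; fun_prop))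
    exact h.trans (congrArg (· * cfc Real.log Z) (cfc_id' ℝ Z hZ.isHermitian))
  rw [e1, e2, e3, e4, e5, ← exp_eq_cfc hX] at h
  simp only [Matrix.one_mul, Matrix.mul_one, Matrix.neg_mul, Matrix.trace_neg, Complex.neg_re] at h
  linarith only [h]

/-- Gibbs and Golden-Thompson combined. -/
theorem gibbs_golden_thompson {A B Z : Matrix n n ℂ} (hA : A.PosDef) (hB : B.PosDef)
    (hZ : Z.PosDef) :
    (Z * (cfc Real.log A + cfc Real.log B - cfc Real.log Z)).trace.re + Z.trace.re
      ≤ (A * B).trace.re := by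
  have h1 := gibbs hZ ((cfc_isHermitian Real.log A).add (cfc_isHermitian Real.log B))
  have h2 := golden_thompson (cfc_isHermitian Real.log A) (cfc_isHermitian Real.log B)
  rw [exp_log_eq hA, exp_log_eq hB] at h2
  rw [Matrix.mul_sub, Matrix.trace_sub, Complex.sub_re]
  linarith

end gibbs

end Vale.Agent.P371.G
end
end

section

section

/-!
The pointwise inequality at fixed `t` (Gibbs and Golden-Thompson).
-/

namespace Vale.Agent.P371.GII

open Matrix Filter Topology Set
open scoped ComplexOrder MatrixOrder Matrix.Norms.L2Operator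

variable {n : Type*} [Fintype n] [DecidableEq n]

/-- `tr [(Z + t) log (1 + Z/t) - Z]` -/
noncomputable def GG (t : ℝ) (Z : Matrix n n ℂ) : ℝ :=
  trf (fun z => (z + t) * Real.log (1 + z / t) - z) Z

/-- `Φ = tr (D + t) l̃ - tr D`, `D = K² - F²` -/
noncomputable def Phi (K F : Matrix n n ℂ) (t : ℝ) : ℝ :=
  ((K * K - F * F + (t : ℂ) • (1 : Matrix n n ℂ)) * lt K F t).trace.re
    - (K * K - F * F).trace.re

theorem GG_eq {Z : Matrix n n ℂ} (hZ : Z.PosSemidef) {t : ℝ} (ht : 0 < t) :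
    GG t Z = ((Z + (t : ℂ) • (1 : Matrix n n ℂ)) *
        cfc Real.log (Z + (t : ℂ) • (1 : Matrix n n ℂ))).trace.re
      - Real.log t * (Z + (t : ℂ) • (1 : Matrix n n ℂ)).trace.re - Z.trace.re := by
  have hZh := hZ.isHermitian
  have e1 : Z + (t : ℂ) • (1 : Matrix n n ℂ) = cfc (fun z : ℝ => z + t) Z := by
    rw [cfc_add_fun, cfc_id_fun hZh, cfc_const_fun hZh]
  have e2 : (Z + (t : ℂ) • (1 : Matrix n n ℂ)) * cfc Real.log (Z + (t : ℂ) • (1 : Matrix n n ℂ))
      = cfc (fun z : ℝ => (z + t) * Real.log (z + t)) Z := by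
    rw [e1, ← cfc_comp_fun hZh Real.log (fun z => z + t), ← cfc_mul_fun]
  have e3 : Z.trace.re = trf (fun z => z) Z := by
    rw [trf, cfc_id_fun hZh]
  rw [e2, e1, e3]
  change _ = trf (fun z : ℝ => (z + t) * Real.log (z + t)) Z - Real.log t * trf (fun z => z + t) Z
    - trf (fun z => z) Z
  rw [GG, trf_eq hZh, trf_eq hZh, trf_eq hZh, trf_eq hZh, Finset.mul_sum,
    ← Finset.sum_sub_distrib, ← Finset.sum_sub_distrib]
  refine Finset.sum_congr rfl fun i _ => ?_
  have h0 : 0 ≤ hZh.eigenvalues i := hZ.eigenvalues_nonneg i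
  have h1 : 1 + hZh.eigenvalues i / t = (hZh.eigenvalues i + t) / t := by
    field_simp
    ring
  rw [h1, Real.log_div (by (clear * - hZh h0 ht; positivity)) ht.ne']
  ring

theorem re_trace_smul_one (t : ℝ) :
    ((t : ℂ) • (1 : Matrix n n ℂ)).trace.re = t * Fintype.card n := by
  rw [Matrix.trace_smul, Matrix.trace_one, smul_eq_mul, Complex.re_ofReal_mul]
  simp only [Complex.natCast_re]

theorem trace_AB {K F : Matrix n n ℂ} (hK : K.IsHermitian) {t : ℝ} (ht : 0 ≤ t) :
    ((Hm K t + F) * (Hm K t - F)).trace.re = (K * K - F * F).trace.re + t * Fintype.card n := by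
  have e : (Hm K t + F) * (Hm K t - F)
      = Hm K t * Hm K t - F * F + (F * Hm K t - Hm K t * F) := by noncomm_ring
  rw [e, Hm_sq hK ht, Matrix.trace_add, Matrix.trace_sub (F * Hm K t), Matrix.trace_mul_comm F,
    sub_self, add_zero, add_sub_right_comm, Matrix.trace_add, Complex.add_re, re_trace_smul_one]

/-- Gibbs and Golden-Thompson at fixed `t`. -/
theorem trace_mul_lt_le {K F Z : Matrix n n ℂ} (hK : K.IsHermitian) {t : ℝ} (ht : 0 < t)
    (hm : (K - F).PosSemidef) (hp : (K + F).PosSemidef) (hZ : Z.PosSemidef) :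
    (Z * lt K F t).trace.re + t * (lt K F t).trace.re ≤ GG t Z + (K * K - F * F).trace.re := by
  have hA := posDef_add_Hm hK ht hp
  have hB := posDef_sub_Hm hK ht hm
  have h1 : ((t : ℂ) • (1 : Matrix n n ℂ)).PosDef := by
    apply Matrix.PosDef.smul Matrix.PosDef.one
    exact_mod_cast ht
  have hW : (Z + (t : ℂ) • (1 : Matrix n n ℂ)).PosDef := h1.posSemidef_add hZ
  have h := Vale.Agent.P371.G.gibbs_golden_thompson hA hB hW
  rw [trace_AB hK ht.le] at h
  rw [GG_eq hZ ht]
  set W := Z + (t : ℂ) • (1 : Matrix n n ℂ) with hWdef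
  have e1 : W.trace.re = Z.trace.re + t * Fintype.card n := by
    rw [hWdef, Matrix.trace_add, Complex.add_re, re_trace_smul_one]
  have e2 : (Z * lt K F t).trace.re + t * (lt K F t).trace.re = (W * lt K F t).trace.re := by
    rw [hWdef, add_mul, Matrix.trace_add, Complex.add_re, smul_mul_assoc, one_mul,
      Matrix.trace_smul, smul_eq_mul, Complex.re_ofReal_mul]
  have e3 : (W * lt K F t).trace.re = (W * (cfc Real.log (Hm K t + F) +
      cfc Real.log (Hm K t - F))).trace.re - Real.log t * W.trace.re := by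
    rw [lt, mul_sub, Matrix.trace_sub, Complex.sub_re, mul_smul_comm, mul_one, Matrix.trace_smul,
      smul_eq_mul, Complex.re_ofReal_mul]
  have e4 : (W * (cfc Real.log (Hm K t + F) + cfc Real.log (Hm K t - F) - cfc Real.log W)).trace.re
      = (W * (cfc Real.log (Hm K t + F) + cfc Real.log (Hm K t - F))).trace.re
        - (W * cfc Real.log W).trace.re := by
    rw [mul_sub, Matrix.trace_sub, Complex.sub_re]
  rw [e4] at h
  rw [e2, e3]
  linarith only [h, e1]

theorem pointwise_ineq {K F Q : Matrix n n ℂ} (hK : K.IsHermitian) {t ν : ℝ} (ht : 0 < t)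
    (hν : 0 < ν) (hm : (K - F).PosSemidef) (hp : (K + F).PosSemidef) (hQ : Q.PosSemidef) :
    Phi K F t + (1 / ν) * (t * (lt K F t).trace.re - (K * K - F * F).trace.re)
      ≤ (lt K F t * (K * K - F * F - Q)).trace.re
        + ((1 + ν) / ν) * GG t (((ν / (1 + ν) : ℝ) : ℂ) • Q) := by
  have hθ : 0 < ν / (1 + ν) := by positivity
  have hZ : (((ν / (1 + ν) : ℝ) : ℂ) • Q).PosSemidef := by
    apply hQ.smul
    exact_mod_cast hθ.le
  have h := trace_mul_lt_le hK ht hm hp hZ
  have e1 : ((((ν / (1 + ν) : ℝ) : ℂ) • Q) * lt K F t).trace.re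
      = ν / (1 + ν) * (lt K F t * Q).trace.re := by
    rw [smul_mul_assoc, Matrix.trace_smul, smul_eq_mul, Complex.re_ofReal_mul,
      Matrix.trace_mul_comm Q]
  rw [e1] at h
  have e2 : Phi K F t = (lt K F t * (K * K - F * F)).trace.re + t * (lt K F t).trace.re
      - (K * K - F * F).trace.re := by
    rw [Phi, add_mul, Matrix.trace_add, Complex.add_re, smul_mul_assoc, one_mul,
      Matrix.trace_smul, smul_eq_mul, Complex.re_ofReal_mul, Matrix.trace_mul_comm (lt K F t)]
  have e5 : (lt K F t * (K * K - F * F - Q)).trace.re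
      = (lt K F t * (K * K - F * F)).trace.re - (lt K F t * Q).trace.re := by
    rw [mul_sub (lt K F t) (K * K - F * F) Q, Matrix.trace_sub, Complex.sub_re]
  rw [e2, e5]
  set T1 := (lt K F t * (K * K - F * F)).trace.re
  set T2 := (lt K F t).trace.re
  set T3 := (K * K - F * F).trace.re
  set T4 := (lt K F t * Q).trace.re
  set G := GG t (((ν / (1 + ν) : ℝ) : ℂ) • Q)
  have h2 : 0 ≤ ((1 + ν) / ν) * (G + T3 - (ν / (1 + ν) * T4 + t * T2)) :=
    mul_nonneg (by positivity) (by linarith only [h])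
  have h3 : ((1 + ν) / ν) * (G + T3 - (ν / (1 + ν) * T4 + t * T2))
      = (T1 - T4 + (1 + ν) / ν * G) - (T1 + t * T2 - T3 + 1 / ν * (t * T2 - T3)) := by
    field_simp
    ring
  linarith only [h2, h3]

end Vale.Agent.P371.GII
end
end

section

section

/-!
Scalar integrals `∫ lam^(ν-1) κ(y/lam) dlam = c y^ν` truncated to compact intervals,
for a nonnegative kernel `κ` (used with `κ r = log (1 + r)` or `κ r = r / (1 + r)`).
-/

namespace Vale.Agent.P371.ScalarInt

open MeasureTheory Filter Topology Set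

/-- A kernel for which `∫_0^∞ lam^(ν-1) κ(y/lam) dlam = c y^ν`. -/
structure Kernel (κ : ℝ → ℝ) (ν : ℝ) : Prop where
  cont : ContinuousOn κ (Ici 0)
  zero : κ 0 = 0
  nonneg : ∀ r, 0 ≤ r → 0 ≤ κ r
  int : IntegrableOn (fun u => u ^ (ν - 1) * κ (1 / u)) (Ioi 0)

/-- the constant `c` -/
noncomputable def kc (κ : ℝ → ℝ) (ν : ℝ) : ℝ := ∫ u in Ioi (0:ℝ), u ^ (ν - 1) * κ (1 / u)

variable {κ : ℝ → ℝ} {ν : ℝ}

theorem ker_scale {y lam : ℝ} (hy : 0 < y) (hl : 0 < lam) :
    lam ^ (ν - 1) * κ (y / lam) = y ^ (ν - 1) * ((lam / y) ^ (ν - 1) * κ (1 / (lam / y))) := by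
  rw [one_div_div, Real.div_rpow hl.le hy.le]
  have : y ^ (ν - 1) ≠ 0 := (Real.rpow_pos_of_pos hy _).ne'
  (clear * - this hl; field_simp)

theorem ker_integral_eq {y δ Λ : ℝ} (hy : 0 < y) (hδ : 0 < δ) (hΛ : δ ≤ Λ) :
    ∫ lam in δ..Λ, lam ^ (ν - 1) * κ (y / lam)
      = y ^ ν * ∫ u in (δ / y)..(Λ / y), u ^ (ν - 1) * κ (1 / u) := by
  have e1 : ∫ lam in δ..Λ, lam ^ (ν - 1) * κ (y / lam)
      = ∫ lam in δ..Λ, y ^ (ν - 1) * (fun u => u ^ (ν - 1) * κ (1 / u)) (lam / y) := by
    apply intervalIntegral.integral_congr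
    intro lam hl
    rw [uIcc_of_le hΛ] at hl
    exact ker_scale hy (lt_of_lt_of_le hδ hl.1)
  rw [e1, intervalIntegral.integral_const_mul,
    intervalIntegral.integral_comp_div (fun u => u ^ (ν - 1) * κ (1 / u)) hy.ne',
    smul_eq_mul, ← mul_assoc]
  congr 1
  rw [← Real.rpow_add_one hy.ne']
  congr 1
  ring

theorem ker_intervalIntegrable (h : Kernel κ ν) {a b : ℝ} (ha : 0 ≤ a) (hb : 0 ≤ b) :
    IntervalIntegrable (fun u => u ^ (ν - 1) * κ (1 / u)) volume a b := by
  rw [intervalIntegrable_iff]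
  apply h.int.mono_set
  intro x hx
  rcases le_total a b with hab | hab
  · rw [uIoc_of_le hab] at hx
    exact lt_of_le_of_lt ha hx.1
  · rw [uIoc_of_ge hab] at hx
    exact lt_of_le_of_lt hb hx.1

theorem ker_le (h : Kernel κ ν) (hν : 0 < ν) {y δ Λ : ℝ} (hy : 0 ≤ y) (hδ : 0 < δ) (hΛ : δ ≤ Λ) :
    ∫ lam in δ..Λ, lam ^ (ν - 1) * κ (y / lam) ≤ kc κ ν * y ^ ν := by
  rcases hy.eq_or_lt with rfl | hy
  · simp [h.zero, Real.zero_rpow hν.ne']
  · rw [ker_integral_eq hy hδ hΛ, mul_comm]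
    apply mul_le_mul_of_nonneg_right _ (Real.rpow_nonneg hy.le _)
    have hle : δ / y ≤ Λ / y := div_le_div_of_nonneg_right hΛ hy.le
    rw [intervalIntegral.integral_of_le hle]
    apply setIntegral_mono_set h.int
    · filter_upwards [ae_restrict_mem measurableSet_Ioi] with u hu
      have hu' : (0:ℝ) < u := hu
      exact mul_nonneg (Real.rpow_nonneg hu'.le _) (h.nonneg _ (by positivity))
    · refine Eventually.of_forall fun x hx => ?_
      exact lt_trans (by positivity) hx.1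

theorem ker_nonneg (h : Kernel κ ν) {y δ Λ : ℝ} (hy : 0 ≤ y) (hδ : 0 < δ) (hΛ : δ ≤ Λ) :
    0 ≤ ∫ lam in δ..Λ, lam ^ (ν - 1) * κ (y / lam) := by
  apply intervalIntegral.integral_nonneg hΛ
  intro u hu
  have : 0 < u := lt_of_lt_of_le hδ hu.1
  exact mul_nonneg (Real.rpow_nonneg this.le _) (h.nonneg _ (by (clear * - hy this; positivity)))

theorem tendsto_inv_nat : Tendsto (fun n : ℕ => 1 / ((n:ℝ) + 1)) atTop (𝓝[>] 0) := by
  rw [tendsto_nhdsWithin_iff]
  refine ⟨tendsto_one_div_add_atTop_nhds_zero_nat, Eventually.of_forall fun n => ?_⟩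
  have : (0:ℝ) < (n:ℝ) + 1 := by positivity
  exact one_div_pos.mpr this

theorem tendsto_nat_add_one : Tendsto (fun n : ℕ => ((n:ℝ) + 1)) atTop atTop :=
  tendsto_atTop_add_const_right _ _ tendsto_natCast_atTop_atTop

theorem inv_nat_le (n : ℕ) : 1 / ((n:ℝ) + 1) ≤ (n:ℝ) + 1 := by
  have h : (1:ℝ) ≤ (n:ℝ) + 1 := by
    have : (0:ℝ) ≤ n := Nat.cast_nonneg n
    linarith
  calc 1 / ((n:ℝ) + 1) ≤ 1 := by
        rw [div_le_one (by linarith)]
        exact h
    _ ≤ _ := h

theorem ker_tendsto (h : Kernel κ ν) (hν : 0 < ν) {y : ℝ} (hy : 0 ≤ y) :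
    Tendsto (fun n : ℕ => ∫ lam in (1 / ((n:ℝ) + 1))..((n:ℝ) + 1), lam ^ (ν - 1) * κ (y / lam))
      atTop (𝓝 (kc κ ν * y ^ ν)) := by
  rcases hy.eq_or_lt with rfl | hy
  · simp only [zero_div, h.zero, mul_zero, one_div, intervalIntegral.integral_zero, Real.zero_rpow hν.ne', tendsto_const_nhds_iff]
  · have e : ∀ n : ℕ, ∫ lam in (1 / ((n:ℝ) + 1))..((n:ℝ) + 1), lam ^ (ν - 1) * κ (y / lam)
        = y ^ ν * ((∫ u in (0:ℝ)..(((n:ℝ) + 1) / y), u ^ (ν - 1) * κ (1 / u))
          - ∫ u in (0:ℝ)..((1 / ((n:ℝ) + 1)) / y), u ^ (ν - 1) * κ (1 / u)) := by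
      intro n
      have h1 : (0:ℝ) < 1 / ((n:ℝ) + 1) := by positivity
      rw [ker_integral_eq hy h1 (inv_nat_le n),
        intervalIntegral.integral_interval_sub_left
          (ker_intervalIntegrable h le_rfl (by positivity))
          (ker_intervalIntegrable h le_rfl (by positivity))]
    simp only [e]
    rw [mul_comm (kc κ ν)]
    apply Tendsto.const_mul
    have t1 : Tendsto (fun n : ℕ => ∫ u in (0:ℝ)..(((n:ℝ) + 1) / y), u ^ (ν - 1) * κ (1 / u))
        atTop (𝓝 (kc κ ν)) :=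
      intervalIntegral_tendsto_integral_Ioi 0 h.int (tendsto_nat_add_one.atTop_div_const hy)
    have t2 : Tendsto (fun n : ℕ => ∫ u in (0:ℝ)..((1 / ((n:ℝ) + 1)) / y),
        u ^ (ν - 1) * κ (1 / u)) atTop (𝓝 0) := by
      have hc : ContinuousOn (fun b => ∫ u in (0:ℝ)..b, u ^ (ν - 1) * κ (1 / u)) (uIcc 0 (1 / y)) :=
        intervalIntegral.continuousOn_primitive_interval' (ker_intervalIntegrable h le_rfl
          (by positivity)) left_mem_uIcc
      have hc0 := hc 0 left_mem_uIcc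
      have hc1 : Tendsto (fun b => ∫ u in (0:ℝ)..b, u ^ (ν - 1) * κ (1 / u))
          (𝓝[uIcc 0 (1 / y)] 0) (𝓝 0) := by
        simpa only [one_div, ContinuousWithinAt, intervalIntegral.integral_same] using hc0
      apply hc1.comp
      rw [tendsto_nhdsWithin_iff]
      constructor
      · have := tendsto_one_div_add_atTop_nhds_zero_nat (𝕜 := ℝ)
        simpa only [one_div, zero_div] using this.div_const y
      · refine Eventually.of_forall fun n => ?_
        have h0 : (0:ℝ) ≤ n := Nat.cast_nonneg n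
        rw [uIcc_of_le (by positivity)]
        refine ⟨by positivity, ?_⟩
        apply div_le_div_of_nonneg_right _ hy.le
        rw [div_le_one (by positivity)]
        linarith
    simpa only [one_div, sub_zero] using t1.sub t2

/-- joint continuity of `(y, lam) ↦ lam^(ν-1) κ(y/lam)` -/
theorem ker_continuousOn (h : Kernel κ ν) :
    ContinuousOn (fun p : ℝ × ℝ => p.2 ^ (ν - 1) * κ (p.1 / p.2)) (Ici 0 ×ˢ Ioi 0) := by
  apply ContinuousOn.mul
  · apply ContinuousOn.rpow_const continuousOn_snd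
    rintro ⟨y, lam⟩ ⟨_, hl⟩
    exact Or.inl (ne_of_gt hl)
  · apply h.cont.comp (ContinuousOn.div continuousOn_fst continuousOn_snd ?_)
    · rintro ⟨y, lam⟩ ⟨hy, hl⟩
      have hl' : (0:ℝ) < lam := hl
      have hy' : (0:ℝ) ≤ y := hy
      exact div_nonneg hy' hl'.le
    · rintro ⟨y, lam⟩ ⟨_, hl⟩
      exact ne_of_gt hl

/-- Fubini on a compact rectangle -/
theorem swap_of_continuousOn {G : ℝ → ℝ → ℝ} {a b c d : ℝ} (hab : a ≤ b) (hcd : c ≤ d)
    (hG : ContinuousOn (fun p : ℝ × ℝ => G p.1 p.2) (Icc a b ×ˢ Icc c d)) :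
    ∫ x in a..b, ∫ y in c..d, G x y = ∫ y in c..d, ∫ x in a..b, G x y := by
  apply intervalIntegral_intervalIntegral_swap
  have h1 : IntegrableOn (fun p : ℝ × ℝ => G p.1 p.2) (Icc a b ×ˢ Icc c d) :=
    hG.integrableOn_compact (isCompact_Icc.prod isCompact_Icc)
  rw [uIoc_of_le hab, uIoc_of_le hcd]
  exact h1.mono_set (prod_mono Ioc_subset_Icc_self Ioc_subset_Icc_self)

theorem ker_prim_le (h : Kernel κ ν) (hν : 0 < ν) {z δ Λ : ℝ} (hz : 0 ≤ z) (hδ : 0 < δ)
    (hΛ : δ ≤ Λ) :
    ∫ lam in δ..Λ, lam ^ (ν - 1) * ∫ y in (0:ℝ)..z, κ (y / lam)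
      ≤ kc κ ν * (z ^ (ν + 1) / (ν + 1)) := by
  have e1 : ∫ lam in δ..Λ, lam ^ (ν - 1) * ∫ y in (0:ℝ)..z, κ (y / lam)
      = ∫ lam in δ..Λ, ∫ y in (0:ℝ)..z, lam ^ (ν - 1) * κ (y / lam) := by
    simp only [intervalIntegral.integral_const_mul]
  have hcont : ContinuousOn (fun p : ℝ × ℝ => p.1 ^ (ν - 1) * κ (p.2 / p.1))
      (Icc δ Λ ×ˢ Icc 0 z) := by
    apply (ker_continuousOn h).comp (f := fun p : ℝ × ℝ => (p.2, p.1)) (by fun_prop)
    rintro ⟨lam, y⟩ ⟨hl, hy⟩
    exact ⟨hy.1, lt_of_lt_of_le hδ hl.1⟩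
  rw [e1, swap_of_continuousOn (G := fun lam y => lam ^ (ν - 1) * κ (y / lam)) hΛ hz hcont]
  have hcont' : ContinuousOn (fun p : ℝ × ℝ => p.2 ^ (ν - 1) * κ (p.1 / p.2))
      (Icc 0 z ×ˢ Icc δ Λ) := by
    apply (ker_continuousOn h).mono
    rintro ⟨y, lam⟩ ⟨hy, hl⟩
    exact ⟨hy.1, lt_of_lt_of_le hδ hl.1⟩
  have hint : IntervalIntegrable (fun y => ∫ lam in δ..Λ, lam ^ (ν - 1) * κ (y / lam)) volume
      0 z := by
    rw [intervalIntegrable_iff, uIoc_of_le hz]
    have h1 : IntegrableOn (fun p : ℝ × ℝ => p.2 ^ (ν - 1) * κ (p.1 / p.2)) (Icc 0 z ×ˢ Icc δ Λ) :=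
      hcont'.integrableOn_compact (isCompact_Icc.prod isCompact_Icc)
    have h2 := h1.mono_set (prod_mono (Ioc_subset_Icc_self (a := (0:ℝ)) (b := z))
      (Ioc_subset_Icc_self (a := δ) (b := Λ)))
    rw [IntegrableOn, Measure.volume_eq_prod, ← Measure.prod_restrict] at h2
    have h3 := h2.integral_prod_left
    simp only [intervalIntegral.integral_of_le hΛ]
    exact h3
  calc ∫ y in (0:ℝ)..z, ∫ lam in δ..Λ, lam ^ (ν - 1) * κ (y / lam)
      ≤ ∫ y in (0:ℝ)..z, kc κ ν * y ^ ν := by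
        apply intervalIntegral.integral_mono_on hz hint
        · exact (intervalIntegral.intervalIntegrable_rpow' (by linarith only [hν])).const_mul _
        · intro y hy
          exact ker_le h hν hy.1 hδ hΛ
    _ = kc κ ν * (z ^ (ν + 1) / (ν + 1)) := by
        rw [intervalIntegral.integral_const_mul, integral_rpow (Or.inl (by linarith only [hν])),
          Real.zero_rpow (by linarith only [hν]), sub_zero]

/-- the one-soliton integral -/
theorem ker_soliton_tendsto (h : Kernel κ ν) (hν : 0 < ν) {k : ℝ} (hk : 0 ≤ k) :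
    Tendsto (fun n : ℕ => ∫ lam in (1 / ((n:ℝ) + 1))..((n:ℝ) + 1), lam ^ (ν - 1) *
        ∫ y in (-k)..k, κ ((k ^ 2 - y ^ 2) / lam))
      atTop (𝓝 (kc κ ν * ((∫ x in (-1:ℝ)..1, (1 - x ^ 2) ^ ν) * k ^ (2 * ν + 1)))) := by
  have hkk : -k ≤ k := by linarith
  have hsq : ∀ y ∈ Icc (-k) k, 0 ≤ k ^ 2 - y ^ 2 := by
    intro y hy
    nlinarith only [hy.1, hy.2]
  have e : ∀ n : ℕ, ∫ lam in (1 / ((n:ℝ) + 1))..((n:ℝ) + 1), lam ^ (ν - 1) *
        ∫ y in (-k)..k, κ ((k ^ 2 - y ^ 2) / lam)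
      = ∫ y in (-k)..k, ∫ lam in (1 / ((n:ℝ) + 1))..((n:ℝ) + 1),
          lam ^ (ν - 1) * κ ((k ^ 2 - y ^ 2) / lam) := by
    intro n
    have h0 : (0:ℝ) < 1 / ((n:ℝ) + 1) := by positivity
    have hcont : ContinuousOn (fun p : ℝ × ℝ => p.1 ^ (ν - 1) * κ ((k ^ 2 - p.2 ^ 2) / p.1))
        (Icc (1 / ((n:ℝ) + 1)) ((n:ℝ) + 1) ×ˢ Icc (-k) k) := by
      apply (ker_continuousOn h).comp (f := fun p : ℝ × ℝ => (k ^ 2 - p.2 ^ 2, p.1)) (by (clear * -; fun_prop))
      rintro ⟨lam, y⟩ ⟨hl, hy⟩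
      exact ⟨hsq y hy, lt_of_lt_of_le h0 hl.1⟩
    rw [← swap_of_continuousOn (G := fun lam y => lam ^ (ν - 1) * κ ((k ^ 2 - y ^ 2) / lam))
      (inv_nat_le n) hkk hcont]
    simp only [intervalIntegral.integral_const_mul]
  simp only [e]
  have elim : kc κ ν * ((∫ x in (-1:ℝ)..1, (1 - x ^ 2) ^ ν) * k ^ (2 * ν + 1))
      = ∫ y in (-k)..k, kc κ ν * (k ^ 2 - y ^ 2) ^ ν := by
    rw [intervalIntegral.integral_const_mul]
    congr 1
    rcases hk.eq_or_lt with rfl | hk
    · rw [Real.zero_rpow (by linarith only [hν])]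
      simp only [mul_zero, ne_eq, OfNat.ofNat_ne_zero, not_false_eq_true, zero_pow, zero_sub, neg_zero, intervalIntegral.integral_same]
    · have e2 : ∫ y in (-k)..k, (k ^ 2 - y ^ 2) ^ ν
          = ∫ y in (-k)..k, k ^ (2 * ν) * (fun x => (1 - x ^ 2) ^ ν) (y / k) := by
        apply intervalIntegral.integral_congr
        intro y hy
        rw [uIcc_of_le hkk] at hy
        have h1 : k ^ (2 * ν) = (k ^ 2) ^ ν := by
          rw [Real.rpow_mul hk.le]
          norm_num
        have h2 : 0 ≤ 1 - (y / k) ^ 2 := by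
          rw [div_pow, sub_nonneg, div_le_one (by positivity)]
          linarith only [hsq y hy]
        simp only
        rw [h1, ← Real.mul_rpow (by positivity) h2]
        congr 1
        (clear * - hk; field_simp)
      rw [e2, intervalIntegral.integral_const_mul,
        intervalIntegral.integral_comp_div (fun x => (1 - x ^ 2) ^ ν) hk.ne', smul_eq_mul,
        neg_div, div_self hk.ne', Real.rpow_add_one hk.ne']
      ring
  rw [elim]
  apply intervalIntegral.tendsto_integral_filter_of_dominated_convergence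
    (fun y => kc κ ν * (k ^ 2 - y ^ 2) ^ ν)
  · refine Eventually.of_forall fun n => ?_
    have h0 : (0:ℝ) < 1 / ((n:ℝ) + 1) := by positivity
    rw [uIoc_of_le hkk]
    have hcont : ContinuousOn (fun p : ℝ × ℝ => p.2 ^ (ν - 1) * κ ((k ^ 2 - p.1 ^ 2) / p.2))
        (Icc (-k) k ×ˢ Icc (1 / ((n:ℝ) + 1)) ((n:ℝ) + 1)) := by
      apply (ker_continuousOn h).comp (f := fun p : ℝ × ℝ => (k ^ 2 - p.1 ^ 2, p.2)) (by fun_prop)
      rintro ⟨y, lam⟩ ⟨hy, hl⟩
      exact ⟨hsq y hy, lt_of_lt_of_le h0 hl.1⟩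
    have h1 := hcont.integrableOn_compact (μ := volume) (isCompact_Icc.prod isCompact_Icc)
    have h2 := h1.mono_set (prod_mono (Ioc_subset_Icc_self (a := -k) (b := k))
      (Ioc_subset_Icc_self (a := 1 / ((n:ℝ) + 1)) (b := (n:ℝ) + 1)))
    rw [IntegrableOn, Measure.volume_eq_prod, ← Measure.prod_restrict] at h2
    have h3 := h2.integral_prod_left
    simp only [intervalIntegral.integral_of_le (inv_nat_le n)]
    exact h3.aestronglyMeasurable
  · refine Eventually.of_forall fun n => Eventually.of_forall fun y hy => ?_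
    rw [uIoc_of_le hkk] at hy
    have h0 : (0:ℝ) < 1 / ((n:ℝ) + 1) := by positivity
    have hy' := hsq y (Ioc_subset_Icc_self hy)
    rw [Real.norm_eq_abs, abs_of_nonneg (ker_nonneg h hy' h0 (inv_nat_le n))]
    exact ker_le h hν hy' h0 (inv_nat_le n)
  · apply IntervalIntegrable.const_mul
    apply ContinuousOn.intervalIntegrable
    apply ContinuousOn.rpow_const (by fun_prop)
    intro y _
    exact Or.inr hν.le
  · refine Eventually.of_forall fun y hy => ?_
    rw [uIoc_of_le hkk] at hy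
    exact ker_tendsto h hν (hsq y (Ioc_subset_Icc_self hy))

/-! ### The two kernels -/

theorem integrableOn_aux {g : ℝ → ℝ} {ε : ℝ} (_hν : 0 < ν) (hν1 : ν < 1) (hε : ε < ν)
    {C : ℝ} (hm : AEStronglyMeasurable g (volume.restrict (Ioi (0:ℝ))))
    (h1 : ∀ u, 0 < u → u ≤ 1 → |g u| ≤ C * u ^ (ν - 1 - ε))
    (h2 : ∀ u, 1 < u → |g u| ≤ u ^ (ν - 2)) : IntegrableOn g (Ioi 0) := by
  have e : Ioi (0:ℝ) = Ioc 0 1 ∪ Ioi 1 := (Ioc_union_Ioi_eq_Ioi zero_le_one).symm
  have hm1 : AEStronglyMeasurable g (volume.restrict (Ioc (0:ℝ) 1)) :=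
    hm.mono_measure (Measure.restrict_mono (fun x hx => hx.1) le_rfl)
  have hm2 : AEStronglyMeasurable g (volume.restrict (Ioi (1:ℝ))) :=
    hm.mono_measure (Measure.restrict_mono (Ioi_subset_Ioi zero_le_one) le_rfl)
  rw [e]
  apply IntegrableOn.union
  · have hi : IntegrableOn (fun u : ℝ => C * u ^ (ν - 1 - ε)) (Ioc 0 1) := by
      have := (intervalIntegral.intervalIntegrable_rpow' (r := ν - 1 - ε) (by linarith)
        (a := 0) (b := 1)).const_mul C
      rwa [intervalIntegrable_iff, uIoc_of_le zero_le_one] at this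
    refine Integrable.mono' hi hm1 ?_
    filter_upwards [ae_restrict_mem measurableSet_Ioc] with u hu
    exact h1 u hu.1 hu.2
  · have hi : IntegrableOn (fun u : ℝ => u ^ (ν - 2)) (Ioi 1) :=
      integrableOn_Ioi_rpow_of_lt (by linarith) zero_lt_one
    refine Integrable.mono' hi hm2 ?_
    filter_upwards [ae_restrict_mem measurableSet_Ioi] with u hu
    exact h2 u hu

theorem log_kernel_cont : ContinuousOn (fun r : ℝ => Real.log (1 + r)) (Ici 0) := by
  apply ContinuousOn.log (by fun_prop)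
  intro r hr
  have : (0:ℝ) ≤ r := hr
  positivity

theorem log_kernel (hν : 0 < ν) (hν1 : ν < 1) : Kernel (fun r => Real.log (1 + r)) ν where
  cont := log_kernel_cont
  zero := by simp
  nonneg r hr := Real.log_nonneg (by linarith)
  int := by
    apply integrableOn_aux (ε := ν / 2) (C := 2 ^ (ν / 2) / (ν / 2)) hν hν1 (by linarith only [hν])
    · apply ContinuousOn.aestronglyMeasurable _ measurableSet_Ioi
      apply ContinuousOn.mul
      · apply ContinuousOn.rpow_const continuousOn_id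
        intro u hu
        exact Or.inl (ne_of_gt hu)
      · apply log_kernel_cont.comp
        · apply ContinuousOn.div continuousOn_const continuousOn_id
          intro u hu
          exact ne_of_gt hu
        · intro u hu
          have : (0:ℝ) < u := hu
          exact (one_div_pos.mpr this).le
    · intro u hu hu1
      have h0 : 0 ≤ Real.log (1 + 1 / u) := Real.log_nonneg (by
        have : 0 < 1 / u := by positivity
        linarith)
      rw [abs_of_nonneg (mul_nonneg (Real.rpow_nonneg hu.le _) h0)]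
      have h1 : Real.log (1 + 1 / u) ≤ 2 ^ (ν / 2) / (ν / 2) * u ^ (-(ν / 2)) := by
        have h3 : 1 + 1 / u ≤ 2 / u := by
          rw [le_div_iff₀ hu]
          field_simp
          linarith only [hu1]
        calc Real.log (1 + 1 / u) ≤ Real.log (2 / u) :=
              Real.log_le_log (by positivity) h3
          _ ≤ (2 / u) ^ (ν / 2) / (ν / 2) := Real.log_le_rpow_div (by positivity) (by positivity)
          _ = _ := by
            rw [Real.div_rpow (by norm_num) hu.le, Real.rpow_neg hu.le]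
            field_simp
      calc u ^ (ν - 1) * Real.log (1 + 1 / u)
          ≤ u ^ (ν - 1) * (2 ^ (ν / 2) / (ν / 2) * u ^ (-(ν / 2))) :=
            mul_le_mul_of_nonneg_left h1 (Real.rpow_nonneg hu.le _)
        _ = 2 ^ (ν / 2) / (ν / 2) * (u ^ (ν - 1) * u ^ (-(ν / 2))) := by ring
        _ = _ := by rw [← Real.rpow_add hu]; ring_nf
    · intro u hu
      have hu0 : 0 < u := by linarith
      have h0 : 0 ≤ Real.log (1 + 1 / u) := Real.log_nonneg (by
        have : 0 < 1 / u := by positivity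
        linarith)
      rw [abs_of_nonneg (mul_nonneg (Real.rpow_nonneg hu0.le _) h0)]
      have h1 : Real.log (1 + 1 / u) ≤ u ^ (-1 : ℝ) := by
        have := Real.log_le_sub_one_of_pos (x := 1 + 1 / u) (by positivity)
        rw [Real.rpow_neg_one]
        simpa only [one_div, ge_iff_le, add_sub_cancel_left] using this
      calc u ^ (ν - 1) * Real.log (1 + 1 / u) ≤ u ^ (ν - 1) * u ^ (-1 : ℝ) :=
            mul_le_mul_of_nonneg_left h1 (Real.rpow_nonneg hu0.le _)
        _ = _ := by rw [← Real.rpow_add hu0]; ring_nf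

theorem kc_pos_of_pos (h : Kernel κ ν) (hpos : ∀ r, 0 < r → 0 < κ r) : 0 < kc κ ν := by
  unfold kc
  rw [setIntegral_pos_iff_support_of_nonneg_ae]
  · have : Function.support (fun u : ℝ => u ^ (ν - 1) * κ (1 / u)) ∩ Ioi 0 = Ioi 0 := by
      apply inter_eq_right.mpr
      intro u hu
      have hu' : (0:ℝ) < u := hu
      rw [Function.mem_support]
      exact (mul_pos (Real.rpow_pos_of_pos hu' _) (hpos _ (by positivity))).ne'
    rw [this]
    simp
  · filter_upwards [ae_restrict_mem measurableSet_Ioi] with u hu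
    have hu' : (0:ℝ) < u := hu
    exact mul_nonneg (Real.rpow_nonneg hu'.le _) (h.nonneg _ (by positivity))
  · exact h.int

theorem log_kc_pos (hν : 0 < ν) (hν1 : ν < 1) : 0 < kc (fun r => Real.log (1 + r)) ν :=
  kc_pos_of_pos (log_kernel hν hν1) fun r hr => Real.log_pos (by linarith)

/-! ### Closed forms for the logarithmic kernel -/

theorem integral_log_kernel {z lam : ℝ} (hz : 0 ≤ z) (hl : 0 < lam) :
    ∫ y in (0:ℝ)..z, Real.log (1 + y / lam) = (z + lam) * Real.log (1 + z / lam) - z := by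
  have hd : ∀ y ∈ uIcc 0 z, HasDerivAt (fun y => (y + lam) * Real.log (1 + y / lam) - y)
      (Real.log (1 + y / lam)) y := by
    intro y hy
    rw [uIcc_of_le hz] at hy
    have hy0 : 0 ≤ y := hy.1
    have h1 : HasDerivAt (fun y : ℝ => y + lam) 1 y := (hasDerivAt_id y).add_const lam
    have h2 : HasDerivAt (fun y : ℝ => 1 + y / lam) (1 / lam) y :=
      ((hasDerivAt_id y).div_const lam).const_add 1
    have h3 := h2.log (by positivity)
    have h4 := (h1.mul h3).sub (hasDerivAt_id y)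
    refine h4.congr_deriv ?_
    have : 0 < lam + y := by positivity
    field_simp
    ring
  rw [intervalIntegral.integral_eq_sub_of_hasDerivAt hd]
  · simp
  · apply ContinuousOn.intervalIntegrable
    apply ContinuousOn.log (by (clear * -; fun_prop))
    intro y hy
    rw [uIcc_of_le hz] at hy
    have hy0 : 0 ≤ y := hy.1
    positivity

/-- `φ₀(y) = y log y - y` -/
noncomputable def phi0 (y : ℝ) : ℝ := y * Real.log y - y

theorem integral_log_soliton {k lam h : ℝ} (hk : 0 ≤ k) (hl : 0 < lam) (hh : 0 ≤ h)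
    (hhk : h ^ 2 = k ^ 2 + lam) :
    ∫ y in (-k)..k, Real.log (1 + (k ^ 2 - y ^ 2) / lam)
      = 2 * (phi0 (h + k) - phi0 (h - k) - k * Real.log lam) := by
  have hkh : k < h := by
    apply lt_of_pow_lt_pow_left₀ 2 hh
    linarith
  have hkk : -k ≤ k := by linarith only [hk]
  have hd : ∀ y ∈ uIcc (-k) k, HasDerivAt
      (fun y => phi0 (h + y) - phi0 (h - y) - y * Real.log lam)
      (Real.log (1 + (k ^ 2 - y ^ 2) / lam)) y := by
    intro y hy
    rw [uIcc_of_le hkk] at hy
    have p1 : 0 < h + y := by linarith [hy.1]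
    have p2 : 0 < h - y := by linarith [hy.2]
    have h1 : HasDerivAt (fun y : ℝ => h + y) 1 y := (hasDerivAt_id y).const_add h
    have h2 : HasDerivAt (fun y : ℝ => h - y) (-1) y := (hasDerivAt_id y).const_sub h
    have h3 := (h1.mul (h1.log p1.ne')).sub h1
    have h4 := (h2.mul (h2.log p2.ne')).sub h2
    have h5 := (h3.sub h4).sub ((hasDerivAt_id y).mul_const (Real.log lam))
    refine HasDerivAt.congr_deriv (h5.congr_of_eventuallyEq ?_) ?_
    · exact Eventually.of_forall fun z => by simp only [phi0, id_eq, Pi.sub_apply, Pi.mul_apply]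
    · have e1 : 1 + (k ^ 2 - y ^ 2) / lam = (h + y) * (h - y) / lam := by
        field_simp
        linear_combination (-1) * hhk
      rw [e1, Real.log_div (by (clear * - p1 p2; positivity)) hl.ne', Real.log_mul p1.ne' p2.ne']
      field_simp
      ring
  rw [intervalIntegral.integral_eq_sub_of_hasDerivAt hd]
  · rw [sub_neg_eq_add, ← sub_eq_add_neg]
    ring
  · apply ContinuousOn.intervalIntegrable
    apply ContinuousOn.log (by (clear * -; fun_prop))
    intro y hy
    rw [uIcc_of_le hkk] at hy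
    have : 0 ≤ k ^ 2 - y ^ 2 := by nlinarith only [hy.1, hy.2]
    (clear * - this hl; positivity)

end Vale.Agent.P371.ScalarInt
end
end

section

section

/-!
Assembly of Part II, first part: for fixed `x`, integration in `t`; for fixed `t`, integration
in `x`.
-/

namespace Vale.Agent.P371.GII

open Matrix Filter Topology Set MeasureTheory
open scoped ComplexOrder MatrixOrder Matrix.Norms.L2Operator

variable {n : Type*} [Fintype n] [DecidableEq n]

/-- the derivative hypothesis (J2) at the matrix `F` -/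
def J2 (K F : Matrix n n ℂ) : Prop := ∀ t₀ : ℝ, 0 < t₀ → ∃ d : ℝ,
  HasDerivAt (fun t => ((K * K - F * F + (t₀ : ℂ) • (1 : Matrix n n ℂ)) *
    (cfc Real.log (Hm K t + F) + cfc Real.log (Hm K t - F))).trace.re) d t₀ ∧ d ≤ Fintype.card n

/-- the integrand -/
noncomputable def EE (ν : ℝ) (K F Q : Matrix n n ℂ) (t : ℝ) : ℝ :=
  t ^ (ν - 1) * ((lt K F t * (K * K - F * F - Q)).trace.re
        + ((1 + ν) / ν) * GG t (((ν / (1 + ν) : ℝ) : ℂ) • Q))

theorem hasDerivAt_sub_mul {u : ℝ → ℝ} {t₀ : ℝ} (hu : ContinuousAt u t₀) :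
    HasDerivAt (fun t => (t - t₀) * u t) (u t₀) t₀ := by
  rw [hasDerivAt_iff_tendsto_slope]
  have h : Tendsto u (𝓝[≠] t₀) (𝓝 (u t₀)) := hu.tendsto.mono_left nhdsWithin_le_nhds
  refine h.congr' ?_
  filter_upwards [self_mem_nhdsWithin] with t ht
  have : t - t₀ ≠ 0 := sub_ne_zero.mpr ht
  rw [slope_def_field]
  field_simp
  simp

theorem lt_trace (K F : Matrix n n ℂ) (t : ℝ) :
    (lt K F t).trace.re = (cfc Real.log (Hm K t + F) + cfc Real.log (Hm K t - F)).trace.re
      - Real.log t * Fintype.card n := by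
  rw [lt, Matrix.trace_sub, Complex.sub_re, re_trace_smul_one]

theorem continuousOn_logs {K F : Matrix n n ℂ} (hK : K.IsHermitian)
    (hm : (K - F).PosSemidef) (hp : (K + F).PosSemidef) :
    ContinuousOn (fun t => cfc Real.log (Hm K t + F) + cfc Real.log (Hm K t - F)) (Ioi 0) := by
  have c := (continuousOn_Hm hK).continuousOn (s := Ioi 0)
  exact (continuousOn_log_cfc (c.add continuousOn_const) fun t ht => posDef_add_Hm hK ht hp).add
    (continuousOn_log_cfc (c.sub continuousOn_const) fun t ht => posDef_sub_Hm hK ht hm)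

/-- derivative of `Φ` in `t` -/
theorem hasDerivAt_Phi {K F : Matrix n n ℂ} (hK : K.IsHermitian)
    (hm : (K - F).PosSemidef) (hp : (K + F).PosSemidef) (hJ : J2 K F) {t₀ : ℝ} (ht₀ : 0 < t₀) :
    ∃ d : ℝ, d ≤ Fintype.card n ∧ HasDerivAt (fun t => Phi K F t)
      (d - Fintype.card n + (lt K F t₀).trace.re - (K * K - F * F).trace.re / t₀) t₀ := by
  obtain ⟨d, hd, hdn⟩ := hJ t₀ ht₀
  refine ⟨d, hdn, ?_⟩
  set L : ℝ → Matrix n n ℂ := fun t => cfc Real.log (Hm K t + F) + cfc Real.log (Hm K t - F)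
    with hL
  have hLc : ContinuousAt (fun t => (L t).trace.re) t₀ := by
    have h1 := (continuousOn_logs hK hm hp).continuousAt (Ioi_mem_nhds ht₀)
    exact (continuous_trace_re (n := n)).continuousAt.comp h1
  have h2 := hasDerivAt_sub_mul hLc
  have h3 : HasDerivAt (fun t : ℝ => Real.log t *
      ((K * K - F * F).trace.re + t * Fintype.card n))
      (t₀⁻¹ * ((K * K - F * F).trace.re + t₀ * Fintype.card n)
        + Real.log t₀ * (1 * Fintype.card n)) t₀ := by
    exact (Real.hasDerivAt_log ht₀.ne').mul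
      (((hasDerivAt_id t₀).mul_const (Fintype.card n : ℝ)).const_add _)
  have h4 := ((hd.add h2).sub h3).sub_const (K * K - F * F).trace.re
  have e : (fun t => Phi K F t) = fun t => ((K * K - F * F + (t₀ : ℂ) • (1 : Matrix n n ℂ)) *
    L t).trace.re + (t - t₀) * (L t).trace.re - Real.log t *
      ((K * K - F * F).trace.re + t * Fintype.card n) - (K * K - F * F).trace.re := by
    funext t
    have e1 : lt K F t = L t - (Real.log t : ℂ) • (1 : Matrix n n ℂ) := rfl
    have e2 : (K * K - F * F + (t : ℂ) • (1 : Matrix n n ℂ)) =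
        (K * K - F * F + (t₀ : ℂ) • (1 : Matrix n n ℂ)) +
          ((t - t₀ : ℝ) : ℂ) • (1 : Matrix n n ℂ) := by
      rw [add_assoc, ← add_smul]
      congr 2
      push_cast
      ring
    have e3 : ((K * K - F * F + (t : ℂ) • (1 : Matrix n n ℂ)) * L t).trace.re =
        ((K * K - F * F + (t₀ : ℂ) • (1 : Matrix n n ℂ)) * L t).trace.re
          + (t - t₀) * (L t).trace.re := by
      rw [e2, add_mul, Matrix.trace_add, Complex.add_re]
      congr 1
      rw [smul_mul_assoc, one_mul, Matrix.trace_smul, smul_eq_mul, Complex.re_ofReal_mul]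
    have e4 : (K * K - F * F + (t : ℂ) • (1 : Matrix n n ℂ)).trace.re
        = (K * K - F * F).trace.re + t * Fintype.card n := by
      rw [Matrix.trace_add, Complex.add_re, re_trace_smul_one]
    rw [Phi, e1, mul_sub, Matrix.trace_sub, Complex.sub_re, e3, mul_smul_comm, mul_one,
      Matrix.trace_smul, smul_eq_mul, Complex.re_ofReal_mul, e4]
  rw [e]
  refine h4.congr_deriv ?_
  rw [lt_trace]
  field_simp
  ring

/-- for fixed `x`, integrate in `t` -/
theorem integral_t_ge {K F Q : Matrix n n ℂ} (hK : K.IsHermitian) {ν : ℝ} (hν : 0 < ν)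
    (hm : (K - F).PosSemidef) (hp : (K + F).PosSemidef) (hQ : Q.PosSemidef) (hJ : J2 K F)
    {δ Λ : ℝ} (hδ : 0 < δ) (hΛ : δ ≤ Λ) (hE : ContinuousOn (EE ν K F Q) (Icc δ Λ)) :
    (1 / ν) * (Λ ^ ν * Phi K F Λ) - (1 / ν) * (δ ^ ν * Phi K F δ)
      ≤ ∫ t in δ..Λ, EE ν K F Q t := by
  have hex : ∀ t : ℝ, ∃ d : ℝ, 0 < t → (d ≤ Fintype.card n ∧ HasDerivAt (fun t => Phi K F t)
      (d - Fintype.card n + (lt K F t).trace.re - (K * K - F * F).trace.re / t) t) := by
    intro t
    by_cases ht : 0 < t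
    · obtain ⟨d, hd⟩ := hasDerivAt_Phi hK hm hp hJ ht
      exact ⟨d, fun _ => hd⟩
    · exact ⟨0, fun h => absurd h ht⟩
  choose d hd using hex
  have hder : ∀ t : ℝ, 0 < t → HasDerivAt (fun t => (1 / ν) * (t ^ ν * Phi K F t))
      ((1 / ν) * (ν * t ^ (ν - 1) * Phi K F t + t ^ ν * (d t - Fintype.card n
        + (lt K F t).trace.re - (K * K - F * F).trace.re / t))) t := by
    intro t ht
    have h1 := Real.hasDerivAt_rpow_const (x := t) (p := ν) (Or.inl ht.ne')
    exact (h1.mul (hd t ht).2).const_mul (1 / ν)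
  apply intervalIntegral.sub_le_integral_of_hasDeriv_right_of_le hΛ
    (g := fun t => (1 / ν) * (t ^ ν * Phi K F t))
    (g' := fun t => (1 / ν) * (ν * t ^ (ν - 1) * Phi K F t + t ^ ν * (d t - Fintype.card n
        + (lt K F t).trace.re - (K * K - F * F).trace.re / t)))
  · intro t ht
    exact (hder t (lt_of_lt_of_le hδ ht.1)).continuousAt.continuousWithinAt
  · intro t ht
    exact (hder t (lt_trans hδ ht.1)).hasDerivWithinAt
  · exact hE.integrableOn_compact isCompact_Icc
  · intro t ht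
    have ht0 : 0 < t := lt_trans hδ ht.1
    have h1 := pointwise_ineq hK ht0 hν hm hp hQ
    have h2 := (hd t ht0).1
    have hr : 0 < t ^ (ν - 1) := Real.rpow_pos_of_pos ht0 _
    have hr2 : t ^ ν = t ^ (ν - 1) * t := by
      rw [← Real.rpow_add_one ht0.ne']
      congr 1
      ring
    have h3 : (1 / ν) * (ν * t ^ (ν - 1) * Phi K F t + t ^ ν * (d t - Fintype.card n
        + (lt K F t).trace.re - (K * K - F * F).trace.re / t))
        = t ^ (ν - 1) * (Phi K F t + (1 / ν) * (t * (lt K F t).trace.re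
          - (K * K - F * F).trace.re) + (1 / ν) * t * (d t - Fintype.card n)) := by
      rw [hr2]
      field_simp
      ring
    rw [h3, EE]
    apply mul_le_mul_of_nonneg_left _ hr.le
    have h4 : (1 / ν) * t * (d t - Fintype.card n) ≤ 0 :=
      mul_nonpos_of_nonneg_of_nonpos (by positivity) (by linarith only [h2])
    linarith only [h1, h4]

theorem trf_add_comp {K : Matrix n n ℂ} (hK : K.IsHermitian) (f : ℝ → ℝ) (t : ℝ) :
    trf f (Hm K t + K) = ∑ i, f (√((hK.eigenvalues i) ^ 2 + t) + hK.eigenvalues i) := by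
  have e : Hm K t + K = cfc (fun x : ℝ => √(x ^ 2 + t) + x) K := by
    rw [cfc_add_fun, cfc_id_fun hK, Hm]
  rw [e, trf, ← cfc_comp_fun hK]
  exact trf_eq hK _

theorem trf_sub_comp {K : Matrix n n ℂ} (hK : K.IsHermitian) (f : ℝ → ℝ) (t : ℝ) :
    trf f (Hm K t - K) = ∑ i, f (√((hK.eigenvalues i) ^ 2 + t) - hK.eigenvalues i) := by
  have e : Hm K t - K = cfc (fun x : ℝ => √(x ^ 2 + t) - x) K := by
    rw [cfc_sub_fun, cfc_id_fun hK, Hm]
  rw [e, trf, ← cfc_comp_fun hK]
  exact trf_eq hK _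

theorem trace_eq_sum {K : Matrix n n ℂ} (hK : K.IsHermitian) :
    K.trace.re = ∑ i, hK.eigenvalues i := by
  have := trf_eq hK (fun x => x)
  rwa [trf, cfc_id_fun hK] at this

/-- boundary values of the potential -/
theorem pot_boundary {K : Matrix n n ℂ} (hK : K.PosSemidef) {t : ℝ} (ht : 0 < t) :
    pot K (-K) t - pot K K t
      = -∑ i, ∫ y in (-(hK.isHermitian.eigenvalues i))..(hK.isHermitian.eigenvalues i),
          Real.log (1 + ((hK.isHermitian.eigenvalues i) ^ 2 - y ^ 2) / t) := by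
  have hKh := hK.isHermitian
  have e1 : pot K (-K) t = -pot K K t := by
    unfold pot
    rw [← sub_eq_add_neg, sub_neg_eq_add, Matrix.trace_neg, Complex.neg_re]
    ring
  rw [e1, pot, trf_add_comp hKh, trf_sub_comp hKh, trace_eq_sum hKh, Finset.mul_sum,
    ← Finset.sum_sub_distrib, ← Finset.sum_sub_distrib, ← Finset.sum_neg_distrib,
    ← Finset.sum_sub_distrib, ← Finset.sum_neg_distrib]
  refine Finset.sum_congr rfl fun i _ => ?_
  have h0 : 0 ≤ hKh.eigenvalues i := hK.eigenvalues_nonneg i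
  rw [ScalarInt.integral_log_soliton h0 ht (Real.sqrt_nonneg _) (Real.sq_sqrt (by positivity))]
  unfold ph ScalarInt.phi0
  ring

end Vale.Agent.P371.GII
end
end

section

section

/-!
Assembly of Part II.
-/

namespace Vale.Agent.P371.GII

set_option linter.unusedSectionVars false

open Matrix Filter Topology Set MeasureTheory
open scoped ComplexOrder MatrixOrder Matrix.Norms.L2Operator

section general

variable {n : Type*} [Fintype n] [DecidableEq n]

theorem posDef_add_smul_one {Z : Matrix n n ℂ} (hZ : Z.PosSemidef) {t : ℝ} (ht : 0 < t) :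
    (Z + (t : ℂ) • (1 : Matrix n n ℂ)).PosDef := by
  have h1 : ((t : ℂ) • (1 : Matrix n n ℂ)).PosDef := by
    apply Matrix.PosDef.smul Matrix.PosDef.one
    exact_mod_cast ht
  exact h1.posSemidef_add hZ

theorem posSemidef_smul {Q : Matrix n n ℂ} (hQ : Q.PosSemidef) {r : ℝ} (hr : 0 ≤ r) :
    ((r : ℂ) • Q).PosSemidef := by
  apply hQ.smul
  exact_mod_cast hr

theorem continuousOn_lt {K : Matrix n n ℂ} (hK : K.IsHermitian) {s : Set ℝ}
    {F : ℝ → Matrix n n ℂ} (hF : ContinuousOn F s)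
    (h3 : ∀ x ∈ s, (K - F x).PosSemidef ∧ (K + F x).PosSemidef) :
    ContinuousOn (fun p : ℝ × ℝ => lt K (F p.1) p.2) (s ×ˢ Ioi 0) := by
  have c1 : ContinuousOn (fun p : ℝ × ℝ => Hm K p.2) (s ×ˢ Ioi 0) :=
    ((continuousOn_Hm hK).comp continuous_snd).continuousOn
  have c2 : ContinuousOn (fun p : ℝ × ℝ => F p.1) (s ×ˢ Ioi 0) :=
    hF.comp continuousOn_fst fun p hp => hp.1
  have c3 : ContinuousOn (fun p : ℝ × ℝ => ((Real.log p.2 : ℝ) : ℂ)) (s ×ˢ Ioi (0:ℝ)) := by
    apply Complex.continuous_ofReal.comp_continuousOn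
    apply ContinuousOn.log continuousOn_snd
    intro p hp
    exact ne_of_gt hp.2
  exact ((continuousOn_log_cfc (c1.add c2) fun p hp => posDef_add_Hm hK hp.2 (h3 _ hp.1).2).add
    (continuousOn_log_cfc (c1.sub c2) fun p hp => posDef_sub_Hm hK hp.2 (h3 _ hp.1).1)).sub
    (c3.smul continuousOn_const)

theorem continuousOn_GG {s : Set ℝ} {Q : ℝ → Matrix n n ℂ} (hQ : ContinuousOn Q s)
    (hQp : ∀ x ∈ s, (Q x).PosSemidef) {r : ℝ} (hr : 0 ≤ r) :
    ContinuousOn (fun p : ℝ × ℝ => GG p.2 ((r : ℂ) • Q p.1)) (s ×ˢ Ioi 0) := by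
  have c1 : ContinuousOn (fun p : ℝ × ℝ => Q p.1) (s ×ˢ Ioi (0:ℝ)) :=
    hQ.comp continuousOn_fst fun p hp => hp.1
  have c2 : ContinuousOn (fun p : ℝ × ℝ => (r : ℂ) • Q p.1) (s ×ˢ Ioi (0:ℝ)) :=
    c1.const_smul (r : ℂ)
  have c4 : ContinuousOn (fun p : ℝ × ℝ => ((p.2 : ℝ) : ℂ) • (1 : Matrix n n ℂ))
      (s ×ˢ Ioi (0:ℝ)) :=
    (Complex.continuous_ofReal.comp_continuousOn continuousOn_snd).smul continuousOn_const
  have c3 : ContinuousOn (fun p : ℝ × ℝ => Real.log p.2) (s ×ˢ Ioi (0:ℝ)) := by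
    apply ContinuousOn.log continuousOn_snd
    intro p hp
    exact ne_of_gt hp.2
  have c5 := c2.add c4
  have c6 := continuousOn_log_cfc c5 fun p hp =>
    posDef_add_smul_one (posSemidef_smul (hQp _ hp.1) hr) hp.2
  have ct := continuous_trace_re (n := n)
  have c7 := ((ct.comp_continuousOn (c5.mul c6)).sub (c3.mul (ct.comp_continuousOn c5))).sub
    (ct.comp_continuousOn c2)
  refine c7.congr fun p hp => ?_
  exact GG_eq (posSemidef_smul (hQp _ hp.1) hr) hp.2

theorem continuousOn_term1 {ν : ℝ} {K : Matrix n n ℂ} (hK : K.IsHermitian) {s : Set ℝ}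
    {F Q : ℝ → Matrix n n ℂ} (hF : ContinuousOn F s) (hQ : ContinuousOn Q s)
    (h3 : ∀ x ∈ s, (K - F x).PosSemidef ∧ (K + F x).PosSemidef) :
    ContinuousOn (fun p : ℝ × ℝ => p.2 ^ (ν - 1) *
      (lt K (F p.1) p.2 * (K * K - F p.1 * F p.1 - Q p.1)).trace.re) (s ×ˢ Ioi 0) := by
  have c1 := continuousOn_lt hK hF h3
  have c2 : ContinuousOn (fun p : ℝ × ℝ => F p.1) (s ×ˢ Ioi (0:ℝ)) :=
    hF.comp continuousOn_fst fun p hp => hp.1
  have c3 : ContinuousOn (fun p : ℝ × ℝ => Q p.1) (s ×ˢ Ioi (0:ℝ)) :=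
    hQ.comp continuousOn_fst fun p hp => hp.1
  have c0 : ContinuousOn (fun p : ℝ × ℝ => p.2 ^ (ν - 1)) (s ×ˢ Ioi (0:ℝ)) := by
    apply ContinuousOn.rpow_const continuousOn_snd
    intro p hp
    exact Or.inl (ne_of_gt hp.2)
  exact c0.mul ((continuous_trace_re (n := n)).comp_continuousOn
    (c1.mul ((continuousOn_const.sub (c2.mul c2)).sub c3)))

theorem continuousOn_term2 {ν : ℝ} {s : Set ℝ} {Q : ℝ → Matrix n n ℂ} (hQ : ContinuousOn Q s)
    (hQp : ∀ x ∈ s, (Q x).PosSemidef) {r : ℝ} (hr : 0 ≤ r) :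
    ContinuousOn (fun p : ℝ × ℝ => p.2 ^ (ν - 1) * GG p.2 ((r : ℂ) • Q p.1)) (s ×ˢ Ioi 0) := by
  have c0 : ContinuousOn (fun p : ℝ × ℝ => p.2 ^ (ν - 1)) (s ×ˢ Ioi (0:ℝ)) := by
    apply ContinuousOn.rpow_const continuousOn_snd
    intro p hp
    exact Or.inl (ne_of_gt hp.2)
  exact c0.mul (continuousOn_GG hQ hQp hr)

/-- for fixed `t`, integrate in `x` -/
theorem integral_x_eq {K : Matrix n n ℂ} (hK : K.IsHermitian) {a t : ℝ} (ha : 0 < a) (ht : 0 < t)
    {F Q : ℝ → Matrix n n ℂ}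
    (hF : ∀ x ∈ Icc (-a) a, HasDerivWithinAt F (K * K - F x * F x - Q x) (Icc (-a) a) x)
    (hQ : ContinuousOn Q (Icc (-a) a))
    (h3 : ∀ x ∈ Icc (-a) a, (K - F x).PosSemidef ∧ (K + F x).PosSemidef) :
    ∫ x in (-a)..a, (lt K (F x) t * (K * K - F x * F x - Q x)).trace.re
      = pot K (F a) t - pot K (F (-a)) t := by
  have hFc : ContinuousOn F (Icc (-a) a) := fun x hx => (hF x hx).continuousWithinAt
  have hd : ∀ x ∈ Icc (-a) a, HasDerivWithinAt (fun y => pot K (F y) t)
      (lt K (F x) t * (K * K - F x * F x - Q x)).trace.re (Icc (-a) a) x :=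
    fun x hx => hasDerivWithinAt_pot hK ht (hF x hx) hFc hx h3
  have haa : -a ≤ a := by linarith
  apply intervalIntegral.integral_eq_sub_of_hasDeriv_right_of_le haa
  · exact fun x hx => (hd x hx).continuousWithinAt
  · intro x hx
    exact ((hd x (Ioo_subset_Icc_self hx)).hasDerivAt (Icc_mem_nhds hx.1 hx.2)).hasDerivWithinAt
  · apply ContinuousOn.intervalIntegrable
    rw [uIcc_of_le haa]
    have c := continuousOn_term1 (ν := 1) hK hFc hQ h3
    have c' := c.comp (f := fun x : ℝ => (x, t)) (by fun_prop) (s := Icc (-a) a)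
      (fun x hx => ⟨hx, ht⟩)
    refine c'.congr fun x hx => ?_
    simp only [sub_self, Real.rpow_zero, one_mul, Function.comp_apply]

/-- the `t`-integral of `GG` -/
theorem integral_GG_le {Q : Matrix n n ℂ} (hQ : Q.PosSemidef) {ν r δ Λ : ℝ} (hν : 0 < ν)
    (hν1 : ν < 1) (hr : 0 ≤ r) (hδ : 0 < δ) (hΛ : δ ≤ Λ) :
    ∫ t in δ..Λ, t ^ (ν - 1) * GG t ((r : ℂ) • Q)
      ≤ ScalarInt.kc (fun r => Real.log (1 + r)) ν * (r ^ (ν + 1) / (ν + 1)) *
        trf (fun q => q ^ (1 + ν)) Q := by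
  have hQh := hQ.isHermitian
  have e1 : (r : ℂ) • Q = cfc (fun q : ℝ => r * q) Q := by
    rw [cfc_mul_fun (fun _ => r) (fun q => q), cfc_id_fun hQh, cfc_const_fun hQh, smul_mul_assoc,
      one_mul]
  have e2 : ∀ t ∈ Icc δ Λ, t ^ (ν - 1) * GG t ((r : ℂ) • Q)
      = ∑ i, t ^ (ν - 1) * ∫ y in (0:ℝ)..(r * hQh.eigenvalues i), Real.log (1 + y / t) := by
    intro t ht
    have ht0 : 0 < t := lt_of_lt_of_le hδ ht.1
    rw [GG, trf, e1, ← cfc_comp_fun hQh, ← trf, trf_eq hQh, Finset.mul_sum]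
    refine Finset.sum_congr rfl fun i _ => ?_
    rw [ScalarInt.integral_log_kernel (mul_nonneg hr (hQ.eigenvalues_nonneg i)) ht0]
  have e3 : ∫ t in δ..Λ, t ^ (ν - 1) * GG t ((r : ℂ) • Q)
      = ∫ t in δ..Λ, ∑ i, t ^ (ν - 1) * ∫ y in (0:ℝ)..(r * hQh.eigenvalues i),
          Real.log (1 + y / t) := by
    apply intervalIntegral.integral_congr
    intro t ht
    rw [uIcc_of_le hΛ] at ht
    exact e2 t ht
  have hint : ∀ i ∈ (Finset.univ : Finset n), IntervalIntegrable (fun t => t ^ (ν - 1) *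
      ∫ y in (0:ℝ)..(r * hQh.eigenvalues i), Real.log (1 + y / t)) volume δ Λ := by
    intro i _
    apply ContinuousOn.intervalIntegrable
    rw [uIcc_of_le hΛ]
    have hz : 0 ≤ r * hQh.eigenvalues i := mul_nonneg hr (hQ.eigenvalues_nonneg i)
    have c : ContinuousOn (fun t : ℝ => t ^ (ν - 1) * ((r * hQh.eigenvalues i + t) *
        Real.log (1 + r * hQh.eigenvalues i / t) - r * hQh.eigenvalues i)) (Icc δ Λ) := by
      have hne : ∀ t ∈ Icc δ Λ, t ≠ 0 := fun t ht => (lt_of_lt_of_le hδ ht.1).ne'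
      apply ContinuousOn.mul
      · exact ContinuousOn.rpow_const continuousOn_id fun t ht => Or.inl (hne t ht)
      · apply ContinuousOn.sub _ continuousOn_const
        apply ContinuousOn.mul (by fun_prop)
        apply ContinuousOn.log
        · exact continuousOn_const.add (continuousOn_const.div continuousOn_id hne)
        · intro t ht
          have : 0 < t := lt_of_lt_of_le hδ ht.1
          (clear * - hQh hz this; positivity)
    refine c.congr fun t ht => ?_
    simp only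
    rw [ScalarInt.integral_log_kernel hz (lt_of_lt_of_le hδ ht.1)]
  rw [e3, intervalIntegral.integral_finsetSum hint, trf_eq hQh, Finset.mul_sum]
  refine Finset.sum_le_sum fun i _ => ?_
  have hq := hQ.eigenvalues_nonneg i
  refine (ScalarInt.ker_prim_le (ScalarInt.log_kernel hν hν1) hν (mul_nonneg hr hq) hδ hΛ).trans
    (le_of_eq ?_)
  rw [Real.mul_rpow hr hq, add_comm 1 ν]
  ring

theorem tendsto_boundary {ν : ℝ} (hν : 0 < ν) (C : ℝ) :
    Tendsto (fun m : ℕ => (1 / ((m:ℝ) + 1)) ^ ν * (C * (1 + |Real.log (1 / ((m:ℝ) + 1))|))) atTop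
      (𝓝 0) := by
  have h1 : Tendsto (fun x : ℝ => x ^ ν * (C * (1 + |Real.log x|))) (𝓝[>] 0) (𝓝 0) := by
    have t1 := tendsto_log_mul_rpow_nhdsGT_zero hν
    have t2 : Tendsto (fun x : ℝ => x ^ ν) (𝓝[>] 0) (𝓝 0) := by
      have := (Real.continuousAt_rpow_const 0 ν (Or.inr hν.le)).tendsto
      rw [Real.zero_rpow hν.ne'] at this
      exact this.mono_left nhdsWithin_le_nhds
    have t3 := (t2.add t1.abs).const_mul C
    simp only [abs_zero, add_zero, mul_zero] at t3
    refine t3.congr' ?_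
    filter_upwards [self_mem_nhdsWithin] with x hx
    have hx' : (0:ℝ) < x := hx
    rw [abs_mul, abs_of_pos (Real.rpow_pos_of_pos hx' ν)]
    ring
  exact h1.comp ScalarInt.tendsto_inv_nat

end general

theorem continuousOn_trf_rpow {N : ℕ} {s : Set ℝ} {Q : ℝ → Matrix (Fin N) (Fin N) ℂ}
    (hQ : ContinuousOn Q s) (hQp : ∀ x ∈ s, (Q x).PosSemidef) {p : ℝ} (hp : 0 ≤ p) :
    ContinuousOn (fun x => trf (fun q => q ^ p) (Q x)) s := by
  apply (continuous_trace_re (n := Fin N)).comp_continuousOn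
  refine ContinuousOn.cfc_of_mem_nhdsSet (s := univ) _ ?_ hQ
    (fun x hx => (hQp x hx).isHermitian.isSelfAdjoint) ?_
  · exact univ_mem
  · exact (Real.continuous_rpow_const hp).continuousOn

/-- Part II, from (J2) and the boundary estimates (J3). -/
theorem partII_core {N : ℕ} {ν : ℝ} (hν : 0 < ν) (hν1 : ν < 1) {a : ℝ} (ha : 0 < a)
    {K : Matrix (Fin N) (Fin N) ℂ} (hK : K.PosSemidef) {F Q : ℝ → Matrix (Fin N) (Fin N) ℂ}
    (hF : ∀ x ∈ Icc (-a) a, HasDerivWithinAt F (K * K - F x * F x - Q x) (Icc (-a) a) x)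
    (hQc : ContinuousOn Q (Icc (-a) a)) (hQ : ∀ x ∈ Icc (-a) a, (Q x).PosSemidef)
    (h1 : F (-a) = K) (h2 : F a = -K)
    (h3 : ∀ x ∈ Icc (-a) a, (K - F x).PosSemidef ∧ (K + F x).PosSemidef)
    (hJ2 : ∀ x ∈ Icc (-a) a, J2 K (F x))
    (hJ3b : ∀ x ∈ Icc (-a) a, ∀ t, 0 < t → 0 ≤ Phi K (F x) t)
    {C : ℝ} (hJ3c : ∀ x ∈ Icc (-a) a, ∀ t, 0 < t → t ≤ 1 →
      Phi K (F x) t ≤ C * (1 + |Real.log t|)) :
    (∫ f in (-1:ℝ)..1, (1 - f ^ 2) ^ ν) * trPow (2 * ν + 1) K
      ≤ (1 / ν) * (ν / (1 + ν)) ^ (1 + ν) * ∫ x in (-a)..a, trPow (1 + ν) (Q x) := by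
  have hKh := hK.isHermitian
  have haa : -a ≤ a := by linarith
  have hFc : ContinuousOn F (Icc (-a) a) := fun x hx => (hF x hx).continuousWithinAt
  set θ : ℝ := ν / (1 + ν) with hθdef
  have hθ : 0 < θ := by positivity
  set kc := ScalarInt.kc (fun r => Real.log (1 + r)) ν with hkc
  have hkcpos : 0 < kc := ScalarInt.log_kc_pos hν hν1
  set T : ℝ := ∫ x in (-a)..a, trf (fun q => q ^ (1 + ν)) (Q x) with hT
  -- sums
  set S : ℕ → ℝ := fun m => ∑ i, ∫ t in (1 / ((m:ℝ) + 1))..((m:ℝ) + 1), t ^ (ν - 1) *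
    ∫ y in (-(hKh.eigenvalues i))..(hKh.eigenvalues i),
      Real.log (1 + ((hKh.eigenvalues i) ^ 2 - y ^ 2) / t) with hS
  have hSlim : Tendsto S atTop (𝓝 (∑ i, kc * ((∫ x in (-1:ℝ)..1, (1 - x ^ 2) ^ ν) *
      (hKh.eigenvalues i) ^ (2 * ν + 1)))) := by
    apply tendsto_finsetSum
    intro i _
    exact ScalarInt.ker_soliton_tendsto (ScalarInt.log_kernel hν hν1) hν (hK.eigenvalues_nonneg i)
  -- main inequality for each m
  have key : ∀ m : ℕ, S m ≤ ((1 + ν) / ν) * (kc * (θ ^ (ν + 1) / (ν + 1)) * T)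
      + (a - -a) * ((1 / ν) * ((1 / ((m:ℝ) + 1)) ^ ν * (C * (1 + |Real.log (1 / ((m:ℝ) + 1))|)))) := by
    intro m
    set δ : ℝ := 1 / ((m:ℝ) + 1) with hδdef
    set Λ : ℝ := (m:ℝ) + 1 with hΛdef
    have hm0 : (0:ℝ) ≤ m := Nat.cast_nonneg m
    have hδ : 0 < δ := by (clear * -; positivity)
    have hδ1 : δ ≤ 1 := by
      rw [hδdef, div_le_one (by (clear * -; positivity))]
      linarith
    have hΛ0 : 0 < Λ := by (clear * -; positivity)
    have hΛ : δ ≤ Λ := ScalarInt.inv_nat_le m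
    set ε : ℝ := (1 / ν) * (δ ^ ν * (C * (1 + |Real.log δ|))) with hε
    -- continuity
    have hsub : Icc (-a) a ×ˢ Icc δ Λ ⊆ Icc (-a) a ×ˢ Ioi (0:ℝ) :=
      prod_mono le_rfl fun t ht => lt_of_lt_of_le hδ ht.1
    have c1 := (continuousOn_term1 (ν := ν) hKh hFc hQc h3).mono hsub
    have c2 := (continuousOn_term2 (ν := ν) hQc hQ hθ.le).mono hsub
    set f1 : ℝ → ℝ → ℝ := fun x t => t ^ (ν - 1) *
      (lt K (F x) t * (K * K - F x * F x - Q x)).trace.re with hf1
    set f2 : ℝ → ℝ → ℝ := fun x t => t ^ (ν - 1) * GG t ((θ : ℂ) • Q x) with hf2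
    have hEE : ∀ x t, EE ν K (F x) (Q x) t = f1 x t + ((1 + ν) / ν) * f2 x t := by
      intro x t
      simp only [EE, hf1, hf2, hθdef]
      ring
    have cx1 : ∀ x ∈ Icc (-a) a, ContinuousOn (f1 x) (Icc δ Λ) := fun x hx =>
      c1.comp (f := fun t : ℝ => (x, t)) (by fun_prop) fun t ht => ⟨hx, ht⟩
    have cx2 : ∀ x ∈ Icc (-a) a, ContinuousOn (f2 x) (Icc δ Λ) := fun x hx =>
      c2.comp (f := fun t : ℝ => (x, t)) (by fun_prop) fun t ht => ⟨hx, ht⟩
    have i1 : ∀ x ∈ Icc (-a) a, IntervalIntegrable (f1 x) volume δ Λ := fun x hx => by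
      apply ContinuousOn.intervalIntegrable
      rw [uIcc_of_le hΛ]
      exact cx1 x hx
    have i2 : ∀ x ∈ Icc (-a) a, IntervalIntegrable (f2 x) volume δ Λ := fun x hx => by
      apply ContinuousOn.intervalIntegrable
      rw [uIcc_of_le hΛ]
      exact cx2 x hx
    -- integrability in x of the t-integrals
    have hmeas : ∀ f : ℝ → ℝ → ℝ, ContinuousOn (fun p : ℝ × ℝ => f p.1 p.2)
        (Icc (-a) a ×ˢ Icc δ Λ) → IntervalIntegrable (fun x => ∫ t in δ..Λ, f x t) volume (-a) a := by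
      intro f hf
      rw [intervalIntegrable_iff, uIoc_of_le haa]
      have h1 := hf.integrableOn_compact (μ := volume) (isCompact_Icc.prod isCompact_Icc)
      have h2 := h1.mono_set (prod_mono (Ioc_subset_Icc_self (a := -a) (b := a))
        (Ioc_subset_Icc_self (a := δ) (b := Λ)))
      rw [IntegrableOn, Measure.volume_eq_prod, ← Measure.prod_restrict] at h2
      have h3 := h2.integral_prod_left
      simp only [intervalIntegral.integral_of_le hΛ]
      exact h3
    have j1 := hmeas f1 c1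
    have j2 := hmeas f2 c2
    -- lower bound for each x
    have hx_low : ∀ x ∈ Icc (-a) a, -ε ≤ (∫ t in δ..Λ, f1 x t)
        + ((1 + ν) / ν) * ∫ t in δ..Λ, f2 x t := by
      intro x hx
      have hc : ContinuousOn (EE ν K (F x) (Q x)) (Icc δ Λ) := by
        have : EE ν K (F x) (Q x) = fun t => f1 x t + ((1 + ν) / ν) * f2 x t := by
          funext t
          exact hEE x t
        rw [this]
        exact (cx1 x hx).add (continuousOn_const.mul (cx2 x hx))
      have h := integral_t_ge hKh hν (h3 x hx).1 (h3 x hx).2 (hQ x hx) (hJ2 x hx) hδ hΛ hc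
      have e : ∫ t in δ..Λ, EE ν K (F x) (Q x) t = (∫ t in δ..Λ, f1 x t)
          + ((1 + ν) / ν) * ∫ t in δ..Λ, f2 x t := by
        simp only [hEE]
        rw [intervalIntegral.integral_add (i1 x hx) ((i2 x hx).const_mul _),
          intervalIntegral.integral_const_mul]
      rw [e] at h
      refine le_trans ?_ h
      have b1 : 0 ≤ (1 / ν) * (Λ ^ ν * Phi K (F x) Λ) :=
        mul_nonneg (by positivity) (mul_nonneg (Real.rpow_nonneg hΛ0.le _) (hJ3b x hx Λ hΛ0))
      have b2 : (1 / ν) * (δ ^ ν * Phi K (F x) δ) ≤ ε := by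
        rw [hε]
        apply mul_le_mul_of_nonneg_left _ (by positivity)
        exact mul_le_mul_of_nonneg_left (hJ3c x hx δ hδ hδ1) (Real.rpow_nonneg hδ.le _)
      linarith only [b1, b2]
    -- integrate over x
    have hint_low : (a - -a) * (-ε) ≤ (∫ x in (-a)..a, ∫ t in δ..Λ, f1 x t)
        + ((1 + ν) / ν) * ∫ x in (-a)..a, ∫ t in δ..Λ, f2 x t := by
      rw [← intervalIntegral.integral_const_mul, ← intervalIntegral.integral_add j1
        (j2.const_mul _)]
      have : ∫ _ in (-a)..a, (-ε) = (a - -a) * (-ε) := by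
        rw [intervalIntegral.integral_const, smul_eq_mul]
      rw [← this]
      exact intervalIntegral.integral_mono_on haa intervalIntegrable_const
        (j1.add (j2.const_mul _)) hx_low
    -- first term
    have ht1 : ∫ x in (-a)..a, ∫ t in δ..Λ, f1 x t = -S m := by
      rw [ScalarInt.swap_of_continuousOn haa hΛ c1]
      have e1 : ∀ t ∈ Icc δ Λ, ∫ x in (-a)..a, f1 x t
          = -∑ i, t ^ (ν - 1) * ∫ y in (-(hKh.eigenvalues i))..(hKh.eigenvalues i),
              Real.log (1 + ((hKh.eigenvalues i) ^ 2 - y ^ 2) / t) := by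
        intro t ht
        have ht0 : 0 < t := lt_of_lt_of_le hδ ht.1
        simp only [hf1]
        rw [intervalIntegral.integral_const_mul, integral_x_eq hKh ha ht0 hF hQc h3, h1, h2,
          pot_boundary hK ht0, mul_neg, Finset.mul_sum]
      have e2 : ∫ t in δ..Λ, ∫ x in (-a)..a, f1 x t
          = ∫ t in δ..Λ, -∑ i, t ^ (ν - 1) *
            ∫ y in (-(hKh.eigenvalues i))..(hKh.eigenvalues i),
              Real.log (1 + ((hKh.eigenvalues i) ^ 2 - y ^ 2) / t) := by
        apply intervalIntegral.integral_congr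
        intro t ht
        rw [uIcc_of_le hΛ] at ht
        exact e1 t ht
      rw [e2, intervalIntegral.integral_neg, intervalIntegral.integral_finsetSum]
      intro i _
      apply ContinuousOn.intervalIntegrable
      rw [uIcc_of_le hΛ]
      have hk := hK.eigenvalues_nonneg i
      have hne : ∀ t ∈ Icc δ Λ, t ≠ 0 := fun t ht => (lt_of_lt_of_le hδ ht.1).ne'
      have c : ContinuousOn (fun t : ℝ => t ^ (ν - 1) *
          (2 * (ScalarInt.phi0 (√((hKh.eigenvalues i) ^ 2 + t) + hKh.eigenvalues i)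
            - ScalarInt.phi0 (√((hKh.eigenvalues i) ^ 2 + t) - hKh.eigenvalues i)
            - hKh.eigenvalues i * Real.log t))) (Icc δ Λ) := by
        apply ContinuousOn.mul
        · exact ContinuousOn.rpow_const continuousOn_id fun t ht => Or.inl (hne t ht)
        · apply continuousOn_const.mul
          have hphi : Continuous ScalarInt.phi0 := by
            unfold ScalarInt.phi0
            exact Real.continuous_mul_log.sub continuous_id
          apply ContinuousOn.sub
          · exact ((hphi.comp (by fun_prop)).sub (hphi.comp (by fun_prop))).continuousOn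
          · exact continuousOn_const.mul (continuousOn_id.log hne)
      refine c.congr fun t ht => ?_
      have ht0 : 0 < t := lt_of_lt_of_le hδ ht.1
      simp only
      rw [ScalarInt.integral_log_soliton hk ht0 (Real.sqrt_nonneg _)
        (Real.sq_sqrt (by (clear * - hK ht0; positivity)))]
    -- second term
    have ht2 : ∫ x in (-a)..a, ∫ t in δ..Λ, f2 x t ≤ kc * (θ ^ (ν + 1) / (ν + 1)) * T := by
      rw [hT, ← intervalIntegral.integral_const_mul]
      apply intervalIntegral.integral_mono_on haa j2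
      · apply IntervalIntegrable.const_mul
        apply ContinuousOn.intervalIntegrable
        rw [uIcc_of_le haa]
        exact continuousOn_trf_rpow hQc hQ (by positivity)
      · intro x hx
        exact integral_GG_le (hQ x hx) hν hν1 hθ.le hδ hΛ
    have hpos : 0 < (1 + ν) / ν := by positivity
    have := mul_le_mul_of_nonneg_left ht2 hpos.le
    rw [ht1] at hint_low
    linarith only [hint_low, this]
  have hlim2 : Tendsto (fun m : ℕ => ((1 + ν) / ν) * (kc * (θ ^ (ν + 1) / (ν + 1)) * T)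
      + (a - -a) * ((1 / ν) * ((1 / ((m:ℝ) + 1)) ^ ν * (C * (1 + |Real.log (1 / ((m:ℝ) + 1))|)))))
      atTop (𝓝 (((1 + ν) / ν) * (kc * (θ ^ (ν + 1) / (ν + 1)) * T) + (a - -a) * ((1 / ν) * 0))) :=
    tendsto_const_nhds.add (((tendsto_boundary hν C).const_mul _).const_mul _)
  have hfin := le_of_tendsto_of_tendsto' hSlim hlim2 key
  have e1 : trPow (2 * ν + 1) K = ∑ i, (hKh.eigenvalues i) ^ (2 * ν + 1) := by
    rw [trPow, dif_pos hKh]
  have e2 : ∫ x in (-a)..a, trPow (1 + ν) (Q x) = T := by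
    apply intervalIntegral.integral_congr
    intro x hx
    rw [uIcc_of_le haa] at hx
    exact Vale.Agent.P371.G.trPow_eq_cfc (hQ x hx).isHermitian _
  rw [e1, e2]
  rw [← Finset.mul_sum, ← Finset.mul_sum, mul_zero, mul_zero, add_zero] at hfin
  have h5 : ((1 + ν) / ν) * (kc * (θ ^ (ν + 1) / (ν + 1)) * T)
      = kc * ((1 / ν) * θ ^ (1 + ν) * T) := by
    rw [add_comm 1 ν]
    (clear * - hν hθ hkcpos; field_simp)
  rw [h5] at hfin
  exact le_of_mul_le_mul_left hfin hkcpos

end Vale.Agent.P371.GII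
end
end

section

section

/-!
The logarithm in a unital C*-algebra as an integral of resolvents, and its derivative along a
differentiable curve of strictly positive elements.
-/

namespace Vale.Agent.P371.G

open MeasureTheory Set Filter Topology
open scoped NNReal

section Scalar

theorem hasDerivAt_neg_inv_add {c u : ℝ} (h : 0 < c + u) :
    HasDerivAt (fun u : ℝ => -(c + u)⁻¹) (((c + u) ^ 2)⁻¹) u := by
  have h1 : HasDerivAt (fun u : ℝ => c + u) 1 u := (hasDerivAt_id u).const_add c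
  have h2 : HasDerivAt (fun u : ℝ => -(c + u)⁻¹) (-(-1 / (c + u) ^ 2)) u := (h1.inv h.ne').neg
  refine h2.congr_deriv ?_
  rw [neg_div, neg_neg, one_div]

theorem tendsto_neg_inv_add (c : ℝ) :
    Tendsto (fun u : ℝ => -(c + u)⁻¹) atTop (𝓝 0) := by
  have h : Tendsto (fun u : ℝ => c + u) atTop atTop := tendsto_atTop_add_const_left _ _ tendsto_id
  simpa only [Function.comp_apply, neg_zero] using (tendsto_inv_atTop_zero.comp h).neg

theorem integrableOn_inv_sq {c : ℝ} (hc : 0 < c) :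
    IntegrableOn (fun u : ℝ => ((c + u) ^ 2)⁻¹) (Ioi 0) := by
  refine integrableOn_Ioi_deriv_of_nonneg' (g := fun u : ℝ => -(c + u)⁻¹) (l := 0) ?_ ?_
    (tendsto_neg_inv_add c)
  · intro u hu
    exact hasDerivAt_neg_inv_add (by have := mem_Ici.mp hu; linarith)
  · intro u _
    positivity

theorem integral_inv_sq {c : ℝ} (hc : 0 < c) :
    ∫ u in Ioi (0:ℝ), ((c + u) ^ 2)⁻¹ = c⁻¹ := by
  have h := integral_Ioi_of_hasDerivAt_of_nonneg' (g := fun u : ℝ => -(c + u)⁻¹) (a := 0) (l := 0)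
    (g' := fun u => ((c + u) ^ 2)⁻¹)
    (fun u hu => hasDerivAt_neg_inv_add (by have := mem_Ici.mp hu; linarith))
    (fun u _ => by positivity) (tendsto_neg_inv_add c)
  rw [h]
  simp

/-- The bound used for the resolvent integrals. -/
theorem abs_inv_sub_inv_le {x u c : ℝ} (hc : 0 < c) (hc1 : c ≤ 1) (hx : c ≤ x) (hu : 0 ≤ u) :
    |(1 + u)⁻¹ - (x + u)⁻¹| ≤ |x - 1| * ((c + u) ^ 2)⁻¹ := by
  have h1 : 0 < 1 + u := by linarith
  have h2 : 0 < x + u := by linarith
  have h3 : 0 < c + u := by linarith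
  have h : (1 + u)⁻¹ - (x + u)⁻¹ = (x - 1) * ((1 + u) * (x + u))⁻¹ := by
    field_simp
    ring
  rw [h, abs_mul, abs_of_pos (a := ((1 + u) * (x + u))⁻¹) (by positivity)]
  apply mul_le_mul_of_nonneg_left _ (abs_nonneg _)
  apply inv_anti₀ (by positivity)
  rw [sq]
  apply mul_le_mul <;> linarith only [hc, hu, hc1, hx]

theorem integral_inv_sub_inv {x : ℝ} (hx : 0 < x) :
    ∫ u in Ioi (0:ℝ), ((1 + u)⁻¹ - (x + u)⁻¹) = Real.log x := by
  set c := min 1 x with hc
  have hc0 : 0 < c := lt_min one_pos hx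
  have hint : IntegrableOn (fun u : ℝ => (1 + u)⁻¹ - (x + u)⁻¹) (Ioi 0) := by
    refine Integrable.mono' ((integrableOn_inv_sq hc0).const_mul |x - 1|) ?_ ?_
    · apply Measurable.aestronglyMeasurable
      fun_prop
    · filter_upwards [ae_restrict_mem measurableSet_Ioi] with u hu
      rw [Real.norm_eq_abs]
      exact abs_inv_sub_inv_le hc0 (min_le_left _ _) (min_le_right _ _) (le_of_lt hu)
  have hderiv : ∀ u ∈ Ici (0:ℝ), HasDerivAt (fun u : ℝ => Real.log (1 + u) - Real.log (x + u))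
      ((1 + u)⁻¹ - (x + u)⁻¹) u := by
    intro u hu
    have hu' := mem_Ici.mp hu
    have h1 : HasDerivAt (fun u : ℝ => Real.log (1 + u)) (1 + u)⁻¹ u := by
      have := ((hasDerivAt_id u).const_add 1).log (by simp only [id]; linarith)
      simpa using this
    have h2 : HasDerivAt (fun u : ℝ => Real.log (x + u)) (x + u)⁻¹ u := by
      have := ((hasDerivAt_id u).const_add x).log (by simp only [id]; linarith)
      simpa using this
    exact h1.sub h2
  have hlim : Tendsto (fun u : ℝ => Real.log (1 + u) - Real.log (x + u)) atTop (𝓝 0) := by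
    have h1 : Tendsto (fun u : ℝ => (1 + u) / (x + u)) atTop (𝓝 1) := by
      have h2 : Tendsto (fun u : ℝ => 1 + (1 - x) * (x + u)⁻¹) atTop (𝓝 (1 + (1 - x) * 0)) := by
        have h : Tendsto (fun u : ℝ => x + u) atTop atTop :=
          tendsto_atTop_add_const_left _ _ tendsto_id
        exact ((tendsto_inv_atTop_zero.comp h).const_mul _).const_add 1
      simp only [mul_zero, add_zero] at h2
      refine h2.congr' ?_
      filter_upwards [eventually_gt_atTop (0:ℝ)] with u hu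
      have : x + u ≠ 0 := by positivity
      field_simp
      ring
    have h3 := (Real.continuousAt_log (x := 1) one_ne_zero).tendsto.comp h1
    rw [Real.log_one] at h3
    refine h3.congr' ?_
    filter_upwards [eventually_gt_atTop (0:ℝ)] with u hu
    simp only [Function.comp]
    rw [Real.log_div (by positivity) (by positivity)]
  have h := integral_Ioi_of_hasDerivAt_of_tendsto' hderiv hint hlim
  rw [h]
  simp

end Scalar

section CStar

variable {𝔸 : Type*} [CStarAlgebra 𝔸]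

/-- The resolvent `(a + u)⁻¹`. -/
noncomputable def res (a : 𝔸) (u : ℝ) : 𝔸 := cfc (fun x : ℝ => (x + u)⁻¹) a

theorem res_isSelfAdjoint (a : 𝔸) (u : ℝ) : IsSelfAdjoint (res a u) := cfc_predicate _ a

theorem continuousOn_inv_add {s : Set ℝ} {c u : ℝ} (hc : 0 < c) (hs : ∀ x ∈ s, c ≤ x)
    (hu : 0 ≤ u) : ContinuousOn (fun x : ℝ => (x + u)⁻¹) s := by
  apply ContinuousOn.inv₀ (by fun_prop)
  intro x hx
  have := hs x hx
  have h : 0 < x + u := by linarith
  exact h.ne'

theorem res_mul {a : 𝔸} {c u : ℝ} (ha : IsSelfAdjoint a) (hc : 0 < c)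
    (hs : ∀ x ∈ spectrum ℝ a, c ≤ x) (hu : 0 ≤ u) :
    res a u * (a + algebraMap ℝ 𝔸 u) = 1 := by
  have h1 : a + algebraMap ℝ 𝔸 u = cfc (fun x : ℝ => x + u) a := by
    rw [cfc_add (a := a) (fun x => x) (fun _ => u), cfc_id' ℝ a, cfc_const u a]
  rw [h1, res, ← cfc_mul (fun x : ℝ => (x + u)⁻¹) (fun x => x + u) a
    (continuousOn_inv_add hc hs hu) (by fun_prop)]
  rw [cfc_congr (g := fun _ => (1:ℝ)), cfc_const_one ℝ a]
  intro x hx
  have := hs x hx
  have h : x + u ≠ 0 := by
    have h : 0 < x + u := by linarith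
    exact h.ne'
  simp [h]

theorem mul_res {a : 𝔸} {c u : ℝ} (ha : IsSelfAdjoint a) (hc : 0 < c)
    (hs : ∀ x ∈ spectrum ℝ a, c ≤ x) (hu : 0 ≤ u) :
    (a + algebraMap ℝ 𝔸 u) * res a u = 1 := by
  have h := congrArg star (res_mul ha hc hs hu)
  have h2 : star (res a u) = res a u := res_isSelfAdjoint a u
  have h3 : star (a + algebraMap ℝ 𝔸 u) = a + algebraMap ℝ 𝔸 u := by
    rw [star_add, ha.star_eq, (IsSelfAdjoint.algebraMap 𝔸 (IsSelfAdjoint.all u)).star_eq]
  rwa [star_mul, h2, h3, star_one] at h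

theorem res_sub_res {a b : 𝔸} {c u : ℝ} (ha : IsSelfAdjoint a) (hb : IsSelfAdjoint b)
    (hc : 0 < c) (hsa : ∀ x ∈ spectrum ℝ a, c ≤ x) (hsb : ∀ x ∈ spectrum ℝ b, c ≤ x)
    (hu : 0 ≤ u) : res a u - res b u = res a u * (b - a) * res b u := by
  have h1 := res_mul ha hc hsa hu
  have h2 := mul_res hb hc hsb hu
  calc res a u - res b u
      = res a u * ((b + algebraMap ℝ 𝔸 u) * res b u)
        - (res a u * (a + algebraMap ℝ 𝔸 u)) * res b u := by rw [h1, h2, mul_one, one_mul]
    _ = _ := by noncomm_ring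

theorem norm_res_le {a : 𝔸} {c u : ℝ} (hc : 0 < c)
    (hs : ∀ x ∈ spectrum ℝ a, c ≤ x) (hu : 0 ≤ u) : ‖res a u‖ ≤ (c + u)⁻¹ := by
  apply norm_cfc_le (by positivity)
  intro x hx
  have := hs x hx
  have h : 0 < x + u := by linarith
  rw [Real.norm_eq_abs, abs_of_nonneg (by positivity)]
  apply inv_anti₀ (by positivity)
  linarith

theorem continuousOn_uncurry_aux {a : 𝔸} {c : ℝ} (hc : 0 < c)
    (hs : ∀ x ∈ spectrum ℝ a, c ≤ x) :
    ContinuousOn (Function.uncurry fun (u : ℝ) (x : ℝ) => (1 + u)⁻¹ - (x + u)⁻¹)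
      (Ioi (0:ℝ) ×ˢ spectrum ℝ a) := by
  apply ContinuousOn.sub
  · apply ContinuousOn.inv₀ (by fun_prop)
    rintro ⟨u, x⟩ ⟨hu, _⟩
    have : (0:ℝ) < u := hu
    simp only
    positivity
  · apply ContinuousOn.inv₀ (by fun_prop)
    rintro ⟨u, x⟩ ⟨hu, hx⟩
    have h1 : (0:ℝ) < u := hu
    have h2 : c ≤ x := hs x hx
    have h : 0 < x + u := by linarith
    exact h.ne'

theorem bound_aux {a : 𝔸} {c : ℝ} (hc : 0 < c) (hc1 : c ≤ 1)
    (hs : ∀ x ∈ spectrum ℝ a, c ≤ x) :
    ∀ᵐ u ∂(volume.restrict (Ioi (0:ℝ))), ∀ x ∈ spectrum ℝ a,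
      ‖(1 + u)⁻¹ - (x + u)⁻¹‖ ≤ (‖a‖ * ‖(1:𝔸)‖ + 1) * ((c + u) ^ 2)⁻¹ := by
  filter_upwards [ae_restrict_mem measurableSet_Ioi] with u hu x hx
  rw [Real.norm_eq_abs]
  refine (abs_inv_sub_inv_le hc hc1 (hs x hx) (le_of_lt hu)).trans ?_
  apply mul_le_mul_of_nonneg_right _ (by (clear * -; positivity))
  have h1 : ‖x‖ ≤ ‖a‖ * ‖(1:𝔸)‖ := spectrum.norm_le_norm_mul_of_mem hx
  rw [Real.norm_eq_abs] at h1
  calc |x - 1| ≤ |x| + |1| := abs_sub _ _
    _ ≤ _ := by simpa only [abs_one, add_le_add_iff_right] using h1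

theorem integrableOn_one_sub_res {a : 𝔸} {c : ℝ} (ha : IsSelfAdjoint a) (hc : 0 < c)
    (hc1 : c ≤ 1) (hs : ∀ x ∈ spectrum ℝ a, c ≤ x) :
    IntegrableOn (fun u : ℝ => cfc (fun x : ℝ => (1 + u)⁻¹ - (x + u)⁻¹) a) (Ioi 0) :=
  integrableOn_cfc measurableSet_Ioi _ _ a (continuousOn_uncurry_aux hc hs)
    (bound_aux hc hc1 hs) ((integrableOn_inv_sq hc).const_mul _).2 ha

theorem log_eq_integral {a : 𝔸} {c : ℝ} (ha : IsSelfAdjoint a) (hc : 0 < c)
    (hc1 : c ≤ 1) (hs : ∀ x ∈ spectrum ℝ a, c ≤ x) :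
    CFC.log a = ∫ u in Ioi (0:ℝ), cfc (fun x : ℝ => (1 + u)⁻¹ - (x + u)⁻¹) a := by
  rw [← cfc_setIntegral measurableSet_Ioi _ _ a (continuousOn_uncurry_aux hc hs)
    (bound_aux hc hc1 hs) ((integrableOn_inv_sq hc).const_mul _).2 ha]
  apply cfc_congr
  intro x hx
  exact (integral_inv_sub_inv (lt_of_lt_of_le hc (hs x hx))).symm

theorem cfc_one_sub_res {a : 𝔸} {c u : ℝ} (ha : IsSelfAdjoint a) (hc : 0 < c)
    (hs : ∀ x ∈ spectrum ℝ a, c ≤ x) (hu : 0 ≤ u) :
    cfc (fun x : ℝ => (1 + u)⁻¹ - (x + u)⁻¹) a = algebraMap ℝ 𝔸 (1 + u)⁻¹ - res a u := by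
  rw [cfc_sub (fun _ => (1 + u)⁻¹) (fun x => (x + u)⁻¹) a (by fun_prop)
    (continuousOn_inv_add hc hs hu), cfc_const _ a, res]

theorem log_sub_log {a b : 𝔸} {c : ℝ} (ha : IsSelfAdjoint a) (hb : IsSelfAdjoint b)
    (hc : 0 < c) (hc1 : c ≤ 1) (hsa : ∀ x ∈ spectrum ℝ a, c ≤ x)
    (hsb : ∀ x ∈ spectrum ℝ b, c ≤ x) :
    CFC.log a - CFC.log b = ∫ u in Ioi (0:ℝ), res a u * (a - b) * res b u := by
  rw [log_eq_integral ha hc hc1 hsa, log_eq_integral hb hc hc1 hsb,
    ← integral_sub (integrableOn_one_sub_res ha hc hc1 hsa)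
      (integrableOn_one_sub_res hb hc hc1 hsb)]
  apply setIntegral_congr_fun measurableSet_Ioi
  intro u hu
  have hu' : (0:ℝ) ≤ u := le_of_lt hu
  simp only
  rw [cfc_one_sub_res ha hc hsa hu', cfc_one_sub_res hb hc hsb hu', sub_sub_sub_cancel_left,
    ← neg_sub, res_sub_res ha hb hc hsa hsb hu', ← neg_sub b a]
  noncomm_ring

theorem continuousOn_res {a : 𝔸} {c : ℝ} (ha : IsSelfAdjoint a) (hc : 0 < c)
    (hs : ∀ x ∈ spectrum ℝ a, c ≤ x) : ContinuousOn (fun u : ℝ => res a u) (Ici 0) := by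
  intro u hu
  have hu' : (0:ℝ) ≤ u := hu
  rw [ContinuousWithinAt, tendsto_iff_norm_sub_tendsto_zero]
  have key : ∀ v ∈ Ici (0:ℝ), ‖res a v - res a u‖ ≤ c⁻¹ * (|u - v| * ‖(1:𝔸)‖) * c⁻¹ := by
    intro v hv
    have hv' : (0:ℝ) ≤ v := hv
    have h1 : res a v - res a u = res a v * (algebraMap ℝ 𝔸 (u - v)) * res a u := by
      have h1 := res_mul ha hc hs hv'
      have h2 := mul_res ha hc hs hu'
      calc res a v - res a u
          = res a v * ((a + algebraMap ℝ 𝔸 u) * res a u)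
            - (res a v * (a + algebraMap ℝ 𝔸 v)) * res a u := by rw [h1, h2, mul_one, one_mul]
        _ = _ := by rw [map_sub]; noncomm_ring
    rw [h1]
    have h3 : ‖algebraMap ℝ 𝔸 (u - v)‖ = |u - v| * ‖(1:𝔸)‖ := by
      rw [norm_algebraMap, Real.norm_eq_abs]
    have h4 : ‖res a v‖ ≤ c⁻¹ := (norm_res_le hc hs hv').trans
      (inv_anti₀ hc (by linarith))
    have h5 : ‖res a u‖ ≤ c⁻¹ := (norm_res_le hc hs hu').trans
      (inv_anti₀ hc (by linarith only [hu']))
    calc ‖res a v * (algebraMap ℝ 𝔸 (u - v)) * res a u‖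
        ≤ ‖res a v‖ * ‖algebraMap ℝ 𝔸 (u - v)‖ * ‖res a u‖ :=
          (norm_mul_le _ _).trans (mul_le_mul_of_nonneg_right (norm_mul_le _ _) (norm_nonneg _))
      _ ≤ _ := by
          rw [h3]
          (clear * - h4 h5 hc; gcongr)
  have hlim : Tendsto (fun v : ℝ => c⁻¹ * (|u - v| * ‖(1:𝔸)‖) * c⁻¹) (𝓝[Ici 0] u) (𝓝 0) := by
    have h : Continuous (fun v : ℝ => c⁻¹ * (|u - v| * ‖(1:𝔸)‖) * c⁻¹) := by fun_prop
    have h2 := (h.tendsto u).mono_left (nhdsWithin_le_nhds (s := Ici 0))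
    simpa only [sub_self, abs_zero, zero_mul, mul_zero] using h2
  refine squeeze_zero' (Eventually.of_forall fun _ => norm_nonneg _) ?_ hlim
  filter_upwards [self_mem_nhdsWithin] with v hv
  exact key v hv

theorem norm_res_mul_res_le {a b x : 𝔸} {c u : ℝ} (hc : 0 < c)
    (hsa : ∀ x ∈ spectrum ℝ a, c ≤ x) (hsb : ∀ x ∈ spectrum ℝ b, c ≤ x) (hu : 0 ≤ u) :
    ‖res a u * x * res b u‖ ≤ ‖x‖ * ((c + u) ^ 2)⁻¹ := by
  have h1 := norm_res_le hc hsa hu
  have h2 := norm_res_le hc hsb hu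
  calc ‖res a u * x * res b u‖ ≤ ‖res a u‖ * ‖x‖ * ‖res b u‖ :=
        (norm_mul_le _ _).trans (mul_le_mul_of_nonneg_right (norm_mul_le _ _) (norm_nonneg _))
    _ ≤ (c + u)⁻¹ * ‖x‖ * (c + u)⁻¹ := by
        gcongr
    _ = _ := by
        rw [sq, mul_inv]
        ring

theorem integrableOn_res_mul_res {a b x : 𝔸} {c : ℝ} (ha : IsSelfAdjoint a)
    (hb : IsSelfAdjoint b) (hc : 0 < c) (hsa : ∀ x ∈ spectrum ℝ a, c ≤ x)
    (hsb : ∀ x ∈ spectrum ℝ b, c ≤ x) :
    IntegrableOn (fun u : ℝ => res a u * x * res b u) (Ioi 0) := by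
  refine Integrable.mono' ((integrableOn_inv_sq hc).const_mul ‖x‖) ?_ ?_
  · apply ContinuousOn.aestronglyMeasurable _ measurableSet_Ioi
    have h1 := (continuousOn_res ha hc hsa).mono Ioi_subset_Ici_self
    have h2 := (continuousOn_res hb hc hsb).mono Ioi_subset_Ici_self
    exact (h1.mul continuousOn_const).mul h2
  · filter_upwards [ae_restrict_mem measurableSet_Ioi] with u hu
    exact norm_res_mul_res_le hc hsa hsb (le_of_lt hu)

/-- The derivative of the logarithm along a curve. -/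
theorem hasDerivAt_log {a : ℝ → 𝔸} {a' : 𝔸} {t₀ c : ℝ} (h : HasDerivAt a a' t₀) (hc : 0 < c)
    (hc1 : c ≤ 1) (hsa : ∀ᶠ t in 𝓝 t₀, IsSelfAdjoint (a t))
    (hs : ∀ᶠ t in 𝓝 t₀, ∀ x ∈ spectrum ℝ (a t), c ≤ x) :
    HasDerivAt (fun t => CFC.log (a t))
      (∫ u in Ioi (0:ℝ), res (a t₀) u * a' * res (a t₀) u) t₀ := by
  rw [hasDerivAt_iff_tendsto_slope]
  have hsl := hasDerivAt_iff_tendsto_slope.mp h
  have hsa0 : IsSelfAdjoint (a t₀) := hsa.self_of_nhds
  have hs0 : ∀ x ∈ spectrum ℝ (a t₀), c ≤ x := hs.self_of_nhds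
  have hcont : Tendsto a (𝓝[≠] t₀) (𝓝 (a t₀)) := h.continuousAt.tendsto.mono_left nhdsWithin_le_nhds
  have hsa' := hsa.filter_mono (nhdsWithin_le_nhds (s := {t₀}ᶜ))
  have hs' := hs.filter_mono (nhdsWithin_le_nhds (s := {t₀}ᶜ))
  have hbd : ∀ᶠ t in 𝓝[≠] t₀, ‖slope a t₀ t‖ ≤ ‖a'‖ + 1 := by
    have h1 := hsl.norm.eventually (gt_mem_nhds (show ‖a'‖ < ‖a'‖ + 1 by linarith))
    filter_upwards [h1] with t ht using ht.le
  have hmain : Tendsto (fun t => ∫ u in Ioi (0:ℝ), res (a t) u * slope a t₀ t * res (a t₀) u)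
      (𝓝[≠] t₀) (𝓝 (∫ u in Ioi (0:ℝ), res (a t₀) u * a' * res (a t₀) u)) := by
    apply tendsto_integral_filter_of_dominated_convergence
      (fun u => (‖a'‖ + 1) * ((c + u) ^ 2)⁻¹)
    · filter_upwards [hsa', hs'] with t ht1 ht2
      exact (integrableOn_res_mul_res ht1 hsa0 hc ht2 hs0).aestronglyMeasurable
    · filter_upwards [hs', hbd] with t ht2 ht3
      filter_upwards [ae_restrict_mem measurableSet_Ioi] with u hu
      refine (norm_res_mul_res_le hc ht2 hs0 (le_of_lt hu)).trans ?_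
      (clear * - ht3; gcongr)
    · exact (integrableOn_inv_sq hc).const_mul _
    · filter_upwards [ae_restrict_mem measurableSet_Ioi] with u hu
      have hu' : (0:ℝ) ≤ u := le_of_lt hu
      have h1 : Tendsto (fun t => res (a t) u) (𝓝[≠] t₀) (𝓝 (res (a t₀) u)) := by
        rw [tendsto_iff_norm_sub_tendsto_zero]
        have h2 : Tendsto (fun t => ‖a t₀ - a t‖ * ((c + u) ^ 2)⁻¹) (𝓝[≠] t₀) (𝓝 0) := by
          have h3 : Tendsto (fun t => ‖a t₀ - a t‖) (𝓝[≠] t₀) (𝓝 0) := by
            have := (tendsto_const_nhds (x := a t₀)).sub hcont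
            rw [sub_self] at this
            simpa only [norm_zero] using this.norm
          simpa only [zero_mul] using h3.mul_const (((c + u) ^ 2)⁻¹)
        refine squeeze_zero' (Eventually.of_forall fun _ => norm_nonneg _) ?_ h2
        filter_upwards [hsa', hs'] with t ht1 ht2
        rw [res_sub_res ht1 hsa0 hc ht2 hs0 hu']
        exact norm_res_mul_res_le hc ht2 hs0 hu'
      exact (h1.mul hsl).mul_const _
  refine hmain.congr' ?_
  filter_upwards [hsa', hs', self_mem_nhdsWithin] with t ht1 ht2 ht3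
  have ht : t - t₀ ≠ 0 := sub_ne_zero.mpr ht3
  simp only [slope, vsub_eq_sub]
  rw [log_sub_log ht1 hsa0 hc hc1 ht2 hs0, ← integral_smul]
  apply setIntegral_congr_fun measurableSet_Ioi
  intro u _
  simp only [smul_mul_assoc, mul_smul_comm]

end CStar

end Vale.Agent.P371.G
end
end

section

section

/-!
`Hm K t = √(K² + t)` in a unital C*-algebra: algebraic relations, derivative in `t`,
and lower bounds for `Hm K t ± F` when `-K ≤ F ≤ K`.
-/

namespace Vale.Agent.P371.G

open MeasureTheory Set Filter Topology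
open scoped NNReal

variable {𝔸 : Type*} [CStarAlgebra 𝔸]

/-- `√(K² + t)` -/
noncomputable def Hm (K : 𝔸) (t : ℝ) : 𝔸 := cfc (fun x : ℝ => √(x ^ 2 + t)) K

/-- `(K² + t)^(-1/2)` -/
noncomputable def Hi (K : 𝔸) (t : ℝ) : 𝔸 := cfc (fun x : ℝ => (√(x ^ 2 + t))⁻¹) K

theorem Hm_isSelfAdjoint (K : 𝔸) (t : ℝ) : IsSelfAdjoint (Hm K t) := cfc_predicate _ K

theorem Hi_isSelfAdjoint (K : 𝔸) (t : ℝ) : IsSelfAdjoint (Hi K t) := cfc_predicate _ K

theorem sqrt_pos_aux {t x : ℝ} (ht : 0 < t) : 0 < √(x ^ 2 + t) := Real.sqrt_pos.mpr (by positivity)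

theorem cont_Hi_aux {t : ℝ} (ht : 0 < t) (s : Set ℝ) :
    ContinuousOn (fun x : ℝ => (√(x ^ 2 + t))⁻¹) s := by
  apply ContinuousOn.inv₀ (by fun_prop)
  intro x _
  exact (sqrt_pos_aux ht).ne'

theorem Hm_mul_Hm {K : 𝔸} (hK : IsSelfAdjoint K) {t : ℝ} (ht : 0 ≤ t) :
    Hm K t * Hm K t = K * K + algebraMap ℝ 𝔸 t := by
  rw [Hm, ← cfc_mul (fun x : ℝ => √(x ^ 2 + t)) (fun x : ℝ => √(x ^ 2 + t)) K
    (by fun_prop) (by fun_prop)]
  have h1 : K * K + algebraMap ℝ 𝔸 t = cfc (fun x : ℝ => x * x + t) K := by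
    rw [cfc_add (a := K) (fun x => x * x) (fun _ => t), cfc_mul (a := K) (fun x => x) (fun x => x),
      cfc_id' ℝ K, cfc_const t K]
  rw [h1]
  apply cfc_congr
  intro x _
  simp only
  rw [Real.mul_self_sqrt (by (clear * - ht; positivity))]
  ring

theorem Hm_mul_Hi {K : 𝔸} (hK : IsSelfAdjoint K) {t : ℝ} (ht : 0 < t) :
    Hm K t * Hi K t = 1 := by
  rw [Hm, Hi, ← cfc_mul (fun x : ℝ => √(x ^ 2 + t)) (fun x : ℝ => (√(x ^ 2 + t))⁻¹) K
    (by fun_prop) (cont_Hi_aux ht _)]
  rw [cfc_congr (g := fun _ => (1:ℝ)), cfc_const_one ℝ K]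
  intro x _
  simp only
  rw [mul_inv_cancel₀ (sqrt_pos_aux ht).ne']

theorem Hi_mul_Hm {K : 𝔸} (hK : IsSelfAdjoint K) {t : ℝ} (ht : 0 < t) :
    Hi K t * Hm K t = 1 := by
  have h := congrArg star (Hm_mul_Hi hK ht)
  rwa [star_mul, (Hm_isSelfAdjoint K t).star_eq, (Hi_isSelfAdjoint K t).star_eq, star_one] at h

theorem scalar_taylor {x t₀ t : ℝ} (ht₀ : 0 < t₀) (ht : t₀ / 2 ≤ t) :
    |√(x ^ 2 + t) - √(x ^ 2 + t₀) - (t - t₀) * (1 / 2 * (√(x ^ 2 + t₀))⁻¹)|
      ≤ (t - t₀) ^ 2 * (2 * √t₀ ^ 3)⁻¹ := by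
  set p := √(x ^ 2 + t) with hp
  set q := √(x ^ 2 + t₀) with hq
  have hr0 : 0 < √t₀ := Real.sqrt_pos.mpr ht₀
  have hq0 : √t₀ ≤ q := Real.sqrt_le_sqrt (by nlinarith only [])
  have hqpos : 0 < q := lt_of_lt_of_le hr0 hq0
  have hp0 : 0 ≤ p := Real.sqrt_nonneg _
  have hp2 : p ^ 2 = x ^ 2 + t := Real.sq_sqrt (by nlinarith only [ht₀, ht])
  have hq2 : q ^ 2 = x ^ 2 + t₀ := Real.sq_sqrt (by nlinarith only [ht₀])
  have ht' : t - t₀ = (p - q) * (p + q) := by linarith
  have h1 : p - q - (t - t₀) * (1 / 2 * q⁻¹) = -((p - q) ^ 2 * (2 * q)⁻¹) := by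
    rw [ht']
    field_simp
    ring
  rw [h1, abs_neg, abs_of_nonneg (by (clear * - ht₀; positivity)), ht']
  have h2 : (p - q) ^ 2 * (2 * q)⁻¹ = ((p - q) * (p + q)) ^ 2 * (2 * q * (p + q) ^ 2)⁻¹ := by
    have : p + q ≠ 0 := by (clear * - ht₀; positivity)
    (clear * - this hqpos; field_simp)
  rw [h2]
  apply mul_le_mul_of_nonneg_left _ (sq_nonneg _)
  apply inv_anti₀ (by positivity)
  have h3 : √t₀ ^ 3 ≤ q ^ 3 := pow_le_pow_left₀ hr0.le hq0 3
  nlinarith only [h3, hqpos, hp0, mul_nonneg hqpos.le (mul_nonneg hp0 hqpos.le)]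

theorem hasDerivAt_Hm {K : 𝔸} (hK : IsSelfAdjoint K) {t₀ : ℝ} (ht₀ : 0 < t₀) :
    HasDerivAt (fun t => Hm K t) ((1 / 2 : ℝ) • Hi K t₀) t₀ := by
  rw [hasDerivAt_iff_isLittleO]
  have hr0 : 0 < √t₀ := Real.sqrt_pos.mpr ht₀
  have key : ∀ᶠ t in 𝓝 t₀, ‖Hm K t - Hm K t₀ - (t - t₀) • ((1 / 2 : ℝ) • Hi K t₀)‖
      ≤ (2 * √t₀ ^ 3)⁻¹ * ‖(t - t₀) ^ 2‖ := by
    filter_upwards [lt_mem_nhds (show t₀ / 2 < t₀ by linarith)] with t ht
    have h1 : Hm K t - Hm K t₀ - (t - t₀) • ((1 / 2 : ℝ) • Hi K t₀)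
        = cfc (fun x : ℝ => √(x ^ 2 + t) - √(x ^ 2 + t₀)
          - (t - t₀) * (1 / 2 * (√(x ^ 2 + t₀))⁻¹)) K := by
      rw [cfc_sub (fun x : ℝ => √(x ^ 2 + t) - √(x ^ 2 + t₀))
        (fun x : ℝ => (t - t₀) * (1 / 2 * (√(x ^ 2 + t₀))⁻¹)) K (by fun_prop)
        (continuousOn_const.mul (continuousOn_const.mul (cont_Hi_aux ht₀ _))),
        cfc_sub (fun x : ℝ => √(x ^ 2 + t)) (fun x : ℝ => √(x ^ 2 + t₀)) K (by fun_prop)
        (by fun_prop), cfc_const_mul (t - t₀) (fun x : ℝ => 1 / 2 * (√(x ^ 2 + t₀))⁻¹) K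
        (continuousOn_const.mul (cont_Hi_aux ht₀ _)),
        cfc_const_mul (1 / 2) (fun x : ℝ => (√(x ^ 2 + t₀))⁻¹) K (cont_Hi_aux ht₀ _)]
      rfl
    rw [h1]
    apply norm_cfc_le (by positivity)
    intro x _
    rw [Real.norm_eq_abs, Real.norm_eq_abs, abs_of_nonneg (sq_nonneg (t - t₀))]
    exact (scalar_taylor ht₀ ht.le).trans_eq (mul_comm _ _)
  have hO : (fun t => Hm K t - Hm K t₀ - (t - t₀) • ((1 / 2 : ℝ) • Hi K t₀))
      =O[𝓝 t₀] fun t => (t - t₀) ^ 2 := Asymptotics.IsBigO.of_bound _ key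
  refine hO.trans_isLittleO ?_
  have h2 : (fun t : ℝ => (t - t₀) ^ 2) = fun t => (t - t₀) * (t - t₀) := by
    ext t; ring
  rw [h2]
  have h3 : (fun t : ℝ => t - t₀) =o[𝓝 t₀] fun _ => (1:ℝ) := by
    rw [Asymptotics.isLittleO_one_iff]
    have : Tendsto (fun t : ℝ => t - t₀) (𝓝 t₀) (𝓝 (t₀ - t₀)) :=
      (continuous_id.sub continuous_const).tendsto t₀
    simpa using this
  simpa only [one_mul] using h3.mul_isBigO (Asymptotics.isBigO_refl (fun t : ℝ => t - t₀) (𝓝 t₀))

section Order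

variable [PartialOrder 𝔸] [StarOrderedRing 𝔸]

/-- lower bound used for `Hm K t ± F` -/
noncomputable def cb (k t : ℝ) : ℝ := √(k ^ 2 + t) - k

theorem cb_pos {k t : ℝ} (ht : 0 < t) : 0 < cb k t := by
  have h : k < √(k ^ 2 + t) := by
    rcases le_or_gt k 0 with hk | hk
    · exact lt_of_le_of_lt hk (Real.sqrt_pos.mpr (by positivity))
    · exact Real.lt_sqrt_of_sq_lt (by linarith)
  unfold cb
  linarith

theorem cb_mono {k t t' : ℝ} (h : t ≤ t') : cb k t ≤ cb k t' := by
  unfold cb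
  have : √(k ^ 2 + t) ≤ √(k ^ 2 + t') := Real.sqrt_le_sqrt (by linarith)
  linarith

theorem cb_anti {k x t : ℝ} (hx : 0 ≤ x) (hxk : x ≤ k) (ht : 0 ≤ t) :
    cb k t ≤ cb x t := by
  unfold cb
  rcases ht.eq_or_lt with h | ht
  · subst h
    rw [add_zero, add_zero, Real.sqrt_sq hx, Real.sqrt_sq (hx.trans hxk)]
    simp
  have h1 : √(k ^ 2 + t) ^ 2 = k ^ 2 + t := Real.sq_sqrt (by positivity)
  have h2 : √(x ^ 2 + t) ^ 2 = x ^ 2 + t := Real.sq_sqrt (by positivity)
  have h3 : √(x ^ 2 + t) ≤ √(k ^ 2 + t) := Real.sqrt_le_sqrt (by nlinarith only [hx, hxk])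
  have h4 : x ≤ √(x ^ 2 + t) := Real.le_sqrt_of_sq_le (by linarith)
  have h5 : k ≤ √(k ^ 2 + t) := Real.le_sqrt_of_sq_le (by linarith)
  have h6 : 0 < √(x ^ 2 + t) := Real.sqrt_pos.mpr (by positivity)
  -- (√k² +t - √x²+t)(√k²+t + √x²+t) = k² - x² = (k-x)(k+x)
  by_contra hcon
  push Not at hcon
  have h7 : k - x < √(k ^ 2 + t) - √(x ^ 2 + t) := by linarith only [hcon]
  have h8 : k + x ≤ √(k ^ 2 + t) + √(x ^ 2 + t) := by linarith only [h4, hcon]
  have h9 : (√(k ^ 2 + t) - √(x ^ 2 + t)) * (√(k ^ 2 + t) + √(x ^ 2 + t)) = (k - x) * (k + x) := by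
    linarith
  nlinarith only [h1, h2, hcon, hxk, h5, h3, h6]

theorem cb_le_Hm_sub {K : 𝔸} (hK : 0 ≤ K) {k t : ℝ} (hk : ‖K‖ ≤ k) (ht : 0 ≤ t) :
    algebraMap ℝ 𝔸 (cb k t) ≤ Hm K t - K := by
  have hKs : IsSelfAdjoint K := IsSelfAdjoint.of_nonneg hK
  have h1 : Hm K t - K = cfc (fun x : ℝ => √(x ^ 2 + t) - x) K := by
    rw [cfc_sub (fun x : ℝ => √(x ^ 2 + t)) (fun x : ℝ => x) K (by fun_prop) (by fun_prop),
      cfc_id' ℝ K]
    rfl
  rw [h1, algebraMap_le_cfc_iff (fun x : ℝ => √(x ^ 2 + t) - x) (cb k t) K (by fun_prop) hKs]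
  intro x hx
  have hx0 : 0 ≤ x := spectrum_nonneg_of_nonneg hK hx
  have hxk : x ≤ k := by
    have hnt : Nontrivial 𝔸 := by
      by_contra h
      rw [not_nontrivial_iff_subsingleton] at h
      have : spectrum ℝ K = ∅ := spectrum.of_subsingleton K
      rw [this] at hx
      exact hx
    have := spectrum.norm_le_norm_of_mem hx
    exact (Real.le_norm_self x).trans (this.trans hk)
  exact cb_anti hx0 hxk ht

theorem cb_le_add {K F : 𝔸} (hK : 0 ≤ K) (h1 : 0 ≤ K + F) {k t : ℝ} (hk : ‖K‖ ≤ k)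
    (ht : 0 ≤ t) : algebraMap ℝ 𝔸 (cb k t) ≤ Hm K t + F := by
  have h := add_le_add (cb_le_Hm_sub hK hk ht) h1
  have h2 : Hm K t - K + (K + F) = Hm K t + F := by abel
  rwa [h2, add_zero] at h

theorem cb_le_sub {K F : 𝔸} (hK : 0 ≤ K) (h1 : 0 ≤ K - F) {k t : ℝ} (hk : ‖K‖ ≤ k)
    (ht : 0 ≤ t) : algebraMap ℝ 𝔸 (cb k t) ≤ Hm K t - F := by
  have h := add_le_add (cb_le_Hm_sub hK hk ht) h1
  simpa only [ge_iff_le, add_zero, sub_add_sub_cancel] using h

theorem spectrum_add {K F : 𝔸} (hK : 0 ≤ K) (hF : IsSelfAdjoint F) (h1 : 0 ≤ K + F) {k t : ℝ}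
    (hk : ‖K‖ ≤ k) (ht : 0 ≤ t) : ∀ x ∈ spectrum ℝ (Hm K t + F), cb k t ≤ x :=
  (algebraMap_le_iff_le_spectrum (ha := (Hm_isSelfAdjoint K t).add hF)).mp (cb_le_add hK h1 hk ht)

theorem spectrum_sub {K F : 𝔸} (hK : 0 ≤ K) (hF : IsSelfAdjoint F) (h1 : 0 ≤ K - F) {k t : ℝ}
    (hk : ‖K‖ ≤ k) (ht : 0 ≤ t) : ∀ x ∈ spectrum ℝ (Hm K t - F), cb k t ≤ x :=
  (algebraMap_le_iff_le_spectrum (ha := (Hm_isSelfAdjoint K t).sub hF)).mp (cb_le_sub hK h1 hk ht)

/-- derivative of `log (√(K²+t) + F)` in `t` -/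
theorem hasDerivAt_log_add {K F : 𝔸} (hK : 0 ≤ K) (hF : IsSelfAdjoint F) (h1 : 0 ≤ K + F)
    {t₀ : ℝ} (ht₀ : 0 < t₀) :
    HasDerivAt (fun t => CFC.log (Hm K t + F))
      (∫ u in Ioi (0:ℝ), res (Hm K t₀ + F) u * ((1 / 2 : ℝ) • Hi K t₀) * res (Hm K t₀ + F) u)
      t₀ := by
  have hKs : IsSelfAdjoint K := IsSelfAdjoint.of_nonneg hK
  refine hasDerivAt_log ((hasDerivAt_Hm hKs ht₀).add_const F)
    (c := min 1 (cb ‖K‖ (t₀ / 2))) (lt_min one_pos (cb_pos (by positivity))) (min_le_left _ _) ?_ ?_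
  · exact Eventually.of_forall fun t => (Hm_isSelfAdjoint K t).add hF
  · filter_upwards [lt_mem_nhds (show t₀ / 2 < t₀ by linarith)] with t ht x hx
    exact (min_le_right _ _).trans ((cb_mono ht.le).trans
      (spectrum_add hK hF h1 le_rfl (by linarith only [ht₀, ht]) x hx))

theorem hasDerivAt_log_sub {K F : 𝔸} (hK : 0 ≤ K) (hF : IsSelfAdjoint F) (h1 : 0 ≤ K - F)
    {t₀ : ℝ} (ht₀ : 0 < t₀) :
    HasDerivAt (fun t => CFC.log (Hm K t - F))
      (∫ u in Ioi (0:ℝ), res (Hm K t₀ - F) u * ((1 / 2 : ℝ) • Hi K t₀) * res (Hm K t₀ - F) u)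
      t₀ := by
  have h := hasDerivAt_log_add (F := -F) hK hF.neg (by simpa only [le_add_neg_iff_add_le, zero_add, sub_eq_add_neg] using h1) ht₀
  simpa only [sub_eq_add_neg, one_div, Algebra.mul_smul_comm, Algebra.smul_mul_assoc] using h

end Order

end Vale.Agent.P371.G
end
end

section

section

/-!
The definitions of `LT.lean` (functions with values in `Fin m → ℂ`) agree with those of
`Defs.lean` (functions with values in `EuclideanSpace ℂ (Fin m)`).
-/

namespace Vale.Agent.P371.LT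

open MeasureTheory Matrix
open scoped ENNReal ComplexOrder

variable {m : ℕ}

/-- `Fin m → ℂ` valued functions as `EuclideanSpace ℂ (Fin m)` valued functions -/
def toE (f : ℝ → Fin m → ℂ) : ℝ → EuclideanSpace ℂ (Fin m) := fun x => WithLp.toLp 2 (f x)

def ofE (f : ℝ → EuclideanSpace ℂ (Fin m)) : ℝ → Fin m → ℂ := fun x => WithLp.ofLp (f x)

@[simp] theorem toE_ofE (f : ℝ → EuclideanSpace ℂ (Fin m)) : toE (ofE f) = f := rfl
@[simp] theorem ofE_toE (f : ℝ → Fin m → ℂ) : ofE (toE f) = f := rfl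

theorem inner_toLp (u v : Fin m → ℂ) :
    (inner ℂ (WithLp.toLp 2 u : EuclideanSpace ℂ (Fin m)) (WithLp.toLp 2 v) : ℂ) = ip u v := by
  rw [PiLp.inner_apply]
  unfold ip
  refine Finset.sum_congr rfl fun i _ => ?_
  rw [RCLike.inner_apply, mul_comm]
  rfl

theorem cint_ip (f g : ℝ → Fin m → ℂ) :
    ∫ x, (inner ℂ (toE f x) (toE g x) : ℂ) = cint (fun x => ip (f x) (g x)) := by
  unfold cint
  refine integral_congr_ae (Filter.Eventually.of_forall fun x => ?_)
  exact inner_toLp _ _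

theorem cint_ip_mul (W : ℝ → Matrix (Fin m) (Fin m) ℂ) (f g : ℝ → Fin m → ℂ) :
    ∫ x, (inner ℂ (toE f x) (Matrix.toEuclideanLin (W x) (toE g x)) : ℂ)
      = cint (fun x => ip (f x) ((W x).mulVec (g x))) := by
  unfold cint
  refine integral_congr_ae (Filter.Eventually.of_forall fun x => ?_)
  simp only [toE]
  rw [Matrix.toEuclideanLin_toLp]
  exact inner_toLp _ _

theorem isH1_iff {f f' : ℝ → Fin m → ℂ} : IsH1 (toE f) (toE f') ↔ VH1 f f' := by
  constructor
  · intro h i
    refine ⟨(memLp_piLp_iff.mp h.memLp) i, (memLp_piLp_iff.mp h.memLp_deriv) i, fun a b => ?_⟩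
    have h1 := congrArg (EuclideanSpace.proj (𝕜 := ℂ) i) (h.ftc a b)
    rw [← ContinuousLinearMap.intervalIntegral_comp_comm _ (h.intervalIntegrable_deriv a b)] at h1
    simpa only [toE, PiLp.proj_apply, PiLp.sub_apply] using h1
  · intro h
    have h1 : MemLp (toE f') 2 volume := memLp_piLp_iff.mpr fun i => (h i).2.1
    refine ⟨memLp_piLp_iff.mpr fun i => (h i).1, h1, fun a b => ?_⟩
    have h2 : IntervalIntegrable (toE f') volume a b := by
      have h : LocallyIntegrable (toE f') volume := h1.locallyIntegrable (by norm_num)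
      exact (h.integrableOn_isCompact isCompact_uIcc).intervalIntegrable
    ext i
    have h3 := (h i).2.2 a b
    have h4 := ContinuousLinearMap.intervalIntegral_comp_comm (EuclideanSpace.proj (𝕜 := ℂ) i) h2
    simp only [EuclideanSpace.coe_proj] at h4
    rw [← h4]
    simpa only [toE, PiLp.sub_apply] using h3

theorem eigen_iff {W : ℝ → Matrix (Fin m) (Fin m) ℂ} {lam : ℝ} {f f' : ℝ → Fin m → ℂ} :
    IsEigenfunction W lam (toE f) (toE f') ↔ Eigen W lam f f' := by
  constructor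
  · intro h
    refine ⟨isH1_iff.mp h.isH1, fun g g' hg => ?_⟩
    have := h.form_eq (toE g) (toE g') (isH1_iff.mpr hg)
    rwa [cint_ip, cint_ip_mul, cint_ip] at this
  · intro h
    refine ⟨isH1_iff.mpr h.1, fun g g' hg => ?_⟩
    have := h.2 (ofE g) (ofE g') (isH1_iff.mp hg)
    rwa [← cint_ip, ← cint_ip_mul, ← cint_ip] at this

theorem isPotential_iff {p : ℝ} {W : ℝ → Matrix (Fin m) (Fin m) ℂ} :
    IsPotential p W ↔ Potential p W :=
  ⟨fun h => ⟨h.1, h.2, h.3⟩, fun h => ⟨h.1, h.2, h.3⟩⟩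

theorem rieszMean_eq (γ : ℝ) (W : ℝ → Matrix (Fin m) (Fin m) ℂ) :
    Vale.Agent.P371.rieszMean γ W = rieszMean γ W := by
  unfold Vale.Agent.P371.rieszMean rieszMean
  apply le_antisymm
  · refine iSup_le fun N => iSup_le fun lam => iSup_le fun f => iSup_le fun f' => iSup_le fun h =>
      iSup_le fun ho => ?_
    refine le_iSup_of_le N <| le_iSup_of_le lam <| le_iSup_of_le (fun j => ofE (f j)) <|
      le_iSup_of_le (fun j => ofE (f' j)) <| le_iSup_of_le (fun j => ⟨(h j).1, ?_⟩) <|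
      le_iSup_of_le (fun i j => ?_) le_rfl
    · exact eigen_iff.mp (h j).2
    · rw [← cint_ip]
      exact ho i j
  · refine iSup_le fun N => iSup_le fun lam => iSup_le fun f => iSup_le fun f' => iSup_le fun h =>
      iSup_le fun ho => ?_
    refine le_iSup_of_le N <| le_iSup_of_le lam <| le_iSup_of_le (fun j => toE (f j)) <|
      le_iSup_of_le (fun j => toE (f' j)) <| le_iSup_of_le (fun j => ⟨(h j).1, ?_⟩) <|
      le_iSup_of_le (fun i j => ?_) le_rfl
    · exact eigen_iff.mpr (h j).2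
    · rw [cint_ip]
      exact ho i j

theorem groundMean_eq (γ : ℝ) (W : ℝ → Matrix (Fin m) (Fin m) ℂ) :
    Vale.Agent.P371.groundMean γ W = groundMean γ W := by
  unfold Vale.Agent.P371.groundMean groundMean
  apply le_antisymm
  · refine iSup_le fun lam => iSup_le fun f => iSup_le fun f' => iSup_le fun h =>
      iSup_le fun h0 => ?_
    refine le_iSup_of_le lam <| le_iSup_of_le (ofE f) <| le_iSup_of_le (ofE f') <|
      le_iSup_of_le ⟨h.1, eigen_iff.mp h.2, ?_⟩ le_rfl
    intro h1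
    apply h0
    rw [← toE_ofE f, h1]
    rfl
  · refine iSup_le fun lam => iSup_le fun f => iSup_le fun f' => iSup_le fun h => ?_
    refine le_iSup_of_le lam <| le_iSup_of_le (toE f) <| le_iSup_of_le (toE f') <|
      le_iSup_of_le ⟨h.1, eigen_iff.mpr h.2.1⟩ <| le_iSup_of_le ?_ le_rfl
    intro h1
    apply h.2.2
    rw [← ofE_toE f, h1]
    rfl

theorem LTconst_eq (γ : ℝ) (m : ℕ) : Vale.Agent.P371.LTconst γ m = LTconst γ m := by
  unfold Vale.Agent.P371.LTconst LTconst
  refine iSup_congr fun W => ?_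
  simp only [isPotential_iff, rieszMean_eq]
  rfl

theorem LTone_eq (γ : ℝ) : Vale.Agent.P371.LTone γ = LTone γ := by
  unfold Vale.Agent.P371.LTone LTone
  refine iSup_congr fun W => ?_
  simp only [isPotential_iff, groundMean_eq]
  rfl

end Vale.Agent.P371.LT
end
end
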