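import Vale.Agent.P371.MathlibUsed
import Vale.Agent.P371.Bdl.B1

set_option linter.all false

section

section

/-!
Steklov averages `h⁻¹ ∫_x^{x+h} V` and their `L¹` convergence.
-/

namespace Vale.Agent.P371.G

open MeasureTheory Filter Topology Set

variable {E : Type*} [NormedAddCommGroup E] [NormedSpace ℝ E]

/-- Steklov average -/
noncomputable def stek (V : ℝ → E) (h : ℝ) (x : ℝ) : E := h⁻¹ • ∫ y in x..(x + h), V y

theorem stek_eq {V : ℝ → E} (hV : LocallyIntegrable V volume) (h x : ℝ) :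
    stek V h x = h⁻¹ • ((∫ y in (0:ℝ)..(x + h), V y) - ∫ y in (0:ℝ)..x, V y) := by
  have hi : ∀ a b, IntervalIntegrable V volume a b := fun a b =>
    (hV.integrableOn_isCompact isCompact_uIcc).intervalIntegrable
  rw [stek, intervalIntegral.integral_interval_sub_left (hi _ _) (hi _ _)]

theorem continuous_stek {V : ℝ → E} (hV : LocallyIntegrable V volume) (h : ℝ) :
    Continuous (stek V h) := by
  have hi : ∀ a b, IntervalIntegrable V volume a b := fun a b =>
    (hV.integrableOn_isCompact isCompact_uIcc).intervalIntegrable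
  have h1 := intervalIntegral.continuous_primitive hi 0
  have h2 : stek V h = fun x => h⁻¹ • ((∫ y in (0:ℝ)..(x + h), V y) - ∫ y in (0:ℝ)..x, V y) :=
    funext fun x => stek_eq hV h x
  rw [h2]
  exact ((h1.comp (continuous_add_const h)).sub h1).const_smul _

/-- `∫_{-a}^a (h⁻¹ ∫_x^{x+h} g) dx ≤ ∫_{-a}^{a+h} g` for `g ≥ 0`. -/
theorem integral_stek_le {g : ℝ → ℝ} (hg : LocallyIntegrable g volume) (hg0 : ∀ x, 0 ≤ g x)
    {a b h : ℝ} (hh : 0 < h) :
    ∫ x in a..b, stek g h x ≤ ∫ x in a..(b + h), g x := by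
  have hi : ∀ a b, IntervalIntegrable g volume a b := fun a b =>
    (hg.integrableOn_isCompact isCompact_uIcc).intervalIntegrable
  set G : ℝ → ℝ := fun x => ∫ y in (0:ℝ)..x, g y with hG
  have hGc : Continuous G := intervalIntegral.continuous_primitive hi 0
  have hGm : Monotone G := fun x y hxy => by
    have h1 : G y - G x = ∫ t in x..y, g t :=
      intervalIntegral.integral_interval_sub_left (hi _ _) (hi _ _)
    have h2 : 0 ≤ ∫ t in x..y, g t := intervalIntegral.integral_nonneg hxy fun t _ => hg0 t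
    linarith only [h1, h2]
  have e1 : ∀ x, stek g h x = h⁻¹ * (G (x + h) - G x) := fun x => by
    rw [stek_eq hg, smul_eq_mul]
  have e2 : ∫ x in a..b, stek g h x = h⁻¹ * ((∫ x in b..(b + h), G x) - ∫ x in a..(a + h), G x) := by
    simp only [e1]
    have i1 : IntervalIntegrable (fun x => G (x + h)) volume a b :=
      (hGc.comp (continuous_add_const h)).intervalIntegrable _ _
    rw [intervalIntegral.integral_const_mul, intervalIntegral.integral_sub
      i1 (hGc.intervalIntegrable _ _),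
      intervalIntegral.integral_comp_add_right (fun x => G x) h]
    congr 1
    have h1 := intervalIntegral.integral_add_adjacent_intervals
      (hGc.intervalIntegrable (μ := volume) a (a + h)) (hGc.intervalIntegrable (μ := volume) (a + h) (b + h))
    have h2 := intervalIntegral.integral_add_adjacent_intervals
      (hGc.intervalIntegrable (μ := volume) a b) (hGc.intervalIntegrable (μ := volume) b (b + h))
    linarith only [h1, h2]
  have e3 : ∫ x in b..(b + h), G x ≤ h * G (b + h) := by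
    have h1 : ∫ x in b..(b + h), G x ≤ ∫ x in b..(b + h), G (b + h) :=
      intervalIntegral.integral_mono_on (by linarith only [hh]) (hGc.intervalIntegrable _ _)
        intervalIntegrable_const fun x hx => hGm hx.2
    rw [intervalIntegral.integral_const, smul_eq_mul] at h1
    linarith only [h1]
  have e4 : h * G a ≤ ∫ x in a..(a + h), G x := by
    have h1 : ∫ x in a..(a + h), G a ≤ ∫ x in a..(a + h), G x :=
      intervalIntegral.integral_mono_on (by linarith only [hh]) intervalIntegrable_const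
        (hGc.intervalIntegrable _ _) fun x hx => hGm hx.1
    rw [intervalIntegral.integral_const, smul_eq_mul] at h1
    linarith only [h1]
  have e5 : ∫ x in a..(b + h), g x = G (b + h) - G a :=
    (intervalIntegral.integral_interval_sub_left (hi _ _) (hi _ _)).symm
  rw [e2, e5, inv_mul_le_iff₀ hh]
  linarith only [e3, e4]

theorem norm_stek_le {V : ℝ → E} {h : ℝ} (hh : 0 < h) (x : ℝ) :
    ‖stek V h x‖ ≤ stek (fun y => ‖V y‖) h x := by
  rw [stek, stek, norm_smul, smul_eq_mul, norm_inv, Real.norm_of_nonneg hh.le]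
  refine mul_le_mul_of_nonneg_left ?_ (by positivity)
  exact intervalIntegral.norm_integral_le_integral_norm (by linarith)

theorem stek_sub {V U : ℝ → E} (hV : LocallyIntegrable V volume) (hU : LocallyIntegrable U volume)
    (h x : ℝ) : stek V h x - stek U h x = stek (fun y => V y - U y) h x := by
  have hi : ∀ a b, IntervalIntegrable V volume a b := fun a b =>
    (hV.integrableOn_isCompact isCompact_uIcc).intervalIntegrable
  have hi' : ∀ a b, IntervalIntegrable U volume a b := fun a b =>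
    (hU.integrableOn_isCompact isCompact_uIcc).intervalIntegrable
  rw [stek, stek, stek, ← smul_sub, intervalIntegral.integral_sub (hi _ _) (hi' _ _)]

/-- averages of a continuous function converge pointwise -/
theorem tendsto_stek_cont [CompleteSpace E] {V : ℝ → E} (hV : Continuous V) (x : ℝ) :
    Tendsto (fun h => stek V h x) (𝓝[>] 0) (𝓝 (V x)) := by
  have h1 : HasDerivAt (fun t => ∫ y in x..t, V y) (V x) x :=
    intervalIntegral.integral_hasDerivAt_right (hV.intervalIntegrable _ _)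
      (hV.stronglyMeasurableAtFilter _ _) hV.continuousAt
  have h2 := h1.tendsto_slope_zero_right
  simpa only [stek, intervalIntegral.integral_same, sub_zero] using h2

theorem tendsto_integral_stek_cont [CompleteSpace E] {V : ℝ → E} (hV : Continuous V)
    (hVs : HasCompactSupport V) {a b : ℝ} :
    Tendsto (fun h => ∫ x in a..b, ‖stek V h x - V x‖) (𝓝[>] 0) (𝓝 0) := by
  obtain ⟨C, hC⟩ := hV.bounded_above_of_compact_support hVs
  have hl : LocallyIntegrable V volume := hV.locallyIntegrable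
  have h1 : Tendsto (fun h => ∫ x in a..b, ‖stek V h x - V x‖) (𝓝[>] 0)
      (𝓝 (∫ x in a..b, ‖V x - V x‖)) := by
   refine intervalIntegral.tendsto_integral_filter_of_dominated_convergence (fun _ => C + C) ?_ ?_
    intervalIntegrable_const ?_
   · exact Eventually.of_forall fun h =>
       ((continuous_stek hl h).sub hV).norm.aestronglyMeasurable
   · filter_upwards [self_mem_nhdsWithin] with h hh
     refine Eventually.of_forall fun x _ => ?_
     rw [norm_norm]
     refine (norm_sub_le _ _).trans (add_le_add ?_ (hC x))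
     have hh' : (0 : ℝ) < h := hh
     refine (norm_stek_le hh' x).trans ?_
     rw [stek, smul_eq_mul, inv_mul_le_iff₀ hh']
     have h2 : ∫ y in x..(x + h), ‖V y‖ ≤ ∫ y in x..(x + h), C :=
       intervalIntegral.integral_mono_on (by linarith) (hV.norm.intervalIntegrable _ _)
         intervalIntegrable_const fun y _ => hC y
     rw [intervalIntegral.integral_const, smul_eq_mul] at h2
     linarith
   · refine Eventually.of_forall fun x _ => ?_
     exact ((tendsto_stek_cont hV x).sub tendsto_const_nhds).norm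
  simpa only [sub_self, norm_zero, intervalIntegral.integral_zero] using h1

theorem tendsto_integral_stek_of_integrable [CompleteSpace E] {V : ℝ → E}
    (hV : Integrable V volume) {a b : ℝ} (hab : a ≤ b) :
    Tendsto (fun h => ∫ x in a..b, ‖stek V h x - V x‖) (𝓝[>] 0) (𝓝 0) := by
  rw [Metric.tendsto_nhds]
  intro ε hε
  obtain ⟨U, hUs, hUε, hUc, hUi⟩ := hV.exists_hasCompactSupport_integral_sub_le
    (show (0:ℝ) < ε / 4 by positivity)
  have hlV := hV.locallyIntegrable
  have hlU := hUi.locallyIntegrable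
  have hD : Integrable (fun x => ‖V x - U x‖) volume := (hV.sub hUi).norm
  have hdle : ∀ c d : ℝ, c ≤ d → ∫ x in c..d, ‖V x - U x‖ ≤ ε / 4 := fun c d hcd => by
    rw [intervalIntegral.integral_of_le hcd]
    exact (setIntegral_le_integral hD (Eventually.of_forall fun x => norm_nonneg _)).trans hUε
  have h1 := (Metric.tendsto_nhds.mp (tendsto_integral_stek_cont (a := a) (b := b) hUc hUs)) (ε / 4) (by positivity)
  filter_upwards [h1, self_mem_nhdsWithin] with h hh1 hh
  have hh' : (0 : ℝ) < h := hh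
  have hn : 0 ≤ ∫ x in a..b, ‖stek V h x - V x‖ :=
    intervalIntegral.integral_nonneg hab fun x _ => norm_nonneg _
  have hn' : 0 ≤ ∫ x in a..b, ‖stek U h x - U x‖ :=
    intervalIntegral.integral_nonneg hab fun x _ => norm_nonneg _
  rw [Real.dist_eq, sub_zero, abs_of_nonneg hn'] at hh1
  rw [Real.dist_eq, sub_zero, abs_of_nonneg hn]
  have hsD : LocallyIntegrable (fun x => ‖V x - U x‖) volume := hD.locallyIntegrable
  have i1 : IntervalIntegrable (fun x => stek (fun y => ‖V y - U y‖) h x) volume a b :=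
    (continuous_stek hsD h).intervalIntegrable _ _
  have i2 : IntervalIntegrable (fun x => ‖stek U h x - U x‖) volume a b :=
    ((continuous_stek hlU h).sub hUc).norm.intervalIntegrable _ _
  have i3 : IntervalIntegrable (fun x => ‖V x - U x‖) volume a b := hD.intervalIntegrable
  have i4 : IntervalIntegrable (fun x => ‖stek V h x - V x‖) volume a b :=
    (((continuous_stek hlV h).intervalIntegrable _ _).sub hV.intervalIntegrable).norm
  have h2 : ∫ x in a..b, ‖stek V h x - V x‖ ≤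
      ∫ x in a..b, (stek (fun y => ‖V y - U y‖) h x + ‖stek U h x - U x‖ + ‖V x - U x‖) := by
    refine intervalIntegral.integral_mono_on hab i4 ((i1.add i2).add i3) fun x _ => ?_
    have e : stek V h x - V x = (stek V h x - stek U h x) + (stek U h x - U x) + (U x - V x) := by
      abel
    rw [e]
    refine (norm_add₃_le).trans ?_
    rw [stek_sub hlV hlU, norm_sub_rev (U x)]
    have := norm_stek_le (V := fun y => V y - U y) hh' x
    linarith only [this]
  rw [intervalIntegral.integral_add (i1.add i2) i3, intervalIntegral.integral_add i1 i2] at h2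
  have h3 := integral_stek_le (a := a) (b := b) hsD (fun x => norm_nonneg _) hh'
  have h4 := hdle a (b + h) (by linarith only [hab, hh'])
  have h5 := hdle a b hab
  linarith only [hε, hh1, h2, h3, h4, h5]

theorem tendsto_integral_stek [CompleteSpace E] {V : ℝ → E}
    (hV : LocallyIntegrable V volume) {a b : ℝ} (hab : a ≤ b) :
    Tendsto (fun h => ∫ x in a..b, ‖stek V h x - V x‖) (𝓝[>] 0) (𝓝 0) := by
  have hi : Integrable (indicator (Icc a (b + 1)) V) volume := by
    rw [integrable_indicator_iff measurableSet_Icc]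
    exact hV.integrableOn_isCompact isCompact_Icc
  refine (tendsto_integral_stek_of_integrable hi hab).congr' ?_
  have h1 : ∀ᶠ h : ℝ in 𝓝[>] 0, h < 1 := by
    have : Iio (1:ℝ) ∈ 𝓝 (0:ℝ) := Iio_mem_nhds one_pos
    exact mem_nhdsWithin_of_mem_nhds this
  filter_upwards [h1, self_mem_nhdsWithin] with h hh1 hh
  have hh' : (0 : ℝ) < h := hh
  refine intervalIntegral.integral_congr fun x hx => ?_
  rw [uIcc_of_le hab] at hx
  have e1 : indicator (Icc a (b + 1)) V x = V x :=
    indicator_of_mem (show x ∈ Icc a (b + 1) from ⟨hx.1, by linarith [hx.2]⟩) _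
  have e2 : stek (indicator (Icc a (b + 1)) V) h x = stek V h x := by
    unfold stek
    congr 1
    refine intervalIntegral.integral_congr fun y hy => ?_
    rw [uIcc_of_le (by linarith)] at hy
    exact indicator_of_mem (show y ∈ Icc a (b + 1) from
      ⟨by linarith only [hy.1, hx.1], by linarith [hy.2, hx.2]⟩) _
  simp only [e1, e2]

end Vale.Agent.P371.G
end
end

section

section

/-!
Steklov averages of matrix potentials: positivity, Jensen's inequality for `trPow`.
-/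

namespace Vale.Agent.P371.G

open MeasureTheory Filter Topology Set Matrix
open scoped ComplexOrder Matrix.Norms.L2Operator MatrixOrder

variable {m : ℕ} {W : ℝ → Matrix (Fin m) (Fin m) ℂ}

theorem locallyIntegrable_of_entries (h : ∀ i j, LocallyIntegrable (fun x => W x i j) volume) :
    LocallyIntegrable W volume := by
  have h1 : W = fun x => ∑ i, ∑ j, (W x i j) • Matrix.single i j (1 : ℂ) := by
    funext x
    conv_lhs => rw [matrix_eq_sum_single (W x)]
    refine Finset.sum_congr rfl fun i _ => Finset.sum_congr rfl fun j _ => ?_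
    rw [Matrix.smul_single, smul_eq_mul, mul_one]
  rw [h1]
  refine locallyIntegrable_finsetSum _ fun i _ => locallyIntegrable_finsetSum _ fun j _ => ?_
  intro x
  obtain ⟨s, hs, hi⟩ := h i j x
  exact ⟨s, hs, hi.smul_const _⟩

theorem norm_entry_le_trace {M : Matrix (Fin m) (Fin m) ℂ} (hM : M.PosSemidef) (i j : Fin m) :
    ‖M i j‖ ≤ M.trace.re := by
  obtain ⟨R, hR⟩ := CStarAlgebra.nonneg_iff_eq_star_mul_self.mp hM.nonneg
  have hd : ∀ k, (M k k).re = ∑ l, ‖R l k‖ ^ 2 := fun k => by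
    rw [hR, Matrix.mul_apply, Complex.re_sum]
    refine Finset.sum_congr rfl fun l _ => ?_
    rw [Matrix.star_apply, Complex.star_def, ← Complex.normSq_eq_conj_mul_self, Complex.ofReal_re,
      Complex.normSq_eq_norm_sq]
  have hd0 : ∀ k, 0 ≤ (M k k).re := fun k => by
    rw [hd]; exact Finset.sum_nonneg fun l _ => by positivity
  have h1 : ‖M i j‖ ≤ ((M i i).re + (M j j).re) / 2 := by
    rw [hd, hd, ← Finset.sum_add_distrib, Finset.sum_div]
    conv_lhs => rw [hR, Matrix.mul_apply]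
    refine (norm_sum_le _ _).trans (Finset.sum_le_sum fun l _ => ?_)
    rw [norm_mul, Matrix.star_apply, norm_star]
    nlinarith [sq_nonneg (‖R l i‖ - ‖R l j‖)]
  have h2 : ∀ k, (M k k).re ≤ M.trace.re := fun k => by
    rw [Matrix.trace, Complex.re_sum]
    exact Finset.single_le_sum (f := fun k => (M k k).re) (fun l _ => hd0 l) (Finset.mem_univ k)
  linarith only [h1, h2 i, h2 j]

theorem stek_apply_clm {F : Type*} [NormedAddCommGroup F] [NormedSpace ℝ F] [CompleteSpace F]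
    (T : Matrix (Fin m) (Fin m) ℂ →L[ℝ] F)
    (hW : LocallyIntegrable W volume) (h x : ℝ) :
    T (stek W h x) = stek (fun y => T (W y)) h x := by
  have hi : IntervalIntegrable W volume x (x + h) :=
    (hW.integrableOn_isCompact isCompact_uIcc).intervalIntegrable
  rw [stek, stek, map_smul, ContinuousLinearMap.intervalIntegral_comp_comm T hi]

theorem stek_nonneg {g : ℝ → ℝ} (hg0 : ∀ x, 0 ≤ g x) {h : ℝ} (hh : 0 < h) (x : ℝ) :
    0 ≤ stek g h x := by
  rw [stek, smul_eq_mul]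
  exact mul_nonneg (by positivity) (intervalIntegral.integral_nonneg (by linarith) fun t _ => hg0 t)

theorem stek_mono {g k : ℝ → ℝ} (hg : LocallyIntegrable g volume) (hk : LocallyIntegrable k volume)
    (hgk : ∀ x, g x ≤ k x) {h : ℝ} (hh : 0 < h) (x : ℝ) : stek g h x ≤ stek k h x := by
  rw [stek, stek, smul_eq_mul, smul_eq_mul]
  refine mul_le_mul_of_nonneg_left ?_ (by positivity)
  exact intervalIntegral.integral_mono_on (by linarith)
    ((hg.integrableOn_isCompact isCompact_uIcc).intervalIntegrable)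
    ((hk.integrableOn_isCompact isCompact_uIcc).intervalIntegrable) fun y _ => hgk y

/-- the continuous linear map `M ↦ Re tr (B M)` -/
noncomputable def trL (B : Matrix (Fin m) (Fin m) ℂ) : Matrix (Fin m) (Fin m) ℂ →L[ℝ] ℝ :=
  LinearMap.toContinuousLinearMap
    { toFun := fun M => (B * M).trace.re
      map_add' := fun X Y => by rw [Matrix.mul_add, Matrix.trace_add, Complex.add_re]
      map_smul' := fun r X => by
        rw [Matrix.mul_smul, Matrix.trace_smul, Complex.real_smul, Complex.re_ofReal_mul]; rfl }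

theorem trL_apply (B M : Matrix (Fin m) (Fin m) ℂ) : trL B M = (B * M).trace.re := rfl

/-- the continuous linear map `M ↦ v* M v` -/
noncomputable def quadL (v : Fin m → ℂ) : Matrix (Fin m) (Fin m) ℂ →L[ℝ] ℂ :=
  LinearMap.toContinuousLinearMap
    { toFun := fun M => star v ⬝ᵥ (M *ᵥ v)
      map_add' := fun X Y => by rw [Matrix.add_mulVec, dotProduct_add]
      map_smul' := fun r X => by
        rw [Matrix.smul_mulVec, dotProduct_smul]; rfl }

theorem quadL_apply (v : Fin m → ℂ) (M : Matrix (Fin m) (Fin m) ℂ) :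
    quadL v M = star v ⬝ᵥ (M *ᵥ v) := rfl

noncomputable def conjT : Matrix (Fin m) (Fin m) ℂ →L[ℝ] Matrix (Fin m) (Fin m) ℂ :=
  LinearMap.toContinuousLinearMap
    { toFun := fun M => Mᴴ
      map_add' := fun X Y => by rw [Matrix.conjTranspose_add]
      map_smul' := fun r X => by
        rw [Matrix.conjTranspose_smul]; simp }

theorem conjT_apply (M : Matrix (Fin m) (Fin m) ℂ) : conjT M = Mᴴ := rfl

theorem stek_posSemidef (hW : LocallyIntegrable W volume) (hp : ∀ x, (W x).PosSemidef)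
    {h : ℝ} (hh : 0 < h) (x : ℝ) : (stek W h x).PosSemidef := by
  refine PosSemidef.of_dotProduct_mulVec_nonneg ?_ fun v => ?_
  · show (stek W h x)ᴴ = stek W h x
    rw [← conjT_apply, stek_apply_clm conjT hW]
    congr 1
    funext y
    rw [conjT_apply, (hp y).isHermitian]
  · rw [← quadL_apply, stek_apply_clm (quadL v) hW]
    have h1 : ∀ y, quadL v (W y) = (((quadL v (W y)).re : ℝ) : ℂ) := fun y => by
      have := (hp y).dotProduct_mulVec_nonneg v
      rw [← quadL_apply, Complex.le_def] at this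
      apply Complex.ext
      · simp
      · simpa using this.2.symm
    have h2 : stek (fun y => quadL v (W y)) h x = ((stek (fun y => (quadL v (W y)).re) h x : ℝ) : ℂ) := by
      rw [stek, stek]
      conv_lhs => rw [show (fun y => quadL v (W y)) = fun y => (((quadL v (W y)).re : ℝ) : ℂ) from
        funext h1]
      rw [intervalIntegral.integral_ofReal, smul_eq_mul, Complex.ofReal_mul, Complex.real_smul]
    rw [h2]
    have h3 : 0 ≤ stek (fun y => (quadL v (W y)).re) h x := by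
      refine stek_nonneg (fun y => ?_) hh x
      have := (hp y).dotProduct_mulVec_nonneg v
      rw [← quadL_apply, Complex.le_def] at this
      exact this.1
    exact_mod_cast h3

/-- Jensen's inequality -/
theorem trPow_stek_le (hW : LocallyIntegrable W volume) (hp : ∀ x, (W x).PosSemidef) {p : ℝ}
    (hp1 : 1 ≤ p) (hi : LocallyIntegrable (fun x => trPow p (W x)) volume)
    {h : ℝ} (hh : 0 < h) (x : ℝ) :
    trPow p (stek W h x) ≤ stek (fun y => trPow p (W y)) h x := by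
  set A := stek W h x with hA
  have hA0 := stek_posSemidef hW hp hh x
  set B := cfc (fun x : ℝ => x ^ (p - 1)) A with hB
  have h1 : ∀ y, trPow p A + p * trL B (W y) - p * trL B A ≤ trPow p (W y) := fun y => by
    have := klein_convex hA0 (hp y) hp1
    rw [Matrix.mul_sub, Matrix.trace_sub, Complex.sub_re, ← hA, ← hB] at this
    simp only [trL_apply]
    linarith only [this]
  have hT : LocallyIntegrable (fun y => trL B (W y)) volume := by
    intro y
    obtain ⟨s, hs, hi⟩ := hW y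
    exact ⟨s, hs, (trL B).integrable_comp hi⟩
  have hc : ∀ c : ℝ, LocallyIntegrable (fun _ : ℝ => c) volume := fun c =>
    continuous_const.locallyIntegrable
  have h2 : LocallyIntegrable (fun y => trPow p A + p * trL B (W y) - p * trL B A) volume :=
    ((hc _).add (hT.smul p)).sub (hc _)
  have h3 := stek_mono h2 hi h1 hh x
  refine le_trans (le_of_eq ?_) h3
  have i1 : IntervalIntegrable (fun y => trL B (W y)) volume x (x + h) :=
    (hT.integrableOn_isCompact isCompact_uIcc).intervalIntegrable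
  have h4 : stek (fun y => trL B (W y)) h x = trL B A := (stek_apply_clm (trL B) hW h x).symm
  rw [stek, smul_eq_mul] at h4
  rw [stek, smul_eq_mul, intervalIntegral.integral_sub (intervalIntegrable_const.add (i1.const_mul p))
    intervalIntegrable_const, intervalIntegral.integral_add intervalIntegrable_const (i1.const_mul p),
    intervalIntegral.integral_const_mul, intervalIntegral.integral_const,
    intervalIntegral.integral_const]
  simp only [add_sub_cancel_left, smul_eq_mul]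
  have h5 : ∫ y in x..(x + h), trL B (W y) = h * trL B A := by
    rw [← h4, ← mul_assoc, mul_inv_cancel₀ hh.ne', one_mul]
  rw [h5]
  field_simp
  ring

/-- `tr (A + d)^p ≤ (1-τ)^(1-p) tr A^p + τ^(1-p) m d^p` -/
theorem trPow_add_const_le {A : Matrix (Fin m) (Fin m) ℂ} (hA : A.PosSemidef) {d p τ : ℝ}
    (hd : 0 ≤ d) (hp : 1 ≤ p) (h0 : 0 < τ) (h1 : τ < 1) :
    trPow p (A + (d : ℂ) • 1) ≤ (1 - τ) ^ (1 - p) * trPow p A + τ ^ (1 - p) * (m * d ^ p) := by
  have hAh := hA.isHermitian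
  have e1 : A + (d : ℂ) • 1 = cfc (fun x : ℝ => x + d) A := by
    have h := cfc_add (R := ℝ) (a := A) (fun x : ℝ => x) (fun _ => d) (by fun_prop) (by fun_prop)
    have h2 : cfc (fun x : ℝ => x) A = A := cfc_id' ℝ A hAh
    have h3 : cfc (fun _ : ℝ => d) A = algebraMap ℝ _ d := cfc_const d A hAh
    refine Eq.trans ?_ h.symm
    rw [h2, h3, Algebra.algebraMap_eq_smul_one]
    congr 1
  have hh : (A + (d : ℂ) • 1).IsHermitian := by
    rw [e1]; exact cfc_predicate (p := IsSelfAdjoint) _ A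
  have e2 : cfc (fun x : ℝ => x ^ p) (A + (d : ℂ) • 1) = cfc (fun x : ℝ => (x + d) ^ p) A := by
    rw [e1]
    exact (cfc_comp' (R := ℝ) (p := IsSelfAdjoint) (fun x : ℝ => x ^ p) (fun x => x + d) A
      (by rw [continuousOn_iff_continuous_domRestrict]; (clear * -; fun_prop)) (by fun_prop) hAh).symm
  rw [trPow_eq_cfc hh, e2, trace_cfc hAh, Complex.ofReal_re, trPow, dif_pos hAh, Finset.mul_sum]
  have e3 : τ ^ (1 - p) * (m * d ^ p) = ∑ _i : Fin m, τ ^ (1 - p) * d ^ p := by
    rw [Finset.sum_const, Finset.card_univ, Fintype.card_fin, nsmul_eq_mul]; ring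
  rw [e3, ← Finset.sum_add_distrib]
  refine Finset.sum_le_sum fun i _ => ?_
  have hx := hA.eigenvalues_nonneg i
  set x := hAh.eigenvalues i
  have h1' : 0 < 1 - τ := by linarith only [h1]
  have h := (convexOn_rpow hp).2 (show x / (1 - τ) ∈ Ici (0:ℝ) from div_nonneg hx h1'.le)
    (show d / τ ∈ Ici (0:ℝ) from div_nonneg hd h0.le) h1'.le h0.le (by ring)
  simp only [smul_eq_mul] at h
  rw [mul_div_cancel₀ _ h1'.ne', mul_div_cancel₀ _ h0.ne', Real.div_rpow hx h1'.le,
    Real.div_rpow hd h0.le] at h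
  have e4 : (1 - τ) ^ (1 - p) = (1 - τ) / (1 - τ) ^ p := by
    rw [Real.rpow_sub h1', Real.rpow_one]
  have e5 : τ ^ (1 - p) = τ / τ ^ p := by
    rw [Real.rpow_sub h0, Real.rpow_one]
  rw [e4, e5]
  calc (x + d) ^ p ≤ (1 - τ) * (x ^ p / (1 - τ) ^ p) + τ * (d ^ p / τ ^ p) := h
    _ = _ := by ring

/-- continuity of `tr M^p` on positive semidefinite matrices -/
theorem tendsto_trPow {ι : Type*} {l : Filter ι} {M : ι → Matrix (Fin m) (Fin m) ℂ}
    {M₀ : Matrix (Fin m) (Fin m) ℂ} (h : Tendsto M l (𝓝 M₀)) (hM : ∀ᶠ i in l, (M i).PosSemidef)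
    (hM₀ : M₀.PosSemidef) {p : ℝ} (hp : 0 < p) :
    Tendsto (fun i => trPow p (M i)) l (𝓝 (trPow p M₀)) := by
  have hsp : ∀ (X : Matrix (Fin m) (Fin m) ℂ), X.PosSemidef → ‖X‖ ≤ ‖M₀‖ + 1 →
      spectrum ℝ X ⊆ Icc 0 (‖M₀‖ + 1) := by
    intro X hX hn x hx
    refine ⟨?_, ?_⟩
    · rw [hX.isHermitian.spectrum_real_eq_range_eigenvalues] at hx
      obtain ⟨i, rfl⟩ := hx
      exact hX.eigenvalues_nonneg i
    · rcases isEmpty_or_nonempty (Fin m) with he | he
      · rw [hX.isHermitian.spectrum_real_eq_range_eigenvalues] at hx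
        obtain ⟨i, -⟩ := hx
        exact he.elim i
      · have h1 := spectrum.norm_le_norm_of_mem hx
        exact (le_abs_self x).trans (h1.trans hn)
  have hev : ∀ᶠ i in l, ‖M i‖ ≤ ‖M₀‖ + 1 := by
    have := h.norm.eventually (gt_mem_nhds (show ‖M₀‖ < ‖M₀‖ + 1 by linarith only []))
    filter_upwards [this] with i hi using hi.le
  have h1 := Filter.Tendsto.cfc (𝕜 := ℝ) (p := IsSelfAdjoint) (isCompact_Icc (a := (0:ℝ))
    (b := ‖M₀‖ + 1)) (fun x : ℝ => x ^ p) h
    (by filter_upwards [hM, hev] with i h1 h2 using hsp _ h1 h2)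
    (by filter_upwards [hM] with i h1 using h1.isHermitian)
    (hsp _ hM₀ (by linarith)) hM₀.isHermitian
    (by
      refine ContinuousOn.rpow_const continuousOn_id fun x _ => Or.inr hp.le)
  have h2 : Continuous fun X : Matrix (Fin m) (Fin m) ℂ => X.trace.re := by fun_prop
  have h3 := (h2.tendsto _).comp h1
  rw [trPow_eq_cfc hM₀.isHermitian]
  refine h3.congr' ?_
  filter_upwards [hM] with i hi
  rw [trPow_eq_cfc hi.isHermitian]
  rfl

end Vale.Agent.P371.G
end
end

section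

section

/-!
From the core inequality (continuous potentials on compact intervals) to general potentials.
-/

namespace Vale.Agent.P371.G

open MeasureTheory Filter Topology Set Matrix
open scoped ComplexOrder Matrix.Norms.L2Operator MatrixOrder

variable {N m : ℕ} {W : ℝ → Matrix (Fin m) (Fin m) ℂ}

theorem trace_re_le {p : ℝ} (hp : 1 ≤ p) {M : Matrix (Fin m) (Fin m) ℂ} (hM : M.PosSemidef) :
    M.trace.re ≤ m + trPow p M := by
  rw [trPow, dif_pos hM.isHermitian, hM.isHermitian.trace_eq_sum_eigenvalues, Complex.re_sum]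
  have h1 : (m : ℝ) = ∑ _i : Fin m, (1 : ℝ) := by simp only [Finset.sum_const, Finset.card_univ, Fintype.card_fin, nsmul_eq_mul, mul_one]
  rw [h1, ← Finset.sum_add_distrib]
  refine Finset.sum_le_sum fun i _ => ?_
  have hx := hM.eigenvalues_nonneg i
  simp only [Complex.coe_algebraMap, Complex.ofReal_re]
  rcases le_total (hM.isHermitian.eigenvalues i) 1 with h | h
  · have := Real.rpow_nonneg hx p
    linarith
  · have := Real.self_le_rpow_of_one_le h hp
    linarith

theorem locInt_entry {p : ℝ} (hp : 1 ≤ p) (hW : IsPotential p W) (i j : Fin m) :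
    LocallyIntegrable (fun x => W x i j) volume := by
  have h1 : LocallyIntegrable (fun x => (m : ℝ) + trPow p (W x)) volume :=
    (continuous_const.locallyIntegrable).add hW.integrable.locallyIntegrable
  refine h1.mono (hW.measurable i j).aestronglyMeasurable (Eventually.of_forall fun x => ?_)
  refine (norm_entry_le_trace (hW.posSemidef x) i j).trans ?_
  refine (trace_re_le hp (hW.posSemidef x)).trans (le_abs_self _)

theorem locInt {p : ℝ} (hp : 1 ≤ p) (hW : IsPotential p W) : LocallyIntegrable W volume :=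
  locallyIntegrable_of_entries fun i j => locInt_entry hp hW i j

theorem norm_inner_toEuclideanLin_le (M : Matrix (Fin m) (Fin m) ℂ)
    (u v : EuclideanSpace ℂ (Fin m)) :
    ‖(inner ℂ u (Matrix.toEuclideanLin M v) : ℂ)‖ ≤ ‖M‖ * ‖u‖ * ‖v‖ := by
  have h1 : ‖Matrix.toEuclideanLin M v‖ ≤ ‖M‖ * ‖v‖ := by
    rw [Matrix.cstar_norm_def]
    exact (toEuclideanCLM (n := Fin m) (𝕜 := ℂ) M).le_opNorm v
  calc ‖(inner ℂ u (Matrix.toEuclideanLin M v) : ℂ)‖ ≤ ‖u‖ * ‖Matrix.toEuclideanLin M v‖ :=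
        norm_inner_le_norm _ _
    _ ≤ ‖u‖ * (‖M‖ * ‖v‖) := mul_le_mul_of_nonneg_left h1 (norm_nonneg _)
    _ = _ := by ring

/-- the real-linear map `M ↦ ⟨u, M v⟩` -/
noncomputable def innL (u v : EuclideanSpace ℂ (Fin m)) : Matrix (Fin m) (Fin m) ℂ →L[ℝ] ℂ :=
  LinearMap.toContinuousLinearMap
    { toFun := fun M => inner ℂ u (Matrix.toEuclideanLin M v)
      map_add' := fun X Y => by rw [map_add, LinearMap.add_apply, inner_add_right]
      map_smul' := fun r X => by
        have : (r • X) = ((r : ℂ) • X) := by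
          ext i j; simp
        rw [this, map_smul, LinearMap.smul_apply, inner_smul_right]
        simp }

variable {f f' : Fin N → ℝ → EuclideanSpace ℂ (Fin m)}

theorem aesm_form {V : ℝ → Matrix (Fin m) (Fin m) ℂ} (hV : LocallyIntegrable V volume)
    (hf : ∀ j, IsH1 (f j) (f' j)) (i j : Fin N) :
    AEStronglyMeasurable (fun x => (inner ℂ (f i x) (Matrix.toEuclideanLin (V x) (f j x)) : ℂ))
      volume := by
  have h1 : AEStronglyMeasurable V volume := hV.aestronglyMeasurable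
  have h2 : (fun x => (inner ℂ (f i x) (Matrix.toEuclideanLin (V x) (f j x)) : ℂ)) =
      fun x => ∑ k, ∑ l, (starRingEnd ℂ (f i x k)) * V x k l * f j x l := by
    funext x
    rw [PiLp.inner_apply]
    refine Finset.sum_congr rfl fun k _ => ?_
    rw [RCLike.inner_apply, Matrix.toLpLin_apply]
    simp only [Matrix.mulVec, dotProduct, Finset.sum_mul]
    refine Finset.sum_congr rfl fun l _ => ?_
    ring
  rw [h2]
  refine Finset.aestronglyMeasurable_fun_sum _ fun k _ =>
    Finset.aestronglyMeasurable_fun_sum _ fun l _ => ?_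
  have h3 : AEStronglyMeasurable (fun x => V x k l) volume := by
    have hc : Continuous fun M : Matrix (Fin m) (Fin m) ℂ => M k l := by fun_prop
    exact hc.comp_aestronglyMeasurable h1
  have hci := (hf i).continuous_self
  have hcj := (hf j).continuous_self
  have h4 : Continuous fun x => starRingEnd ℂ (f i x k) := by fun_prop
  have h5 : Continuous fun x => f j x l := by fun_prop
  exact (h4.aestronglyMeasurable.mul h3).mul h5.aestronglyMeasurable

theorem intervalIntegrable_form {V : ℝ → Matrix (Fin m) (Fin m) ℂ} (hV : LocallyIntegrable V volume)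
    (hf : ∀ j, IsH1 (f j) (f' j)) (i j : Fin N) (a b : ℝ) :
    IntervalIntegrable (fun x => (inner ℂ (f i x) (Matrix.toEuclideanLin (V x) (f j x)) : ℂ))
      volume a b := by
  have hVi : IntervalIntegrable V volume a b :=
    (hV.integrableOn_isCompact isCompact_uIcc).intervalIntegrable
  obtain ⟨A, hA⟩ := (hf i).bounded_self
  obtain ⟨B, hB⟩ := (hf j).bounded_self
  have hA0 : 0 ≤ A := (norm_nonneg _).trans (hA 0)
  refine (hVi.norm.const_mul (A * B)).mono_fun ?_ ?_
  · exact (aesm_form hV hf i j).restrict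
  · refine Eventually.of_forall fun x => ?_
    refine (norm_inner_toEuclideanLin_le _ _ _).trans ?_
    refine le_trans ?_ (le_abs_self _)
    have h1 : ‖f i x‖ * ‖f j x‖ ≤ A * B := mul_le_mul (hA x) (hB x) (norm_nonneg _) hA0
    calc ‖V x‖ * ‖f i x‖ * ‖f j x‖ = (‖f i x‖ * ‖f j x‖) * ‖V x‖ := by ring
      _ ≤ (A * B) * ‖V x‖ := mul_le_mul_of_nonneg_right h1 (norm_nonneg _)

theorem inner_symm_herm {M : Matrix (Fin m) (Fin m) ℂ} (hM : M.IsHermitian)
    (u v : EuclideanSpace ℂ (Fin m)) :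
    (starRingEnd ℂ) (inner ℂ u (Matrix.toEuclideanLin M v)) = inner ℂ v (Matrix.toEuclideanLin M u) := by
  rw [inner_conj_symm]
  exact (Matrix.isSymmetric_toEuclideanLin_iff.mpr hM) v u

theorem LamM_isHermitian (a : ℝ) {V : ℝ → Matrix (Fin m) (Fin m) ℂ} (hV : ∀ x, (V x).IsHermitian)
    (f f' : Fin N → ℝ → EuclideanSpace ℂ (Fin m)) : (LamM a V f f').IsHermitian := by
  ext i j
  rw [conjTranspose_apply]
  simp only [LamM, of_apply, star_sub, Complex.star_def]
  congr 1
  · rw [intervalIntegral, intervalIntegral, map_sub, ← integral_conj, ← integral_conj]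
    simp only [inner_symm_herm (hV _)]
  · rw [← integral_conj]
    simp only [inner_conj_symm]

/-- convergence of the matrices `Λ` when the potentials converge in `L¹(-a,a)` -/
theorem tendsto_LamM {a : ℝ} (ha : 0 ≤ a) {V : ℝ → Matrix (Fin m) (Fin m) ℂ}
    (hV : LocallyIntegrable V volume) {U : ℕ → ℝ → Matrix (Fin m) (Fin m) ℂ}
    (hU : ∀ n, LocallyIntegrable (U n) volume)
    (hf : ∀ j, IsH1 (f j) (f' j))
    (h : Tendsto (fun n => ∫ x in (-a)..a, ‖U n x - V x‖) atTop (𝓝 0)) :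
    Tendsto (fun n => LamM a (U n) f f') atTop (𝓝 (LamM a V f f')) := by
  have haa : -a ≤ a := by linarith
  refine tendsto_pi_nhds.mpr fun i => tendsto_pi_nhds.mpr fun j => ?_
  simp only [LamM, of_apply]
  refine Tendsto.sub_const ?_ _
  rw [tendsto_iff_norm_sub_tendsto_zero]
  obtain ⟨A, hA⟩ := (hf i).bounded_self
  obtain ⟨B, hB⟩ := (hf j).bounded_self
  have hA0 : 0 ≤ A := (norm_nonneg _).trans (hA 0)
  have h1 := h.const_mul (A * B)
  rw [mul_zero] at h1
  refine squeeze_zero (fun n => norm_nonneg _) (fun n => ?_) h1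
  rw [← intervalIntegral.integral_sub (intervalIntegrable_form (hU n) hf i j _ _)
    (intervalIntegrable_form hV hf i j _ _), ← intervalIntegral.integral_const_mul]
  have hd : IntervalIntegrable (fun x => U n x - V x) volume (-a) a :=
    (((hU n).sub hV).integrableOn_isCompact isCompact_uIcc).intervalIntegrable
  refine intervalIntegral.norm_integral_le_of_norm_le haa (Eventually.of_forall fun x _ => ?_)
    (hd.norm.const_mul _)
  rw [← inner_sub_right, ← LinearMap.sub_apply, ← map_sub]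
  refine (norm_inner_toEuclideanLin_le _ _ _).trans ?_
  have h1 : ‖f i x‖ * ‖f j x‖ ≤ A * B := mul_le_mul (hA x) (hB x) (norm_nonneg _) hA0
  calc ‖U n x - V x‖ * ‖f i x‖ * ‖f j x‖ = (‖f i x‖ * ‖f j x‖) * ‖U n x - V x‖ := by ring
    _ ≤ (A * B) * ‖U n x - V x‖ := mul_le_mul_of_nonneg_right h1 (norm_nonneg _)

/-- positive definiteness is stable under small Hermitian perturbations -/
theorem eventually_posDef {ι : Type*} {l : Filter ι} {M : ι → Matrix (Fin N) (Fin N) ℂ}
    {M₀ : Matrix (Fin N) (Fin N) ℂ} (h : Tendsto M l (𝓝 M₀)) (hM : ∀ i, (M i).IsHermitian)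
    (hM₀ : M₀.PosDef) : ∀ᶠ i in l, (M i).PosDef := by
  rcases isEmpty_or_nonempty (Fin N) with hN | hN
  · refine Eventually.of_forall fun i => ?_
    rwa [Subsingleton.elim (M i) M₀]
  have h0 : ∀ x ∈ spectrum ℝ M₀, 0 < x := by
    intro x hx
    rw [hM₀.isHermitian.spectrum_real_eq_range_eigenvalues] at hx
    obtain ⟨i, rfl⟩ := hx
    exact hM₀.eigenvalues_pos i
  obtain ⟨c, hc, hcM⟩ := (CFC.exists_pos_algebraMap_le_iff (a := M₀) hM₀.isHermitian).mpr h0
  have h1 : Tendsto (fun i => ‖M i - M₀‖) l (𝓝 0) := tendsto_iff_norm_sub_tendsto_zero.mp h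
  filter_upwards [h1.eventually (gt_mem_nhds hc)] with i hi
  have h2 : -(algebraMap ℝ (Matrix (Fin N) (Fin N) ℂ) ‖M i - M₀‖) ≤ M i - M₀ :=
    IsSelfAdjoint.neg_algebraMap_norm_le_self ((hM i).sub hM₀.isHermitian)
  have h3 : algebraMap ℝ (Matrix (Fin N) (Fin N) ℂ) (c - ‖M i - M₀‖) ≤ M i := by
    rw [map_sub]
    have := add_le_add hcM h2
    simpa only [sub_eq_add_neg, add_neg_le_iff_le_add, ge_iff_le, add_neg_cancel_comm_assoc] using this
  have h4 : (M i - algebraMap ℝ (Matrix (Fin N) (Fin N) ℂ) (c - ‖M i - M₀‖)).PosSemidef := h3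
  have h5 : (algebraMap ℝ (Matrix (Fin N) (Fin N) ℂ) (c - ‖M i - M₀‖)).PosDef := by
    rw [Algebra.algebraMap_eq_smul_one]
    exact PosDef.one.smul (by linarith only [hi])
  have h6 := h5.add_posSemidef h4
  rwa [add_sub_cancel] at h6

/-- the approximating potentials `W_n = stek W h_n + d_n` -/
noncomputable def Wn (W : ℝ → Matrix (Fin m) (Fin m) ℂ) (n : ℕ) (x : ℝ) :
    Matrix (Fin m) (Fin m) ℂ :=
  stek W (1 / ((n : ℝ) + 1)) x + ((1 / ((n : ℝ) + 2) ^ 2 : ℝ) : ℂ) • 1

theorem continuous_Wn (hW : LocallyIntegrable W volume) (n : ℕ) : Continuous (Wn W n) :=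
  (continuous_stek hW _).add continuous_const

theorem tendsto_hn : Tendsto (fun n : ℕ => 1 / ((n : ℝ) + 1)) atTop (𝓝[>] 0) := by
  refine tendsto_nhdsWithin_iff.mpr ⟨tendsto_one_div_add_atTop_nhds_zero_nat, ?_⟩
  exact Eventually.of_forall fun n => show (0:ℝ) < 1 / ((n : ℝ) + 1) by positivity

theorem tendsto_tn : Tendsto (fun n : ℕ => 1 / ((n : ℝ) + 2)) atTop (𝓝 0) := by
  have h := (tendsto_one_div_add_atTop_nhds_zero_nat (𝕜 := ℝ)).comp (tendsto_add_atTop_nat 1)
  refine h.congr fun n => ?_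
  simp only [Function.comp_apply]
  push_cast
  ring_nf

theorem tendsto_Wn (hW : LocallyIntegrable W volume) {a : ℝ} (ha : 0 ≤ a) :
    Tendsto (fun n => ∫ x in (-a)..a, ‖Wn W n x - W x‖) atTop (𝓝 0) := by
  have haa : -a ≤ a := by linarith
  have h1 := (tendsto_integral_stek hW haa).comp tendsto_hn
  have h2 : Tendsto (fun n : ℕ => (2 * a * ‖(1 : Matrix (Fin m) (Fin m) ℂ)‖) *
      (1 / ((n : ℝ) + 2)) ^ 2) atTop (𝓝 0) := by
    have := (tendsto_tn.pow 2).const_mul (2 * a * ‖(1 : Matrix (Fin m) (Fin m) ℂ)‖)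
    simpa only [one_div, inv_pow, ne_eq, OfNat.ofNat_ne_zero, not_false_eq_true, zero_pow, mul_zero] using this
  have h3 := h1.add h2
  rw [zero_add] at h3
  refine squeeze_zero (fun n => intervalIntegral.integral_nonneg haa fun x _ => norm_nonneg _)
    (fun n => ?_) h3
  have i1 : IntervalIntegrable (fun x => stek W (1 / ((n : ℝ) + 1)) x - W x) volume (-a) a :=
    ((continuous_stek hW _).intervalIntegrable _ _).sub
      ((hW.integrableOn_isCompact isCompact_uIcc).intervalIntegrable)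
  have i2 : IntervalIntegrable (fun x => Wn W n x - W x) volume (-a) a :=
    ((continuous_Wn hW _).intervalIntegrable _ _).sub
      ((hW.integrableOn_isCompact isCompact_uIcc).intervalIntegrable)
  have h4 : ∫ x in (-a)..a, ‖Wn W n x - W x‖ ≤ ∫ x in (-a)..a,
      (‖stek W (1 / ((n : ℝ) + 1)) x - W x‖ +
        (1 / ((n : ℝ) + 2)) ^ 2 * ‖(1 : Matrix (Fin m) (Fin m) ℂ)‖) := by
    refine intervalIntegral.integral_mono_on haa i2.norm (i1.norm.add intervalIntegrable_const)
      fun x _ => ?_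
    have e : Wn W n x - W x = (stek W (1 / ((n : ℝ) + 1)) x - W x) +
        ((1 / ((n : ℝ) + 2) ^ 2 : ℝ) : ℂ) • (1 : Matrix (Fin m) (Fin m) ℂ) := by
      rw [Wn]; abel
    rw [e]
    refine (norm_add_le _ _).trans ?_
    rw [norm_smul, Complex.norm_real, Real.norm_of_nonneg (by (clear * -; positivity)), _root_.one_div_pow]
  refine h4.trans (le_of_eq ?_)
  rw [intervalIntegral.integral_add i1.norm intervalIntegrable_const,
    intervalIntegral.integral_const, smul_eq_mul]
  simp only [Function.comp_apply]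
  ring

theorem Wn_sub_posSemidef (hW : LocallyIntegrable W volume) (hp : ∀ x, (W x).PosSemidef) (n : ℕ)
    (x : ℝ) : (Wn W n x - ((1 / ((n : ℝ) + 2) ^ 2 : ℝ) : ℂ) • 1).PosSemidef := by
  rw [Wn, add_sub_cancel_right]
  exact stek_posSemidef hW hp (by positivity) x

theorem integral_trPow_Wn_le {p : ℝ} (hp : 1 ≤ p) (hW : IsPotential p W) {a : ℝ} (ha : 0 ≤ a)
    (n : ℕ) :
    ∫ x in (-a)..a, trPow p (Wn W n x) ≤ (1 - 1 / ((n : ℝ) + 2)) ^ (1 - p) * (∫ x, trPow p (W x)) +
      (2 * a * m) * (1 / ((n : ℝ) + 2)) ^ (1 + p) := by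
  have hWl := locInt hp hW
  have haa : -a ≤ a := by linarith
  set h : ℝ := 1 / ((n : ℝ) + 1) with hh
  have hh0 : 0 < h := by positivity
  set τ : ℝ := 1 / ((n : ℝ) + 2) with hτ
  have hτ0 : 0 < τ := by positivity
  have hτ1 : τ < 1 := by
    rw [hτ, div_lt_one (by positivity)]
    have : (0:ℝ) ≤ n := Nat.cast_nonneg n
    linarith only []
  have hs : ∀ x, (stek W h x).PosSemidef := stek_posSemidef hWl hW.posSemidef hh0
  have hc1 : Continuous fun x => trPow p (stek W h x) := by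
    refine continuous_iff_continuousAt.mpr fun x => ?_
    exact tendsto_trPow ((continuous_stek hWl h).tendsto x) (Eventually.of_forall hs) (hs x)
      (by linarith only [hp])
  have hWp : ∀ x, (Wn W n x).PosSemidef := fun x => by
    have h1 := Wn_sub_posSemidef hWl hW.posSemidef n x
    have h2 : (((1 / ((n : ℝ) + 2) ^ 2 : ℝ) : ℂ) • (1 : Matrix (Fin m) (Fin m) ℂ)).PosSemidef :=
      PosSemidef.one.smul (by
        have : (0:ℝ) ≤ 1 / ((n : ℝ) + 2) ^ 2 := by (clear * -; positivity)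
        exact_mod_cast this)
    have := h1.add h2
    rwa [sub_add_cancel] at this
  have hc2 : Continuous fun x => trPow p (Wn W n x) := by
    refine continuous_iff_continuousAt.mpr fun x => ?_
    exact tendsto_trPow ((continuous_Wn hWl n).tendsto x) (Eventually.of_forall hWp) (hWp x)
      (by linarith only [hp])
  have hg : LocallyIntegrable (fun x => trPow p (W x)) volume := hW.integrable.locallyIntegrable
  have hg0 : ∀ x, 0 ≤ trPow p (W x) := fun x => trPow_nonneg' (hW.posSemidef x) p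
  have h1 : ∫ x in (-a)..a, trPow p (Wn W n x) ≤ ∫ x in (-a)..a,
      ((1 - τ) ^ (1 - p) * stek (fun y => trPow p (W y)) h x + τ ^ (1 - p) * (m * (τ ^ 2) ^ p)) := by
    refine intervalIntegral.integral_mono_on haa (hc2.intervalIntegrable _ _)
      ((((continuous_stek hg h).intervalIntegrable _ _).const_mul _).add intervalIntegrable_const)
      fun x _ => ?_
    have h2 := trPow_add_const_le (hs x) (d := τ ^ 2) (p := p) (τ := τ) (by (clear * -; positivity)) hp hτ0 hτ1
    have h3 : Wn W n x = stek W h x + ((τ ^ 2 : ℝ) : ℂ) • 1 := by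
      rw [Wn, hτ, _root_.one_div_pow]
    rw [h3]
    refine h2.trans (add_le_add ?_ le_rfl)
    exact mul_le_mul_of_nonneg_left (trPow_stek_le hWl hW.posSemidef hp hg hh0 x)
      (Real.rpow_nonneg (by linarith only [hτ1]) _)
  rw [intervalIntegral.integral_add (((continuous_stek hg h).intervalIntegrable _ _).const_mul _)
    intervalIntegrable_const, intervalIntegral.integral_const_mul, intervalIntegral.integral_const,
    smul_eq_mul] at h1
  have h4 : ∫ x in (-a)..a, stek (fun y => trPow p (W y)) h x ≤ ∫ x, trPow p (W x) := by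
    refine (integral_stek_le hg hg0 hh0).trans ?_
    rw [intervalIntegral.integral_of_le (by linarith only [ha, hh0])]
    exact setIntegral_le_integral hW.integrable (Eventually.of_forall hg0)
  have h5 : τ ^ (1 - p) * (m * (τ ^ 2) ^ p) = m * τ ^ (1 + p) := by
    rw [← Real.rpow_natCast τ 2, ← Real.rpow_mul hτ0.le]
    have : τ ^ (1 - p) * τ ^ (((2 : ℕ) : ℝ) * p) = τ ^ (1 + p) := by
      rw [← Real.rpow_add hτ0]
      congr 1
      push_cast
      ring
    rw [← this]
    ring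
  rw [h5] at h1
  have h6 := mul_le_mul_of_nonneg_left h4 (Real.rpow_nonneg (show 0 ≤ 1 - τ by linarith only [hτ1]) (1 - p))
  calc _ ≤ _ := h1
    _ ≤ (1 - τ) ^ (1 - p) * (∫ x, trPow p (W x)) + (a - -a) * (m * τ ^ (1 + p)) := by linarith only [h6]
    _ = _ := by ring

theorem fixed_a {γ C : ℝ} (hγ : 1 / 2 < γ) (hC : 0 ≤ C) (hM : MainHyp γ C N m)
    (hW : IsPotential (γ + 1 / 2) W) {a : ℝ} (ha : 0 < a)
    (hf : ∀ j, IsH1 (f j) (f' j))
    (ho : ∀ i j, ∫ x, inner ℂ (f i x) (f j x) = if i = j then (1 : ℂ) else 0)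
    (hΛ : (LamM a W f f').PosDef) :
    trPow γ (LamM a W f f') ≤ C * ∫ x, trPow (γ + 1 / 2) (W x) := by
  have hp : (1 : ℝ) ≤ γ + 1 / 2 := by linarith
  have hWl := locInt hp hW
  have hL := tendsto_LamM ha.le hWl (fun n => (continuous_Wn hWl n).locallyIntegrable) hf
    (tendsto_Wn hWl ha.le)
  have hWnh : ∀ n x, (Wn W n x).IsHermitian := fun n x => by
    have h1 := Wn_sub_posSemidef hWl hW.posSemidef n x
    have h2 : (((1 / ((n : ℝ) + 2) ^ 2 : ℝ) : ℂ) • (1 : Matrix (Fin m) (Fin m) ℂ)).IsHermitian := by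
      rw [IsHermitian, conjTranspose_smul, conjTranspose_one, Complex.star_def, Complex.conj_ofReal]
    have := h1.isHermitian.add h2
    rwa [sub_add_cancel] at this
  have hev := eventually_posDef hL (fun n => LamM_isHermitian a (hWnh n) f f') hΛ
  have ht := tendsto_trPow hL (hev.mono fun n h => h.posSemidef) hΛ.posSemidef
    (show (0:ℝ) < γ by linarith only [hγ])
  set I := ∫ x, trPow (γ + 1 / 2) (W x) with hI
  have hlim : Tendsto (fun n : ℕ => C * ((1 - 1 / ((n : ℝ) + 2)) ^ (1 - (γ + 1 / 2)) * I +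
      (2 * a * m) * (1 / ((n : ℝ) + 2)) ^ (1 + (γ + 1 / 2)))) atTop (𝓝 (C * I)) := by
    have h1 : Tendsto (fun n : ℕ => (1 - 1 / ((n : ℝ) + 2)) ^ (1 - (γ + 1 / 2))) atTop (𝓝 1) := by
      have h2 : Tendsto (fun n : ℕ => (1 - 1 / ((n : ℝ) + 2))) atTop (𝓝 1) := by
        have := tendsto_tn.const_sub 1
        simpa only [one_div, sub_zero] using this
      have h3 := h2.rpow_const (p := 1 - (γ + 1 / 2)) (Or.inl one_ne_zero)
      simpa only [one_div, Real.one_rpow] using h3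
    have h2 : Tendsto (fun n : ℕ => (1 / ((n : ℝ) + 2)) ^ (1 + (γ + 1 / 2))) atTop (𝓝 0) := by
      have h3 := tendsto_tn.rpow_const (p := 1 + (γ + 1 / 2)) (Or.inr (by linarith only [hγ]))
      rwa [Real.zero_rpow (by linarith only [hγ])] at h3
    have h4 := ((h1.mul_const I).add (h2.const_mul (2 * a * m))).const_mul C
    simpa only [one_div, one_mul, mul_zero, add_zero] using h4
  refine le_of_tendsto_of_tendsto ht hlim ?_
  filter_upwards [hev] with n hn
  have hd : (0:ℝ) < 1 / ((n : ℝ) + 2) ^ 2 := by (clear * -; positivity)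
  refine (hM a _ (Wn W n) f f' ha hd (continuous_Wn hWl n)
    (Wn_sub_posSemidef hWl hW.posSemidef n) hf ho hn).trans ?_
  exact mul_le_mul_of_nonneg_left (integral_trPow_Wn_le hp hW ha.le n) hC

/-- from the eigenvalue equation -/
theorem eigen_relation {lam : Fin N → ℝ}
    (h : ∀ j, IsEigenfunction W (lam j) (f j) (f' j))
    (ho : ∀ i j, ∫ x, inner ℂ (f i x) (f j x) = if i = j then (1 : ℂ) else 0) (i j : Fin N) :
    (∫ x, inner ℂ (f i x) (Matrix.toEuclideanLin (W x) (f j x))) - (∫ x, inner ℂ (f' i x) (f' j x))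
      = if i = j then ((-lam j : ℝ) : ℂ) else 0 := by
  have h1 := (h j).form_eq (f i) (f' i) (h i).isH1
  rw [ho i j] at h1
  split_ifs at h1 ⊢ with hij
  · push_cast
    linear_combination -h1
  · linear_combination -h1

theorem integrable_form_diag {lam : ℝ} {g g' : ℝ → EuclideanSpace ℂ (Fin m)} (hlam : lam < 0)
    (h : IsEigenfunction W lam g g') (hn : ∫ x, inner ℂ (g x) (g x) = (1 : ℂ)) :
    Integrable (fun x => (inner ℂ (g x) (Matrix.toEuclideanLin (W x) (g x)) : ℂ)) volume := by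
  by_contra hni
  have h1 := h.form_eq g g' h.isH1
  rw [hn, mul_one, integral_inner_self, integral_undef hni] at h1
  have h2 : (∫ x, ‖g' x‖ ^ 2) = lam := by
    have h3 := congrArg Complex.re h1
    simpa using h3
  have h3 : 0 ≤ ∫ x, ‖g' x‖ ^ 2 := integral_nonneg fun x => by (clear * -; positivity)
  linarith

theorem norm_form_le {M : Matrix (Fin m) (Fin m) ℂ} (hM : M.PosSemidef)
    (u v : EuclideanSpace ℂ (Fin m)) :
    ‖(inner ℂ u (Matrix.toEuclideanLin M v) : ℂ)‖ ≤
      (inner ℂ u (Matrix.toEuclideanLin M u) : ℂ).re + (inner ℂ v (Matrix.toEuclideanLin M v) : ℂ).re := by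
  obtain ⟨R, hR⟩ := CStarAlgebra.nonneg_iff_eq_star_mul_self.mp hM.nonneg
  have h1 : ∀ u v : EuclideanSpace ℂ (Fin m), (inner ℂ u (Matrix.toEuclideanLin M v) : ℂ) =
      inner ℂ (Matrix.toEuclideanLin R u) (Matrix.toEuclideanLin R v) := by
    intro u v
    have h2 : Matrix.toEuclideanLin M v =
        Matrix.toEuclideanLin Rᴴ (Matrix.toEuclideanLin R v) := by
      rw [hR, Matrix.star_eq_conjTranspose]
      simp only [Matrix.toLpLin_apply, Matrix.mulVec_mulVec]
    rw [h2, Matrix.toEuclideanLin_conjTranspose_eq_adjoint, LinearMap.adjoint_inner_right]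
  have h3 : ∀ w : EuclideanSpace ℂ (Fin m), (inner ℂ w w : ℂ).re = ‖w‖ ^ 2 := fun w => by
    rw [inner_self_re', Complex.ofReal_re]
  rw [h1, h1, h1, h3, h3]
  have h2 := norm_inner_le_norm (𝕜 := ℂ) (Matrix.toEuclideanLin R u) (Matrix.toEuclideanLin R v)
  nlinarith only [h2]

theorem integrable_form {lam : Fin N → ℝ} (hlam : ∀ j, lam j < 0)
    (h : ∀ j, IsEigenfunction W (lam j) (f j) (f' j)) (hW : ∀ x, (W x).PosSemidef)
    (hWl : LocallyIntegrable W volume)
    (ho : ∀ i j, ∫ x, inner ℂ (f i x) (f j x) = if i = j then (1 : ℂ) else 0) (i j : Fin N) :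
    Integrable (fun x => (inner ℂ (f i x) (Matrix.toEuclideanLin (W x) (f j x)) : ℂ)) volume := by
  have hd : ∀ j, Integrable (fun x => (inner ℂ (f j x) (Matrix.toEuclideanLin (W x) (f j x)) : ℂ))
      volume := fun j => integrable_form_diag (hlam j) (h j) (by rw [ho j j, if_pos rfl])
  refine ((hd i).re.add (hd j).re).mono ?_ (Eventually.of_forall fun x => ?_)
  · exact aesm_form hWl (fun j => (h j).isH1) i j
  · refine (norm_form_le (hW x) _ _).trans (le_abs_self _)

/-- `(I.0)` : the sharp Lieb-Thirring inequality from the core inequality. -/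
theorem rieszMean_le_of_main {γ C : ℝ} (hγ : 1 / 2 < γ) (hC : 0 ≤ C)
    (hM : ∀ N, MainHyp γ C N m) (hW : IsPotential (γ + 1 / 2) W) :
    rieszMean γ W ≤ ENNReal.ofReal (C * ∫ x, trPow (γ + 1 / 2) (W x)) := by
  unfold rieszMean
  refine iSup_le fun N => iSup_le fun lam => iSup_le fun f => iSup_le fun f' => iSup_le fun h =>
    iSup_le fun ho => ?_
  have hf : ∀ j, IsH1 (f j) (f' j) := fun j => (h j).2.isH1
  rw [← ENNReal.ofReal_sum_of_nonneg (fun j _ => by (clear * -; positivity))]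
  apply ENNReal.ofReal_le_ofReal
  have hp : (1 : ℝ) ≤ γ + 1 / 2 := by linarith
  have hWl := locInt hp hW
  set D : Matrix (Fin N) (Fin N) ℂ := diagonal fun j => ((-lam j : ℝ) : ℂ) with hD
  have hDp : D.PosDef := PosDef.diagonal fun j => by
    have : (0:ℝ) < -lam j := by linarith only [(h j).1]
    exact_mod_cast this
  have hL : Tendsto (fun n : ℕ => LamM ((n : ℝ) + 1) W f f') atTop (𝓝 D) := by
    refine tendsto_pi_nhds.mpr fun i => tendsto_pi_nhds.mpr fun j => ?_
    have e : D i j = (∫ x, inner ℂ (f i x) (Matrix.toEuclideanLin (W x) (f j x))) -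
        (∫ x, inner ℂ (f' i x) (f' j x)) := by
      rw [eigen_relation (fun j => (h j).2) ho i j, hD, diagonal_apply]
      split_ifs with hij
      · rw [hij]
      · rfl
    rw [e]
    simp only [LamM, of_apply]
    refine Tendsto.sub_const ?_ _
    have hn : Tendsto (fun n : ℕ => (n : ℝ) + 1) atTop atTop :=
      tendsto_atTop_add_const_right _ _ tendsto_natCast_atTop_atTop
    exact intervalIntegral_tendsto_integral
      (integrable_form (fun j => (h j).1) (fun j => (h j).2) hW.posSemidef hWl ho i j)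
      (tendsto_neg_atTop_atBot.comp hn) hn
  have hev := eventually_posDef hL
    (fun n => LamM_isHermitian _ (fun x => (hW.posSemidef x).isHermitian) f f') hDp
  have ht := tendsto_trPow hL (hev.mono fun n h => h.posSemidef) hDp.posSemidef
    (show (0:ℝ) < γ by linarith only [hγ])
  have h1 : trPow γ D ≤ C * ∫ x, trPow (γ + 1 / 2) (W x) := by
    refine le_of_tendsto ht ?_
    filter_upwards [hev] with n hn
    exact fixed_a hγ hC (hM N) hW (by (clear * -; positivity)) hf ho hn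
  refine le_trans (le_of_eq ?_) h1
  rw [hD, trPow_diagonal]
  refine Finset.sum_congr rfl fun j _ => ?_
  rw [abs_of_neg (h j).1]

end Vale.Agent.P371.G
end
end

section

section

open Matrix Filter MeasureTheory Set
open scoped ComplexOrder Topology InnerProductSpace

namespace Vale.Agent.P371

variable {N m : ℕ}

lemma abs_trace_mul_le {X Y : Matrix (Fin N) (Fin N) ℂ} {a b : ℝ} (ha : 0 ≤ a)
    (hX : ∀ i j, ‖X i j‖ ≤ a) (hY : ∀ i j, ‖Y i j‖ ≤ b) :
    |(trace (X * Y)).re| ≤ (N : ℝ) ^ 2 * (a * b) := by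
  refine (Complex.abs_re_le_norm _).trans ?_
  rw [trace]
  refine (norm_sum_le _ _).trans ?_
  have : ∀ i ∈ (Finset.univ : Finset (Fin N)), ‖(X * Y).diag i‖ ≤ N * (a * b) := by
    intro i _
    rw [diag_apply, mul_apply]
    refine (norm_sum_le _ _).trans ?_
    have : ∀ j ∈ (Finset.univ : Finset (Fin N)), ‖X i j * Y j i‖ ≤ a * b := fun j _ => by
      rw [norm_mul]
      exact mul_le_mul (hX i j) (hY j i) (norm_nonneg _) ha
    refine (Finset.sum_le_sum this).trans ?_
    simp only [Finset.sum_const, Finset.card_univ, Fintype.card_fin, nsmul_eq_mul, Std.le_refl]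
  refine (Finset.sum_le_sum this).trans ?_
  simp only [Finset.sum_const, Finset.card_univ, Fintype.card_fin, nsmul_eq_mul]
  rw [sq, mul_assoc]

lemma mul_entry_le {X Y : Matrix (Fin N) (Fin N) ℂ} {a b : ℝ} (ha : 0 ≤ a)
    (hX : ∀ i j, ‖X i j‖ ≤ a) (hY : ∀ i j, ‖Y i j‖ ≤ b) (i j : Fin N) :
    ‖(X * Y) i j‖ ≤ N * (a * b) := by
  rw [mul_apply]
  refine (norm_sum_le _ _).trans ?_
  have : ∀ k ∈ (Finset.univ : Finset (Fin N)), ‖X i k * Y k j‖ ≤ a * b := fun k _ => by
    rw [norm_mul]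
    exact mul_le_mul (hX i k) (hY k j) (norm_nonneg _) ha
  refine (Finset.sum_le_sum this).trans ?_
  simp only [Finset.sum_const, Finset.card_univ, Fintype.card_fin, nsmul_eq_mul, Std.le_refl]

/-- The data of a matrix path `A` with `A' = c P`. -/
structure Path (ε c : ℝ) (f : Fin N → ℝ → EuclideanSpace ℂ (Fin m))
    (A : ℝ → Matrix (Fin N) (Fin N) ℂ) : Prop where
  spec : ∀ x, Spec ε (A x)
  der : ∀ (i j : Fin N) (a b : ℝ), A b i j - A a i j = (c : ℂ) * ∫ x in a..b, gramC f x i j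

variable {ε c : ℝ} {f f' : Fin N → ℝ → EuclideanSpace ℂ (Fin m)}
  {A : ℝ → Matrix (Fin N) (Fin N) ℂ}

lemma Path.hasDerivAt (hA : Path ε c f A) (hc : ∀ j, Continuous (f j)) (i j : Fin N) (x : ℝ) :
    HasDerivAt (fun x => A x i j) ((c : ℂ) * gramC f x i j) x := by
  have hP : Continuous fun x => gramC f x i j := (hc i).inner (hc j)
  have h1 : (fun x => A x i j) = fun x => A 0 i j + (c : ℂ) * ∫ t in (0:ℝ)..x, gramC f t i j := by
    ext1 x
    rw [← hA.der i j 0 x]
    ring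
  rw [h1]
  have h2 := intervalIntegral.integral_hasDerivAt_right (hP.intervalIntegrable 0 x)
    hP.aestronglyMeasurable.stronglyMeasurableAtFilter hP.continuousAt
  exact (h2.const_mul (c : ℂ)).const_add _

lemma Path.continuous (hA : Path ε c f A) (hc : ∀ j, Continuous (f j)) : Continuous A :=
  continuous_pi fun i => continuous_pi fun j =>
    continuous_iff_continuousAt.2 fun x => (hA.hasDerivAt hc i j x).continuousAt

lemma Path.continuous_sol (hε : 0 < ε) (hA : Path ε c f A) (hc : ∀ j, Continuous (f j))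
    {s : ℝ} (hs : 0 ≤ s ∨ s ≤ -Real.pi) :
    Continuous fun x => sol (A x) s (gramC f x) :=
  continuous_iff_continuousAt.2 fun _ => continuousAt_sol hε hs hA.spec
    (hA.continuous hc).continuousAt (continuous_gramC hc).continuousAt

/-- the function `F = Re tr (P Z)` -/
noncomputable def FF (f : Fin N → ℝ → EuclideanSpace ℂ (Fin m))
    (A : ℝ → Matrix (Fin N) (Fin N) ℂ) (s : ℝ) (x : ℝ) : ℝ :=
  (trace (gramC f x * sol (A x) s (gramC f x))).re

lemma exists_bound_on_uIcc {M : ℝ → Matrix (Fin N) (Fin N) ℂ} (hM : Continuous M) (a b : ℝ) :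
    ∃ B : ℝ, 0 ≤ B ∧ ∀ x ∈ uIcc a b, ∀ i j, ‖M x i j‖ ≤ B := by
  have h1 : ∀ p : Fin N × Fin N, ∃ B : ℝ, 0 ≤ B ∧ ∀ x ∈ uIcc a b, ‖M x p.1 p.2‖ ≤ B := by
    intro p
    have hc : Continuous fun x => M x p.1 p.2 := by fun_prop
    obtain ⟨B, hB⟩ := isCompact_uIcc.exists_bound_of_continuousOn (hc.continuousOn (s := uIcc a b))
    exact ⟨max B 0, le_max_right _ _, fun x hx => (hB x hx).trans (le_max_left _ _)⟩
  choose B hB0 hB using h1
  refine ⟨∑ p, B p, Finset.sum_nonneg fun p _ => hB0 p, fun x hx i j => ?_⟩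
  exact (hB (i, j) x hx).trans
    (Finset.single_le_sum (f := B) (fun p _ => hB0 p) (Finset.mem_univ (i, j)))

lemma exists_bound_fam {f : Fin N → ℝ → EuclideanSpace ℂ (Fin m)} (hc : ∀ j, Continuous (f j))
    (a b : ℝ) : ∃ R : ℝ, 0 ≤ R ∧ ∀ x ∈ uIcc a b, ∀ j, ‖f j x‖ ≤ R := by
  have h1 : ∀ p : Fin N, ∃ B : ℝ, 0 ≤ B ∧ ∀ x ∈ uIcc a b, ‖f p x‖ ≤ B := by
    intro p
    obtain ⟨B, hB⟩ := isCompact_uIcc.exists_bound_of_continuousOn
      ((hc p).continuousOn (s := uIcc a b))
    exact ⟨max B 0, le_max_right _ _, fun x hx => (hB x hx).trans (le_max_left _ _)⟩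
  choose B hB0 hB using h1
  refine ⟨∑ p, B p, Finset.sum_nonneg fun p _ => hB0 p, fun x hx i => ?_⟩
  exact (hB i x hx).trans
    (Finset.single_le_sum (f := B) (fun p _ => hB0 p) (Finset.mem_univ i))

lemma FF_ac (hε : 0 < ε) (hf : ∀ j, IsH1 (f j) (f' j)) (hA : Path ε c f A)
    {s : ℝ} (hs : 0 ≤ s ∨ s ≤ -Real.pi) (a b : ℝ) :
    AbsolutelyContinuousOnInterval (FF f A s) a b := by
  have hc : ∀ j, Continuous (f j) := fun j => (hf j).continuous
  obtain ⟨R, hR0, hR⟩ := exists_bound_fam hc a b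
  obtain ⟨B, hB0, hB⟩ := exists_bound_on_uIcc (hA.continuous_sol hε hc hs) a b
  set g : ℝ → ℝ := fun t => 1 + ∑ j, ‖f' j t‖ with hg
  have hgi : ∀ a b, IntervalIntegrable g volume a b := fun a b => by
    have h1 := (intervalIntegrable_const (c := (1:ℝ)) (a := a) (b := b) (μ := volume)).add
      (IntervalIntegrable.sum Finset.univ fun j _ => ((hf j).intervalIntegrable a b).norm)
    refine h1.congr fun t _ => ?_
    simp only [Finset.sum_apply, hg]
  have hg1 : ∀ t, 1 ≤ g t := fun t => by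
    have : 0 ≤ ∑ j, ‖f' j t‖ := Finset.sum_nonneg fun _ _ => norm_nonneg _
    simp only [hg]; linarith
  have hgj : ∀ j t, ‖f' j t‖ ≤ g t := fun j t => by
    have : ‖f' j t‖ ≤ ∑ j, ‖f' j t‖ :=
      Finset.single_le_sum (f := fun j => ‖f' j t‖) (fun _ _ => norm_nonneg _) (Finset.mem_univ j)
    simp only [hg]; linarith
  set H : ℝ → ℝ := fun x => ∫ t in a..x, g t with hH
  have hHac : AbsolutelyContinuousOnInterval H a b :=
    (hgi a b).absolutelyContinuousOnInterval_intervalIntegral (by simp only [left_mem_uIcc])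
  have hHsub : ∀ x y, H x - H y = ∫ t in y..x, g t := fun x y => by
    simp only [hH]
    rw [intervalIntegral.integral_interval_sub_left (hgi _ _) (hgi _ _)]
  refine ac_of_dist_le (K := (N : ℝ) ^ 2 * (2 * R * (2 * B)) +
    (N : ℝ) ^ 2 * (|c| * R ^ 2 * (2 * (N * (B * B))))) hHac ?_
  intro x hx y hy
  rw [hHsub]
  set D : ℝ := |∫ t in y..x, g t| with hD
  have hD0 : 0 ≤ D := abs_nonneg _
  have hfd : ∀ j, ‖f j x - f j y‖ ≤ D := fun j => by
    rw [(hf j).ftc y x]
    exact intervalIntegral.norm_integral_le_abs_of_norm_le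
      (Eventually.of_forall fun t => hgj j t) (hgi _ _)
  have hPd : ∀ i j, ‖(gramC f x - gramC f y) i j‖ ≤ 2 * R * D := fun i j => by
    have e : (gramC f x - gramC f y) i j =
        inner ℂ (f i x - f i y) (f j x) + inner ℂ (f i y) (f j x - f j y) := by
      simp only [gramC, Matrix.sub_apply, Matrix.of_apply, inner_sub_left, inner_sub_right]
      ring
    rw [e]
    refine (norm_add_le _ _).trans ?_
    have h1 := (norm_inner_le_norm (𝕜 := ℂ) (f i x - f i y) (f j x))
    have h2 := (norm_inner_le_norm (𝕜 := ℂ) (f i y) (f j x - f j y))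
    have h3 : ‖f i x - f i y‖ * ‖f j x‖ ≤ D * R :=
      mul_le_mul (hfd i) (hR x hx j) (norm_nonneg _) hD0
    have h4 : ‖f i y‖ * ‖f j x - f j y‖ ≤ R * D :=
      mul_le_mul (hR y hy i) (hfd j) (norm_nonneg _) hR0
    linarith only [h1, h2, h3, h4]
  have hAd : ∀ i j, ‖(A x - A y) i j‖ ≤ |c| * R ^ 2 * D := fun i j => by
    rw [Matrix.sub_apply, hA.der i j y x, norm_mul, Complex.norm_real, Real.norm_eq_abs, mul_assoc]
    refine mul_le_mul_of_nonneg_left ?_ (abs_nonneg _)
    have h1 : ‖∫ t in y..x, gramC f t i j‖ ≤ |∫ t in y..x, R ^ 2 * g t| := by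
      refine intervalIntegral.norm_integral_le_abs_of_norm_le ?_ ((hgi _ _).const_mul _)
      rw [ae_restrict_iff' measurableSet_uIoc]
      refine Eventually.of_forall fun t ht => ?_
      have ht' : t ∈ uIcc a b := by
        have h2 : uIcc y x ⊆ uIcc a b := uIcc_subset_uIcc hy hx
        exact h2 (uIoc_subset_uIcc ht)
      have h1 := (norm_inner_le_norm (𝕜 := ℂ) (f i t) (f j t))
      have h2 : ‖f i t‖ * ‖f j t‖ ≤ R * R :=
        mul_le_mul (hR t ht' i) (hR t ht' j) (norm_nonneg _) hR0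
      have h3 : R * R ≤ R ^ 2 * g t := by
        have := mul_le_mul_of_nonneg_left (hg1 t) (sq_nonneg R)
        linarith
      exact (h1.trans h2).trans h3
    refine h1.trans ?_
    rw [intervalIntegral.integral_const_mul, abs_mul, abs_of_nonneg (sq_nonneg R)]
  have hsum : FF f A s x - FF f A s y =
      (trace ((gramC f x - gramC f y) * (sol (A x) s (gramC f x) + sol (A y) s (gramC f y)))).re -
      (trace ((A x - A y) * (sol (A x) s (gramC f x) * sol (A y) s (gramC f y) +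
        sol (A y) s (gramC f y) * sol (A x) s (gramC f x)))).re := by
    have h := congrArg Complex.re (trace_mul_sub_trace_mul
      (syl_sol hε (hA.spec x) hs (gramC f x)) (syl_sol hε (hA.spec y) hs (gramC f y)))
    simpa only [FF, Complex.sub_re] using h
  rw [hsum]
  have b1 : ∀ i j, ‖(sol (A x) s (gramC f x) + sol (A y) s (gramC f y)) i j‖ ≤ 2 * B :=
    fun i j => by
      rw [Matrix.add_apply]
      refine (norm_add_le _ _).trans ?_
      have := hB x hx i j
      have := hB y hy i j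
      linarith
  have b2 : ∀ i j, ‖(sol (A x) s (gramC f x) * sol (A y) s (gramC f y) +
        sol (A y) s (gramC f y) * sol (A x) s (gramC f x)) i j‖ ≤ 2 * (N * (B * B)) :=
    fun i j => by
      rw [Matrix.add_apply]
      refine (norm_add_le _ _).trans ?_
      have := mul_entry_le hB0 (hB x hx) (hB y hy) i j
      have := mul_entry_le hB0 (hB y hy) (hB x hx) i j
      linarith
  have c1 := abs_trace_mul_le (by (clear * - hR0; positivity)) hPd b1
  have c2 := abs_trace_mul_le (by (clear * -; positivity)) hAd b2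
  refine (abs_sub _ _).trans ?_
  calc _ ≤ (N : ℝ) ^ 2 * (2 * R * D * (2 * B)) + (N : ℝ) ^ 2 * (|c| * R ^ 2 * D * (2 * (N * (B * B)))) :=
        add_le_add c1 c2
    _ = _ := by ring

end Vale.Agent.P371
end
end

section

section

open Matrix Filter MeasureTheory Set
open scoped ComplexOrder Topology InnerProductSpace

namespace Vale.Agent.P371

variable {N m : ℕ}

lemma shift_ok (n : ℤ) : 0 ≤ (n : ℝ) * Real.pi ∨ (n : ℝ) * Real.pi ≤ -Real.pi := by
  rcases le_or_gt 0 n with h | h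
  · left
    have : (0 : ℝ) ≤ n := by exact_mod_cast h
    positivity
  · right
    have h1 : n ≤ -1 := by omega
    have : (n : ℝ) ≤ -1 := by exact_mod_cast h1
    nlinarith only [this, Real.pi_pos]

/-- The family of Sylvester solutions. -/
noncomputable def ZZ (f : Fin N → ℝ → EuclideanSpace ℂ (Fin m))
    (A : ℝ → Matrix (Fin N) (Fin N) ℂ) (x : ℝ) (n : ℤ) : Matrix (Fin N) (Fin N) ℂ :=
  sol (A x) (n * Real.pi) (gramC f x)

variable {ε c : ℝ} {f f' : Fin N → ℝ → EuclideanSpace ℂ (Fin m)}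
  {A : ℝ → Matrix (Fin N) (Fin N) ℂ}

lemma gramC_isHermitian (f : Fin N → ℝ → EuclideanSpace ℂ (Fin m)) (x : ℝ) :
    (gramC f x).IsHermitian := gramM_isHermitian _

lemma hasDerivAt_FF (hε : 0 < ε) (hA : Path ε c f A) (hc : ∀ j, Continuous (f j)) (n : ℤ) {x : ℝ}
    (hx : ∀ j, HasDerivAt (f j) (f' j x) x) :
    HasDerivAt (FF f A (n * Real.pi))
      (2 * (trace ((gramM (fun j => f' j x) (fun j => f j x) +
        gramM (fun j => f j x) (fun j => f' j x)) * ZZ f A x n)).re -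
        2 * (c * (trace (ZZ f A x n * ZZ f A x n * gramC f x)).re)) x := by
  have h := hasDerivAt_trace_sol (P' := gramM (fun j => f' j x) (fun j => f j x) +
        gramM (fun j => f j x) (fun j => f' j x)) (A' := (c : ℂ) • gramC f x) hε (shift_ok n)
        hA.spec (fun i j => by simpa using hA.hasDerivAt hc i j x)
        (fun i j => hasDerivAt_gramC (v := fun j => f' j x) hx i j)
  have e : (trace ((c : ℂ) • gramC f x * (ZZ f A x n * ZZ f A x n))).re =
      c * (trace (ZZ f A x n * ZZ f A x n * gramC f x)).re := by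
    rw [Matrix.smul_mul, trace_smul, trace_mul_comm (gramC f x), smul_eq_mul, Complex.re_ofReal_mul]
  rw [← e]
  exact h

lemma triF_eq (Z : ℤ → Matrix (Fin N) (Fin N) ℂ) (P : Matrix (Fin N) (Fin N) ℂ) (M : ℕ) :
    triF Z P M = ∑ n ∈ Finset.Icc (-(M : ℤ)) M, (trace (Z n * Z n * P)).re -
      (trace ((∑ n ∈ Finset.Icc (-(M : ℤ)) M, Z n) * (∑ n ∈ Finset.Icc (-(M : ℤ)) M, Z n) * P)).re := by
  rw [triF, sub_mul, trace_sub, Complex.sub_re, Finset.sum_mul, trace_sum, Complex.re_sum]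

lemma pointwise_ineq (hε : 0 < ε) (hA : Path ε c f A) (hc : ∀ j, Continuous (f j)) (M : ℕ) {x : ℝ}
    (hx : ∀ j, HasDerivAt (f j) (f' j x) x) :
    c / 2 * ∑ n ∈ Finset.Icc (-(M : ℤ)) M, deriv (FF f A (n * Real.pi)) x +
      c ^ 2 * triF (ZZ f A x) (gramC f x) M ≤ ∑ j, ‖f' j x‖ ^ 2 := by
  set S := Finset.Icc (-(M : ℤ)) M with hS
  set P' := gramM (fun j => f' j x) (fun j => f j x) +
        gramM (fun j => f j x) (fun j => f' j x) with hP'
  set Z := ZZ f A x with hZ
  have hZh : ∀ n, (Z n).IsHermitian := fun n =>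
    sol_isHermitian hε (hA.spec x) (shift_ok n) (gramC_isHermitian f x)
  have hQ : ((c : ℂ) • ∑ n ∈ S, Z n).IsHermitian := by
    unfold IsHermitian
    rw [conjTranspose_smul, conjTranspose_sum]
    simp [fun n => (hZh n).eq]
  have h1 := quad_nonneg (fun j => f j x) (fun j => f' j x) _ hQ
  rw [← hP'] at h1
  have hd : ∀ n ∈ S, deriv (FF f A (n * Real.pi)) x = 2 * (trace (P' * Z n)).re -
        2 * (c * (trace (Z n * Z n * gramC f x)).re) := fun n _ =>
    (hasDerivAt_FF hε hA hc n hx).deriv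
  rw [Finset.sum_congr rfl hd, triF_eq]
  have h2 : (trace (((c : ℂ) • ∑ n ∈ S, Z n) * P')).re = c * ∑ n ∈ S, (trace (P' * Z n)).re := by
    rw [Matrix.smul_mul, trace_smul, Finset.sum_mul, trace_sum, smul_eq_mul, Complex.re_ofReal_mul,
      Complex.re_sum]
    congr 1
    exact Finset.sum_congr rfl fun n _ => by rw [trace_mul_comm]
  have h3 : (trace (((c : ℂ) • ∑ n ∈ S, Z n) * ((c : ℂ) • ∑ n ∈ S, Z n) *
      gramM (fun j => f j x) (fun j => f j x))).re =
      c ^ 2 * (trace ((∑ n ∈ S, Z n) * (∑ n ∈ S, Z n) * gramC f x)).re := by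
    rw [Matrix.smul_mul, Matrix.mul_smul, Matrix.smul_mul, Matrix.smul_mul, smul_smul, trace_smul,
      ← Complex.ofReal_mul, smul_eq_mul, Complex.re_ofReal_mul, ← sq]
    rfl
  rw [h2, h3] at h1
  refine le_trans (le_of_eq ?_) h1
  rw [Finset.sum_sub_distrib, ← Finset.mul_sum, ← Finset.mul_sum, ← Finset.mul_sum]
  ring

lemma continuous_ZZ (hε : 0 < ε) (hA : Path ε c f A) (hc : ∀ j, Continuous (f j)) (n : ℤ) :
    Continuous fun x => ZZ f A x n := hA.continuous_sol hε hc (shift_ok n)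

lemma continuous_triF (hε : 0 < ε) (hA : Path ε c f A) (hc : ∀ j, Continuous (f j)) (M : ℕ) :
    Continuous fun x => triF (ZZ f A x) (gramC f x) M := by
  unfold triF
  refine continuous_trace_re.comp ?_
  have hP := continuous_gramC hc
  have hZ := continuous_ZZ hε hA hc
  refine Continuous.matrix_mul (Continuous.sub ?_ ?_) hP
  · exact continuous_finsetSum _ fun n _ => (hZ n).matrix_mul (hZ n)
  · exact (continuous_finsetSum _ fun n _ => hZ n).matrix_mul
      (continuous_finsetSum _ fun n _ => hZ n)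

lemma IsH1.integrable_sq {f f' : ℝ → EuclideanSpace ℂ (Fin m)} (h : IsH1 f f') :
    Integrable (fun x => ‖f x‖ ^ 2) volume := by
  have := h.memLp.integrable_norm_pow (by norm_num)
  simpa only using this

lemma IsH1.integrable_deriv_sq {f f' : ℝ → EuclideanSpace ℂ (Fin m)} (h : IsH1 f f') :
    Integrable (fun x => ‖f' x‖ ^ 2) volume := by
  have := h.memLp_deriv.integrable_norm_pow (by norm_num)
  simpa only using this

lemma interval_ineq (hε : 0 < ε) (hf : ∀ j, IsH1 (f j) (f' j)) (hA : Path ε c f A) (M : ℕ)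
    {a b : ℝ} (hab : a ≤ b) :
    c / 2 * ∑ n ∈ Finset.Icc (-(M : ℤ)) M, (FF f A (n * Real.pi) b - FF f A (n * Real.pi) a) +
      c ^ 2 * ∫ x in a..b, triF (ZZ f A x) (gramC f x) M ≤ ∑ j, ∫ x, ‖f' j x‖ ^ 2 := by
  have hc : ∀ j, Continuous (f j) := fun j => (hf j).continuous
  have hac := fun n : ℤ => FF_ac (f' := f') hε hf hA (shift_ok n) a b
  have hi1 : IntervalIntegrable (fun x => c / 2 * ∑ n ∈ Finset.Icc (-(M : ℤ)) M,
      deriv (FF f A (n * Real.pi)) x) volume a b := by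
    refine IntervalIntegrable.const_mul ?_ _
    have := IntervalIntegrable.sum (Finset.Icc (-(M : ℤ)) M)
      (f := fun n : ℤ => fun x => deriv (FF f A (n * Real.pi)) x)
      fun n _ => (hac n).intervalIntegrable_deriv
    refine this.congr fun t _ => ?_
    simp only [Finset.sum_apply]
  have hi2 : IntervalIntegrable (fun x => c ^ 2 * triF (ZZ f A x) (gramC f x) M) volume a b :=
    ((continuous_triF hε hA hc M).intervalIntegrable a b).const_mul _
  have hi3 : Integrable (fun x => ∑ j, ‖f' j x‖ ^ 2) volume :=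
    integrable_finsetSum _ fun j _ => (hf j).integrable_deriv_sq
  have key : ∫ x in a..b, (c / 2 * ∑ n ∈ Finset.Icc (-(M : ℤ)) M, deriv (FF f A (n * Real.pi)) x +
      c ^ 2 * triF (ZZ f A x) (gramC f x) M) ≤ ∫ x in a..b, ∑ j, ‖f' j x‖ ^ 2 := by
    refine intervalIntegral.integral_mono_ae hab (hi1.add hi2) hi3.intervalIntegrable ?_
    have hae : ∀ᵐ x, ∀ j, HasDerivAt (f j) (f' j x) x := ae_all_iff.2 fun j => (hf j).ae_hasDerivAt
    filter_upwards [hae] with x hx
    exact pointwise_ineq hε hA hc M hx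
  rw [intervalIntegral.integral_add hi1 hi2, intervalIntegral.integral_const_mul,
    intervalIntegral.integral_const_mul, intervalIntegral.integral_finsetSum
      (fun n _ => (hac n).intervalIntegrable_deriv)] at key
  rw [Finset.sum_congr rfl fun n _ => (hac n).integral_deriv_eq_sub] at key
  refine key.trans ?_
  rw [← integral_finsetSum _ fun j _ => (hf j).integrable_deriv_sq,
    intervalIntegral.integral_of_le hab]
  exact setIntegral_le_integral hi3 (Eventually.of_forall fun x =>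
    Finset.sum_nonneg fun _ _ => by (clear * -; positivity))

end Vale.Agent.P371
end
end

section

section

open Matrix Filter MeasureTheory Set
open scoped ComplexOrder Topology InnerProductSpace

namespace Vale.Agent.P371

variable {N m : ℕ}

/-- the density -/
noncomputable def rho (f : Fin N → ℝ → EuclideanSpace ℂ (Fin m)) (x : ℝ) : ℝ := ∑ j, ‖f j x‖ ^ 2

lemma rho_nonneg (f : Fin N → ℝ → EuclideanSpace ℂ (Fin m)) (x : ℝ) : 0 ≤ rho f x :=
  Finset.sum_nonneg fun _ _ => by positivity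

lemma trace_gramC (f : Fin N → ℝ → EuclideanSpace ℂ (Fin m)) (x : ℝ) :
    trace (gramC f x) = (rho f x : ℂ) := by
  simp only [trace, diag_apply, gramC, Matrix.of_apply, rho]
  push_cast
  refine Finset.sum_congr rfl fun j _ => ?_
  rw [inner_self_eq_norm_sq_to_K]
  rfl

lemma norm_sq_le_rho (f : Fin N → ℝ → EuclideanSpace ℂ (Fin m)) (x : ℝ) (j : Fin N) :
    ‖f j x‖ ^ 2 ≤ rho f x :=
  Finset.single_le_sum (f := fun j => ‖f j x‖ ^ 2) (fun _ _ => by positivity) (Finset.mem_univ j)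

lemma gramC_entry_le (f : Fin N → ℝ → EuclideanSpace ℂ (Fin m)) (x : ℝ) (i j : Fin N) :
    ‖gramC f x i j‖ ≤ rho f x := by
  have h1 := norm_inner_le_norm (𝕜 := ℂ) (f i x) (f j x)
  have h2 := norm_sq_le_rho f x i
  have h3 := norm_sq_le_rho f x j
  refine h1.trans ?_
  nlinarith only [h2, h3]

lemma fro_gramC_le (f : Fin N → ℝ → EuclideanSpace ℂ (Fin m)) (x : ℝ) :
    fro (gramC f x) ≤ rho f x ^ 2 := by
  unfold fro
  have h1 : ∀ i j, ‖gramC f x i j‖ ^ 2 ≤ ‖f i x‖ ^ 2 * ‖f j x‖ ^ 2 := fun i j => by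
    rw [← mul_pow]
    exact pow_le_pow_left₀ (norm_nonneg _) (norm_inner_le_norm (𝕜 := ℂ) (f i x) (f j x)) 2
  refine (Finset.sum_le_sum fun i _ => Finset.sum_le_sum fun j _ => h1 i j).trans ?_
  rw [sq, rho, Finset.sum_mul_sum]

variable {ε c : ℝ} {f f' : Fin N → ℝ → EuclideanSpace ℂ (Fin m)}
  {A : ℝ → Matrix (Fin N) (Fin N) ℂ}

lemma abs_FF_le (hε : 0 < ε) (hA : Path ε c f A) (n : ℤ) (x : ℝ) :
    |FF f A (n * Real.pi) x| ≤ (ε + 1 / (16 * ε ^ 3)) * rho f x ^ 2 := by
  have h1 := trace_mul_abs_le hε (gramC f x) (sol (A x) (n * Real.pi) (gramC f x))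
  rw [(gramC_isHermitian f x).eq] at h1
  have h2 := sol_bound hε (hA.spec x) (shift_ok n) (gramC f x)
  have h3 := fro_gramC_le f x
  have h4 : fro (sol (A x) (n * Real.pi) (gramC f x)) / (4 * ε) ≤
      (fro (gramC f x) / (4 * ε ^ 2)) / (4 * ε) := by gcongr
  have h5 : (fro (gramC f x) / (4 * ε ^ 2)) / (4 * ε) = 1 / (16 * ε ^ 3) * fro (gramC f x) := by
    field_simp
    ring
  have h6 : 0 ≤ 1 / (16 * ε ^ 3) := by positivity
  unfold FF
  calc _ ≤ ε * fro (gramC f x) + 1 / (16 * ε ^ 3) * fro (gramC f x) := by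
        rw [← h5]; linarith only [h1, h4]
    _ = (ε + 1 / (16 * ε ^ 3)) * fro (gramC f x) := by ring
    _ ≤ _ := mul_le_mul_of_nonneg_left h3 (by positivity)

lemma integrable_rho (hf : ∀ j, IsH1 (f j) (f' j)) : Integrable (rho f) volume :=
  integrable_finsetSum _ fun j _ => (hf j).integrable_sq

lemma continuous_rho (hc : ∀ j, Continuous (f j)) : Continuous (rho f) := by
  unfold rho
  fun_prop

lemma exists_large_small {g : ℝ → ℝ} (hg : Integrable g volume) {η : ℝ}
    (hη : 0 < η) (R : ℝ) : ∃ b, R ≤ b ∧ g b ≤ η := by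
  by_contra hcon
  push Not at hcon
  have h1 : IntegrableOn (fun _ : ℝ => η) (Ici R) volume := by
    refine Integrable.mono' (hg.integrableOn (s := Ici R)) aestronglyMeasurable_const ?_
    rw [ae_restrict_iff' measurableSet_Ici]
    refine Eventually.of_forall fun x hx => ?_
    rw [Real.norm_eq_abs, abs_of_pos hη]
    exact (hcon x hx).le
  rw [integrableOn_const_iff] at h1
  simp [hη.ne'] at h1

lemma exists_small_small {g : ℝ → ℝ} (hg : Integrable g volume) {η : ℝ}
    (hη : 0 < η) (R : ℝ) : ∃ a, a ≤ -R ∧ g a ≤ η := by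
  obtain ⟨b, hb, hb'⟩ := exists_large_small hg.comp_neg hη R
  exact ⟨-b, by linarith only [hb], hb'⟩

lemma tendsto_rho_atTop (hf : ∀ j, IsH1 (f j) (f' j)) :
    ∃ b : ℕ → ℝ, Tendsto b atTop atTop ∧ Tendsto (fun k => rho f (b k)) atTop (𝓝 0) := by
  choose b hb1 hb2 using fun k : ℕ => exists_large_small (integrable_rho hf)
    (η := 1 / ((k : ℝ) + 1)) (by positivity) k
  exact ⟨b, tendsto_atTop_mono hb1 tendsto_natCast_atTop_atTop,
    squeeze_zero (fun k => rho_nonneg f _) hb2 tendsto_one_div_add_atTop_nhds_zero_nat⟩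

lemma tendsto_rho_atBot (hf : ∀ j, IsH1 (f j) (f' j)) :
    ∃ b : ℕ → ℝ, Tendsto b atTop atBot ∧ Tendsto (fun k => rho f (b k)) atTop (𝓝 0) := by
  choose b hb1 hb2 using fun k : ℕ => exists_small_small (integrable_rho hf)
    (η := 1 / ((k : ℝ) + 1)) (by positivity) k
  exact ⟨b, tendsto_atBot_mono hb1 (tendsto_neg_atTop_atBot.comp tendsto_natCast_atTop_atTop),
    squeeze_zero (fun k => rho_nonneg f _) hb2 tendsto_one_div_add_atTop_nhds_zero_nat⟩

/-- the finite `M` inequality on the whole line -/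
theorem kinetic_trunc (hε : 0 < ε) (hf : ∀ j, IsH1 (f j) (f' j)) (hA : Path ε c f A) (M : ℕ)
    (hint : Integrable (fun x => triF (ZZ f A x) (gramC f x) M) volume) :
    c ^ 2 * ∫ x, triF (ZZ f A x) (gramC f x) M ≤ ∑ j, ∫ x, ‖f' j x‖ ^ 2 := by
  obtain ⟨b, hb1, hb2⟩ := tendsto_rho_atTop hf
  obtain ⟨a, ha1, ha2⟩ := tendsto_rho_atBot hf
  have hlim := intervalIntegral_tendsto_integral hint ha1 hb1
  have hFb : ∀ n : ℤ, Tendsto (fun k => FF f A (n * Real.pi) (b k)) atTop (𝓝 0) := fun n => by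
    refine squeeze_zero_norm (fun k => ?_)
      (a := fun k => (ε + 1 / (16 * ε ^ 3)) * rho f (b k) ^ 2) ?_
    · exact abs_FF_le hε hA n (b k)
    · have := (hb2.pow 2).const_mul (ε + 1 / (16 * ε ^ 3))
      rwa [zero_pow two_ne_zero, mul_zero] at this
  have hFa : ∀ n : ℤ, Tendsto (fun k => FF f A (n * Real.pi) (a k)) atTop (𝓝 0) := fun n => by
    refine squeeze_zero_norm (fun k => ?_)
      (a := fun k => (ε + 1 / (16 * ε ^ 3)) * rho f (a k) ^ 2) ?_
    · exact abs_FF_le hε hA n (a k)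
    · have := (ha2.pow 2).const_mul (ε + 1 / (16 * ε ^ 3))
      rwa [zero_pow two_ne_zero, mul_zero] at this
  have hsum : Tendsto (fun k => c / 2 * ∑ n ∈ Finset.Icc (-(M : ℤ)) M,
      (FF f A (n * Real.pi) (b k) - FF f A (n * Real.pi) (a k)) +
      c ^ 2 * ∫ x in (a k)..(b k), triF (ZZ f A x) (gramC f x) M) atTop
      (𝓝 (c / 2 * ∑ n ∈ Finset.Icc (-(M : ℤ)) M, ((0 : ℝ) - 0) +
        c ^ 2 * ∫ x, triF (ZZ f A x) (gramC f x) M)) := by
    refine Tendsto.add (Tendsto.const_mul _ (tendsto_finsetSum _ fun n _ => (hFb n).sub (hFa n)))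
      (hlim.const_mul _)
  simp only [sub_zero, Finset.sum_const_zero, mul_zero, zero_add] at hsum
  have hev : ∀ᶠ k in atTop, a k ≤ b k := by
    filter_upwards [ha1.eventually_le_atBot 0, hb1.eventually_ge_atTop 0] with k h1 h2
    exact h1.trans h2
  refine le_of_tendsto hsum ?_
  filter_upwards [hev] with k hk
  exact interval_ineq hε hf hA M hk

lemma ZZ_isSyl (hε : 0 < ε) (hA : Path ε c f A) (x : ℝ) (n : ℤ) :
    IsSyl (A x) (gramC f x) n (ZZ f A x n) := by
  have h := syl_sol hε (hA.spec x) (shift_ok n) (gramC f x)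
  unfold IsSyl
  rw [← h]
  unfold ZZ
  rw [h]
  set Z := sol (A x) (n * Real.pi) (gramC f x) with hZ
  rw [← h, syl]
  simp only [add_mul, mul_add, Matrix.smul_mul, Matrix.mul_smul, Matrix.one_mul, Matrix.mul_one]
  have : ((n * Real.pi : ℝ) : ℂ) • Z = (((n : ℝ) * (Real.pi / 2) : ℝ) : ℂ) • Z +
      (((n : ℝ) * (Real.pi / 2) : ℝ) : ℂ) • Z := by
    rw [← add_smul]
    congr 1
    push_cast
    ring
  rw [this]
  abel

end Vale.Agent.P371
end
end

section

section

open Matrix Filter MeasureTheory Set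
open scoped ComplexOrder Topology InnerProductSpace

namespace Vale.Agent.P371

variable {N m : ℕ}

lemma Spec.le_eigenvalues {ε : ℝ} {A : Matrix (Fin N) (Fin N) ℂ} (h : Spec ε A)
    (hA : A.IsHermitian) (i : Fin N) : ε ≤ hA.eigenvalues i := by
  have h1 := h.lo.dotProduct_mulVec_nonneg (hA.eigenvectorBasis i)
  rw [sub_mulVec, dotProduct_sub, smul_mulVec, one_mulVec, dotProduct_smul,
    hA.mulVec_eigenvectorBasis, dotProduct_smul] at h1
  have h2 : star (⇑(hA.eigenvectorBasis i)) ⬝ᵥ (⇑(hA.eigenvectorBasis i)) = (1 : ℂ) := by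
    have := hA.eigenvectorBasis.orthonormal.1 i
    have h3 : inner ℂ (hA.eigenvectorBasis i) (hA.eigenvectorBasis i) = (1 : ℂ) := by
      rw [inner_self_eq_norm_sq_to_K, this]; simp
    rw [EuclideanSpace.inner_eq_star_dotProduct] at h3
    rw [dotProduct_comm]
    exact h3
  rw [h2] at h1
  have h3 := (Complex.nonneg_iff.1 h1).1
  simp only [Complex.real_smul, mul_one, smul_eq_mul, Complex.sub_re, Complex.ofReal_re, sub_nonneg] at h3
  linarith

lemma Spec.eigenvalues_le {ε : ℝ} {A : Matrix (Fin N) (Fin N) ℂ} (h : Spec ε A)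
    (hA : A.IsHermitian) (i : Fin N) : hA.eigenvalues i ≤ Real.pi / 2 - ε := by
  have h1 := h.hi.dotProduct_mulVec_nonneg (hA.eigenvectorBasis i)
  rw [sub_mulVec, dotProduct_sub, smul_mulVec, one_mulVec, dotProduct_smul,
    hA.mulVec_eigenvectorBasis, dotProduct_smul] at h1
  have h2 : star (⇑(hA.eigenvectorBasis i)) ⬝ᵥ (⇑(hA.eigenvectorBasis i)) = (1 : ℂ) := by
    have := hA.eigenvectorBasis.orthonormal.1 i
    have h3 : inner ℂ (hA.eigenvectorBasis i) (hA.eigenvectorBasis i) = (1 : ℂ) := by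
      rw [inner_self_eq_norm_sq_to_K, this]; simp
    rw [EuclideanSpace.inner_eq_star_dotProduct] at h3
    rw [dotProduct_comm]
    exact h3
  rw [h2] at h1
  have h3 := (Complex.nonneg_iff.1 h1).1
  simp only [Complex.ofReal_sub, Complex.ofReal_div, Complex.ofReal_ofNat, smul_eq_mul, mul_one, Complex.real_smul, Complex.sub_re, Complex.div_ofNat_re, Complex.ofReal_re, sub_nonneg] at h3
  linarith only [h3]

/-- Gram matrix over a set -/
noncomputable def GG (f : Fin N → ℝ → EuclideanSpace ℂ (Fin m)) (s : Set ℝ) :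
    Matrix (Fin N) (Fin N) ℂ := Matrix.of fun i j => ∫ t in s, inner ℂ (f i t) (f j t)

lemma GG_posSemidef {f : Fin N → ℝ → EuclideanSpace ℂ (Fin m)} (hf : ∀ j, MemLp (f j) 2 volume)
    (s : Set ℝ) : (GG f s).PosSemidef := by
  have hi : ∀ i j, Integrable (fun t => inner ℂ (f i t) (f j t)) (volume.restrict s) := fun i j =>
    (integrable_inner_of_memLp (hf i) (hf j)).restrict
  refine .of_dotProduct_mulVec_nonneg ?_ fun v => ?_
  · ext i j
    simp only [GG, conjTranspose_apply, Matrix.of_apply, RCLike.star_def]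
    rw [← integral_conj]
    simp only [inner_conj_symm]
  · have h1 : star v ⬝ᵥ GG f s *ᵥ v = ∫ t in s, ((‖∑ i, v i • f i t‖ ^ 2 : ℝ) : ℂ) := by
      have h2 : ∀ t, ((‖∑ i, v i • f i t‖ ^ 2 : ℝ) : ℂ) =
          ∑ i, ∑ j, star (v i) * (v j * inner ℂ (f i t) (f j t)) := by
        intro t
        have : ((‖∑ i, v i • f i t‖ ^ 2 : ℝ) : ℂ) =
            inner ℂ (∑ i, v i • f i t) (∑ i, v i • f i t) := by
          rw [inner_self_eq_norm_sq_to_K]; push_cast; rfl
        rw [this, sum_inner]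
        refine Finset.sum_congr rfl fun i _ => ?_
        rw [inner_sum]
        refine Finset.sum_congr rfl fun j _ => ?_
        rw [inner_smul_left, inner_smul_right]
        rfl
      simp_rw [h2]
      rw [integral_finsetSum _ fun i _ => integrable_finsetSum _ fun j _ =>
        ((hi i j).const_mul _).const_mul _]
      rw [dotProduct]
      refine Finset.sum_congr rfl fun i _ => ?_
      rw [integral_finsetSum _ fun j _ => ((hi i j).const_mul _).const_mul _]
      rw [mulVec, dotProduct, Finset.mul_sum]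
      refine Finset.sum_congr rfl fun j _ => ?_
      rw [integral_const_mul, integral_const_mul]
      simp only [GG, Matrix.of_apply, Pi.star_apply]
      ring
    rw [h1, integral_complex_ofReal]
    rw [Complex.nonneg_iff]
    refine ⟨?_, by simp only [Complex.ofReal_im]⟩
    rw [Complex.ofReal_re]
    exact integral_nonneg fun t => by positivity

lemma GG_add {f : Fin N → ℝ → EuclideanSpace ℂ (Fin m)} (hf : ∀ j, MemLp (f j) 2 volume)
    (ho : ∀ i j, ∫ x, inner ℂ (f i x) (f j x) = if i = j then (1 : ℂ) else 0) (x : ℝ) :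
    GG f (Iic x) + GG f (Ioi x) = 1 := by
  ext i j
  simp only [GG, Matrix.add_apply, Matrix.of_apply]
  have hi := integrable_inner_of_memLp (hf i) (hf j)
  have := integral_add_compl (measurableSet_Iic (a := x)) hi
  rw [compl_Iic, ho i j] at this
  rw [this, Matrix.one_apply]

lemma path_exists {ε : ℝ} (hε2 : 2 * ε < Real.pi / 2)
    {f f' : Fin N → ℝ → EuclideanSpace ℂ (Fin m)} (hf : ∀ j, IsH1 (f j) (f' j))
    (ho : ∀ i j, ∫ x, inner ℂ (f i x) (f j x) = if i = j then (1 : ℂ) else 0) :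
    Path ε (Real.pi / 2 - 2 * ε) f (fun x => (ε : ℂ) • (1 : Matrix (Fin N) (Fin N) ℂ) +
      ((Real.pi / 2 - 2 * ε : ℝ) : ℂ) • GG f (Iic x)) := by
  have hm := fun j => (hf j).memLp
  have hc0 : (0 : ℂ) ≤ ((Real.pi / 2 - 2 * ε : ℝ) : ℂ) := by
    rw [Complex.zero_le_real]; linarith
  refine ⟨fun x => ⟨?_, ?_⟩, fun i j a b => ?_⟩
  · have := (GG_posSemidef hm (Iic x)).smul hc0
    simpa only [Complex.coe_smul, Complex.ofReal_sub, Complex.ofReal_div, Complex.ofReal_ofNat,     Complex.ofReal_mul, add_sub_cancel_left] using this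
  · have h1 := (GG_posSemidef hm (Ioi x)).smul hc0
    have h2 : GG f (Ioi x) = 1 - GG f (Iic x) := by
      rw [← GG_add hm ho x]; abel
    rw [h2] at h1
    convert h1 using 1
    rw [smul_sub, ← sub_sub, ← sub_smul]
    congr 2
    push_cast
    ring
  · simp only [Matrix.add_apply, Matrix.smul_apply, smul_eq_mul, GG, Matrix.of_apply]
    have hi := integrable_inner_of_memLp (hm i) (hm j)
    have h3 := intervalIntegral.integral_Iic_sub_Iic (hi.integrableOn (s := Iic a))
      (hi.integrableOn (s := Iic b))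
    have h4 : ∫ x in a..b, gramC f x i j = ∫ x in a..b, inner ℂ (f i x) (f j x) := rfl
    rw [h4, ← h3]
    ring

/-- hypothesis on the trilinear form, to be proved separately -/
def TriHyp (N : ℕ) : Prop :=
  (∀ {A P : Matrix (Fin N) (Fin N) ℂ} (hA : A.IsHermitian)
    (_ : ∀ i, 0 < hA.eigenvalues i) (_ : ∀ i, hA.eigenvalues i < Real.pi / 2)
    (_ : P.PosSemidef) (Z : ℤ → Matrix (Fin N) (Fin N) ℂ) (_ : ∀ n, IsSyl A P n (Z n)),
    ∃ L : ℝ, Tendsto (fun M : ℕ => triF Z P M) atTop (𝓝 L) ∧ (P * P * P).trace.re ≤ L) ∧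
  (∀ {ε : ℝ} (_ : 0 < ε), ∃ C : ℝ, ∀ (A P : Matrix (Fin N) (Fin N) ℂ)
    (hA : A.IsHermitian) (_ : ∀ i, ε ≤ hA.eigenvalues i)
    (_ : ∀ i, hA.eigenvalues i ≤ Real.pi / 2 - ε)
    (_ : P.PosSemidef) (Z : ℤ → Matrix (Fin N) (Fin N) ℂ) (_ : ∀ n, IsSyl A P n (Z n)) (M : ℕ),
    |triF Z P M| ≤ C * P.trace.re ^ 3)

lemma gramC_posSemidef (f : Fin N → ℝ → EuclideanSpace ℂ (Fin m)) (x : ℝ) :
    (gramC f x).PosSemidef := posSemidef_gram ℂ (fun i => f i x)

lemma IsH1.bounded {f f' : ℝ → EuclideanSpace ℂ (Fin m)} (hf : IsH1 f f') :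
    ∃ R : ℝ, ∀ x, ‖f x‖ ≤ R := by
  have hc := hf.continuous
  set I0 := ∫ x, ‖f x‖ ^ 2 with hI0
  set I1 := ∫ x, ‖f' x‖ ^ 2 with hI1
  refine ⟨√I0 + (1 / 2) * (1 + I1), fun x => ?_⟩
  obtain ⟨y, hy, hmin⟩ := isCompact_Icc.exists_isMinOn (s := Icc x (x + 1))
    ⟨x, by constructor <;> linarith⟩ (hc.norm.pow 2).continuousOn
  have h1 : ‖f y‖ ^ 2 ≤ I0 := by
    have e1 : ‖f y‖ ^ 2 = ∫ _ in x..(x + 1), ‖f y‖ ^ 2 := by simp
    rw [e1]
    refine (intervalIntegral.integral_mono_on (by linarith) intervalIntegrable_const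
      ((hc.norm.pow 2).intervalIntegrable _ _) fun t ht => hmin ht).trans ?_
    rw [intervalIntegral.integral_of_le (by linarith)]
    exact setIntegral_le_integral hf.integrable_sq (Eventually.of_forall fun t => sq_nonneg _)
  have h2 : ‖f y‖ ≤ √I0 := Real.le_sqrt_of_sq_le h1
  have h3 : ‖f x - f y‖ ≤ (1 / 2) * (1 + I1) := by
    rw [norm_sub_rev, hf.ftc x y]
    have hxy : x ≤ y := hy.1
    refine (intervalIntegral.norm_integral_le_integral_norm hxy).trans ?_
    have h4 : ∫ t in x..y, ‖f' t‖ ≤ ∫ t in x..y, (1 / 2) * (1 + ‖f' t‖ ^ 2) := by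
      refine intervalIntegral.integral_mono_on hxy (hf.intervalIntegrable _ _).norm ?_ fun t _ => ?_
      · exact (intervalIntegrable_const.add hf.integrable_deriv_sq.intervalIntegrable).const_mul _
      · nlinarith only [sq_nonneg (1 - ‖f' t‖)]
    refine h4.trans ?_
    rw [intervalIntegral.integral_const_mul, intervalIntegral.integral_add intervalIntegrable_const
      hf.integrable_deriv_sq.intervalIntegrable]
    refine mul_le_mul_of_nonneg_left ?_ (by norm_num)
    refine add_le_add ?_ ?_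
    · simp only [intervalIntegral.integral_const, smul_eq_mul, mul_one]
      linarith only [hy.2]
    · rw [intervalIntegral.integral_of_le hxy]
      exact setIntegral_le_integral hf.integrable_deriv_sq (Eventually.of_forall fun t => sq_nonneg _)
  calc ‖f x‖ = ‖f y + (f x - f y)‖ := by congr 1; abel
    _ ≤ ‖f y‖ + ‖f x - f y‖ := norm_add_le _ _
    _ ≤ _ := add_le_add h2 h3

lemma rho_bounded {f f' : Fin N → ℝ → EuclideanSpace ℂ (Fin m)} (hf : ∀ j, IsH1 (f j) (f' j)) :
    ∃ R : ℝ, 0 ≤ R ∧ ∀ x, rho f x ≤ R := by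
  choose R hR using fun j => (hf j).bounded
  refine ⟨∑ j, R j ^ 2, Finset.sum_nonneg fun _ _ => by positivity, fun x => ?_⟩
  exact Finset.sum_le_sum fun j _ => pow_le_pow_left₀ (norm_nonneg _) (hR j x) 2

lemma abs_trace_cube_le (f : Fin N → ℝ → EuclideanSpace ℂ (Fin m)) (x : ℝ) :
    |(gramC f x * gramC f x * gramC f x).trace.re| ≤ (N : ℝ) ^ 3 * rho f x ^ 3 := by
  have h1 := mul_entry_le (rho_nonneg f x) (gramC_entry_le f x) (gramC_entry_le f x)
  have h2 := abs_trace_mul_le (by have := rho_nonneg f x; positivity) h1 (gramC_entry_le f x)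
  refine h2.trans (le_of_eq ?_)
  ring

lemma continuous_trace_cube {f : Fin N → ℝ → EuclideanSpace ℂ (Fin m)}
    (hc : ∀ j, Continuous (f j)) :
    Continuous fun x => (gramC f x * gramC f x * gramC f x).trace.re := by
  have hP := continuous_gramC hc
  exact continuous_trace_re.comp ((hP.matrix_mul hP).matrix_mul hP)

lemma integrable_rho_cube {f f' : Fin N → ℝ → EuclideanSpace ℂ (Fin m)}
    (hf : ∀ j, IsH1 (f j) (f' j)) : Integrable (fun x => rho f x ^ 3) volume := by
  obtain ⟨R, hR0, hR⟩ := rho_bounded hf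
  have hc : ∀ j, Continuous (f j) := fun j => (hf j).continuous
  refine ((integrable_rho hf).const_mul (R ^ 2)).mono
    ((continuous_rho hc).pow 3).aestronglyMeasurable (Eventually.of_forall fun x => ?_)
  have h0 := rho_nonneg f x
  rw [Real.norm_eq_abs, Real.norm_eq_abs, abs_of_nonneg (by positivity), abs_of_nonneg (by positivity)]
  have : rho f x ^ 2 ≤ R ^ 2 := pow_le_pow_left₀ h0 (hR x) 2
  nlinarith

lemma integrable_trace_cube {f f' : Fin N → ℝ → EuclideanSpace ℂ (Fin m)}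
    (hf : ∀ j, IsH1 (f j) (f' j)) :
    Integrable (fun x => (gramC f x * gramC f x * gramC f x).trace.re) volume := by
  have hc : ∀ j, Continuous (f j) := fun j => (hf j).continuous
  refine ((integrable_rho_cube hf).const_mul ((N : ℝ) ^ 3)).mono
    (continuous_trace_cube hc).aestronglyMeasurable (Eventually.of_forall fun x => ?_)
  have h0 := rho_nonneg f x
  rw [Real.norm_eq_abs, Real.norm_eq_abs]
  exact (abs_trace_cube_le f x).trans (le_abs_self _)

theorem kinetic_eps (h : TriHyp N) {ε : ℝ} (hε : 0 < ε) (hε2 : 2 * ε < Real.pi / 2)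
    {f f' : Fin N → ℝ → EuclideanSpace ℂ (Fin m)} (hf : ∀ j, IsH1 (f j) (f' j))
    (ho : ∀ i j, ∫ x, inner ℂ (f i x) (f j x) = if i = j then (1 : ℂ) else 0) :
    (Real.pi / 2 - 2 * ε) ^ 2 * ∫ x, (gramC f x * gramC f x * gramC f x).trace.re ≤
      ∑ j, ∫ x, ‖f' j x‖ ^ 2 := by
  have hc : ∀ j, Continuous (f j) := fun j => (hf j).continuous
  set A : ℝ → Matrix (Fin N) (Fin N) ℂ := fun x => (ε : ℂ) • (1 : Matrix (Fin N) (Fin N) ℂ) +
      ((Real.pi / 2 - 2 * ε : ℝ) : ℂ) • GG f (Iic x) with hA'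
  have hA : Path ε (Real.pi / 2 - 2 * ε) f A := path_exists hε2 hf ho
  obtain ⟨C, hC⟩ := h.2 hε
  have hlim : ∀ x, ∃ L : ℝ, Tendsto (fun M : ℕ => triF (ZZ f A x) (gramC f x) M) atTop (𝓝 L) ∧
      (gramC f x * gramC f x * gramC f x).trace.re ≤ L := fun x =>
    h.1 (hA.spec x).isHermitian
      (fun i => hε.trans_le ((hA.spec x).le_eigenvalues _ i))
      (fun i => ((hA.spec x).eigenvalues_le _ i).trans_lt (by linarith only [hε]))
      (gramC_posSemidef f x) _ (ZZ_isSyl hε hA x)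
  choose L hL1 hL2 using hlim
  have hbd : ∀ (M : ℕ) (x : ℝ), |triF (ZZ f A x) (gramC f x) M| ≤ |C| * rho f x ^ 3 := fun M x => by
    have h1 := hC (A x) (gramC f x) (hA.spec x).isHermitian
      (fun i => (hA.spec x).le_eigenvalues _ i)
      (fun i => (hA.spec x).eigenvalues_le _ i) (gramC_posSemidef f x) _ (ZZ_isSyl hε hA x) M
    rw [trace_gramC, Complex.ofReal_re] at h1
    refine h1.trans ?_
    have := rho_nonneg f x
    exact mul_le_mul_of_nonneg_right (le_abs_self C) (by (clear * - this; positivity))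
  have hmeas : ∀ M : ℕ, AEStronglyMeasurable (fun x => triF (ZZ f A x) (gramC f x) M) volume :=
    fun M => (continuous_triF hε hA hc M).aestronglyMeasurable
  have hbi : Integrable (fun x => |C| * rho f x ^ 3) volume := (integrable_rho_cube hf).const_mul _
  have hint : ∀ M : ℕ, Integrable (fun x => triF (ZZ f A x) (gramC f x) M) volume := fun M =>
    hbi.mono (hmeas M) (Eventually.of_forall fun x => by
      rw [Real.norm_eq_abs, Real.norm_eq_abs]
      exact (hbd M x).trans (le_abs_self _))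
  have hdct := tendsto_integral_of_dominated_convergence (F := fun (M : ℕ) x =>
    triF (ZZ f A x) (gramC f x) M) (f := L) _ hmeas hbi
    (fun M => Eventually.of_forall fun x => hbd M x) (Eventually.of_forall hL1)
  have hLmeas : AEStronglyMeasurable L volume :=
    aestronglyMeasurable_of_tendsto_ae atTop hmeas (Eventually.of_forall hL1)
  have hLb : ∀ x, |L x| ≤ |C| * rho f x ^ 3 := fun x =>
    le_of_tendsto (hL1 x).abs (Eventually.of_forall fun M => hbd M x)
  have hLint : Integrable L volume :=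
    hbi.mono hLmeas (Eventually.of_forall fun x => by
      rw [Real.norm_eq_abs, Real.norm_eq_abs]
      exact (hLb x).trans (le_abs_self _))
  have h1 : (Real.pi / 2 - 2 * ε) ^ 2 * ∫ x, L x ≤ ∑ j, ∫ x, ‖f' j x‖ ^ 2 :=
    le_of_tendsto (hdct.const_mul _) (Eventually.of_forall fun M =>
      kinetic_trunc hε hf hA M (hint M))
  refine le_trans (mul_le_mul_of_nonneg_left ?_ (sq_nonneg _)) h1
  exact integral_mono (integrable_trace_cube hf) hLint hL2

/-- T2c, given the two facts on the trilinear form. -/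
theorem kinetic_of_triHyp (h : TriHyp N)
    {f f' : Fin N → ℝ → EuclideanSpace ℂ (Fin m)} (hf : ∀ j, IsH1 (f j) (f' j))
    (ho : ∀ i j, ∫ x, inner ℂ (f i x) (f j x) = if i = j then (1 : ℂ) else 0) :
    (Real.pi ^ 2 / 4) * ∫ x, (gramC f x * gramC f x * gramC f x).trace.re ≤
      ∑ j, ∫ x, ‖f' j x‖ ^ 2 := by
  have hcont : Continuous fun ε : ℝ => (Real.pi / 2 - 2 * ε) ^ 2 *
      ∫ x, (gramC f x * gramC f x * gramC f x).trace.re := by fun_prop
  have h1 : Tendsto (fun ε : ℝ => (Real.pi / 2 - 2 * ε) ^ 2 *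
      ∫ x, (gramC f x * gramC f x * gramC f x).trace.re) (𝓝[>] 0)
      (𝓝 ((Real.pi / 2 - 2 * 0) ^ 2 * ∫ x, (gramC f x * gramC f x * gramC f x).trace.re)) :=
    (hcont.tendsto 0).mono_left nhdsWithin_le_nhds
  have h2 : (Real.pi ^ 2 / 4) * ∫ x, (gramC f x * gramC f x * gramC f x).trace.re =
      (Real.pi / 2 - 2 * 0) ^ 2 * ∫ x, (gramC f x * gramC f x * gramC f x).trace.re := by ring
  rw [h2]
  refine le_of_tendsto h1 ?_
  have h3 : Ioo (0 : ℝ) (Real.pi / 4) ∈ 𝓝[>] (0 : ℝ) := Ioo_mem_nhdsGT (by positivity)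
  filter_upwards [h3] with ε hε
  exact kinetic_eps h hε.1 (by linarith only [hε.2]) hf ho

end Vale.Agent.P371
end
end

section

section

/-!
Assembly of the sharp one-dimensional Lieb-Thirring inequality for `γ = 1`.
-/

namespace Vale.Agent.P371

open MeasureTheory Filter Topology
open scoped ENNReal ComplexOrder Real

theorem triHyp (N : ℕ) : TriHyp N :=
  ⟨fun hA h0 h1 hP Z hZ => trilinear_limit hA h0 h1 hP Z hZ, fun hε => trilinear_bound N hε⟩

/-- The sharp kinetic inequality for orthonormal systems in `H^1(ℝ; ℂ^m)`. -/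
theorem kinetic_inequality {N m : ℕ}
    (f f' : Fin N → ℝ → EuclideanSpace ℂ (Fin m)) (hf : ∀ j, IsH1 (f j) (f' j))
    (ho : ∀ i j, ∫ x, inner ℂ (f i x) (f j x) = if i = j then (1 : ℂ) else 0) :
    (π ^ 2 / 4) * ∫ x, (gramC f x * gramC f x * gramC f x).trace.re ≤ ∑ j, ∫ x, ‖f' j x‖ ^ 2 :=
  kinetic_of_triHyp (triHyp N) hf ho

theorem rieszMean_le {m : ℕ} (W : ℝ → Matrix (Fin m) (Fin m) ℂ) (hW : IsPotential (1 + 1 / 2) W) :
    rieszMean 1 W ≤ ENNReal.ofReal (4 / (3 * √3 * π) * ∫ x, trPow (1 + 1 / 2) (W x)) :=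
  rieszMean_le_of_kinetic (fun _ f f' hf ho => kinetic_inequality f f' hf ho) W hW

theorem trPow_nonneg {m : ℕ} {p : ℝ} {W : Matrix (Fin m) (Fin m) ℂ} (hW : W.PosSemidef) :
    0 ≤ trPow p W := by
  rw [trPow, dif_pos hW.isHermitian]
  exact Finset.sum_nonneg fun i _ => Real.rpow_nonneg (hW.eigenvalues_nonneg i) _

theorem LTconst_one_le (m : ℕ) : LTconst 1 m ≤ ENNReal.ofReal (4 / (3 * √3 * π)) := by
  unfold LTconst
  refine iSup_le fun W => iSup_le fun hW => iSup_le fun h0 => ?_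
  have hnn : 0 ≤ ∫ x, trPow (1 + 1 / 2) (W x) := integral_nonneg fun x => trPow_nonneg (hW.posSemidef x)
  have hpos : 0 < ∫ x, trPow (1 + 1 / 2) (W x) := lt_of_le_of_ne hnn (Ne.symm h0)
  rw [ENNReal.div_le_iff (by simpa only [one_div, ne_eq, ENNReal.ofReal_eq_zero, not_le] using hpos) ENNReal.ofReal_ne_top,
    ← ENNReal.ofReal_mul (by positivity)]
  exact rieszMean_le W hW

theorem value_one :
    2 * ((1 - 1 / 2) / (1 + 1 / 2)) ^ ((1 : ℝ) - 1 / 2) * Lcl 1 = 4 / (3 * √3 * π) := by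
  have h1 : ((1 - 1 / 2) / (1 + 1 / 2) : ℝ) ^ ((1 : ℝ) - 1 / 2) = 1 / √3 := by
    rw [show ((1 - 1 / 2) / (1 + 1 / 2) : ℝ) = 1 / 3 by norm_num,
      show ((1 : ℝ) - 1 / 2) = 1 / 2 by norm_num, ← Real.sqrt_eq_rpow, Real.sqrt_div zero_le_one,
      Real.sqrt_one]
  have h2 : Lcl 1 = 2 / (3 * π) := by
    unfold Lcl
    have e1 : Real.Gamma (1 + 1) = 1 := by
      rw [show (1 + 1 : ℝ) = 2 by norm_num, Real.Gamma_two]
    have e2 : Real.Gamma (1 + 3 / 2) = 3 / 4 * √π := by
      rw [show (1 + 3 / 2 : ℝ) = (3 / 2) + 1 by norm_num, Real.Gamma_add_one (by norm_num),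
        show (3 / 2 : ℝ) = 1 / 2 + 1 by norm_num, Real.Gamma_add_one (by norm_num),
        Real.Gamma_one_half_eq]
      ring
    rw [e1, e2]
    have hs : √π * √π = π := Real.mul_self_sqrt Real.pi_pos.le
    have hp : 0 < √π := Real.sqrt_pos.mpr Real.pi_pos
    rw [div_eq_div_iff (by positivity) (by positivity)]
    nlinarith only [hs]
  rw [h1, h2]
  have h3 : 0 < √3 := by positivity
  have h4 : 0 < π := Real.pi_pos
  field_simp
  norm_num

theorem LTconst_one_eq (m : ℕ) (hm : 1 ≤ m) :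
    LTconst 1 m = LTone 1 ∧
    LTone 1 = ENNReal.ofReal (2 * ((1 - 1 / 2) / (1 + 1 / 2)) ^ ((1 : ℝ) - 1 / 2) * Lcl 1) := by
  have h1 : LTone 1 ≤ LTconst 1 m := LTone_le_LTconst (by norm_num) hm
  have h2 := LTone_ge (γ := 1) (by norm_num)
  have h3 := LTconst_one_le m
  rw [← value_one] at h3
  exact ⟨le_antisymm (h3.trans h2) h1, le_antisymm (h1.trans h3) h2⟩

end Vale.Agent.P371
end
end

section

section

/-!
The outer squares `∫_a^∞ |u' + K u|² ≥ 0`, `∫_{-∞}^{-a} |u' - K u|² ≥ 0` and the test inequality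
on the whole line.
-/

namespace Vale.Agent.P371.G

open MeasureTheory Filter Topology Set Matrix
open scoped ComplexOrder

variable {N : ℕ} {u u' v v' : ℝ → EuclideanSpace ℂ (Fin N)}

theorem inner_ac (hu : IsH1 u u') (hv : IsH1 v v') (a b : ℝ) :
    AbsolutelyContinuousOnInterval (fun x => (inner ℂ (u x) (v x) : ℂ).re) a b := by
  obtain ⟨B, hB⟩ := hu.bounded_self
  obtain ⟨C, hC⟩ := hv.bounded_self
  have hB0 : 0 ≤ B := (norm_nonneg _).trans (hB 0)
  have hC0 : 0 ≤ C := (norm_nonneg _).trans (hC 0)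
  set g : ℝ → ℝ := fun t => ‖u' t‖ + ‖v' t‖ with hg
  have hgi : ∀ a b, IntervalIntegrable g volume a b := fun a b =>
    (hu.intervalIntegrable a b).norm.add (hv.intervalIntegrable a b).norm
  set H : ℝ → ℝ := fun x => ∫ t in a..x, g t with hH
  have hHac : AbsolutelyContinuousOnInterval H a b :=
    (hgi a b).absolutelyContinuousOnInterval_intervalIntegral (by simp only [left_mem_uIcc])
  have hHsub : ∀ x y, H x - H y = ∫ t in y..x, g t := fun x y => by
    simp only [hH]
    rw [intervalIntegral.integral_interval_sub_left (hgi _ _) (hgi _ _)]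
  refine ac_of_dist_le (K := B + C) hHac ?_
  intro x _ y _
  rw [hHsub]
  have hud : ‖u x - u y‖ ≤ |∫ t in y..x, g t| := by
    rw [hu.ftc y x]
    exact intervalIntegral.norm_integral_le_abs_of_norm_le
      (Eventually.of_forall fun t => by simp only [hg]; linarith [norm_nonneg (v' t)]) (hgi _ _)
  have hvd : ‖v x - v y‖ ≤ |∫ t in y..x, g t| := by
    rw [hv.ftc y x]
    exact intervalIntegral.norm_integral_le_abs_of_norm_le
      (Eventually.of_forall fun t => by simp only [hg]; linarith [norm_nonneg (u' t)]) (hgi _ _)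
  have e : (inner ℂ (u x) (v x) : ℂ).re - (inner ℂ (u y) (v y) : ℂ).re =
      (inner ℂ (u x - u y) (v x) + inner ℂ (u y) (v x - v y) : ℂ).re := by
    rw [← Complex.sub_re]
    congr 1
    simp only [inner_sub_left, inner_sub_right]
    ring
  rw [e]
  have h1 := norm_inner_le_norm (𝕜 := ℂ) (u x - u y) (v x)
  have h2 := norm_inner_le_norm (𝕜 := ℂ) (u y) (v x - v y)
  have h3 : ‖u x - u y‖ * ‖v x‖ ≤ |∫ t in y..x, g t| * C :=
    mul_le_mul hud (hC x) (norm_nonneg _) (abs_nonneg _)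
  have h4 : ‖u y‖ * ‖v x - v y‖ ≤ B * |∫ t in y..x, g t| :=
    mul_le_mul (hB y) hvd (norm_nonneg _) hB0
  refine (Complex.abs_re_le_norm _).trans ((norm_add_le _ _).trans ?_)
  linarith only [h1, h2, h3, h4]

theorem inner_ftc (hu : IsH1 u u') (hv : IsH1 v v') (a b : ℝ) :
    ∫ x in a..b, ((inner ℂ (u' x) (v x) : ℂ).re + (inner ℂ (u x) (v' x) : ℂ).re) =
      (inner ℂ (u b) (v b) : ℂ).re - (inner ℂ (u a) (v a) : ℂ).re := by
  rw [← (inner_ac hu hv a b).integral_deriv_eq_sub]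
  refine intervalIntegral.integral_congr_ae ?_
  filter_upwards [hu.ae_hasDerivAt, hv.ae_hasDerivAt] with x h1 h2 _
  have h3 := (h1.inner ℂ h2)
  have h4 : HasDerivAt (fun x => (inner ℂ (u x) (v x) : ℂ).re)
      ((inner ℂ (u x) (v' x) + inner ℂ (u' x) (v x) : ℂ).re) x :=
    (Complex.reCLM.hasFDerivAt.comp_hasDerivAt x h3)
  rw [h4.deriv, Complex.add_re, add_comm]

/-- `K u` for a matrix `K` -/
theorem isH1_mulVec (K : Matrix (Fin N) (Fin N) ℂ) (hu : IsH1 u u') :
    IsH1 (fun x => Matrix.toEuclideanLin K (u x)) (fun x => Matrix.toEuclideanLin K (u' x)) :=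
  IsH1.comp (LinearMap.toContinuousLinearMap (Matrix.toEuclideanLin K)) hu

theorem inner_toEuclideanLin_herm {K : Matrix (Fin N) (Fin N) ℂ} (hK : K.IsHermitian)
    (v w : EuclideanSpace ℂ (Fin N)) :
    (inner ℂ v (Matrix.toEuclideanLin K w) : ℂ) = inner ℂ (Matrix.toEuclideanLin K v) w := by
  have := (Matrix.isSymmetric_toEuclideanLin_iff.mpr hK) v w
  exact this.symm

theorem integrable_outer (hu : IsH1 u u') (K : Matrix (Fin N) (Fin N) ℂ) :
    Integrable (fun x => ‖u' x‖ ^ 2 + ‖Matrix.toEuclideanLin K (u x)‖ ^ 2) volume :=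
  (integrable_norm_sq hu.memLp_deriv).add (integrable_norm_sq (isH1_mulVec K hu).memLp)

/-- completing the square on an interval -/
theorem square_interval (hu : IsH1 u u') {K : Matrix (Fin N) (Fin N) ℂ} (hK : K.IsHermitian)
    {a b : ℝ} (hab : a ≤ b) :
    |(inner ℂ (u b) (Matrix.toEuclideanLin K (u b)) : ℂ).re -
      (inner ℂ (u a) (Matrix.toEuclideanLin K (u a)) : ℂ).re| ≤
    ∫ x in a..b, (‖u' x‖ ^ 2 + ‖Matrix.toEuclideanLin K (u x)‖ ^ 2) := by
  rw [← inner_ftc hu (isH1_mulVec K hu) a b]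
  have h := intervalIntegral.norm_integral_le_of_norm_le (μ := volume) hab
    (f := fun x => (inner ℂ (u' x) (Matrix.toEuclideanLin K (u x)) : ℂ).re +
      (inner ℂ (u x) (Matrix.toEuclideanLin K (u' x)) : ℂ).re)
    (g := fun x => ‖u' x‖ ^ 2 + ‖Matrix.toEuclideanLin K (u x)‖ ^ 2)
    (Eventually.of_forall fun x _ => ?_) (integrable_outer hu K).intervalIntegrable
  · rwa [Real.norm_eq_abs] at h
  · rw [inner_toEuclideanLin_herm hK (u x) (u' x)]
    have h1 : (inner ℂ (Matrix.toEuclideanLin K (u x)) (u' x) : ℂ).re =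
        (inner ℂ (u' x) (Matrix.toEuclideanLin K (u x)) : ℂ).re := by
      rw [← inner_conj_symm, Complex.conj_re]
    rw [h1, Real.norm_eq_abs, ← two_mul, abs_mul, abs_two]
    have h2 := (Complex.abs_re_le_norm (inner ℂ (u' x) (Matrix.toEuclideanLin K (u x)))).trans
      (norm_inner_le_norm (𝕜 := ℂ) (u' x) (Matrix.toEuclideanLin K (u x)))
    nlinarith only [h2, sq_nonneg (‖u' x‖ - ‖Matrix.toEuclideanLin K (u x)‖)]

theorem exists_seq_atTop (hu : IsH1 u u') :
    ∃ b : ℕ → ℝ, Tendsto b atTop atTop ∧ Tendsto (fun k => ‖u (b k)‖ ^ 2) atTop (𝓝 0) := by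
  obtain ⟨b, hb1, hb2⟩ := tendsto_rho_atTop (f := fun _ : Fin 1 => u) (f' := fun _ => u')
    (fun _ => hu)
  refine ⟨b, hb1, hb2.congr fun k => ?_⟩
  simp [rho]

theorem exists_seq_atBot (hu : IsH1 u u') :
    ∃ b : ℕ → ℝ, Tendsto b atTop atBot ∧ Tendsto (fun k => ‖u (b k)‖ ^ 2) atTop (𝓝 0) := by
  obtain ⟨b, hb1, hb2⟩ := tendsto_rho_atBot (f := fun _ : Fin 1 => u) (f' := fun _ => u')
    (fun _ => hu)
  refine ⟨b, hb1, hb2.congr fun k => ?_⟩
  simp [rho]

theorem tendsto_form_zero {K : Matrix (Fin N) (Fin N) ℂ} {b : ℕ → ℝ}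
    (h : Tendsto (fun k => ‖u (b k)‖ ^ 2) atTop (𝓝 0)) :
    Tendsto (fun k => (inner ℂ (u (b k)) (Matrix.toEuclideanLin K (u (b k))) : ℂ).re) atTop
      (𝓝 0) := by
  set T := LinearMap.toContinuousLinearMap (Matrix.toEuclideanLin K) with hT
  refine squeeze_zero_norm (a := fun k => ‖T‖ * ‖u (b k)‖ ^ 2) (fun k => ?_) ?_
  · rw [Real.norm_eq_abs]
    refine (Complex.abs_re_le_norm _).trans ((norm_inner_le_norm _ _).trans ?_)
    have h1 : ‖Matrix.toEuclideanLin K (u (b k))‖ ≤ ‖T‖ * ‖u (b k)‖ := T.le_opNorm _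
    calc ‖u (b k)‖ * ‖Matrix.toEuclideanLin K (u (b k))‖ ≤ ‖u (b k)‖ * (‖T‖ * ‖u (b k)‖) :=
          mul_le_mul_of_nonneg_left h1 (norm_nonneg _)
      _ = _ := by ring
  · simpa only [mul_zero] using h.const_mul ‖T‖

/-- the square on `(a, ∞)` -/
theorem outer_right (hu : IsH1 u u') {K : Matrix (Fin N) (Fin N) ℂ} (hK : K.IsHermitian) (a : ℝ) :
    (inner ℂ (u a) (Matrix.toEuclideanLin K (u a)) : ℂ).re ≤
      ∫ x in Ioi a, (‖u' x‖ ^ 2 + ‖Matrix.toEuclideanLin K (u x)‖ ^ 2) := by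
  obtain ⟨b, hb1, hb2⟩ := exists_seq_atTop hu
  have h1 := intervalIntegral_tendsto_integral_Ioi a (integrable_outer hu K).integrableOn hb1
  have h2 := tendsto_form_zero (K := K) hb2
  have h3 := h2.add h1
  rw [zero_add] at h3
  refine ge_of_tendsto h3 ?_
  filter_upwards [hb1.eventually_ge_atTop a] with k hk
  have h4 := (abs_le.mp (square_interval hu hK hk)).1
  linarith

/-- the square on `(-∞, a)` -/
theorem outer_left (hu : IsH1 u u') {K : Matrix (Fin N) (Fin N) ℂ} (hK : K.IsHermitian) (a : ℝ) :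
    (inner ℂ (u a) (Matrix.toEuclideanLin K (u a)) : ℂ).re ≤
      ∫ x in Iic a, (‖u' x‖ ^ 2 + ‖Matrix.toEuclideanLin K (u x)‖ ^ 2) := by
  obtain ⟨b, hb1, hb2⟩ := exists_seq_atBot hu
  have h1 := intervalIntegral_tendsto_integral_Iic a (integrable_outer hu K).integrableOn hb1
  have h2 := tendsto_form_zero (K := K) hb2
  have h3 := h2.add h1
  rw [zero_add] at h3
  refine ge_of_tendsto h3 ?_
  filter_upwards [hb1.eventually_le_atBot a] with k hk
  have h4 := (abs_le.mp (square_interval hu hK hk)).2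
  linarith

/-- The test inequality on the whole line, from the one on `[-a, a]`
(which comes from `∫ |u' - F u|² ≥ 0`, `F(-a) = K`, `F(a) = -K`). -/
theorem test_line (hu : IsH1 u u') {K : Matrix (Fin N) (Fin N) ℂ} (hK : K.IsHermitian)
    {a : ℝ} {q : ℝ → ℝ} (hq : IntervalIntegrable q volume (-a) a)
    (hin : -(inner ℂ (u a) (Matrix.toEuclideanLin K (u a)) : ℂ).re
        - (inner ℂ (u (-a)) (Matrix.toEuclideanLin K (u (-a))) : ℂ).re ≤
      ∫ x in (-a)..a, (‖u' x‖ ^ 2 + ‖Matrix.toEuclideanLin K (u x)‖ ^ 2 - q x)) :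
    ∫ x in (-a)..a, q x ≤ ∫ x, (‖u' x‖ ^ 2 + ‖Matrix.toEuclideanLin K (u x)‖ ^ 2) := by
  have hi := integrable_outer hu K
  have h1 := outer_right hu hK a
  have h2 := outer_left hu hK (-a)
  rw [intervalIntegral.integral_sub hi.intervalIntegrable hq] at hin
  have h3 := intervalIntegral.integral_Iic_add_Ioi (b := a) hi.integrableOn hi.integrableOn
  have h4 := intervalIntegral.integral_Iic_sub_Iic (a := -a) (b := a) hi.integrableOn hi.integrableOn
  linarith

end Vale.Agent.P371.G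
end
end

section

section

/-!
`tr (V W V^*)^p ≤ tr W^p` for contractions `V` and `p ≥ 1`.
-/

namespace Vale.Agent.P371.PI

open Vale.Agent.P371.G

open Matrix
open scoped ComplexOrder Matrix.Norms.L2Operator

variable {n m : ℕ}

theorem rpow_sum_le {ι : Type*} (s : Finset ι) (a w : ι → ℝ) {p : ℝ} (hp : 1 ≤ p)
    (ha : ∀ i ∈ s, 0 ≤ a i) (hs : ∑ i ∈ s, a i ≤ 1) (hw : ∀ i ∈ s, 0 ≤ w i) :
    (∑ i ∈ s, a i * w i) ^ p ≤ ∑ i ∈ s, a i * w i ^ p := by
  classical
  have hp0 : 0 < p := by linarith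
  have h1 := Real.inner_le_weight_mul_Lp_of_nonneg s hp (fun i => if i ∈ s then a i else 0)
    (fun i => if i ∈ s then w i else 0) (by
      intro i
      by_cases h : i ∈ s
      · simp [h, ha i h]
      · simp [h]) (by
      intro i
      by_cases h : i ∈ s
      · simp [h, hw i h]
      · simp [h])
  have e1 : ∑ i ∈ s, (if i ∈ s then a i else 0) * (if i ∈ s then w i else 0) =
      ∑ i ∈ s, a i * w i := Finset.sum_congr rfl fun i hi => by simp [hi]
  have e2 : ∑ i ∈ s, (if i ∈ s then a i else 0) = ∑ i ∈ s, a i :=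
    Finset.sum_congr rfl fun i hi => by simp [hi]
  have e3 : ∑ i ∈ s, (if i ∈ s then a i else 0) * (if i ∈ s then w i else 0) ^ p =
      ∑ i ∈ s, a i * w i ^ p := Finset.sum_congr rfl fun i hi => by simp [hi]
  rw [e1, e2, e3] at h1
  have hA : 0 ≤ ∑ i ∈ s, a i := Finset.sum_nonneg ha
  have hB : 0 ≤ ∑ i ∈ s, a i * w i ^ p :=
    Finset.sum_nonneg fun i hi => mul_nonneg (ha i hi) (Real.rpow_nonneg (hw i hi) _)
  have hC : 0 ≤ ∑ i ∈ s, a i * w i := Finset.sum_nonneg fun i hi => mul_nonneg (ha i hi) (hw i hi)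
  have h2 : (∑ i ∈ s, a i) ^ (1 - p⁻¹) ≤ 1 := by
    apply Real.rpow_le_one hA hs
    have : p⁻¹ ≤ 1 := inv_le_one_of_one_le₀ hp
    linarith only [this]
  have h3 : ∑ i ∈ s, a i * w i ≤ (∑ i ∈ s, a i * w i ^ p) ^ p⁻¹ := by
    refine h1.trans ?_
    calc _ ≤ 1 * (∑ i ∈ s, a i * w i ^ p) ^ p⁻¹ :=
          mul_le_mul_of_nonneg_right h2 (Real.rpow_nonneg hB _)
      _ = _ := one_mul _
  calc (∑ i ∈ s, a i * w i) ^ p ≤ ((∑ i ∈ s, a i * w i ^ p) ^ p⁻¹) ^ p :=
        Real.rpow_le_rpow hC h3 hp0.le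
    _ = _ := by rw [← Real.rpow_mul hB, inv_mul_cancel₀ hp0.ne', Real.rpow_one]

theorem diag_re_le_one {A : Matrix (Fin n) (Fin n) ℂ} (h : (1 - A).PosSemidef) (i : Fin n) :
    (A i i).re ≤ 1 := by
  have h1 := h.diag_nonneg (i := i)
  have h2 := (Complex.le_def.mp h1).1
  simp only [Matrix.sub_apply, Matrix.one_apply_eq, Complex.zero_re, Complex.sub_re,
    Complex.one_re] at h2
  linarith

/-- trace inequality for contractions -/
theorem trPow_conj_le {p : ℝ} (hp : 1 ≤ p) {W : Matrix (Fin m) (Fin m) ℂ} (hW : W.PosSemidef)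
    {V : Matrix (Fin n) (Fin m) ℂ} (h1 : (1 - Vᴴ * V).PosSemidef) (h2 : (1 - V * Vᴴ).PosSemidef) :
    trPow p (V * W * Vᴴ) ≤ trPow p W := by
  have hA : (V * W * Vᴴ).PosSemidef := hW.mul_mul_conjTranspose_same V
  have hAh := hA.isHermitian
  have hWh := hW.isHermitian
  rw [trPow, trPow, dif_pos hAh, dif_pos hWh]
  set U1 := (hAh.eigenvectorUnitary : Matrix (Fin n) (Fin n) ℂ) with hU1
  set U2 := (hWh.eigenvectorUnitary : Matrix (Fin m) (Fin m) ℂ) with hU2
  have hu1 : star U1 * U1 = 1 := Unitary.coe_star_mul_self _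
  have hu1' : U1 * star U1 = 1 := Unitary.coe_mul_star_self _
  have hu2 : star U2 * U2 = 1 := Unitary.coe_star_mul_self _
  have hu2' : U2 * star U2 = 1 := Unitary.coe_mul_star_self _
  set T : Matrix (Fin n) (Fin m) ℂ := star U1 * V * U2 with hT
  have hTs : Tᴴ = star U2 * Vᴴ * U1 := by
    rw [hT, Matrix.conjTranspose_mul, Matrix.conjTranspose_mul,
      ← Matrix.star_eq_conjTranspose U2, ← Matrix.star_eq_conjTranspose (star U1), star_star,
      Matrix.mul_assoc]
  -- spectral theorems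
  have hs1 : star U1 * (V * W * Vᴴ) * U1 = diagonal (fun i => (hAh.eigenvalues i : ℂ)) := by
    have := hAh.conjStarAlgAut_star_eigenvectorUnitary
    rw [Unitary.conjStarAlgAut_apply] at this
    simpa only [Unitary.coe_star, star_star, Complex.coe_algebraMap, Function.comp_def] using this
  have hs2 : W = U2 * diagonal (fun i => (hWh.eigenvalues i : ℂ)) * star U2 := by
    have := hWh.spectral_theorem
    rw [Unitary.conjStarAlgAut_apply] at this
    simpa only [Complex.coe_algebraMap, Function.comp_def] using this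
  have hd : diagonal (fun i => (hAh.eigenvalues i : ℂ)) =
      T * diagonal (fun i => (hWh.eigenvalues i : ℂ)) * Tᴴ := by
    rw [← hs1, hTs]
    conv_lhs => rw [hs2]
    simp only [hT, Matrix.mul_assoc]
  have hmu : ∀ i, hAh.eigenvalues i = ∑ j, Complex.normSq (T i j) * hWh.eigenvalues j := by
    intro i
    have h3 := congrFun (congrFun hd i) i
    rw [diagonal_apply_eq, Matrix.mul_apply] at h3
    have h4 : ∀ j, (T * diagonal fun i => (hWh.eigenvalues i : ℂ)) i j * Tᴴ j i =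
        ((Complex.normSq (T i j) * hWh.eigenvalues j : ℝ) : ℂ) := by
      intro j
      rw [Matrix.mul_diagonal, Matrix.conjTranspose_apply, Complex.star_def]
      push_cast
      rw [Complex.normSq_eq_conj_mul_self]
      ring
    simp only [h4] at h3
    exact_mod_cast h3
  have hrow : ∀ i, ∑ j, Complex.normSq (T i j) ≤ 1 := by
    intro i
    have h3 : T * Tᴴ = star U1 * (V * Vᴴ) * U1 := by
      rw [hTs, hT]
      calc star U1 * V * U2 * (star U2 * Vᴴ * U1) = star U1 * V * (U2 * star U2) * Vᴴ * U1 := by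
            simp only [Matrix.mul_assoc]
        _ = _ := by rw [hu2']; simp only [Matrix.mul_assoc, Matrix.one_mul]
    have h4 : (1 - T * Tᴴ).PosSemidef := by
      have h5 := h2.conjTranspose_mul_mul_same U1
      rw [← Matrix.star_eq_conjTranspose, mul_sub, sub_mul, mul_one, hu1, ← h3] at h5
      exact h5
    have h5 := diag_re_le_one h4 i
    rw [Matrix.mul_apply, Complex.re_sum] at h5
    refine le_of_eq_of_le (Finset.sum_congr rfl fun j _ => ?_) h5
    rw [Matrix.conjTranspose_apply, Complex.star_def, Complex.mul_conj, Complex.ofReal_re]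
  have hcol : ∀ j, ∑ i, Complex.normSq (T i j) ≤ 1 := by
    intro j
    have h3 : Tᴴ * T = star U2 * (Vᴴ * V) * U2 := by
      rw [hTs, hT]
      calc star U2 * Vᴴ * U1 * (star U1 * V * U2) = star U2 * Vᴴ * (U1 * star U1) * V * U2 := by
            simp only [Matrix.mul_assoc]
        _ = _ := by rw [hu1']; simp only [Matrix.mul_assoc, Matrix.one_mul]
    have h4 : (1 - Tᴴ * T).PosSemidef := by
      have h5 := h1.conjTranspose_mul_mul_same U2
      rw [← Matrix.star_eq_conjTranspose, mul_sub, sub_mul, mul_one, hu2, ← h3] at h5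
      exact h5
    have h5 := diag_re_le_one h4 j
    rw [Matrix.mul_apply, Complex.re_sum] at h5
    refine le_of_eq_of_le (Finset.sum_congr rfl fun i _ => ?_) h5
    rw [Matrix.conjTranspose_apply, Complex.star_def, mul_comm, Complex.mul_conj, Complex.ofReal_re]
  calc ∑ i, hAh.eigenvalues i ^ p
      ≤ ∑ i, ∑ j, Complex.normSq (T i j) * hWh.eigenvalues j ^ p := by
        refine Finset.sum_le_sum fun i _ => ?_
        rw [hmu i]
        exact rpow_sum_le _ _ _ hp (fun j _ => Complex.normSq_nonneg _) (hrow i)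
          (fun j _ => hW.eigenvalues_nonneg j)
    _ = ∑ j, (∑ i, Complex.normSq (T i j)) * hWh.eigenvalues j ^ p := by
        rw [Finset.sum_comm]
        refine Finset.sum_congr rfl fun j _ => ?_
        rw [Finset.sum_mul]
    _ ≤ ∑ j, 1 * hWh.eigenvalues j ^ p := by
        refine Finset.sum_le_sum fun j _ => ?_
        exact mul_le_mul_of_nonneg_right (hcol j) (Real.rpow_nonneg (hW.eigenvalues_nonneg j) _)
    _ = _ := by simp only [one_mul]

end Vale.Agent.P371.PI
end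
end

section

section

/-!
Regularised lifting: `S = (Φ Φ^* + ε)^(-1/2)`, `Q = Φ^* S W S Φ`.
-/

namespace Vale.Agent.P371.PI

open Vale.Agent.P371.G

open Matrix Topology Filter
open scoped ComplexOrder Matrix.Norms.L2Operator

variable {N m : ℕ}

theorem posDef_reg (Φ : Matrix (Fin m) (Fin N) ℂ) {ε : ℝ} (hε : 0 < ε) :
    (Φ * Φᴴ + (ε : ℂ) • (1 : Matrix (Fin m) (Fin m) ℂ)).PosDef := by
  apply PosDef.posSemidef_add (posSemidef_self_mul_conjTranspose Φ)
  exact PosDef.one.smul (by exact_mod_cast hε)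

/-- `S = (Φ Φ^* + ε)^(-1/2)` -/
noncomputable def regS (ε : ℝ) (Φ : Matrix (Fin m) (Fin N) ℂ) : Matrix (Fin m) (Fin m) ℂ :=
  cfc (fun t : ℝ => (√t)⁻¹) (Φ * Φᴴ + (ε : ℂ) • (1 : Matrix (Fin m) (Fin m) ℂ))

theorem spectrum_pos {Z : Matrix (Fin m) (Fin m) ℂ} (hZ : Z.PosDef) {x : ℝ}
    (hx : x ∈ spectrum ℝ Z) : 0 < x := by
  obtain ⟨i, rfl⟩ := (hZ.isHermitian.spectrum_real_eq_range_eigenvalues ▸ hx)
  exact hZ.eigenvalues_pos i

theorem continuousOn_invsqrt {s : Set ℝ} (hs : ∀ x ∈ s, 0 < x) :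
    ContinuousOn (fun t : ℝ => (√t)⁻¹) s :=
  fun x hx => ((Real.continuous_sqrt.continuousAt).inv₀ (Real.sqrt_pos.mpr (hs x hx)).ne').continuousWithinAt

theorem regS_isHermitian (ε : ℝ) (Φ : Matrix (Fin m) (Fin N) ℂ) : (regS ε Φ).IsHermitian :=
  cfc_predicate (R := ℝ) _ _

theorem regS_mul (Φ : Matrix (Fin m) (Fin N) ℂ) {ε : ℝ} (hε : 0 < ε) :
    regS ε Φ * regS ε Φ * (Φ * Φᴴ + (ε : ℂ) • (1 : Matrix (Fin m) (Fin m) ℂ)) = 1 := by
  have hZ := posDef_reg Φ hε
  have hZh : IsSelfAdjoint (Φ * Φᴴ + (ε : ℂ) • (1 : Matrix (Fin m) (Fin m) ℂ)) := hZ.isHermitian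
  unfold regS
  set Z := Φ * Φᴴ + (ε : ℂ) • (1 : Matrix (Fin m) (Fin m) ℂ)
  have hc := continuousOn_invsqrt (s := spectrum ℝ Z) fun x hx => spectrum_pos hZ hx
  have h1 : Z = cfc (fun x : ℝ => x) Z := (cfc_id_eq hZ.isHermitian).symm
  conv_lhs => arg 2; rw [h1]
  rw [← cfc_mul (fun t : ℝ => (√t)⁻¹) (fun t : ℝ => (√t)⁻¹) Z hc hc,
    ← cfc_mul (fun t : ℝ => (√t)⁻¹ * (√t)⁻¹) (fun t : ℝ => t) Z (hc.mul hc) continuousOn_id,
    ← cfc_one_eq hZ.isHermitian]
  refine cfc_congr fun x hx => ?_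
  have hx0 := spectrum_pos hZ hx
  have h2 : √x * √x = x := Real.mul_self_sqrt hx0.le
  rw [← mul_inv, h2, inv_mul_cancel₀ hx0.ne']

theorem regS_commute (ε : ℝ) (Φ : Matrix (Fin m) (Fin N) ℂ) :
    regS ε Φ * (Φ * Φᴴ) = (Φ * Φᴴ) * regS ε Φ := by
  have hZh : IsSelfAdjoint (Φ * Φᴴ + (ε : ℂ) • (1 : Matrix (Fin m) (Fin m) ℂ)) := by
    have h1 : (Φ * Φᴴ).IsHermitian := (posSemidef_self_mul_conjTranspose Φ).isHermitian
    have h2 : ((ε : ℂ) • (1 : Matrix (Fin m) (Fin m) ℂ)).IsHermitian := by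
      rw [IsHermitian, conjTranspose_smul, conjTranspose_one]
      simp only [RCLike.star_def, Complex.conj_ofReal, Complex.coe_smul]
    exact h1.add h2
  have h1 : Commute (regS ε Φ) (Φ * Φᴴ + (ε : ℂ) • (1 : Matrix (Fin m) (Fin m) ℂ)) := by
    unfold regS
    exact (Commute.refl _).cfc_real _
  have h2 := h1.eq
  rw [mul_add, add_mul, mul_smul_comm, smul_mul_assoc, mul_one, one_mul] at h2
  exact add_right_cancel h2

/-- `S S (Φ Φ^*) = 1 - ε S S` -/
theorem regS_sq_mul (Φ : Matrix (Fin m) (Fin N) ℂ) {ε : ℝ} (hε : 0 < ε) :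
    regS ε Φ * regS ε Φ * (Φ * Φᴴ) = 1 - (ε : ℂ) • (regS ε Φ * regS ε Φ) := by
  have h := regS_mul Φ hε
  rw [mul_add, mul_smul_comm, mul_one] at h
  rw [eq_sub_iff_add_eq]
  exact h

/-- the regularised partial isometry -/
noncomputable def regV (ε : ℝ) (Φ : Matrix (Fin m) (Fin N) ℂ) : Matrix (Fin N) (Fin m) ℂ :=
  Φᴴ * regS ε Φ

/-- the regularised lifted potential -/
noncomputable def regQ (ε : ℝ) (Φ : Matrix (Fin m) (Fin N) ℂ) (W : Matrix (Fin m) (Fin m) ℂ) :
    Matrix (Fin N) (Fin N) ℂ :=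
  regV ε Φ * W * (regV ε Φ)ᴴ

theorem regV_conjTranspose (ε : ℝ) (Φ : Matrix (Fin m) (Fin N) ℂ) :
    (regV ε Φ)ᴴ = regS ε Φ * Φ := by
  rw [regV, conjTranspose_mul, conjTranspose_conjTranspose, (regS_isHermitian ε Φ).eq]

theorem regV_contr1 (Φ : Matrix (Fin m) (Fin N) ℂ) {ε : ℝ} (hε : 0 < ε) :
    (1 - (regV ε Φ)ᴴ * regV ε Φ).PosSemidef := by
  have h1 : (regV ε Φ)ᴴ * regV ε Φ = 1 - (ε : ℂ) • (regS ε Φ * regS ε Φ) := by
    rw [← regS_sq_mul Φ hε, regV_conjTranspose, regV]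
    have := regS_commute ε Φ
    calc regS ε Φ * Φ * (Φᴴ * regS ε Φ) = regS ε Φ * ((Φ * Φᴴ) * regS ε Φ) := by
          simp only [Matrix.mul_assoc]
      _ = _ := by rw [← this]; simp only [Matrix.mul_assoc]
  rw [h1, sub_sub_cancel]
  apply PosSemidef.smul
  · have h2 := posSemidef_conjTranspose_mul_self (regS ε Φ)
    rwa [(regS_isHermitian ε Φ).eq] at h2
  · exact_mod_cast hε.le

theorem contr_swap {V : Matrix (Fin N) (Fin m) ℂ} (h : (1 - Vᴴ * V).PosSemidef) :
    (1 - V * Vᴴ).PosSemidef := by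
  have h1 : (1 - V * Vᴴ) = (1 - V * Vᴴ)ᴴ * (1 - V * Vᴴ) + V * (1 - Vᴴ * V) * Vᴴ := by
    rw [conjTranspose_sub, conjTranspose_one, conjTranspose_mul, conjTranspose_conjTranspose]
    simp only [mul_sub, sub_mul, Matrix.mul_one, Matrix.one_mul, Matrix.mul_assoc, Matrix.mul_sub,
      Matrix.sub_mul]
    abel
  rw [h1]
  exact (posSemidef_conjTranspose_mul_self _).add (h.mul_mul_conjTranspose_same V)

theorem regQ_posSemidef (ε : ℝ) (Φ : Matrix (Fin m) (Fin N) ℂ) {W : Matrix (Fin m) (Fin m) ℂ}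
    (hW : W.PosSemidef) : (regQ ε Φ W).PosSemidef := hW.mul_mul_conjTranspose_same _

theorem regQ_trPow_le {p : ℝ} (hp : 1 ≤ p) {ε : ℝ} (hε : 0 < ε) (Φ : Matrix (Fin m) (Fin N) ℂ)
    {W : Matrix (Fin m) (Fin m) ℂ} (hW : W.PosSemidef) : trPow p (regQ ε Φ W) ≤ trPow p W :=
  trPow_conj_le hp hW (regV_contr1 Φ hε) (contr_swap (regV_contr1 Φ hε))

theorem trace_re_nonneg {A : Matrix (Fin m) (Fin m) ℂ} (hA : A.PosSemidef) : 0 ≤ A.trace.re :=
  (Complex.le_def.mp hA.trace_nonneg).1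

theorem trace_mul_sq_nonneg {ε : ℝ} (Φ : Matrix (Fin m) (Fin N) ℂ)
    {W : Matrix (Fin m) (Fin m) ℂ} (hW : W.PosSemidef) :
    0 ≤ (W * (regS ε Φ * regS ε Φ)).trace.re := by
  have h1 : (W * (regS ε Φ * regS ε Φ)).trace = ((regS ε Φ)ᴴ * W * regS ε Φ).trace := by
    rw [(regS_isHermitian ε Φ).eq, ← Matrix.mul_assoc, Matrix.trace_mul_comm, Matrix.mul_assoc]
  rw [h1]
  exact trace_re_nonneg (hW.conjTranspose_mul_mul_same _)

theorem regQ_trace_le {ε : ℝ} (hε : 0 < ε) (Φ : Matrix (Fin m) (Fin N) ℂ)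
    {W : Matrix (Fin m) (Fin m) ℂ} (hW : W.PosSemidef) :
    (regQ ε Φ W).trace.re ≤ W.trace.re := by
  have h0 : (regV ε Φ)ᴴ * regV ε Φ = 1 - (ε : ℂ) • (regS ε Φ * regS ε Φ) := by
    rw [← regS_sq_mul Φ hε, regV_conjTranspose, regV]
    have := regS_commute ε Φ
    calc regS ε Φ * Φ * (Φᴴ * regS ε Φ) = regS ε Φ * ((Φ * Φᴴ) * regS ε Φ) := by
          simp only [Matrix.mul_assoc]
      _ = _ := by rw [← this]; simp only [Matrix.mul_assoc]
  have h1 : (regQ ε Φ W).trace = (W * ((regV ε Φ)ᴴ * regV ε Φ)).trace := by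
    rw [regQ, Matrix.mul_assoc, Matrix.trace_mul_comm, Matrix.mul_assoc]
  rw [h1, h0, mul_sub, Matrix.trace_sub, mul_one, mul_smul_comm, Matrix.trace_smul, smul_eq_mul,
    Complex.sub_re, Complex.re_ofReal_mul]
  have := mul_nonneg hε.le (trace_mul_sq_nonneg (ε := ε) Φ hW)
  linarith

/-- `tr Q Φ^*Φ ≥ tr W Φ Φ^* - ε tr W` -/
theorem regQ_test {ε : ℝ} (hε : 0 < ε) (Φ : Matrix (Fin m) (Fin N) ℂ)
    {W : Matrix (Fin m) (Fin m) ℂ} (hW : W.PosSemidef) :
    (W * (Φ * Φᴴ)).trace.re - ε * W.trace.re ≤ (regQ ε Φ W * (Φᴴ * Φ)).trace.re := by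
  set S := regS ε Φ with hS
  set P := Φ * Φᴴ with hP
  have hc : S * P = P * S := regS_commute ε Φ
  have hs : S * S * P = 1 - (ε : ℂ) • (S * S) := regS_sq_mul Φ hε
  have h1 : (regQ ε Φ W * (Φᴴ * Φ)).trace = (W * (S * S * P * P)).trace := by
    have e1 : regQ ε Φ W * (Φᴴ * Φ) = (Φᴴ * S * W) * (S * Φ * (Φᴴ * Φ)) := by
      rw [regQ, regV_conjTranspose, regV]
      simp only [Matrix.mul_assoc, hS]
    have e2 : (W * (S * Φ * (Φᴴ * Φ))) * (Φᴴ * S) = W * (S * (P * (P * S))) := by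
      simp only [hP, Matrix.mul_assoc]
    rw [e1, Matrix.mul_assoc (Φᴴ * S) W, Matrix.trace_mul_comm, e2, ← hc, ← Matrix.mul_assoc P S P,
      ← hc]
    simp only [Matrix.mul_assoc]
  have h2 : S * S * P * P = P - (ε : ℂ) • 1 + ((ε : ℂ) * ε) • (S * S) := by
    rw [hs, sub_mul, one_mul, smul_mul_assoc, hs, smul_sub, smul_smul]
    abel
  rw [h1, h2, mul_add, mul_sub, Matrix.trace_add, Matrix.trace_sub, mul_smul_comm, mul_smul_comm,
    Matrix.trace_smul, Matrix.trace_smul, mul_one, Complex.add_re, Complex.sub_re]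
  simp only [smul_eq_mul, ← Complex.ofReal_mul, Complex.re_ofReal_mul]
  have := mul_nonneg (mul_nonneg hε.le hε.le) (trace_mul_sq_nonneg (ε := ε) Φ hW)
  linarith

theorem continuous_regS {X : Type*} [TopologicalSpace X] {ε : ℝ} (hε : 0 < ε)
    {Φ : X → Matrix (Fin m) (Fin N) ℂ} {s : Set X} (h : ContinuousOn Φ s) :
    ContinuousOn (fun x => regS ε (Φ x)) s := by
  unfold regS
  refine ContinuousOn.cfc_of_mem_nhdsSet (s := Set.Ioi (0 : ℝ)) (fun t : ℝ => (√t)⁻¹) ?_ ?_ ?_ ?_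
  · rw [mem_nhdsSet_iff_forall]
    intro x hx
    simp only [Set.mem_iUnion] at hx
    obtain ⟨y, _, hy⟩ := hx
    exact Ioi_mem_nhds (spectrum_pos (posDef_reg (Φ y) hε) hy)
  · have h1 : ContinuousOn (fun x => Φ x * (Φ x)ᴴ) s := by
      have h2 : Continuous fun A : Matrix (Fin m) (Fin N) ℂ => A * Aᴴ :=
        continuous_id.matrix_mul continuous_id.matrix_conjTranspose
      exact h2.comp_continuousOn h
    exact h1.add continuousOn_const
  · intro x _
    exact (posDef_reg (Φ x) hε).isHermitian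
  · exact continuousOn_invsqrt fun x hx => hx

end Vale.Agent.P371.PI
end
end

section

section

/-!
A continuation principle in a finite-dimensional space, from the Brouwer degree.
-/

namespace Vale.Agent.P371.G

open Vale.Agent.P371.Ext Set Topology Bornology

theorem exists_zero_of_homotopy {E : Type*} [NormedAddCommGroup E] [NormedSpace ℝ E]
    [FiniteDimensional ℝ E] {W : Set E} (hW : IsOpen W) (hb : IsBounded W) {x0 : E}
    (hx0 : x0 ∈ W) (f : ℝ → E → E)
    (hf : ContinuousOn (Function.uncurry f) (Icc (0:ℝ) 1 ×ˢ closure W))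
    {c : ℝ} (hc : 0 < c) (h0 : ∀ x ∈ closure W, f 0 x = c • (x - x0))
    (hne : ∀ s ∈ Icc (0:ℝ) 1, ∀ x ∈ frontier W, f s x ≠ 0) : ∃ x ∈ W, f 1 x = 0 := by
  have hcomp : IsCompact (closure W) := by
    have : ProperSpace E := FiniteDimensional.proper ℝ E
    exact hb.isCompact_closure
  have hK : IsCompact (Icc (0:ℝ) 1 ×ˢ closure W) := isCompact_Icc.prod hcomp
  have hclosed : IsClosed ((Icc (0:ℝ) 1 ×ˢ closure W) ∩ Function.uncurry f ⁻¹' {0}) :=
    hf.preimage_isClosed_of_isClosed hK.isClosed isClosed_singleton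
  have hZc : IsCompact ((Icc (0:ℝ) 1 ×ˢ closure W) ∩ Function.uncurry f ⁻¹' {0}) :=
    hK.of_isClosed_subset hclosed inter_subset_left
  have hZ : IsClosed (Prod.snd '' ((Icc (0:ℝ) 1 ×ˢ closure W) ∩ Function.uncurry f ⁻¹' {0})) :=
    (hZc.image continuous_snd).isClosed
  have hdisj : Disjoint (frontier W)
      (Prod.snd '' ((Icc (0:ℝ) 1 ×ˢ closure W) ∩ Function.uncurry f ⁻¹' {0})) := by
    rw [Set.disjoint_left]
    rintro x hx ⟨⟨s, y⟩, ⟨⟨hs, hy⟩, h⟩, rfl⟩
    exact hne s hs _ hx h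
  obtain ⟨l, hl0, hl1, hl⟩ := exists_continuous_zero_one_of_isClosed isClosed_frontier hZ hdisj
  have hg : ContinuousOn (fun x => f (l x) x) (closure W) := by
    have : ContinuousOn (fun x => (l x, x)) (closure W) :=
      (l.continuous.prodMk continuous_id).continuousOn
    exact hf.comp this (fun x hx => ⟨hl x, hx⟩)
  have hdeg : HasDeg (fun x => f (l x) x + x0) W x0 1 := by
    refine (HasDeg.of_id hW hb hx0).homotopy (hg.add continuousOn_const) ?_
    intro x hx t ht h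
    have hlx : l x = 0 := hl0 hx
    rw [hlx, h0 x (frontier_subset_closure hx)] at h
    have hxne : x ≠ x0 := by
      rintro rfl
      have := hW.frontier_eq ▸ hx
      exact this.2 hx0
    have h2 : ((1 - t) + t * c) • (x - x0) = 0 := by
      have h3 : (1 - t) • x + t • (c • (x - x0) + x0) - x0 = ((1 - t) + t * c) • (x - x0) := by
        module
      rw [← h3, h, sub_self]
    rcases smul_eq_zero.1 h2 with h4 | h4
    · rcases eq_or_lt_of_le ht.1 with h5 | h5
      · rw [← h5] at h4; norm_num at h4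
      · have : 0 < t * c := mul_pos h5 hc
        have := ht.2
        linarith
    · exact hxne (sub_eq_zero.1 h4)
  obtain ⟨x, hx, hfx⟩ := hdeg.exists_eq one_ne_zero
  have hfx0 : f (l x) x = 0 := by simpa using hfx
  refine ⟨x, hx, ?_⟩
  have hxZ : x ∈ Prod.snd '' ((Icc (0:ℝ) 1 ×ˢ closure W) ∩ Function.uncurry f ⁻¹' {0}) :=
    ⟨(l x, x), ⟨⟨hl x, subset_closure hx⟩, hfx0⟩, rfl⟩
  have hl1x : l x = 1 := hl1 hxZ
  rw [← hl1x]; exact hfx0

end Vale.Agent.P371.G
end
end

section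

section

/-!
Existence of a positive definite `K` such that the solution of the Riccati equation
`F' = K² - F² - Q_K`, `F(a) = K`, ends at `F(b) = -K`.
-/

namespace Vale.Agent.P371.G

open Set Topology Metric Matrix MeasureTheory
open scoped Matrix.Norms.L2Operator ComplexOrder NNReal

set_option linter.unusedSectionVars false

variable {n : Type*} [Fintype n] [DecidableEq n] {a b : ℝ}

lemma lipschitz_vf {C : ℝ} (hC : 0 < C) {p : ℝ × Matrix n n ℂ} (hs : p.1 ∈ Icc (0:ℝ) 1)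
    (hp2 : ‖p.2‖ ≤ C) (Q : Matrix n n ℂ → ℝ → Matrix n n ℂ) (K0 : Matrix n n ℂ) (t : ℝ) :
    LipschitzWith (Real.toNNReal (6 * C)) (vf C Q K0 p t) := by
  refine LipschitzWith.of_dist_le_mul fun F G => ?_
  rw [dist_eq_norm, dist_eq_norm, Real.coe_toNNReal _ (by positivity)]
  have h1 : vf C Q K0 p t F - vf C Q K0 p t G = p.1 • (ric C (hp p.2) F - ric C (hp p.2) G) := by
    rw [vf, vf, smul_sub]
    abel
  rw [h1, norm_smul, Real.norm_of_nonneg hs.1]
  have h2 := norm_ric_sub_le hC ((norm_hp_le p.2).trans hp2) F G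
  calc p.1 * ‖ric C (hp p.2) F - ric C (hp p.2) G‖ ≤ 1 * (6 * C * ‖F - G‖) := by
        gcongr
        exact hs.2
    _ = 6 * C * ‖F - G‖ := one_mul _

lemma norm_vf_le {C T : ℝ} (hC : 0 < C) {p : ℝ × Matrix n n ℂ} (hs : p.1 ∈ Icc (0:ℝ) 1)
    (hp2 : ‖p.2‖ ≤ C) {Q : Matrix n n ℂ → ℝ → Matrix n n ℂ} {K0 : Matrix n n ℂ} {t : ℝ}
    (h0 : ‖Q K0 t‖ ≤ T) (h1 : ‖Q (hp p.2) t‖ ≤ T) (F : Matrix n n ℂ) :
    ‖vf C Q K0 p t F‖ ≤ 2 * C ^ 2 + T := by
  have hs' : 0 ≤ 1 - p.1 := by linarith [hs.2]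
  have h2 : ‖p.1 • ric C (hp p.2) F‖ ≤ 2 * C ^ 2 := by
    rw [norm_smul, Real.norm_of_nonneg hs.1]
    calc p.1 * ‖ric C (hp p.2) F‖ ≤ 1 * (2 * C ^ 2) := by
          gcongr
          · exact hs.2
          · exact norm_ric_le hC ((norm_hp_le p.2).trans hp2) F
      _ = _ := one_mul _
  have h3 : ‖(1 - p.1) • Q K0 t + p.1 • Q (hp p.2) t‖ ≤ T := by
    refine (norm_add_le _ _).trans ?_
    rw [norm_smul, norm_smul, Real.norm_of_nonneg hs.1, Real.norm_of_nonneg hs']
    have := hs.1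
    nlinarith only [h0, hs', h1, this]
  calc ‖vf C Q K0 p t F‖ ≤ ‖p.1 • ric C (hp p.2) F‖ + ‖(1 - p.1) • Q K0 t + p.1 • Q (hp p.2) t‖ :=
        norm_sub_le _ _
    _ ≤ 2 * C ^ 2 + T := by linarith

lemma continuousOn_vf {C δ : ℝ} (hC : 0 < C) (hδ : 0 < δ)
    {Q : Matrix n n ℂ → ℝ → Matrix n n ℂ} {K0 : Matrix n n ℂ} (hK0 : K0.PosDef)
    (hQc : ContinuousOn (fun p : Matrix n n ℂ × ℝ => Q p.1 p.2) ({K | K.PosDef} ×ˢ Icc a b)) :
    ContinuousOn (fun q : (ℝ × Matrix n n ℂ) × ℝ × Matrix n n ℂ => vf C Q K0 q.1 q.2.1 q.2.2)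
      ((Icc (0:ℝ) 1 ×ˢ closure (dom n C δ)) ×ˢ Icc a b ×ˢ univ) := by
  set S : Set ((ℝ × Matrix n n ℂ) × ℝ × Matrix n n ℂ) :=
    (Icc (0:ℝ) 1 ×ˢ closure (dom n C δ)) ×ˢ Icc a b ×ˢ univ with hS
  have h1 : ContinuousOn (fun q : (ℝ × Matrix n n ℂ) × ℝ × Matrix n n ℂ =>
      ric C (hp q.1.2) q.2.2) S := by
    have e1 : Continuous (fun q : (ℝ × Matrix n n ℂ) × ℝ × Matrix n n ℂ =>
        (hp q.1.2, q.2.2)) := by
      have := continuous_hp (n := n)
      fun_prop
    exact ((continuous_ric hC).comp e1 :).continuousOn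
  have h2 : ContinuousOn (fun q : (ℝ × Matrix n n ℂ) × ℝ × Matrix n n ℂ => Q K0 q.2.1) S := by
    have e1 : ContinuousOn (fun q : (ℝ × Matrix n n ℂ) × ℝ × Matrix n n ℂ => (K0, q.2.1)) S := by
      fun_prop
    have e2 : MapsTo (fun q : (ℝ × Matrix n n ℂ) × ℝ × Matrix n n ℂ => (K0, q.2.1)) S
        ({K | K.PosDef} ×ˢ Icc a b) := fun q hq => ⟨hK0, hq.2.1⟩
    exact (hQc.comp e1 e2 :)
  have h3 : ContinuousOn (fun q : (ℝ × Matrix n n ℂ) × ℝ × Matrix n n ℂ =>
      Q (hp q.1.2) q.2.1) S := by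
    have e1 : Continuous (fun q : (ℝ × Matrix n n ℂ) × ℝ × Matrix n n ℂ =>
        (hp q.1.2, q.2.1)) := by
      have := continuous_hp (n := n)
      fun_prop
    have e2 : MapsTo (fun q : (ℝ × Matrix n n ℂ) × ℝ × Matrix n n ℂ => (hp q.1.2, q.2.1)) S
        ({K | K.PosDef} ×ˢ Icc a b) :=
      fun q hq => ⟨posDef_hp hδ (closure_dom_subset C δ hq.1.2).2, hq.2.1⟩
    exact (hQc.comp e1.continuousOn e2 :)
  have h4 : ContinuousOn (fun q : (ℝ × Matrix n n ℂ) × ℝ × Matrix n n ℂ => q.1.1) S := by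
    fun_prop
  have h5 : ContinuousOn (fun q : (ℝ × Matrix n n ℂ) × ℝ × Matrix n n ℂ =>
      q.1.1 • ric C (hp q.1.2) q.2.2) S := ContinuousOn.smul h4 h1
  have h6 : ContinuousOn (fun q : (ℝ × Matrix n n ℂ) × ℝ × Matrix n n ℂ =>
      (1 - q.1.1) • Q K0 q.2.1) S := ContinuousOn.smul (ContinuousOn.sub continuousOn_const h4) h2
  have h7 : ContinuousOn (fun q : (ℝ × Matrix n n ℂ) × ℝ × Matrix n n ℂ =>
      q.1.1 • Q (hp q.1.2) q.2.1) S := ContinuousOn.smul h4 h3
  exact ContinuousOn.sub h5 (ContinuousOn.add h6 h7)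

/-- the start of the homotopy: the equation is linear -/
lemma start_eq {Q : Matrix n n ℂ → ℝ → Matrix n n ℂ} {K0 K : Matrix n n ℂ} {C : ℝ}
    (hab : a ≤ b) (hQ0 : ContinuousOn (fun t => Q K0 t) (Icc a b)) {F : ℝ → Matrix n n ℂ}
    (h0 : F a = hp K)
    (hF : ∀ t ∈ Icc a b, HasDerivWithinAt F (vf C Q K0 (0, K) t (F t)) (Icc a b) t) :
    F b = hp K - ∫ t in a..b, Q K0 t := by
  have hF' : ∀ t ∈ Icc a b, HasDerivWithinAt F (-Q K0 t) (Icc a b) t := by
    intro t ht
    have := hF t ht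
    simpa only [vf, zero_smul, sub_zero, one_smul, add_zero, zero_sub] using this
  have hd1 : ∫ t in a..b, -Q K0 t = F b - F a := by
    refine intervalIntegral.integral_eq_sub_of_hasDeriv_right_of_le (f := F) hab ?_ ?_ ?_
    · exact fun t ht => (hF' t ht).continuousWithinAt
    · intro x hx
      exact ((hF' x (Ioo_subset_Icc_self hx)).hasDerivAt
        (Icc_mem_nhds hx.1 hx.2)).hasDerivWithinAt
    · refine ContinuousOn.intervalIntegrable ?_
      rw [uIcc_of_le hab]
      exact hQ0.neg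
  rw [intervalIntegral.integral_neg, h0] at hd1
  rw [eq_sub_iff_add_eq] at hd1
  rw [← hd1]
  abel

theorem exists_flip_nonempty [Nonempty n] (hab : a < b) {Q : Matrix n n ℂ → ℝ → Matrix n n ℂ}
    {T d : ℝ} (hT0 : 0 < T) (hd0 : 0 < d)
    (hQc : ContinuousOn (fun p : Matrix n n ℂ × ℝ => Q p.1 p.2) ({K | K.PosDef} ×ˢ Icc a b))
    (hQ : ∀ K : Matrix n n ℂ, K.PosDef → ∀ t ∈ Icc a b, (Q K t).PosSemidef)
    (hQT : ∀ K : Matrix n n ℂ, K.PosDef → ∀ t ∈ Icc a b, (Q K t).trace.re ≤ T)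
    (hlow : ∀ K : Matrix n n ℂ, K.PosDef → 2 * K.trace.re ≤ T * (b - a) → ∀ (k : ℝ) (e : n → ℂ),
      K *ᵥ e = k • e → (∀ v, k * qf (1 : Matrix n n ℂ) v ≤ qf K v) →
      d * qf (1 : Matrix n n ℂ) e ≤ ∫ t in a..b, qf (Q K t) e) :
    ∃ (K : Matrix n n ℂ) (F : ℝ → Matrix n n ℂ), K.PosDef ∧ 2 * K.trace.re ≤ T * (b - a) ∧
      (∀ t ∈ Icc a b, HasDerivWithinAt F (K * K - F t * F t - Q K t) (Icc a b) t) ∧
      (∀ t ∈ Icc a b, (F t).IsHermitian) ∧ (∀ t ∈ Icc a b, (K - F t).PosSemidef) ∧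
      (∀ t ∈ Icc a b, (K + F t).PosSemidef) ∧ F a = K ∧ F b = -K := by
  have hba : 0 < b - a := sub_pos.2 hab
  set C : ℝ := T * (b - a) / 2 + 1 with hCdef
  have hC0 : 0 < C := by positivity
  have hCT : T * (b - a) / 2 < C := by linarith
  set δ : ℝ := min 1 (d / (4 * (1 + (b - a)))) with hδdef
  have hδ : 0 < δ := lt_min one_pos (by positivity)
  have hδd : 2 * δ + (b - a) * δ ^ 2 < d := by
    have h1 : δ ≤ 1 := min_le_left _ _
    have h2 : δ * (4 * (1 + (b - a))) ≤ d := by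
      rw [← le_div_iff₀ (by positivity)]; exact min_le_right _ _
    have h3 : δ ^ 2 ≤ δ := by nlinarith only [hδ, h1]
    nlinarith only [hδ, h2, hab, h3]
  -- the scalar matrix `K0`
  have hcard : (0 : ℝ) < Fintype.card n := by exact_mod_cast Fintype.card_pos
  set c0 : ℝ := T * (b - a) / (2 * Fintype.card n) with hc0
  have hc0pos : 0 < c0 := by (clear Q d hd0 hQc hQ hQT hlow hba C hCdef hC0 hCT δ hδdef hδ hδd hcard hc0; positivity)
  set K0 : Matrix n n ℂ := c0 • (1 : Matrix n n ℂ) with hK0def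
  have hK0h : K0.IsHermitian := by
    rw [IsHermitian, hK0def, conjTranspose_smul, conjTranspose_one, star_trivial]
  have hK0 : K0.PosDef := by
    refine posDef_of_qf hK0h fun v hv => ?_
    rw [hK0def, qf_smul]
    exact mul_pos hc0pos (qf_one_pos hv)
  have hK0tr : 2 * K0.trace.re ≤ T * (b - a) := by
    have h1 : K0.trace.re = c0 * Fintype.card n := by
      rw [hK0def, trace_smul, trace_one]
      simp only [Complex.real_smul, Complex.mul_re, Complex.ofReal_re, Complex.natCast_re, Complex.ofReal_im, Complex.natCast_im, mul_zero, sub_zero]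
    rw [h1, hc0]
    field_simp
    exact le_rfl
  have hlow0 : ∀ e : n → ℂ, d * qf (1 : Matrix n n ℂ) e ≤ ∫ t in a..b, qf (Q K0 t) e := by
    intro e
    refine hlow K0 hK0 hK0tr c0 e ?_ ?_
    · rw [hK0def, smul_mulVec, one_mulVec]
    · intro v
      rw [hK0def, qf_smul]
  have hQK0c : ContinuousOn (fun t => Q K0 t) (Icc a b) := by
    have hm : MapsTo (fun t : ℝ => (K0, t)) (Icc a b) ({K | K.PosDef} ×ˢ Icc a b) :=
      fun t ht => ⟨hK0, ht⟩
    have hcm : ContinuousOn (fun t : ℝ => (K0, t)) (Icc a b) := by fun_prop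
    exact (hQc.comp hcm hm :)
  have hQn : ∀ K : Matrix n n ℂ, K.PosDef → ∀ t ∈ Icc a b, ‖Q K t‖ ≤ T := fun K hK t ht =>
    (norm_le_trace (hQ K hK t ht)).trans (hQT K hK t ht)
  set W : Set (Matrix n n ℂ) := dom n C δ with hW
  have hWc := closure_dom_subset (n := n) C δ
  set S : Set (ℝ × Matrix n n ℂ) := Icc (0:ℝ) 1 ×ˢ closure W with hS
  have hScomp : IsCompact S := isCompact_Icc.prod (isCompact_closure_dom C δ)
  obtain ⟨Φ, hΦ, hΦc⟩ := exists_flow (E := Matrix n n ℂ) hScomp hab.le (vf C Q K0)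
    (fun p => hp p.2) (Real.toNNReal (6 * C)) (Real.toNNReal (2 * C ^ 2 + T))
    (fun p hp' t _ => lipschitz_vf hC0 hp'.1 (hWc hp'.2).1 Q K0 t)
    (fun p hp' t ht F => by
      rw [Real.coe_toNNReal _ (by positivity)]
      exact norm_vf_le hC0 hp'.1 (hWc hp'.2).1 (hQn K0 hK0 t ht)
        (hQn _ (posDef_hp hδ (hWc hp'.2).2) t ht) F)
    (continuousOn_vf hC0 hδ hK0 hQc)
    ((continuous_hp.comp continuous_snd).continuousOn)
  have hΦh : ∀ p ∈ S, ∀ t ∈ Icc a b, (Φ p t).IsHermitian := by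
    intro p hp'
    refine hermitian_of_sol (fun t _ => lipschitz_vf hC0 hp'.1 (hWc hp'.2).1 Q K0 t)
      (fun t ht => (hQ K0 hK0 t ht).1) (fun t ht => (hQ _ (posDef_hp hδ (hWc hp'.2).2) t ht).1)
      (hΦ p hp').1 (hΦ p hp').2
  set f : ℝ → Matrix n n ℂ → Matrix n n ℂ :=
    fun s K => Φ (s, K) b + hp K + (2 : ℝ) • (K - hp K) with hf
  have hfc : ContinuousOn (Function.uncurry f) (Icc (0:ℝ) 1 ×ˢ closure W) := by
    have h1 : ContinuousOn (fun p : ℝ × Matrix n n ℂ => hp p.2 + (2 : ℝ) • (p.2 - hp p.2)) S := by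
      have := continuous_hp (n := n)
      (clear * - this; fun_prop)
    have h2 : ContinuousOn (fun p : ℝ × Matrix n n ℂ =>
        Φ p b + (hp p.2 + (2 : ℝ) • (p.2 - hp p.2))) S := ContinuousOn.add hΦc h1
    refine h2.congr fun p _ => ?_
    simp only [hf, Function.uncurry, add_assoc]
  -- the unique zero at the start
  set K1 : Matrix n n ℂ := (1 / 2 : ℝ) • ∫ t in a..b, Q K0 t with hK1
  have hK1W : K1 ∈ W := by
    constructor
    · have h1 : ‖∫ t in a..b, Q K0 t‖ ≤ T * |b - a| := by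
        refine intervalIntegral.norm_integral_le_of_norm_le_const fun t ht => ?_
        rw [uIoc_of_le hab.le] at ht
        exact hQn K0 hK0 t (Ioc_subset_Icc_self ht)
      rw [abs_of_pos hba] at h1
      rw [hK1, norm_smul, Real.norm_of_nonneg (by norm_num)]
      linarith only [hCdef, h1]
    · intro v hv
      have h1 : qf K1 v = (1 / 2 : ℝ) * ∫ t in a..b, qf (Q K0 t) v := by
        rw [hK1, qf_smul]
        congr 1
        have h2 : IntervalIntegrable (fun t => Q K0 t) volume a b := by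
          refine ContinuousOn.intervalIntegrable ?_
          rw [uIcc_of_le hab.le]
          exact hQK0c
        exact ((qfL v).intervalIntegral_comp_comm h2).symm
      rw [h1]
      have h3 := hlow0 v
      have h4 := qf_one_pos hv
      have h5 : δ * qf (1 : Matrix n n ℂ) v < d / 2 * qf (1 : Matrix n n ℂ) v := by
        gcongr
        have : 0 ≤ (b - a) * δ ^ 2 := by positivity
        linarith only [hδd, this]
      linarith only [h3, h5]
  have hstart : ∀ K ∈ closure W, f 0 K = (2 : ℝ) • (K - K1) := by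
    intro K hK
    have hp' : ((0 : ℝ), K) ∈ S := ⟨⟨le_rfl, zero_le_one⟩, hK⟩
    have h1 := start_eq hab.le hQK0c (hΦ (0, K) hp').1 (hΦ (0, K) hp').2
    simp only [hf]
    rw [h1, hK1]
    module
  have hfacts : ∀ s ∈ Icc (0:ℝ) 1, ∀ K ∈ closure W, f s K = 0 → K.IsHermitian ∧
      (K ∈ dom n C δ ∧ 2 * K.trace.re ≤ T * (b - a) ∧
      (∀ t ∈ Icc a b, (K - Φ (s, K) t).PosSemidef ∧ (K + Φ (s, K) t).PosSemidef)) ∧
      Φ (s, K) a = K ∧ Φ (s, K) b = -K := by
    intro s hs K hK hz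
    have hp' : (s, K) ∈ S := ⟨hs, hK⟩
    obtain ⟨hKh, hΦb⟩ := skew_zero (hΦh _ hp' b (right_mem_Icc.2 hab.le)) hz
    have h0 : Φ (s, K) a = K := by
      have := (hΦ _ hp').1
      rwa [hp_eq_self hKh] at this
    exact ⟨hKh, zero_facts hab hδ hδd hCT hC0 hQc hQ hQT hlow hK0 hlow0 hs (hWc hK).2 hKh
      (hΦ _ hp').2 (hΦh _ hp') h0 hΦb, h0, hΦb⟩
  obtain ⟨K, hKW, hz⟩ := exists_zero_of_homotopy (isOpen_dom C δ) (isBounded_dom C δ) hK1W f hfc
    (two_pos) hstart (by
      intro s hs K hK hz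
      have h1 := (hfacts s hs K (frontier_subset_closure hK) hz).2.1.1
      rw [(isOpen_dom C δ).frontier_eq] at hK
      exact hK.2 h1)
  have h1s : (1 : ℝ) ∈ Icc (0:ℝ) 1 := ⟨zero_le_one, le_rfl⟩
  obtain ⟨hKh, ⟨hKd, htr, hps⟩, h0, h1⟩ := hfacts 1 h1s K (subset_closure hKW) hz
  have hp' : ((1 : ℝ), K) ∈ S := ⟨h1s, subset_closure hKW⟩
  have hFn : ∀ t ∈ Icc a b, ‖Φ (1, K) t‖ ≤ C := by
    intro t ht
    have h2 : ‖Φ (1, K) t‖ ≤ ‖K‖ := by
      refine norm_le_of_qf (hΦh _ hp' t ht) (norm_nonneg _) fun v => ?_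
      have h3 := (posSemidef_iff_qf.1 (hps t ht).1).2 v
      have h4 := (posSemidef_iff_qf.1 (hps t ht).2).2 v
      rw [qf_sub] at h3
      rw [qf_add] at h4
      have h5 := (le_abs_self _).trans (abs_qf_le K v)
      rw [abs_le]
      constructor <;> linarith only [h3, h5, h4]
    exact h2.trans hKd.1.le
  have hKpd : K.PosDef := by
    have := posDef_hp hδ (hWc (subset_closure hKW)).2
    rwa [hp_eq_self hKh] at this
  refine ⟨K, Φ (1, K), hKpd, htr, ?_, fun t ht => hΦh _ hp' t ht, fun t ht => (hps t ht).1,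
    fun t ht => (hps t ht).2, h0, h1⟩
  intro t ht
  have h2 := (hΦ _ hp').2 t ht
  rw [vf, ric_eq, cut_eq_one hC0 (hFn t ht)] at h2
  simpa only [one_pow, hp_eq_self hKh, one_smul, sub_self, zero_smul, zero_add] using h2

/-- **Existence lemma.** If `Q K t` is jointly continuous in `K > 0`, `t ∈ [a,b]`, positive
semidefinite, with bounded trace, and uniformly nondegenerate in the direction of the lowest
eigenvector of `K`, then there are `K > 0` and a solution of `F' = K² - F² - Q K` on `[a,b]` with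
`F(a) = K`, `F(b) = -K`. -/
theorem exists_flip (hab : a < b) {Q : Matrix n n ℂ → ℝ → Matrix n n ℂ}
    {T d : ℝ} (hT0 : 0 < T) (hd0 : 0 < d)
    (hQc : ContinuousOn (fun p : Matrix n n ℂ × ℝ => Q p.1 p.2) ({K | K.PosDef} ×ˢ Icc a b))
    (hQ : ∀ K : Matrix n n ℂ, K.PosDef → ∀ t ∈ Icc a b, (Q K t).PosSemidef)
    (hQT : ∀ K : Matrix n n ℂ, K.PosDef → ∀ t ∈ Icc a b, (Q K t).trace.re ≤ T)
    (hlow : ∀ K : Matrix n n ℂ, K.PosDef → 2 * K.trace.re ≤ T * (b - a) → ∀ (k : ℝ) (e : n → ℂ),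
      K *ᵥ e = k • e → (∀ v, k * qf (1 : Matrix n n ℂ) v ≤ qf K v) →
      d * qf (1 : Matrix n n ℂ) e ≤ ∫ t in a..b, qf (Q K t) e) :
    ∃ (K : Matrix n n ℂ) (F : ℝ → Matrix n n ℂ), K.PosDef ∧ 2 * K.trace.re ≤ T * (b - a) ∧
      (∀ t ∈ Icc a b, HasDerivWithinAt F (K * K - F t * F t - Q K t) (Icc a b) t) ∧
      (∀ t ∈ Icc a b, (F t).IsHermitian) ∧ (∀ t ∈ Icc a b, (K - F t).PosSemidef) ∧
      (∀ t ∈ Icc a b, (K + F t).PosSemidef) ∧ F a = K ∧ F b = -K := by
  rcases isEmpty_or_nonempty n with hn | hn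
  · have hsub : Subsingleton (Matrix n n ℂ) := inferInstanceAs (Subsingleton (n → n → ℂ))
    have hba : 0 < b - a := sub_pos.2 hab
    refine ⟨1, fun _ => 1, PosDef.one, ?_, ?_, ?_, ?_, ?_, Subsingleton.elim _ _,
      Subsingleton.elim _ _⟩
    · simp only [trace, Finset.univ_eq_empty, Finset.sum_empty, Complex.zero_re, mul_zero]
      positivity
    · intro t _
      refine (hasDerivWithinAt_const t _ (1 : Matrix n n ℂ)).congr_deriv ?_
      exact Subsingleton.elim _ _
    · exact fun _ _ => Subsingleton.elim _ _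
    · intro t _
      rw [Subsingleton.elim (1 - 1 : Matrix n n ℂ) 0]
      exact PosSemidef.zero
    · intro t _
      rw [Subsingleton.elim (1 + 1 : Matrix n n ℂ) 0]
      exact PosSemidef.zero
  · exact exists_flip_nonempty hab hT0 hd0 hQc hQ hQT hlow

end Vale.Agent.P371.G
end
end

section

section

/-!
The test inequality on an interval: `∫ |u' - F u|² ≥ 0` for a solution of
`F' = K² - F² - Q`.
-/

namespace Vale.Agent.P371.G

open MeasureTheory Filter Topology Set Matrix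
open scoped Matrix.Norms.L2Operator ComplexOrder

variable {N : ℕ} {u u' : ℝ → EuclideanSpace ℂ (Fin N)}

/-- matrices as real linear maps -/
noncomputable def TR (N : ℕ) : Matrix (Fin N) (Fin N) ℂ →L[ℝ]
    (EuclideanSpace ℂ (Fin N) →L[ℝ] EuclideanSpace ℂ (Fin N)) :=
  LinearMap.toContinuousLinearMap
    { toFun := fun A => (Matrix.toEuclideanCLM (𝕜 := ℂ) A).restrictScalars ℝ
      map_add' := fun A B => by rw [map_add]; rfl
      map_smul' := fun r A => by
        ext v i
        change ((r • A) *ᵥ v.ofLp) i = r • ((A *ᵥ v.ofLp) i)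
        rw [Matrix.smul_mulVec]
        rfl }

lemma norm_toEuclideanLin_le (A : Matrix (Fin N) (Fin N) ℂ) (v : EuclideanSpace ℂ (Fin N)) :
    ‖Matrix.toEuclideanLin A v‖ ≤ ‖A‖ * ‖v‖ := l2_opNorm_mulVec A v

lemma toEuclideanLin_sub (A B : Matrix (Fin N) (Fin N) ℂ) (v : EuclideanSpace ℂ (Fin N)) :
    Matrix.toEuclideanLin (A - B) v = Matrix.toEuclideanLin A v - Matrix.toEuclideanLin B v := by
  rw [map_sub]; rfl

section

variable {a b : ℝ} {F F' : ℝ → Matrix (Fin N) (Fin N) ℂ}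

theorem formF_ac (hu : IsH1 u u') (hab : a ≤ b)
    (hF : ∀ t ∈ Icc a b, HasDerivWithinAt F (F' t) (Icc a b) t)
    (hF'c : ContinuousOn F' (Icc a b)) :
    AbsolutelyContinuousOnInterval
      (fun x => (inner ℂ (u x) (Matrix.toEuclideanLin (F x) (u x)) : ℂ).re) a b := by
  obtain ⟨B, hB⟩ := hu.bounded_self
  have hB0 : 0 ≤ B := (norm_nonneg _).trans (hB 0)
  have hcF : ContinuousOn F (Icc a b) := fun t ht => (hF t ht).continuousWithinAt
  obtain ⟨M, hM⟩ := isCompact_Icc.exists_bound_of_continuousOn hcF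
  obtain ⟨L, hL⟩ := isCompact_Icc.exists_bound_of_continuousOn hF'c
  have hM0 : 0 ≤ M := (norm_nonneg _).trans (hM a (left_mem_Icc.2 hab))
  have hL0 : 0 ≤ L := (norm_nonneg _).trans (hL a (left_mem_Icc.2 hab))
  set g : ℝ → ℝ := fun t => ‖u' t‖ + 1 with hg
  have hgi : ∀ a b, IntervalIntegrable g volume a b := fun a b =>
    (hu.intervalIntegrable a b).norm.add intervalIntegrable_const
  set H : ℝ → ℝ := fun x => ∫ t in a..x, g t with hH
  have hHac : AbsolutelyContinuousOnInterval H a b :=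
    (hgi a b).absolutelyContinuousOnInterval_intervalIntegral (by simp only [left_mem_uIcc])
  have hHsub : ∀ x y, H x - H y = ∫ t in y..x, g t := fun x y => by
    simp only [hH]
    rw [intervalIntegral.integral_interval_sub_left (hgi _ _) (hgi _ _)]
  refine ac_of_dist_le (K := 2 * M * B + L * B ^ 2) hHac ?_
  intro x hx y hy
  rw [uIcc_of_le hab] at hx hy
  rw [hHsub]
  have hud : ‖u x - u y‖ ≤ |∫ t in y..x, g t| := by
    rw [hu.ftc y x]
    exact intervalIntegral.norm_integral_le_abs_of_norm_le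
      (Eventually.of_forall fun t => by simp only [hg]; linarith) (hgi _ _)
  have hxy : |x - y| ≤ |∫ t in y..x, g t| := by
    have h1 : x - y = ∫ _ in y..x, (1 : ℝ) := by simp
    have h2 := intervalIntegral.norm_integral_le_abs_of_norm_le (μ := volume)
      (f := fun _ : ℝ => (1 : ℝ)) (g := g) (Eventually.of_forall fun t => by simp only [norm_one, hg, le_add_iff_nonneg_left, norm_nonneg]) (hgi y x)
    rwa [← h1, Real.norm_eq_abs] at h2
  have hFd : ‖F x - F y‖ ≤ L * |x - y| := by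
    have := Convex.norm_image_sub_le_of_norm_hasDerivWithin_le hF hL (convex_Icc a b) hy hx
    rwa [Real.norm_eq_abs] at this
  have e : (inner ℂ (u x) (Matrix.toEuclideanLin (F x) (u x)) : ℂ).re -
      (inner ℂ (u y) (Matrix.toEuclideanLin (F y) (u y)) : ℂ).re =
      (inner ℂ (u x - u y) (Matrix.toEuclideanLin (F x) (u x))
        + inner ℂ (u y) (Matrix.toEuclideanLin (F x - F y) (u x))
        + inner ℂ (u y) (Matrix.toEuclideanLin (F y) (u x - u y)) : ℂ).re := by
    rw [← Complex.sub_re]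
    congr 1
    rw [toEuclideanLin_sub, map_sub]
    simp only [inner_sub_left, inner_sub_right]
    ring
  rw [e]
  have h1 := norm_inner_le_norm (𝕜 := ℂ) (u x - u y) (Matrix.toEuclideanLin (F x) (u x))
  have h2 := norm_inner_le_norm (𝕜 := ℂ) (u y) (Matrix.toEuclideanLin (F x - F y) (u x))
  have h3 := norm_inner_le_norm (𝕜 := ℂ) (u y) (Matrix.toEuclideanLin (F y) (u x - u y))
  set I : ℝ := |∫ t in y..x, g t| with hI
  have hI0 : 0 ≤ I := abs_nonneg _
  have h1' : ‖u x - u y‖ * ‖Matrix.toEuclideanLin (F x) (u x)‖ ≤ I * (M * B) := by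
    refine mul_le_mul hud ((norm_toEuclideanLin_le _ _).trans ?_) (norm_nonneg _) hI0
    exact mul_le_mul (hM x hx) (hB x) (norm_nonneg _) hM0
  have h2' : ‖u y‖ * ‖Matrix.toEuclideanLin (F x - F y) (u x)‖ ≤ B * (L * I * B) := by
    refine mul_le_mul (hB y) ((norm_toEuclideanLin_le _ _).trans ?_) (norm_nonneg _) hB0
    refine mul_le_mul (hFd.trans ?_) (hB x) (norm_nonneg _) (by (clear * - hL0; positivity))
    exact mul_le_mul_of_nonneg_left hxy hL0
  have h3' : ‖u y‖ * ‖Matrix.toEuclideanLin (F y) (u x - u y)‖ ≤ B * (M * I) := by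
    refine mul_le_mul (hB y) ((norm_toEuclideanLin_le _ _).trans ?_) (norm_nonneg _) hB0
    exact mul_le_mul (hM y hy) hud (norm_nonneg _) hM0
  refine (Complex.abs_re_le_norm _).trans ((norm_add_le _ _).trans ?_)
  have h4 := norm_add_le (inner ℂ (u x - u y) (Matrix.toEuclideanLin (F x) (u x)))
    (inner ℂ (u y) (Matrix.toEuclideanLin (F x - F y) (u x)))
  linarith

theorem formF_ftc (hu : IsH1 u u') (hab : a ≤ b)
    (hF : ∀ t ∈ Icc a b, HasDerivWithinAt F (F' t) (Icc a b) t)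
    (hF'c : ContinuousOn F' (Icc a b)) (hFh : ∀ t ∈ Icc a b, (F t).IsHermitian) :
    ∫ x in a..b, (2 * (inner ℂ (u' x) (Matrix.toEuclideanLin (F x) (u x)) : ℂ).re
        + (inner ℂ (u x) (Matrix.toEuclideanLin (F' x) (u x)) : ℂ).re) =
      (inner ℂ (u b) (Matrix.toEuclideanLin (F b) (u b)) : ℂ).re
        - (inner ℂ (u a) (Matrix.toEuclideanLin (F a) (u a)) : ℂ).re := by
  rw [← (formF_ac hu hab hF hF'c).integral_deriv_eq_sub]
  refine intervalIntegral.integral_congr_ae ?_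
  have hne : ∀ᵐ x : ℝ, x ≠ b := by
    rw [ae_iff]; simp
  filter_upwards [hu.ae_hasDerivAt, hne] with x h1 hxb hx
  rw [uIoc_of_le hab] at hx
  have hxI : x ∈ Ioo a b := ⟨hx.1, lt_of_le_of_ne hx.2 hxb⟩
  have hxc := Ioo_subset_Icc_self hxI
  have hFd : HasDerivAt F (F' x) x := (hF x hxc).hasDerivAt (Icc_mem_nhds hxI.1 hxI.2)
  have h2 : HasDerivAt (fun x => TR N (F x)) (TR N (F' x)) x :=
    (TR N).hasFDerivAt.comp_hasDerivAt x hFd
  have h3 : HasDerivAt (fun x => Matrix.toEuclideanLin (F x) (u x))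
      (Matrix.toEuclideanLin (F' x) (u x) + Matrix.toEuclideanLin (F x) (u' x)) x :=
    h2.clm_apply h1
  have h4 := h1.inner ℂ h3
  have h5 : HasDerivAt (fun x => (inner ℂ (u x) (Matrix.toEuclideanLin (F x) (u x)) : ℂ).re)
      ((inner ℂ (u x) (Matrix.toEuclideanLin (F' x) (u x) + Matrix.toEuclideanLin (F x) (u' x))
        + inner ℂ (u' x) (Matrix.toEuclideanLin (F x) (u x)) : ℂ).re) x :=
    (Complex.reCLM.hasFDerivAt.comp_hasDerivAt x h4)
  rw [h5.deriv, inner_add_right, Complex.add_re, Complex.add_re]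
  have h6 : (inner ℂ (u x) (Matrix.toEuclideanLin (F x) (u' x)) : ℂ).re
      = (inner ℂ (u' x) (Matrix.toEuclideanLin (F x) (u x)) : ℂ).re := by
    rw [inner_toEuclideanLin_herm (hFh x hxc), ← inner_conj_symm, Complex.conj_re]
  rw [h6]
  ring

end

/-- The test inequality on `[a, b]`. -/
theorem test_interval (hu : IsH1 u u') {a b : ℝ} (hab : a ≤ b)
    {K : Matrix (Fin N) (Fin N) ℂ} (hK : K.IsHermitian) {F Q : ℝ → Matrix (Fin N) (Fin N) ℂ}
    (hQ : ContinuousOn Q (Icc a b))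
    (hF : ∀ t ∈ Icc a b, HasDerivWithinAt F (K * K - F t * F t - Q t) (Icc a b) t)
    (hFh : ∀ t ∈ Icc a b, (F t).IsHermitian) :
    (inner ℂ (u b) (Matrix.toEuclideanLin (F b) (u b)) : ℂ).re
        - (inner ℂ (u a) (Matrix.toEuclideanLin (F a) (u a)) : ℂ).re ≤
      ∫ x in a..b, (‖u' x‖ ^ 2 + ‖Matrix.toEuclideanLin K (u x)‖ ^ 2
        - (inner ℂ (u x) (Matrix.toEuclideanLin (Q x) (u x)) : ℂ).re) := by
  have hcF : ContinuousOn F (Icc a b) := fun t ht => (hF t ht).continuousWithinAt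
  have hF'c : ContinuousOn (fun t => K * K - F t * F t - Q t) (Icc a b) :=
    (continuousOn_const.sub (hcF.mul hcF)).sub hQ
  have hftc := formF_ftc hu hab hF hF'c hFh
  have hcu : ContinuousOn u (Icc a b) := hu.continuous_self.continuousOn
  -- continuity of `x ↦ A x (u x)`
  have hcA : ∀ A : ℝ → Matrix (Fin N) (Fin N) ℂ, ContinuousOn A (Icc a b) →
      ContinuousOn (fun x => Matrix.toEuclideanLin (A x) (u x)) (Icc a b) := by
    intro A hA
    have h1 : ContinuousOn (fun x => TR N (A x)) (Icc a b) :=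
      ((TR N).continuous.comp_continuousOn hA :)
    exact ContinuousOn.clm_apply h1 hcu
  have hi1 : IntervalIntegrable (fun x => ‖u' x‖ ^ 2) volume a b :=
    (integrable_norm_sq hu.memLp_deriv).intervalIntegrable
  have hic : ∀ f : ℝ → ℝ, ContinuousOn f (Icc a b) → IntervalIntegrable f volume a b := by
    intro f hf
    refine ContinuousOn.intervalIntegrable ?_
    rwa [uIcc_of_le hab]
  have hi2 : IntervalIntegrable (fun x => ‖Matrix.toEuclideanLin K (u x)‖ ^ 2) volume a b :=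
    hic _ ((hcA (fun _ => K) continuousOn_const).norm.pow 2)
  have hi3 : IntervalIntegrable (fun x => ‖Matrix.toEuclideanLin (F x) (u x)‖ ^ 2) volume a b :=
    hic _ ((hcA F hcF).norm.pow 2)
  have hinn : ∀ A : ℝ → Matrix (Fin N) (Fin N) ℂ, ContinuousOn A (Icc a b) →
      IntervalIntegrable (fun x => (inner ℂ (u x) (Matrix.toEuclideanLin (A x) (u x)) : ℂ).re)
        volume a b := by
    intro A hA
    refine hic _ ?_
    have h1 : ContinuousOn (fun x => (inner ℂ (u x) (Matrix.toEuclideanLin (A x) (u x)) : ℂ))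
        (Icc a b) := ContinuousOn.inner (𝕜 := ℂ) hcu (hcA A hA)
    exact (Complex.continuous_re.comp_continuousOn h1 :)
  have hi4 : IntervalIntegrable
      (fun x => 2 * (inner ℂ (u' x) (Matrix.toEuclideanLin (F x) (u x)) : ℂ).re) volume a b := by
    refine IntervalIntegrable.const_mul ?_ 2
    obtain ⟨M, hM⟩ := isCompact_Icc.exists_bound_of_continuousOn (hcA F hcF)
    have hms : AEStronglyMeasurable (fun x => Matrix.toEuclideanLin (F x) (u x))
        (volume.restrict (Ioc a b)) :=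
      ((hcA F hcF).mono Ioc_subset_Icc_self).aestronglyMeasurable measurableSet_Ioc
    rw [intervalIntegrable_iff_integrableOn_Ioc_of_le hab]
    have hu'i : IntegrableOn (fun x => ‖u' x‖ * M) (Ioc a b) volume :=
      ((intervalIntegrable_iff_integrableOn_Ioc_of_le hab).1
        (hu.intervalIntegrable_deriv a b).norm).mul_const M
    refine Integrable.mono' hu'i ?_ ?_
    · exact Complex.continuous_re.comp_aestronglyMeasurable
        (hu.memLp_deriv.aestronglyMeasurable.restrict.inner hms)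
    · refine (ae_restrict_iff' measurableSet_Ioc).2 (Eventually.of_forall fun x hx => ?_)
      rw [Real.norm_eq_abs]
      refine (Complex.abs_re_le_norm _).trans ((norm_inner_le_norm _ _).trans ?_)
      exact mul_le_mul_of_nonneg_left (hM x (Ioc_subset_Icc_self hx)) (norm_nonneg _)
  have hi5 := hinn (fun t => K * K - F t * F t - Q t) hF'c
  have hi6 := hinn Q hQ
  -- the square
  have hsq : 0 ≤ ∫ x in a..b, ‖u' x - Matrix.toEuclideanLin (F x) (u x)‖ ^ 2 :=
    intervalIntegral.integral_nonneg hab fun x _ => by (clear * -; positivity)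
  have hexp : ∫ x in a..b, ‖u' x - Matrix.toEuclideanLin (F x) (u x)‖ ^ 2
      = (∫ x in a..b, (‖u' x‖ ^ 2 + ‖Matrix.toEuclideanLin K (u x)‖ ^ 2
        - (inner ℂ (u x) (Matrix.toEuclideanLin (Q x) (u x)) : ℂ).re))
        - ∫ x in a..b, (2 * (inner ℂ (u' x) (Matrix.toEuclideanLin (F x) (u x)) : ℂ).re
          + (inner ℂ (u x) (Matrix.toEuclideanLin (K * K - F x * F x - Q x) (u x)) : ℂ).re) := by
    rw [← intervalIntegral.integral_sub ((hi1.add hi2).sub hi6) (hi4.add hi5)]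
    refine intervalIntegral.integral_congr fun x hx => ?_
    rw [uIcc_of_le hab] at hx
    have e1 : ∀ A : Matrix (Fin N) (Fin N) ℂ, A.IsHermitian →
        (inner ℂ (u x) (Matrix.toEuclideanLin (A * A) (u x)) : ℂ).re
          = ‖Matrix.toEuclideanLin A (u x)‖ ^ 2 := by
      intro A hA
      have h1 : Matrix.toEuclideanLin (A * A) (u x)
          = Matrix.toEuclideanLin A (Matrix.toEuclideanLin A (u x)) := by
        ext i
        simp [Matrix.toLpLin_apply, Matrix.mulVec_mulVec]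
      rw [h1, inner_toEuclideanLin_herm hA, inner_self_eq_norm_sq_to_K]
      norm_cast
    have e2 := norm_sub_sq (𝕜 := ℂ) (u' x) (Matrix.toEuclideanLin (F x) (u x))
    simp only [RCLike.re_to_complex] at e2
    rw [e2, toEuclideanLin_sub, toEuclideanLin_sub, inner_sub_right, inner_sub_right,
      Complex.sub_re, Complex.sub_re, e1 K hK, e1 (F x) (hFh x hx)]
    ring
  rw [hexp, hftc] at hsq
  linarith only [hsq]

end Vale.Agent.P371.G
end
end

section

section

/-!
The pointwise inequality `d/dt tr (M₀ (log A + log B)) ≤ n`, where `A = √(K²+t) + F`,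
`B = √(K²+t) - F` and `M₀ = (AB + BA)/2` is frozen.
-/

namespace Vale.Agent.P371.G

open MeasureTheory Set Filter Topology
open scoped NNReal Matrix.Norms.L2Operator ComplexOrder MatrixOrder

/-- Complex square matrices. -/
abbrev CMat (n : ℕ) := Matrix (Fin n) (Fin n) ℂ

variable {n : ℕ}

/-- Real part of the trace. -/
noncomputable def retr (X : CMat n) : ℝ := (Matrix.trace X).re

/-- Real part of the trace as a continuous linear functional. -/
noncomputable def retrL (n : ℕ) : CMat n →L[ℝ] ℝ :=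
  LinearMap.toContinuousLinearMap
    { toFun := fun X : CMat n => (Matrix.trace X).re
      map_add' := fun X Y => by simp [Matrix.trace_add]
      map_smul' := fun c X => by simp [Matrix.trace_smul] }

theorem retrL_apply (X : CMat n) : retrL n X = retr X := rfl

theorem retr_add (X Y : CMat n) : retr (X + Y) = retr X + retr Y := by
  simp only [retr, Matrix.trace_add, Complex.add_re]

theorem retr_sub (X Y : CMat n) : retr (X - Y) = retr X - retr Y := by
  simp only [retr, Matrix.trace_sub, Complex.sub_re]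

theorem retr_smul (c : ℝ) (X : CMat n) : retr (c • X) = c * retr X := by
  simp only [retr, Matrix.trace_smul, Complex.real_smul, Complex.mul_re, Complex.ofReal_re, Complex.ofReal_im, zero_mul, sub_zero]

theorem retr_mul_comm (X Y : CMat n) : retr (X * Y) = retr (Y * X) := by
  rw [retr, retr, Matrix.trace_mul_comm]

theorem retr_one : retr (1 : CMat n) = n := by
  simp only [retr, Matrix.trace_one, Fintype.card_fin, Complex.natCast_re]

theorem retr_star (X : CMat n) : retr (star X) = retr X := by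
  rw [retr, retr, Matrix.star_eq_conjTranspose, Matrix.trace_conjTranspose]
  simp only [RCLike.star_def, Complex.conj_re]

theorem retr_mul_star_nonneg (X : CMat n) : 0 ≤ retr (X * star X) := by
  have h := (Matrix.posSemidef_self_mul_conjTranspose X).trace_nonneg
  rw [retr, Matrix.star_eq_conjTranspose]
  exact (Complex.le_def.mp h).1

theorem retr_mul_self_le (X : CMat n) : retr (X * X) ≤ retr (X * star X) := by
  have h := retr_mul_star_nonneg (X - star X)
  have h1 : (X - star X) * star (X - star X) = X * star X - X * X - star X * star X + star X * X := by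
    rw [star_sub, star_star]
    noncomm_ring
  rw [h1, retr_add, retr_sub, retr_sub, retr_mul_comm (star X) X, ← star_mul, retr_star] at h
  linarith

theorem retr_sq_le {H C R : CMat n} (hH : 0 ≤ H) (h1 : H * C = 1) (h2 : C * H = 1)
    (hR : IsSelfAdjoint R) : retr (R * R) ≤ retr (H * R * C * R) := by
  set Q := CFC.sqrt H with hQ
  have hQ0 : 0 ≤ Q := CFC.sqrt_nonneg H
  have hQQ : Q * Q = H := CFC.sqrt_mul_sqrt_self H hH
  have hQs : star Q = Q := (IsSelfAdjoint.of_nonneg hQ0).star_eq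
  have hHs : star H = H := (IsSelfAdjoint.of_nonneg hH).star_eq
  have hCs : star C = C := by
    have h3 : star C * H = 1 := by
      have := congrArg star h1
      rwa [star_mul, hHs, star_one] at this
    calc star C = star C * (H * C) := by rw [h1, mul_one]
      _ = (star C * H) * C := by rw [mul_assoc]
      _ = C := by rw [h3, one_mul]
  have hcomm : C * Q = Q * C := by
    calc C * Q = C * Q * (H * C) := by rw [h1, mul_one]
      _ = C * (Q * Q) * Q * C := by rw [← hQQ]; noncomm_ring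
      _ = Q * C := by rw [hQQ, h2, one_mul]
  set X := Q * R * (Q * C) with hX
  have hXs : star X = C * Q * R * Q := by
    rw [hX, star_mul, star_mul, star_mul, hQs, hCs, hR.star_eq]
    noncomm_ring
  have e1 : retr (X * X) = retr (R * R) := by
    have : X * X = Q * R * ((Q * C) * Q) * R * (Q * C) := by rw [hX]; noncomm_ring
    rw [this, ← hcomm, mul_assoc C Q Q, hQQ, h2, mul_one, retr_mul_comm]
    have : C * Q * (Q * R * R) = C * (Q * Q) * (R * R) := by noncomm_ring
    rw [this, hQQ, h2, one_mul]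
  have e2 : retr (X * star X) = retr (H * R * C * R) := by
    rw [hXs, hX]
    have : Q * R * (Q * C) * (C * Q * R * Q) = Q * (R * ((Q * C) * (C * Q)) * R * Q) := by
      noncomm_ring
    rw [this, ← hcomm]
    have h5 : C * Q * (C * Q) = C := by
      calc C * Q * (C * Q) = C * Q * (Q * C) := by rw [hcomm]
        _ = C * (Q * Q) * C := by noncomm_ring
        _ = C := by rw [hQQ, h2, one_mul]
    rw [h5, retr_mul_comm]
    have h6 : R * C * R * Q * Q = R * C * R * (Q * Q) := by noncomm_ring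
    rw [h6, hQQ, retr_mul_comm]
    congr 1
    noncomm_ring
  rw [← e1, ← e2]
  exact retr_mul_self_le X

theorem res_comm {a : CMat n} {c u : ℝ} (ha : IsSelfAdjoint a) (hc : 0 < c)
    (hs : ∀ x ∈ spectrum ℝ a, c ≤ x) (hu : 0 ≤ u) :
    a * res a u = 1 - u • res a u ∧ res a u * a = 1 - u • res a u := by
  have h1 := mul_res ha hc hs hu
  have h2 := res_mul ha hc hs hu
  rw [Algebra.algebraMap_eq_smul_one] at h1 h2
  rw [add_mul, smul_mul_assoc, one_mul] at h1
  rw [mul_add, mul_smul_comm, mul_one] at h2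
  exact ⟨eq_sub_of_add_eq h1, eq_sub_of_add_eq h2⟩

/-- The integrand bound. -/
theorem integrand_le {A H C : CMat n} {c u : ℝ} (hA : IsSelfAdjoint A) (hc : 0 < c)
    (hs : ∀ x ∈ spectrum ℝ A, c ≤ x) (hu : 0 ≤ u) (hH : 0 ≤ H) (h1 : H * C = 1)
    (h2 : C * H = 1) :
    retr ((A * H + H * A - A * A) * (res A u * C * res A u)) ≤
      2 * retr (A * (res A u * res A u)) - retr (C * (A * A) * (res A u * res A u)) := by
  obtain ⟨hW, hW'⟩ := res_comm hA hc hs hu
  have hR : IsSelfAdjoint (res A u) := res_isSelfAdjoint A u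
  have hkey := retr_sq_le hH h1 h2 hR
  set R := res A u with hRdef
  have e1 : retr (A * H * (R * C * R)) = retr R - u * retr (H * R * C * R) := by
    have : retr (A * H * (R * C * R)) = retr (H * (R * C) * (R * A)) := by
      rw [mul_assoc A, retr_mul_comm]
      congr 1
      noncomm_ring
    rw [this, hW', mul_sub, mul_one, retr_sub, mul_smul_comm, retr_smul]
    have h3 : retr (H * (R * C)) = retr R := by
      rw [← mul_assoc, retr_mul_comm, ← mul_assoc, h2, one_mul]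
    rw [h3]
    congr 3
    noncomm_ring
  have e2 : retr (H * A * (R * C * R)) = retr R - u * retr (H * R * C * R) := by
    have : H * A * (R * C * R) = H * (A * R) * (C * R) := by noncomm_ring
    rw [this, hW, mul_sub, mul_one, sub_mul, retr_sub, mul_smul_comm, smul_mul_assoc, retr_smul]
    have h3 : retr (H * (C * R)) = retr R := by
      rw [← mul_assoc, h1, one_mul]
    rw [h3]
    congr 3
    noncomm_ring
  have e3 : retr (A * A * (R * C * R)) = retr (C * (A * A) * (R * R)) := by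
    have hcom : A * R = R * A := by rw [hW, hW']
    have : retr (A * A * (R * C * R)) = retr (C * (R * (A * A) * R)) := by
      have h4 : A * A * (R * C * R) = (A * A * R) * (C * R) := by noncomm_ring
      rw [h4, retr_mul_comm]
      congr 1
      noncomm_ring
    rw [this]
    congr 1
    have h5 : R * (A * A) * R = (A * A) * (R * R) := by
      calc R * (A * A) * R = (R * A) * A * R := by noncomm_ring
        _ = (A * R) * A * R := by rw [hcom]
        _ = A * (R * A) * R := by noncomm_ring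
        _ = A * (A * R) * R := by rw [hcom]
        _ = (A * A) * (R * R) := by noncomm_ring
    rw [h5]
    noncomm_ring
  have e4 : retr (A * (R * R)) = retr R - u * retr (R * R) := by
    rw [← mul_assoc, hW, sub_mul, one_mul, retr_sub, smul_mul_assoc, retr_smul]
  have h6 : (A * H + H * A - A * A) * (R * C * R)
      = A * H * (R * C * R) + H * A * (R * C * R) - A * A * (R * C * R) := by noncomm_ring
  rw [h6, retr_sub, retr_add, e1, e2, e3, e4]
  nlinarith only [hu, hkey]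

theorem cfc_inv_mul {𝔸 : Type*} [CStarAlgebra 𝔸] {a : 𝔸} {c : ℝ} (ha : IsSelfAdjoint a)
    (hc : 0 < c) (hs : ∀ x ∈ spectrum ℝ a, c ≤ x) : a * cfc (fun x : ℝ => x⁻¹) a = 1 := by
  have h := mul_res ha hc hs le_rfl
  simpa only [map_zero, add_zero, res] using h

theorem integral_res_sq {𝔸 : Type*} [CStarAlgebra 𝔸] {a : 𝔸} {c : ℝ} (ha : IsSelfAdjoint a)
    (hc : 0 < c) (hs : ∀ x ∈ spectrum ℝ a, c ≤ x) :
    ∫ u in Ioi (0:ℝ), res a u * res a u = cfc (fun x : ℝ => x⁻¹) a := by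
  have hcont : ContinuousOn (Function.uncurry fun (u : ℝ) (x : ℝ) => ((x + u) ^ 2)⁻¹)
      (Ioi (0:ℝ) ×ˢ spectrum ℝ a) := by
    apply ContinuousOn.inv₀ (by (clear * -; fun_prop))
    rintro ⟨u, x⟩ ⟨hu, hx⟩
    have h1 : (0:ℝ) < u := hu
    have h2 : c ≤ x := hs x hx
    have h : 0 < x + u := by linarith
    exact (pow_pos h 2).ne'
  have hb : ∀ᵐ u ∂(volume.restrict (Ioi (0:ℝ))), ∀ x ∈ spectrum ℝ a,
      ‖((x + u) ^ 2)⁻¹‖ ≤ ((c + u) ^ 2)⁻¹ := by
    filter_upwards [ae_restrict_mem measurableSet_Ioi] with u hu x hx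
    have h1 : (0:ℝ) < u := hu
    have h2 : c ≤ x := hs x hx
    rw [Real.norm_eq_abs, abs_of_nonneg (by (clear * -; positivity))]
    apply inv_anti₀ (by positivity)
    apply pow_le_pow_left₀ (by positivity)
    linarith
  have h1 := cfc_setIntegral measurableSet_Ioi _ _ a hcont hb (integrableOn_inv_sq hc).2 ha
  have h2 : cfc (fun x : ℝ => x⁻¹) a
      = cfc (fun r : ℝ => ∫ u in Ioi (0:ℝ), ((r + u) ^ 2)⁻¹) a := by
    apply cfc_congr
    intro x hx
    exact (integral_inv_sq (lt_of_lt_of_le hc (hs x hx))).symm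
  rw [h2, h1]
  apply setIntegral_congr_fun measurableSet_Ioi
  intro u hu
  have hu' : (0:ℝ) ≤ u := le_of_lt hu
  simp only [res]
  rw [← cfc_mul (fun x : ℝ => (x + u)⁻¹) (fun x : ℝ => (x + u)⁻¹) a
    (continuousOn_inv_add hc hs hu') (continuousOn_inv_add hc hs hu')]
  apply cfc_congr
  intro x _
  simp only
  rw [sq, mul_inv]

/-- `tr (S ∂log_A[C]) ≤ 2n - tr (C A)` with `S = AH + HA - A²`, `C = H⁻¹`. -/
theorem integral_le {A H C : CMat n} {c : ℝ} (hA : IsSelfAdjoint A) (hc : 0 < c)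
    (hs : ∀ x ∈ spectrum ℝ A, c ≤ x) (hH : 0 ≤ H) (h1 : H * C = 1) (h2 : C * H = 1) :
    retr ((A * H + H * A - A * A) * ∫ u in Ioi (0:ℝ), res A u * C * res A u)
      ≤ 2 * n - retr (C * A) := by
  have hint := integrableOn_res_mul_res (x := C) hA hA hc hs hs
  have hint1 : IntegrableOn (fun u : ℝ => res A u * res A u) (Ioi 0) := by
    simpa only [mul_one] using integrableOn_res_mul_res (x := (1 : CMat n)) hA hA hc hs hs
  set S := A * H + H * A - A * A with hS
  -- functionals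
  let L1 : CMat n →L[ℝ] ℝ := (retrL n).comp (ContinuousLinearMap.mul ℝ (CMat n) S)
  let L2 : CMat n →L[ℝ] ℝ := (retrL n).comp (ContinuousLinearMap.mul ℝ (CMat n) A)
  let L3 : CMat n →L[ℝ] ℝ := (retrL n).comp (ContinuousLinearMap.mul ℝ (CMat n) (C * (A * A)))
  have hL1 : ∀ X, L1 X = retr (S * X) := fun X => rfl
  have hL2 : ∀ X, L2 X = retr (A * X) := fun X => rfl
  have hL3 : ∀ X, L3 X = retr (C * (A * A) * X) := fun X => rfl
  have i1 : ∫ u in Ioi (0:ℝ), retr (S * (res A u * C * res A u))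
      = retr (S * ∫ u in Ioi (0:ℝ), res A u * C * res A u) :=
    L1.integral_comp_comm hint
  have i2 : ∫ u in Ioi (0:ℝ), retr (A * (res A u * res A u))
      = retr (A * ∫ u in Ioi (0:ℝ), res A u * res A u) :=
    L2.integral_comp_comm hint1
  have i3 : ∫ u in Ioi (0:ℝ), retr (C * (A * A) * (res A u * res A u))
      = retr (C * (A * A) * ∫ u in Ioi (0:ℝ), res A u * res A u) :=
    L3.integral_comp_comm hint1
  have j2 : IntegrableOn (fun u : ℝ => retr (A * (res A u * res A u))) (Ioi 0) :=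
    L2.integrable_comp hint1
  have j3 : IntegrableOn (fun u : ℝ => retr (C * (A * A) * (res A u * res A u))) (Ioi 0) :=
    L3.integrable_comp hint1
  have j1 : IntegrableOn (fun u : ℝ => retr (S * (res A u * C * res A u))) (Ioi 0) :=
    L1.integrable_comp hint
  have hmono : ∫ u in Ioi (0:ℝ), retr (S * (res A u * C * res A u)) ≤
      ∫ u in Ioi (0:ℝ), (2 * retr (A * (res A u * res A u))
        - retr (C * (A * A) * (res A u * res A u))) := by
    apply setIntegral_mono_on j1 ((j2.const_mul 2).sub j3) measurableSet_Ioi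
    intro u hu
    exact integrand_le hA hc hs (le_of_lt hu) hH h1 h2
  rw [integral_sub (j2.const_mul 2) j3, integral_const_mul, i1, i2, i3, integral_res_sq hA hc hs]
    at hmono
  have h3 := cfc_inv_mul hA hc hs
  rw [h3, retr_one] at hmono
  have h4 : C * (A * A) * cfc (fun x : ℝ => x⁻¹) A = C * A := by
    calc C * (A * A) * cfc (fun x : ℝ => x⁻¹) A = C * A * (A * cfc (fun x : ℝ => x⁻¹) A) := by
          noncomm_ring
      _ = C * A := by rw [h3, mul_one]
  rwa [h4] at hmono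

theorem Hm_nonneg (K : CMat n) (t : ℝ) : 0 ≤ Hm K t :=
  cfc_nonneg fun _ _ => Real.sqrt_nonneg _

/-- **(J2)** with the matrix `M₀ = K² - F² + t₀` frozen, `tr M₀ (log A + log B)` has derivative
at most `n` at `t₀`. -/
theorem hasDerivAt_retr_log {K F : CMat n} (hK : 0 ≤ K) (hF : IsSelfAdjoint F)
    (h1 : 0 ≤ K + F) (h2 : 0 ≤ K - F) {t₀ : ℝ} (ht₀ : 0 < t₀) :
    ∃ d : ℝ, HasDerivAt (fun t => retr ((K * K - F * F + t₀ • 1) *
        (CFC.log (Hm K t + F) + CFC.log (Hm K t - F)))) d t₀ ∧ d ≤ n := by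
  have hKs : IsSelfAdjoint K := IsSelfAdjoint.of_nonneg hK
  set H := Hm K t₀ with hHdef
  set C := Hi K t₀ with hCdef
  have hH : 0 ≤ H := Hm_nonneg K t₀
  have hHC : H * C = 1 := Hm_mul_Hi hKs ht₀
  have hCH : C * H = 1 := Hi_mul_Hm hKs ht₀
  have hHH : H * H = K * K + t₀ • (1 : CMat n) := by
    rw [hHdef, Hm_mul_Hm hKs ht₀.le, Algebra.algebraMap_eq_smul_one]
  have hHs : IsSelfAdjoint H := Hm_isSelfAdjoint K t₀
  have hc : 0 < cb ‖K‖ t₀ := cb_pos ht₀
  have sA := spectrum_add hK hF h1 le_rfl ht₀.le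
  have sB := spectrum_sub hK hF h2 le_rfl ht₀.le
  have kA := integral_le (C := C) (hHs.add hF) hc sA hH hHC hCH
  have kB := integral_le (C := C) (hHs.sub hF) hc sB hH hHC hCH
  set M₀ := K * K - F * F + t₀ • (1 : CMat n) with hM
  have mA : (H + F) * H + H * (H + F) - (H + F) * (H + F) = M₀ := by
    rw [hM]
    have : (H + F) * H + H * (H + F) - (H + F) * (H + F) = H * H - F * F := by noncomm_ring
    rw [this, hHH]
    abel
  have mB : (H - F) * H + H * (H - F) - (H - F) * (H - F) = M₀ := by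
    rw [hM]
    have : (H - F) * H + H * (H - F) - (H - F) * (H - F) = H * H - F * F := by noncomm_ring
    rw [this, hHH]
    abel
  rw [mA] at kA
  rw [mB] at kB
  have dA := hasDerivAt_log_add hK hF h1 ht₀
  have dB := hasDerivAt_log_sub hK hF h2 ht₀
  have hscale : ∀ (A : CMat n), (∫ u in Ioi (0:ℝ), res A u * ((1 / 2 : ℝ) • C) * res A u)
      = (1 / 2 : ℝ) • ∫ u in Ioi (0:ℝ), res A u * C * res A u := by
    intro A
    rw [← integral_smul]
    congr 1
    ext1 u
    rw [mul_smul_comm, smul_mul_assoc]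
  rw [← hCdef, ← hHdef, hscale] at dA dB
  let L : CMat n →L[ℝ] ℝ := (retrL n).comp (ContinuousLinearMap.mul ℝ (CMat n) M₀)
  have hL : ∀ X, L X = retr (M₀ * X) := fun X => rfl
  have dL := L.hasFDerivAt.comp_hasDerivAt t₀ (dA.add dB)
  refine ⟨_, dL, ?_⟩
  rw [hL, mul_add, retr_add, mul_smul_comm, mul_smul_comm, retr_smul, retr_smul]
  have hsum : retr (C * (H + F)) + retr (C * (H - F)) = 2 * n := by
    rw [← retr_add, ← mul_add]
    have : H + F + (H - F) = (2 : ℝ) • H := by rw [two_smul]; abel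
    rw [this, mul_smul_comm, hCH, retr_smul, retr_one]
  linarith

end Vale.Agent.P371.G
end
end

section

section

/-!
The function `Φ(t) = tr (D+t)(ℓ(t) - log t) - tr D`, `D = K² - F²`,
`ℓ(t) = log (√(K²+t)+F) + log (√(K²+t)-F)`: it is nonnegative, and `O(1+|log t|)` at `0`.
-/

namespace Vale.Agent.P371.G

open MeasureTheory Set Filter Topology
open scoped NNReal Matrix.Norms.L2Operator ComplexOrder MatrixOrder

section Scalar

theorem quartic_aux1 : MonotoneOn (fun z : ℝ => Real.log z - (z - 1) + (z - 1) ^ 2 / 2) (Ioi 0) := by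
  have hd : ∀ z ∈ Ioi (0:ℝ), HasDerivAt (fun z : ℝ => Real.log z - (z - 1) + (z - 1) ^ 2 / 2)
      (z⁻¹ - 1 + (z - 1)) z := by
    intro z hz
    have h1 := ((Real.hasDerivAt_log (ne_of_gt hz)).sub ((hasDerivAt_id z).sub_const 1)).add
      ((((hasDerivAt_id z).sub_const 1).pow 2).div_const 2)
    refine h1.congr_deriv ?_
    simp only [Nat.cast_ofNat, id_eq, Nat.add_one_sub_one, pow_one, mul_one, ne_eq, OfNat.ofNat_ne_zero, not_false_eq_true, mul_div_cancel_left₀]
  apply monotoneOn_of_deriv_nonneg (convex_Ioi 0)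
  · intro z hz
    exact (hd z hz).continuousAt.continuousWithinAt
  · intro z hz
    rw [interior_Ioi] at hz
    exact (hd z hz).differentiableAt.differentiableWithinAt
  · intro z hz
    rw [interior_Ioi] at hz
    rw [(hd z hz).deriv]
    have hz0 : 0 < z := hz
    have : z⁻¹ - 1 + (z - 1) = (z - 1) ^ 2 * z⁻¹ := by field_simp; ring
    rw [this]
    (clear * - hz0; positivity)

theorem quartic_aux2 {z : ℝ} (hz : 0 < z) :
    0 ≤ z * Real.log z - (z - 1) - (z - 1) ^ 2 / 2 + (z - 1) ^ 3 / 6 := by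
  set g : ℝ → ℝ := fun z => z * Real.log z - (z - 1) - (z - 1) ^ 2 / 2 + (z - 1) ^ 3 / 6 with hg
  have hd : ∀ z ∈ Ioi (0:ℝ), HasDerivAt g (Real.log z - (z - 1) + (z - 1) ^ 2 / 2) z := by
    intro z hz
    have h1 := ((((hasDerivAt_id z).mul (Real.hasDerivAt_log (ne_of_gt hz))).sub
      ((hasDerivAt_id z).sub_const 1)).sub
      ((((hasDerivAt_id z).sub_const 1).pow 2).div_const 2)).add
      ((((hasDerivAt_id z).sub_const 1).pow 3).div_const 6)
    refine h1.congr_deriv ?_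
    have hz0 : z ≠ 0 := ne_of_gt hz
    simp only [one_mul, id_eq, Nat.cast_ofNat, Nat.add_one_sub_one, pow_one, mul_one, ne_eq, OfNat.ofNat_ne_zero, not_false_eq_true, mul_div_cancel_left₀, sub_sub_sub_cancel_right]
    field_simp
    ring
  have hg1 : g 1 = 0 := by simp [hg]
  have hk1 : ∀ z ∈ Ioi (0:ℝ), z ≤ 1 → Real.log z - (z - 1) + (z - 1) ^ 2 / 2 ≤ 0 := by
    intro z hz hz1
    have h := quartic_aux1 hz (show (1:ℝ) ∈ Ioi 0 by simp only [mem_Ioi, zero_lt_one]) hz1
    simpa only [ge_iff_le, Real.log_one, sub_self, ne_eq, OfNat.ofNat_ne_zero, not_false_eq_true, zero_pow,     zero_div, add_zero] using h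
  have hk2 : ∀ z ∈ Ioi (0:ℝ), 1 ≤ z → 0 ≤ Real.log z - (z - 1) + (z - 1) ^ 2 / 2 := by
    intro z hz hz1
    have h := quartic_aux1 (show (1:ℝ) ∈ Ioi 0 by simp only [mem_Ioi, zero_lt_one]) hz hz1
    simpa only [ge_iff_le, Real.log_one, sub_self, ne_eq, OfNat.ofNat_ne_zero, not_false_eq_true, zero_pow,     zero_div, add_zero] using h
  rcases le_total z 1 with h | h
  · have hanti : AntitoneOn g (Ioc 0 1) := by
      apply antitoneOn_of_deriv_nonpos (convex_Ioc 0 1)
      · intro y hy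
        exact (hd y hy.1).continuousAt.continuousWithinAt
      · intro y hy
        rw [interior_Ioc] at hy
        exact (hd y hy.1).differentiableAt.differentiableWithinAt
      · intro y hy
        rw [interior_Ioc] at hy
        rw [(hd y hy.1).deriv]
        exact hk1 y hy.1 hy.2.le
    have := hanti (show z ∈ Ioc (0:ℝ) 1 from ⟨hz, h⟩) (show (1:ℝ) ∈ Ioc (0:ℝ) 1 by simp only [mem_Ioc, zero_lt_one, Std.le_refl, and_self]) h
    rw [hg1] at this
    exact this
  · have hmono : MonotoneOn g (Ici 1) := by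
      apply monotoneOn_of_deriv_nonneg (convex_Ici 1)
      · intro y hy
        have hy0 : (0:ℝ) < y := lt_of_lt_of_le one_pos hy
        exact (hd y hy0).continuousAt.continuousWithinAt
      · intro y hy
        rw [interior_Ici] at hy
        have hy0 : (0:ℝ) < y := one_pos.trans hy
        exact (hd y hy0).differentiableAt.differentiableWithinAt
      · intro y hy
        rw [interior_Ici] at hy
        have hy0 : (0:ℝ) < y := one_pos.trans hy
        rw [(hd y hy0).deriv]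
        exact hk2 y hy0 (le_of_lt hy)
    have := hmono (show (1:ℝ) ∈ Ici (1:ℝ) by simp) (show z ∈ Ici (1:ℝ) from h) h
    rw [hg1] at this
    exact this

/-- the scaled scalar inequality -/
theorem quartic_scaled {y s : ℝ} (hy : 0 < y) (hs : 0 < s) :
    (y - s) + (2 * s)⁻¹ * (y - s) ^ 2 - (6 * s ^ 2)⁻¹ * (y - s) ^ 3
      ≤ y * (Real.log y - Real.log s) := by
  have h := quartic_aux2 (div_pos hy hs)
  have h1 : y * (Real.log y - Real.log s) - ((y - s) + (2 * s)⁻¹ * (y - s) ^ 2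
      - (6 * s ^ 2)⁻¹ * (y - s) ^ 3) = s * (y / s * Real.log (y / s) - (y / s - 1)
      - (y / s - 1) ^ 2 / 2 + (y / s - 1) ^ 3 / 6) := by
    rw [Real.log_div hy.ne' hs.ne']
    field_simp
    ring
  have h2 : 0 ≤ s * (y / s * Real.log (y / s) - (y / s - 1)
      - (y / s - 1) ^ 2 / 2 + (y / s - 1) ^ 3 / 6) := mul_nonneg hs.le h
  linarith only [h1, h2]

end Scalar

variable {n : ℕ}

theorem retr_mul_mono {B X Y : CMat n} (hB : 0 ≤ B) (hXY : X ≤ Y) :
    retr (B * X) ≤ retr (B * Y) := by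
  have h1 : (Y - X).PosSemidef := Matrix.nonneg_iff_posSemidef.mp (sub_nonneg.mpr hXY)
  have h := trace_mul_nonneg (Matrix.nonneg_iff_posSemidef.mp hB) h1
  have h2 : retr (B * (Y - X)) = retr (B * Y) - retr (B * X) := by rw [mul_sub, retr_sub]
  have h3 : 0 ≤ retr (B * (Y - X)) := (Complex.le_def.mp h).1
  linarith only [h2, h3]

theorem abs_retr_le (X : CMat n) : |retr X| ≤ ‖retrL n‖ * ‖X‖ := by
  rw [← retrL_apply, ← Real.norm_eq_abs]
  exact (retrL n).le_opNorm X

theorem quartic_cfc {A : CMat n} {c s : ℝ} (hA : IsSelfAdjoint A) (hc : 0 < c)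
    (hsp : ∀ x ∈ spectrum ℝ A, c ≤ x) (hs : 0 < s) :
    (A - s • 1) + (2 * s)⁻¹ • (A - s • 1) ^ 2 - (6 * s ^ 2)⁻¹ • (A - s • 1) ^ 3
      ≤ A * (CFC.log A - Real.log s • 1) := by
  have hlog : ContinuousOn Real.log (spectrum ℝ A) := by
    intro x hx
    exact (Real.continuousAt_log (lt_of_lt_of_le hc (hsp x hx)).ne').continuousWithinAt
  have e0 : A - s • (1 : CMat n) = cfc (fun y : ℝ => y - s) A := by
    rw [cfc_sub (fun y : ℝ => y) (fun _ => s) A, cfc_id' ℝ A, cfc_const s A,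
      Algebra.algebraMap_eq_smul_one]
  have e1 : A * (CFC.log A - Real.log s • 1)
      = cfc (fun y : ℝ => y * (Real.log y - Real.log s)) A := by
    rw [cfc_mul (fun y : ℝ => y) (fun y : ℝ => Real.log y - Real.log s) A (by fun_prop)
      (hlog.sub continuousOn_const), cfc_id' ℝ A, cfc_sub Real.log (fun _ => Real.log s) A hlog
      (by fun_prop), cfc_const _ A, Algebra.algebraMap_eq_smul_one]
    rfl
  have e2 : (A - s • 1) + (2 * s)⁻¹ • (A - s • 1) ^ 2 - (6 * s ^ 2)⁻¹ • (A - s • 1) ^ 3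
      = cfc (fun y : ℝ => (y - s) + (2 * s)⁻¹ * (y - s) ^ 2 - (6 * s ^ 2)⁻¹ * (y - s) ^ 3) A := by
    rw [e0, cfc_sub (fun y : ℝ => (y - s) + (2 * s)⁻¹ * (y - s) ^ 2)
      (fun y => (6 * s ^ 2)⁻¹ * (y - s) ^ 3) A (by (clear * -; fun_prop)) (by fun_prop),
      cfc_add (a := A) (fun y : ℝ => y - s) (fun y => (2 * s)⁻¹ * (y - s) ^ 2) (by fun_prop)
      (by fun_prop), cfc_const_mul (2 * s)⁻¹ (fun y : ℝ => (y - s) ^ 2) A (by (clear * -; fun_prop)),
      cfc_const_mul (6 * s ^ 2)⁻¹ (fun y : ℝ => (y - s) ^ 3) A (by fun_prop),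
      cfc_pow (fun y : ℝ => y - s) 2 A (by fun_prop), cfc_pow (fun y : ℝ => y - s) 3 A (by fun_prop)]
  rw [e1, e2]
  exact cfc_mono (fun x hx => quartic_scaled (lt_of_lt_of_le hc (hsp x hx)) hs) (by fun_prop)
    (continuousOn_id.mul (hlog.sub continuousOn_const))

/-- the sum of the two logarithms -/
noncomputable def ell (K F : CMat n) (t : ℝ) : CMat n :=
  CFC.log (Hm K t + F) + CFC.log (Hm K t - F)

/-- `Φ(t) = tr (D+t)(ℓ(t) - log t) - tr D` -/
noncomputable def Phi (K F : CMat n) (t : ℝ) : ℝ :=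
  retr ((K * K - F * F + t • 1) * (ell K F t - Real.log t • 1)) - retr (K * K - F * F)

/-- trace algebra for the lower bound of `Φ` -/
theorem trace_algebra (a b : CMat n) (s p q : ℝ) :
    retr ((s • 1 + b) * (a + p • a ^ 2 - q • a ^ 3))
      + retr ((s • 1 + a) * (b + p • b ^ 2 - q • b ^ 3))
    = s * retr (a + b) + 2 * retr (a * b) + p * s * (retr (a ^ 2) + retr (b ^ 2))
      + (p * (retr (b * a ^ 2) + retr (a * b ^ 2)) - q * s * (retr (a ^ 3) + retr (b ^ 3))
        - q * (retr (b * a ^ 3) + retr (a * b ^ 3))) := by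
  have hba : retr (b * a) = retr (a * b) := retr_mul_comm b a
  simp only [add_mul, mul_add, mul_sub, retr_add, retr_sub, smul_mul_assoc, mul_smul_comm, one_mul,
    retr_smul, hba]
  ring

theorem retr_sq_add_nonneg {a b : CMat n} (ha : IsSelfAdjoint a) (hb : IsSelfAdjoint b) :
    0 ≤ 2 * retr (a * b) + (retr (a ^ 2) + retr (b ^ 2)) := by
  have h := retr_mul_star_nonneg (a + b)
  have h1 : (a + b) * star (a + b) = a ^ 2 + a * b + b * a + b ^ 2 := by
    rw [star_add, ha.star_eq, hb.star_eq]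
    noncomm_ring
  rw [h1, retr_add, retr_add, retr_add, retr_mul_comm b a] at h
  linarith

theorem norm_le_of_sandwich {K F : CMat n} (hK : 0 ≤ K) (hF : IsSelfAdjoint F)
    (h1 : 0 ≤ K + F) (h2 : 0 ≤ K - F) : ‖F‖ ≤ ‖K‖ := by
  have hKs : IsSelfAdjoint K := IsSelfAdjoint.of_nonneg hK
  have hKn : K ≤ algebraMap ℝ (CMat n) ‖K‖ := hKs.le_algebraMap_norm_self
  have hF1 : F ≤ algebraMap ℝ (CMat n) ‖K‖ := (sub_nonneg.mp h2).trans hKn
  have hF2 : algebraMap ℝ (CMat n) (-‖K‖) ≤ F := by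
    rw [map_neg]
    have : -F ≤ algebraMap ℝ (CMat n) ‖K‖ :=
      le_trans (by have := sub_nonneg.mp (show 0 ≤ K - -F by simpa only [sub_neg_eq_add] using h1); exact this) hKn
    exact neg_le.mp this
  have h3 := (le_algebraMap_iff_spectrum_le (ha := hF)).mp hF1
  have h4 := (algebraMap_le_iff_le_spectrum (ha := hF)).mp hF2
  conv_lhs => rw [← cfc_id' ℝ F]
  apply norm_cfc_le (norm_nonneg _)
  intro x hx
  rw [Real.norm_eq_abs, abs_le]
  exact ⟨h4 x hx, h3 x hx⟩

theorem norm_Hm_sub_le {K : CMat n} (hK : 0 ≤ K) {T : ℝ} (hT : 1 ≤ T) :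
    ‖Hm K T - √T • 1‖ ≤ ‖K‖ ^ 2 := by
  have hKs : IsSelfAdjoint K := IsSelfAdjoint.of_nonneg hK
  have h1 : Hm K T - √T • (1 : CMat n) = cfc (fun x : ℝ => √(x ^ 2 + T) - √T) K := by
    rw [cfc_sub (fun x : ℝ => √(x ^ 2 + T)) (fun _ => √T) K (by fun_prop) (by fun_prop),
      cfc_const _ K, Algebra.algebraMap_eq_smul_one]
    rfl
  rw [h1]
  apply norm_cfc_le (by positivity)
  intro x hx
  have hx2 : x ≤ ‖K‖ := (le_algebraMap_iff_spectrum_le (ha := hKs)).mp
    hKs.le_algebraMap_norm_self x hx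
  have hx0 : 0 ≤ x := spectrum_nonneg_of_nonneg hK hx
  have h2 : √T ≤ √(x ^ 2 + T) := Real.sqrt_le_sqrt (by nlinarith only [])
  rw [Real.norm_eq_abs, abs_of_nonneg (by linarith)]
  have h3 : √(x ^ 2 + T) ^ 2 = x ^ 2 + T := Real.sq_sqrt (by positivity)
  have h4 : √T ^ 2 = T := Real.sq_sqrt (by linarith only [hT])
  have h5 : 1 ≤ √T := Real.one_le_sqrt.mpr hT
  have h6 : √(x ^ 2 + T) - √T ≤ x ^ 2 := by nlinarith only [h3, h4, h5]
  exact h6.trans (by nlinarith only [hx2, hx0])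

/-- lower bound for `Φ` at infinity -/
theorem Phi_ge {K F : CMat n} (hK : 0 ≤ K) (hF : IsSelfAdjoint F)
    (h1 : 0 ≤ K + F) (h2 : 0 ≤ K - F) {T : ℝ} (hT : 1 ≤ T) :
    -(‖retrL n‖ * (2 * (‖K‖ ^ 2 + ‖K‖) ^ 3 + (‖K‖ ^ 2 + ‖K‖) ^ 4)) / √T ≤ Phi K F T := by
  have hKs : IsSelfAdjoint K := IsSelfAdjoint.of_nonneg hK
  have hT0 : 0 < T := by linarith only [hT]
  set s := √T with hs
  have hs1 : 1 ≤ s := Real.one_le_sqrt.mpr hT
  have hs0 : 0 < s := by linarith only [hs1]
  have hsT : s ^ 2 = T := Real.sq_sqrt hT0.le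
  have hFs := norm_le_of_sandwich hK hF h1 h2
  set H := Hm K T with hHdef
  have hHs : IsSelfAdjoint H := Hm_isSelfAdjoint K T
  have hHH : H * H = K * K + T • (1 : CMat n) := by
    rw [hHdef, Hm_mul_Hm hKs hT0.le, Algebra.algebraMap_eq_smul_one]
  have hc : 0 < cb ‖K‖ T := cb_pos hT0
  have sA := spectrum_add hK hF h1 le_rfl hT0.le
  have sB := spectrum_sub hK hF h2 le_rfl hT0.le
  have bA := cb_le_add hK h1 le_rfl hT0.le
  have bB := cb_le_sub hK h2 le_rfl hT0.le
  rw [← hHdef] at sA sB bA bB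
  set A := H + F with hA
  set B := H - F with hB
  have hAs : IsSelfAdjoint A := hHs.add hF
  have hBs : IsSelfAdjoint B := hHs.sub hF
  have hcn : (0 : CMat n) ≤ algebraMap ℝ (CMat n) (cb ‖K‖ T) := by
    rw [Algebra.algebraMap_eq_smul_one]
    exact smul_nonneg hc.le zero_le_one
  have hA0 : 0 ≤ A := hcn.trans bA
  have hB0 : 0 ≤ B := hcn.trans bB
  -- the two quartic bounds
  have qA := retr_mul_mono hB0 (quartic_cfc hAs hc sA hs0)
  have qB := retr_mul_mono hA0 (quartic_cfc hBs hc sB hs0)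
  set a := A - s • (1 : CMat n) with ha
  set b := B - s • (1 : CMat n) with hb
  have hAa : A = s • 1 + a := by rw [ha]; abel
  have hBb : B = s • 1 + b := by rw [hb]; abel
  set M := K * K - F * F + T • (1 : CMat n) with hM
  have hMM : M = (1 / 2 : ℝ) • (A * B + B * A) := by
    have h3 : A * B + B * A = (2 : ℝ) • (H * H - F * F) := by
      rw [hA, hB, two_smul]
      noncomm_ring
    rw [h3, smul_smul, hHH, hM]
    norm_num
    abel
  have key : ∀ (P Q X : CMat n), P * X = X * P →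
      retr ((1 / 2 : ℝ) • (P * Q + Q * P) * X) = retr (Q * (P * X)) := by
    intro P Q X hPX
    rw [smul_mul_assoc, retr_smul, add_mul, retr_add]
    have e1 : retr (P * Q * X) = retr (Q * (P * X)) := by
      rw [mul_assoc, retr_mul_comm, mul_assoc, hPX]
    have e2 : retr (Q * P * X) = retr (Q * (P * X)) := by rw [mul_assoc]
    rw [e1, e2]
    ring
  have comm : ∀ P : CMat n, IsSelfAdjoint P → P * (CFC.log P - Real.log s • 1)
      = (CFC.log P - Real.log s • 1) * P := by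
    intro P hP
    have h3 : Commute P (CFC.log P) := by
      have := cfc_commute_cfc (fun x : ℝ => x) Real.log P
      rw [cfc_id' ℝ P] at this
      exact this
    rw [mul_sub, sub_mul, h3.eq, mul_smul_comm, smul_mul_assoc, mul_one, one_mul]
  have kA := key A B _ (comm A hAs)
  have kB := key B A _ (comm B hBs)
  rw [← hMM] at kA
  rw [add_comm (B * A), ← hMM] at kB
  have hlogT : Real.log T = 2 * Real.log s := by
    rw [← hsT, Real.log_pow]
    norm_num
  have e1 : Phi K F T = retr (B * (A * (CFC.log A - Real.log s • 1)))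
      + retr (A * (B * (CFC.log B - Real.log s • 1))) - retr (K * K - F * F) := by
    rw [← kA, ← kB, ← retr_add, ← mul_add, Phi, ell, ← hHdef, ← hA, ← hB, ← hM, hlogT]
    congr 3
    rw [mul_smul, two_smul]
    abel
  -- trace algebra
  have alg := trace_algebra a b s (2 * s)⁻¹ (6 * s ^ 2)⁻¹
  rw [← hAa, ← hBb] at alg
  have hab := retr_sq_add_nonneg (a := a) (b := b) (by
    rw [ha]; exact hAs.sub (IsSelfAdjoint.smul (by trivial) (.one _))) (by
    rw [hb]; exact hBs.sub (IsSelfAdjoint.smul (by trivial) (.one _)))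
  -- `tr (AB) = tr (D + T)`
  have hAB : retr (K * K - F * F) = s * retr (a + b) + retr (a * b) := by
    have h3 : retr M = retr (A * B) := by
      rw [hMM, retr_smul, retr_add, retr_mul_comm B A]
      ring
    have h4 : retr (A * B) = s ^ 2 * n + s * retr (a + b) + retr (a * b) := by
      rw [hAa, hBb]
      simp only [add_mul, mul_add, retr_add, smul_mul_assoc, mul_smul_comm, one_mul, mul_one,
        retr_smul, retr_one]
      ring
    have h5 : retr M = retr (K * K - F * F) + T * n := by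
      rw [hM, retr_add, retr_smul, retr_one]
    rw [← hsT] at h5
    linarith only [h3, h4, h5]
  -- norms
  set m := ‖K‖ ^ 2 + ‖K‖ with hm
  have hm0 : 0 ≤ m := by (clear * -; positivity)
  have hHn := norm_Hm_sub_le hK hT
  rw [← hHdef, ← hs] at hHn
  have na : ‖a‖ ≤ m := by
    have : a = (H - s • 1) + F := by rw [ha, hA]; abel
    rw [this]
    exact (norm_add_le _ _).trans (by linarith only [hFs, hHn])
  have nb : ‖b‖ ≤ m := by
    have : b = (H - s • 1) - F := by rw [hb, hB]; abel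
    rw [this]
    exact (norm_sub_le _ _).trans (by linarith only [hFs, hHn])
  set c₀ := ‖retrL n‖ with hc₀
  have hc₀0 : 0 ≤ c₀ := norm_nonneg _
  have tr3 : ∀ x y : CMat n, ‖x‖ ≤ m → ‖y‖ ≤ m → |retr (x * y ^ 2)| ≤ c₀ * m ^ 3 := by
    intro x y hx hy
    refine (abs_retr_le _).trans (mul_le_mul_of_nonneg_left ?_ hc₀0)
    calc ‖x * y ^ 2‖ ≤ ‖x‖ * ‖y ^ 2‖ := norm_mul_le _ _
      _ ≤ m * m ^ 2 := by
          apply mul_le_mul hx ((norm_pow_le' y two_pos).trans
            (pow_le_pow_left₀ (norm_nonneg _) hy 2)) (norm_nonneg _) hm0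
      _ = m ^ 3 := by ring
  have tr3' : ∀ y : CMat n, ‖y‖ ≤ m → |retr (y ^ 3)| ≤ c₀ * m ^ 3 := by
    intro y hy
    have := tr3 y y hy hy
    rwa [← pow_succ'] at this
  have tr4 : ∀ x y : CMat n, ‖x‖ ≤ m → ‖y‖ ≤ m → |retr (x * y ^ 3)| ≤ c₀ * m ^ 4 := by
    intro x y hx hy
    refine (abs_retr_le _).trans (mul_le_mul_of_nonneg_left ?_ hc₀0)
    calc ‖x * y ^ 3‖ ≤ ‖x‖ * ‖y ^ 3‖ := norm_mul_le _ _
      _ ≤ m * m ^ 3 := by
          apply mul_le_mul hx ((norm_pow_le' y (by norm_num)).trans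
            (pow_le_pow_left₀ (norm_nonneg _) hy 3)) (norm_nonneg _) hm0
      _ = m ^ 4 := by ring
  have t1 := (abs_le.mp (tr3 b a nb na)).1
  have t2 := (abs_le.mp (tr3 a b na nb)).1
  have t3 := (abs_le.mp (tr3' a na)).2
  have t4 := (abs_le.mp (tr3' b nb)).2
  have t5 := (abs_le.mp (tr4 b a nb na)).2
  have t6 := (abs_le.mp (tr4 a b na nb)).2
  have hps : (2 * s)⁻¹ * s = 1 / 2 := by field_simp
  have hqs : (6 * s ^ 2)⁻¹ * s = (6 * s)⁻¹ := by field_simp
  rw [hps, hqs] at alg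
  have i1 : (2 * s)⁻¹ * (retr (b * a ^ 2) + retr (a * b ^ 2)) ≥ (2 * s)⁻¹ * (-(2 * c₀ * m ^ 3)) :=
    mul_le_mul_of_nonneg_left (by linarith only [t1, t2]) (by positivity)
  have i2 : (6 * s)⁻¹ * (retr (a ^ 3) + retr (b ^ 3)) ≤ (6 * s)⁻¹ * (2 * c₀ * m ^ 3) :=
    mul_le_mul_of_nonneg_left (by linarith only [t3, t4]) (by positivity)
  have i3 : (6 * s ^ 2)⁻¹ * (retr (b * a ^ 3) + retr (a * b ^ 3)) ≤ (6 * s)⁻¹ * (2 * c₀ * m ^ 4) := by
    calc (6 * s ^ 2)⁻¹ * (retr (b * a ^ 3) + retr (a * b ^ 3))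
        ≤ (6 * s ^ 2)⁻¹ * (2 * c₀ * m ^ 4) :=
          mul_le_mul_of_nonneg_left (by linarith only [t5, t6]) (by positivity)
      _ ≤ (6 * s)⁻¹ * (2 * c₀ * m ^ 4) := by
          apply mul_le_mul_of_nonneg_right _ (by (clear * -; positivity))
          apply inv_anti₀ (by positivity)
          nlinarith only [hs1]
  have fin : -(c₀ * (2 * m ^ 3 + m ^ 4)) / s ≤ (2 * s)⁻¹ * (-(2 * c₀ * m ^ 3))
      - (6 * s)⁻¹ * (2 * c₀ * m ^ 3) - (6 * s)⁻¹ * (2 * c₀ * m ^ 4) := by
    have h3 : (2 * s)⁻¹ * (-(2 * c₀ * m ^ 3))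
      - (6 * s)⁻¹ * (2 * c₀ * m ^ 3) - (6 * s)⁻¹ * (2 * c₀ * m ^ 4)
        - -(c₀ * (2 * m ^ 3 + m ^ 4)) / s = (2 / 3) * (c₀ * m ^ 3 + c₀ * m ^ 4) / s := by
      field_simp
      ring
    have h4 : 0 ≤ (2 / 3) * (c₀ * m ^ 3 + c₀ * m ^ 4) / s := by (clear * - hT; positivity)
    linarith only [h3, h4]
  rw [e1]
  linarith

end Vale.Agent.P371.G
end
end

section

section

/-!
`Φ(t) = tr (D+t)(ℓ(t) - log t) - tr D` is differentiable, nonincreasing, nonnegative, and
`O(1+|log t|)` at `0`.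
-/

namespace Vale.Agent.P371.G

open MeasureTheory Set Filter Topology
open scoped NNReal Matrix.Norms.L2Operator ComplexOrder MatrixOrder

variable {n : ℕ}

theorem posDef_of_algebraMap_le {A : CMat n} {c : ℝ} (hc : 0 < c)
    (h : algebraMap ℝ (CMat n) c ≤ A) : A.PosDef := by
  have h1 : (A - algebraMap ℝ (CMat n) c).PosSemidef :=
    Matrix.nonneg_iff_posSemidef.mp (sub_nonneg.mpr h)
  have h2 : (algebraMap ℝ (CMat n) c).PosDef := by
    rw [Algebra.algebraMap_eq_smul_one]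
    exact Matrix.PosDef.one.smul hc
  have h3 := h2.add_posSemidef h1
  simpa using h3

theorem posDef_add {K F : CMat n} (hK : 0 ≤ K) (h1 : 0 ≤ K + F) {t : ℝ} (ht : 0 < t) :
    (Hm K t + F).PosDef := posDef_of_algebraMap_le (cb_pos ht) (cb_le_add hK h1 le_rfl ht.le)

theorem posDef_sub {K F : CMat n} (hK : 0 ≤ K) (h2 : 0 ≤ K - F) {t : ℝ} (ht : 0 < t) :
    (Hm K t - F).PosDef := posDef_of_algebraMap_le (cb_pos ht) (cb_le_sub hK h2 le_rfl ht.le)

theorem hasDerivAt_ell {K F : CMat n} (hK : 0 ≤ K) (hF : IsSelfAdjoint F)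
    (h1 : 0 ≤ K + F) (h2 : 0 ≤ K - F) {t : ℝ} (ht : 0 < t) :
    ∃ d : CMat n, HasDerivAt (ell K F) d t :=
  ⟨_, (hasDerivAt_log_add hK hF h1 ht).add (hasDerivAt_log_sub hK hF h2 ht)⟩

theorem hasDerivAt_Phi {K F : CMat n} (hK : 0 ≤ K) (hF : IsSelfAdjoint F)
    (h1 : 0 ≤ K + F) (h2 : 0 ≤ K - F) {t : ℝ} (ht : 0 < t) :
    ∃ d : ℝ, d ≤ n ∧ HasDerivAt (Phi K F)
      (retr (ell K F t) - n * Real.log t - retr (K * K - F * F) / t + (d - n)) t := by
  obtain ⟨e, he⟩ := hasDerivAt_ell hK hF h1 h2 ht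
  obtain ⟨d, hd, hdn⟩ := hasDerivAt_retr_log hK hF h1 h2 ht
  refine ⟨d, hdn, ?_⟩
  set M := K * K - F * F + t • (1 : CMat n) with hM
  have hde : d = retr (M * e) := by
    let L : CMat n →L[ℝ] ℝ := (retrL n).comp (ContinuousLinearMap.mul ℝ (CMat n) M)
    have hL : ∀ X, L X = retr (M * X) := fun X => rfl
    have h3 : HasDerivAt (fun t => retr (M * ell K F t)) (retr (M * e)) t :=
      L.hasFDerivAt.comp_hasDerivAt t he
    exact hd.unique h3
  have hlog : HasDerivAt (fun t : ℝ => Real.log t • (1 : CMat n)) (t⁻¹ • (1 : CMat n)) t :=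
    (Real.hasDerivAt_log ht.ne').smul_const 1
  have hMd : HasDerivAt (fun t : ℝ => K * K - F * F + t • (1 : CMat n)) (1 : CMat n) t := by
    have := ((hasDerivAt_id t).smul_const (1 : CMat n)).const_add (K * K - F * F)
    simpa only [hasDerivAt_const_add_iff, id_eq, one_smul] using this
  have hprod := hMd.mul (he.sub hlog)
  have h4 : HasDerivAt (Phi K F) (retr (1 * (ell K F t - Real.log t • 1) + M * (e - t⁻¹ • 1))) t := by
    have h5 := (retrL n).hasFDerivAt.comp_hasDerivAt t hprod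
    exact (h5.sub_const (retr (K * K - F * F)))
  refine h4.congr_deriv ?_
  rw [one_mul, mul_sub, mul_smul_comm, mul_one, retr_add, retr_sub, retr_sub, retr_smul, retr_smul,
    retr_one, ← hde]
  have h6 : retr M = retr (K * K - F * F) + t * n := by
    rw [hM, retr_add, retr_smul, retr_one]
  rw [h6]
  field_simp
  ring

/-- `tr ℓ ≤ tr D / t + n log t` -/
theorem retr_ell_le {K F : CMat n} (hK : 0 ≤ K) (h1 : 0 ≤ K + F) (h2 : 0 ≤ K - F)
    {t : ℝ} (ht : 0 < t) :
    retr (ell K F t) - n * Real.log t - retr (K * K - F * F) / t ≤ 0 := by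
  have hKs : IsSelfAdjoint K := IsSelfAdjoint.of_nonneg hK
  have hZ : ((t : ℝ) • (1 : CMat n)).PosDef := Matrix.PosDef.one.smul ht
  have h := gibbs_golden_thompson (posDef_add hK h1 ht) (posDef_sub hK h2 ht) hZ
  have hl : cfc Real.log ((t : ℝ) • (1 : CMat n)) = Real.log t • (1 : CMat n) := by
    rw [← Algebra.algebraMap_eq_smul_one, cfc_algebraMap, Algebra.algebraMap_eq_smul_one]
  rw [hl] at h
  have h3 : retr ((t • (1 : CMat n)) * (ell K F t - Real.log t • 1)) + retr (t • (1 : CMat n))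
      ≤ retr ((Hm K t + F) * (Hm K t - F)) := h
  have h4 : retr ((Hm K t + F) * (Hm K t - F)) = retr (K * K - F * F) + t * n := by
    have e1 : (Hm K t + F) * (Hm K t - F) = Hm K t * Hm K t - F * F
        + (F * Hm K t - Hm K t * F) := by noncomm_ring
    rw [e1, Hm_mul_Hm hKs ht.le, Algebra.algebraMap_eq_smul_one, retr_add, retr_sub (F * Hm K t),
      retr_mul_comm F, sub_self, add_zero]
    have e2 : K * K + t • (1 : CMat n) - F * F = (K * K - F * F) + t • 1 := by abel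
    rw [e2, retr_add, retr_smul, retr_one]
  rw [h4, smul_mul_assoc, one_mul, retr_smul, retr_sub, retr_smul, retr_smul, retr_one] at h3
  have h5 : t * (retr (ell K F t) - n * Real.log t - retr (K * K - F * F) / t) ≤ 0 := by
    have : t * (retr (K * K - F * F) / t) = retr (K * K - F * F) := by (clear * - ht; field_simp)
    linarith
  by_contra hcon
  push Not at hcon
  nlinarith only [h5, ht, hcon]

theorem Phi_antitone {K F : CMat n} (hK : 0 ≤ K) (hF : IsSelfAdjoint F)
    (h1 : 0 ≤ K + F) (h2 : 0 ≤ K - F) : AntitoneOn (Phi K F) (Ioi 0) := by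
  apply antitoneOn_of_deriv_nonpos (convex_Ioi 0)
  · intro t ht
    obtain ⟨d, -, hd⟩ := hasDerivAt_Phi hK hF h1 h2 (t := t) ht
    exact hd.continuousAt.continuousWithinAt
  · intro t ht
    rw [interior_Ioi] at ht
    obtain ⟨d, -, hd⟩ := hasDerivAt_Phi hK hF h1 h2 (t := t) ht
    exact hd.differentiableAt.differentiableWithinAt
  · intro t ht
    rw [interior_Ioi] at ht
    obtain ⟨d, hdn, hd⟩ := hasDerivAt_Phi hK hF h1 h2 (t := t) ht
    rw [hd.deriv]
    have := retr_ell_le hK h1 h2 (t := t) ht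
    linarith

/-- **(J3, infinity)** -/
theorem Phi_nonneg {K F : CMat n} (hK : 0 ≤ K) (hF : IsSelfAdjoint F)
    (h1 : 0 ≤ K + F) (h2 : 0 ≤ K - F) {t : ℝ} (ht : 0 < t) : 0 ≤ Phi K F t := by
  set C := ‖retrL n‖ * (2 * (‖K‖ ^ 2 + ‖K‖) ^ 3 + (‖K‖ ^ 2 + ‖K‖) ^ 4) with hC
  have hlim : Tendsto (fun T : ℝ => -C / √T) atTop (𝓝 0) :=
    tendsto_const_nhds.div_atTop Real.tendsto_sqrt_atTop
  have hmax : Tendsto (fun T : ℝ => max T (max t 1)) atTop atTop :=
    tendsto_atTop_mono (fun T => le_max_left T _) tendsto_id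
  apply le_of_tendsto' (hlim.comp hmax)
  intro T
  have hT1 : 1 ≤ max T (max t 1) := (le_max_right t 1).trans (le_max_right _ _)
  have hTt : t ≤ max T (max t 1) := (le_max_left t 1).trans (le_max_right _ _)
  exact (Phi_ge hK hF h1 h2 hT1).trans
    (Phi_antitone hK hF h1 h2 ht (lt_of_lt_of_le ht hTt) hTt)

theorem abs_log_le {k t x : ℝ} (hk : 0 ≤ k) (ht : 0 < t) (ht1 : t ≤ 1) (h1 : cb k t ≤ x)
    (h2 : x ≤ 2 * k + 2) : |Real.log x| ≤ |Real.log t| + Real.log (2 * k + 2) := by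
  have hx0 : 0 < x := lt_of_lt_of_le (cb_pos ht) h1
  have hlt : Real.log t ≤ 0 := Real.log_nonpos ht.le ht1
  have hlk : 0 ≤ Real.log (2 * k + 2) := Real.log_nonneg (by linarith)
  rw [abs_of_nonpos hlt, abs_le]
  constructor
  · -- `t / (2k+2) ≤ cb k t`
    have h3 : t / (2 * k + 2) ≤ x := by
      refine le_trans ?_ h1
      rw [div_le_iff₀ (by linarith only [hk]), cb]
      have h4 : √(k ^ 2 + t) ^ 2 = k ^ 2 + t := Real.sq_sqrt (by positivity)
      have h5 : k ≤ √(k ^ 2 + t) := Real.le_sqrt_of_sq_le (by linarith only [ht])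
      have h6 : √(k ^ 2 + t) ≤ k + 1 := by
        rw [Real.sqrt_le_left (by linarith)]
        linarith
      nlinarith only [h4, h5, h6]
    have h7 : Real.log (t / (2 * k + 2)) ≤ Real.log x := Real.log_le_log (by positivity) h3
    rw [Real.log_div ht.ne' (by positivity)] at h7
    linarith only [h7]
  · have h8 : Real.log x ≤ Real.log (2 * k + 2) := Real.log_le_log hx0 h2
    linarith

theorem norm_log_le {K A : CMat n} {t : ℝ} (hA : IsSelfAdjoint A) (ht : 0 < t) (ht1 : t ≤ 1)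
    (hs : ∀ x ∈ spectrum ℝ A, cb ‖K‖ t ≤ x) (hn : ‖A‖ ≤ 2 * ‖K‖ + 2) :
    ‖CFC.log A‖ ≤ |Real.log t| + Real.log (2 * ‖K‖ + 2) := by
  have hk := norm_nonneg K
  apply norm_cfc_le (add_nonneg (abs_nonneg _) (Real.log_nonneg (by linarith)))
  intro x hx
  have hx2 : x ≤ ‖A‖ := (le_algebraMap_iff_spectrum_le (ha := hA)).mp
    hA.le_algebraMap_norm_self x hx
  rw [Real.norm_eq_abs]
  exact abs_log_le hk ht ht1 (hs x hx) (hx2.trans hn)

theorem norm_Hm_le {K : CMat n} (hK : 0 ≤ K) {t : ℝ} (ht1 : t ≤ 1) :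
    ‖Hm K t‖ ≤ ‖K‖ + 1 := by
  have hKs : IsSelfAdjoint K := IsSelfAdjoint.of_nonneg hK
  apply norm_cfc_le (by positivity)
  intro x hx
  have hx2 : x ≤ ‖K‖ := (le_algebraMap_iff_spectrum_le (ha := hKs)).mp
    hKs.le_algebraMap_norm_self x hx
  have hx0 : 0 ≤ x := spectrum_nonneg_of_nonneg hK hx
  rw [Real.norm_eq_abs, abs_of_nonneg (Real.sqrt_nonneg _), Real.sqrt_le_left (by linarith only [hx2, hx0])]
  nlinarith only [ht1, hx2, hx0]

/-- **(J3, zero)** -/
theorem Phi_le {K F : CMat n} (hK : 0 ≤ K) (hF : IsSelfAdjoint F)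
    (h1 : 0 ≤ K + F) (h2 : 0 ≤ K - F) {t : ℝ} (ht : 0 < t) (ht1 : t ≤ 1) :
    |Phi K F t| ≤ (‖retrL n‖ * ((2 * ‖K‖ ^ 2 + 1) * (3 + 2 * Real.log (2 * ‖K‖ + 2))
      + 2 * ‖K‖ ^ 2)) * (1 + |Real.log t|) := by
  have hFs := norm_le_of_sandwich hK hF h1 h2
  have hk := norm_nonneg K
  have hlk : 0 ≤ Real.log (2 * ‖K‖ + 2) := Real.log_nonneg (by linarith only [hk])
  set lk := Real.log (2 * ‖K‖ + 2) with hlkdef
  have hHn := norm_Hm_le hK ht1
  have nA : ‖CFC.log (Hm K t + F)‖ ≤ |Real.log t| + lk :=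
    norm_log_le ((Hm_isSelfAdjoint K t).add hF) ht ht1 (spectrum_add hK hF h1 le_rfl ht.le)
      ((norm_add_le _ _).trans (by linarith only [hFs, hHn]))
  have nB : ‖CFC.log (Hm K t - F)‖ ≤ |Real.log t| + lk :=
    norm_log_le ((Hm_isSelfAdjoint K t).sub hF) ht ht1 (spectrum_sub hK hF h2 le_rfl ht.le)
      ((norm_sub_le _ _).trans (by linarith only [hFs, hHn]))
  have n1 : ‖(1 : CMat n)‖ ≤ 1 := by
    rcases subsingleton_or_nontrivial (CMat n) with h | h
    · rw [Subsingleton.elim (1 : CMat n) 0, norm_zero]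
      exact zero_le_one
    · exact (CStarRing.norm_one (E := CMat n)).le
  have nl : ‖ell K F t - Real.log t • (1 : CMat n)‖ ≤ 3 * |Real.log t| + 2 * lk := by
    calc ‖ell K F t - Real.log t • (1 : CMat n)‖
        ≤ ‖ell K F t‖ + ‖Real.log t • (1 : CMat n)‖ := norm_sub_le _ _
      _ ≤ (‖CFC.log (Hm K t + F)‖ + ‖CFC.log (Hm K t - F)‖) + |Real.log t| * 1 := by
          apply add_le_add (norm_add_le _ _)
          rw [norm_smul, Real.norm_eq_abs]
          exact mul_le_mul_of_nonneg_left n1 (abs_nonneg _)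
      _ ≤ _ := by linarith only [nA, nB]
  have nD : ‖K * K - F * F‖ ≤ 2 * ‖K‖ ^ 2 := by
    calc ‖K * K - F * F‖ ≤ ‖K * K‖ + ‖F * F‖ := norm_sub_le _ _
      _ ≤ ‖K‖ * ‖K‖ + ‖F‖ * ‖F‖ := add_le_add (norm_mul_le _ _) (norm_mul_le _ _)
      _ ≤ ‖K‖ * ‖K‖ + ‖K‖ * ‖K‖ := by
          (clear * - hFs; gcongr)
      _ = 2 * ‖K‖ ^ 2 := by ring
  have nM : ‖K * K - F * F + t • (1 : CMat n)‖ ≤ 2 * ‖K‖ ^ 2 + 1 := by
    calc ‖K * K - F * F + t • (1 : CMat n)‖ ≤ ‖K * K - F * F‖ + ‖t • (1 : CMat n)‖ :=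
          norm_add_le _ _
      _ ≤ 2 * ‖K‖ ^ 2 + 1 := by
          apply add_le_add nD
          rw [norm_smul, Real.norm_eq_abs, abs_of_pos ht]
          calc t * ‖(1 : CMat n)‖ ≤ 1 * 1 := mul_le_mul ht1 n1 (norm_nonneg _) zero_le_one
            _ = 1 := one_mul 1
  have hc₀ : 0 ≤ ‖retrL n‖ := norm_nonneg _
  have hL : 0 ≤ |Real.log t| := abs_nonneg _
  calc |Phi K F t| ≤ |retr ((K * K - F * F + t • 1) * (ell K F t - Real.log t • 1))|
        + |retr (K * K - F * F)| := abs_sub _ _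
    _ ≤ ‖retrL n‖ * ((2 * ‖K‖ ^ 2 + 1) * (3 * |Real.log t| + 2 * lk))
        + ‖retrL n‖ * (2 * ‖K‖ ^ 2) := by
        apply add_le_add
        · refine (abs_retr_le _).trans (mul_le_mul_of_nonneg_left ?_ hc₀)
          exact (norm_mul_le _ _).trans (mul_le_mul nM nl (norm_nonneg _) (by (clear * -; positivity)))
        · exact (abs_retr_le _).trans (mul_le_mul_of_nonneg_left nD hc₀)
    _ ≤ _ := by
        have e : (‖retrL n‖ * ((2 * ‖K‖ ^ 2 + 1) * (3 + 2 * lk) + 2 * ‖K‖ ^ 2)) * (1 + |Real.log t|)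
          - (‖retrL n‖ * ((2 * ‖K‖ ^ 2 + 1) * (3 * |Real.log t| + 2 * lk))
            + ‖retrL n‖ * (2 * ‖K‖ ^ 2)) = ‖retrL n‖ * ((2 * ‖K‖ ^ 2 + 1) * (3 + 2 * lk * |Real.log t|)
              + 2 * ‖K‖ ^ 2 * |Real.log t|) := by ring
        have h9 : 0 ≤ ‖retrL n‖ * ((2 * ‖K‖ ^ 2 + 1) * (3 + 2 * lk * |Real.log t|)
              + 2 * ‖K‖ ^ 2 * |Real.log t|) := by (clear * - hlk; positivity)
        linarith only [h9]

end Vale.Agent.P371.G
end
end

section

section

/-!
Part II of the sharp one-dimensional Lieb-Thirring inequality: for a solution of the matrix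
Riccati equation `F' = K² - F² - Q` running from `K` to `-K`,
`β tr K^(2ν+1) ≤ c ∫ tr Q^(1+ν)`.
-/

namespace Vale.Agent.P371.GII

open Matrix Filter Topology Set MeasureTheory
open scoped ComplexOrder MatrixOrder Matrix.Norms.L2Operator

theorem real_smul_one {N : ℕ} (t : ℝ) :
    t • (1 : Matrix (Fin N) (Fin N) ℂ) = (t : ℂ) • (1 : Matrix (Fin N) (Fin N) ℂ) := by
  ext i j
  simp

theorem J2_holds {N : ℕ} {K F : Matrix (Fin N) (Fin N) ℂ} (hK : K.PosSemidef)
    (hm : (K - F).PosSemidef) (hp : (K + F).PosSemidef) : J2 K F := by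
  intro t₀ ht₀
  have hF : IsSelfAdjoint F := by
    have h1 : (K + F).IsHermitian := hp.isHermitian
    have h2 : (K + F - K).IsHermitian := h1.sub hK.isHermitian
    rw [add_sub_cancel_left] at h2
    exact h2
  obtain ⟨d, hd, hdn⟩ := Vale.Agent.P371.G.hasDerivAt_retr_log
    (nonneg_iff_posSemidef.mpr hK) hF (nonneg_iff_posSemidef.mpr hp)
    (nonneg_iff_posSemidef.mpr hm) ht₀
  refine ⟨d, ?_, by simpa only [Fintype.card_fin] using hdn⟩
  rw [real_smul_one] at hd
  exact hd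

theorem isSelfAdjoint_of {N : ℕ} {K F : Matrix (Fin N) (Fin N) ℂ} (hK : K.PosSemidef)
    (hp : (K + F).PosSemidef) : IsSelfAdjoint F := by
  have h2 : (K + F - K).IsHermitian := hp.isHermitian.sub hK.isHermitian
  rw [add_sub_cancel_left] at h2
  exact h2

theorem Phi_eq {N : ℕ} (K F : Matrix (Fin N) (Fin N) ℂ) (t : ℝ) :
    Vale.Agent.P371.G.Phi K F t = Phi K F t := by
  unfold Vale.Agent.P371.G.Phi Phi
  rw [real_smul_one, real_smul_one]
  rfl

/-- **Part II.** -/
theorem partII {N : ℕ} {ν : ℝ} (hν : 0 < ν) (hν1 : ν < 1) {a : ℝ} (ha : 0 < a)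
    {K : Matrix (Fin N) (Fin N) ℂ} (hK : K.PosSemidef) {F Q : ℝ → Matrix (Fin N) (Fin N) ℂ}
    (hF : ∀ x ∈ Icc (-a) a, HasDerivWithinAt F (K * K - F x * F x - Q x) (Icc (-a) a) x)
    (hQc : ContinuousOn Q (Icc (-a) a)) (hQ : ∀ x ∈ Icc (-a) a, (Q x).PosSemidef)
    (h1 : F (-a) = K) (h2 : F a = -K)
    (h3 : ∀ x ∈ Icc (-a) a, (K - F x).PosSemidef ∧ (K + F x).PosSemidef) :
    (∫ f in (-1:ℝ)..1, (1 - f ^ 2) ^ ν) * trPow (2 * ν + 1) K
      ≤ (1 / ν) * (ν / (1 + ν)) ^ (1 + ν) * ∫ x in (-a)..a, trPow (1 + ν) (Q x) := by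
  refine partII_core hν hν1 ha hK hF hQc hQ h1 h2 h3
    (C := ‖Vale.Agent.P371.G.retrL N‖ * ((2 * ‖K‖ ^ 2 + 1) * (3 + 2 * Real.log (2 * ‖K‖ + 2))
      + 2 * ‖K‖ ^ 2)) (fun x hx => J2_holds hK (h3 x hx).1 (h3 x hx).2) ?_ ?_
  · intro x hx t ht
    rw [← Phi_eq]
    exact Vale.Agent.P371.G.Phi_nonneg (nonneg_iff_posSemidef.mpr hK)
      (isSelfAdjoint_of hK (h3 x hx).2) (nonneg_iff_posSemidef.mpr (h3 x hx).2)
      (nonneg_iff_posSemidef.mpr (h3 x hx).1) ht
  · intro x hx t ht ht1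
    rw [← Phi_eq]
    exact (le_abs_self _).trans (Vale.Agent.P371.G.Phi_le (nonneg_iff_posSemidef.mpr hK)
      (isSelfAdjoint_of hK (h3 x hx).2) (nonneg_iff_posSemidef.mpr (h3 x hx).2)
      (nonneg_iff_posSemidef.mpr (h3 x hx).1) ht ht1)

end Vale.Agent.P371.GII
end
end

section

section

/-!
Final assembly, from the core inequality `MainHyp`.
-/

namespace Vale.Agent.P371.G

open MeasureTheory
open scoped ENNReal ComplexOrder

theorem LTconst_le_of_main {γ : ℝ} (hγ : 1 / 2 < γ) {m : ℕ}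
    (hM : ∀ N, MainHyp γ (Cg γ) N m) : LTconst γ m ≤ ENNReal.ofReal (Cg γ) := by
  unfold LTconst
  refine iSup_le fun W => iSup_le fun hW => iSup_le fun h0 => ?_
  have hnn : 0 ≤ ∫ x, trPow (γ + 1 / 2) (W x) :=
    integral_nonneg fun x => trPow_nonneg' (hW.posSemidef x) _
  have hpos : 0 < ∫ x, trPow (γ + 1 / 2) (W x) := lt_of_le_of_ne hnn (Ne.symm h0)
  rw [ENNReal.div_le_iff (by simpa only [one_div, ne_eq, ENNReal.ofReal_eq_zero, not_le] using hpos) ENNReal.ofReal_ne_top,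
    ← ENNReal.ofReal_mul (Cg_pos hγ).le]
  exact rieszMean_le_of_main hγ (Cg_pos hγ).le hM hW

/-- The sharp Lieb-Thirring constant, from the core inequality. -/
theorem LTconst_eq_of_main {γ : ℝ} (hγ : 1 / 2 < γ) {m : ℕ} (hm : 1 ≤ m)
    (hM : ∀ N, MainHyp γ (Cg γ) N m) :
    LTconst γ m = LTone γ ∧
    LTone γ = ENNReal.ofReal (2 * ((γ - 1 / 2) / (γ + 1 / 2)) ^ (γ - 1 / 2) * Lcl γ) := by
  have h1 : LTone γ ≤ LTconst γ m := LTone_le_LTconst hγ hm
  have h2 := LTone_ge hγ
  have h3 := LTconst_le_of_main hγ hM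
  rw [Cg_eq hγ] at h3
  exact ⟨le_antisymm (h3.trans h2) h1, le_antisymm (h1.trans h3) h2⟩

/-- in the notation of `LT.lean` -/
theorem final_of_main {γ : ℝ} (hγ : 1 / 2 < γ)
    (hM : ∀ N m, MainHyp γ (Cg γ) N m) (m : ℕ) (hm : 1 ≤ m) :
    LT.LTconst γ m = LT.LTone γ ∧ LT.LTconst γ m = LT.LTconst γ 1 ∧
    LT.LTone γ = ENNReal.ofReal (2 * ((γ - 1 / 2) / (γ + 1 / 2)) ^ (γ - 1 / 2) * LT.Lcl γ) := by
  obtain ⟨h1, h2⟩ := LTconst_eq_of_main hγ hm (fun N => hM N m)
  obtain ⟨h3, -⟩ := LTconst_eq_of_main hγ le_rfl (fun N => hM N 1)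
  rw [LT.LTconst_eq, LT.LTone_eq] at h1 h3
  rw [LT.LTone_eq] at h2
  exact ⟨h1, h1.trans h3.symm, h2⟩

end Vale.Agent.P371.G
end
end

section

section

/-!
Testing the lifted operator with the columns of `Φ^*`, `Φ = Ψ r`.
-/

namespace Vale.Agent.P371.PI

open Vale.Agent.P371.G

open MeasureTheory Filter Topology Matrix Set
open scoped ComplexOrder

variable {N m : ℕ}

/-- the matrix `Ψ(x)` with columns `f_j(x)` -/
noncomputable def psiM (f : Fin N → ℝ → EuclideanSpace ℂ (Fin m)) (x : ℝ) :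
    Matrix (Fin m) (Fin N) ℂ := Matrix.of fun i j => f j x i

theorem psiM_gram (f g : Fin N → ℝ → EuclideanSpace ℂ (Fin m)) (x : ℝ) :
    (psiM f x)ᴴ * psiM g x = Matrix.of fun j l => (inner ℂ (f j x) (g l x) : ℂ) := by
  ext j l
  rw [Matrix.mul_apply, Matrix.of_apply, PiLp.inner_apply]
  refine Finset.sum_congr rfl fun i _ => ?_
  rw [RCLike.inner_apply, mul_comm]
  rfl

theorem psiM_gramW (f g : Fin N → ℝ → EuclideanSpace ℂ (Fin m)) (W : Matrix (Fin m) (Fin m) ℂ)
    (x : ℝ) :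
    (psiM f x)ᴴ * (W * psiM g x) =
      Matrix.of fun j l => (inner ℂ (f j x) (Matrix.toEuclideanLin W (g l x)) : ℂ) := by
  ext j l
  rw [Matrix.mul_apply, Matrix.of_apply, PiLp.inner_apply]
  refine Finset.sum_congr rfl fun i _ => ?_
  rw [RCLike.inner_apply, mul_comm]
  rfl

/-- the `i`-th column of `(Ψ r)^*` -/
noncomputable def ucol (r : Matrix (Fin N) (Fin N) ℂ) (f : Fin N → ℝ → EuclideanSpace ℂ (Fin m))
    (i : Fin m) (x : ℝ) : EuclideanSpace ℂ (Fin N) :=
  WithLp.toLp 2 fun k => star ((psiM f x * r) i k)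

theorem h1_comp {f f' : Fin N → ℝ → EuclideanSpace ℂ (Fin m)} (hf : ∀ j, IsH1 (f j) (f' j))
    (i : Fin m) (c : Fin N → ℂ) :
    LT.H1 (fun x => star (∑ j, f j x i * c j)) (fun x => star (∑ j, f' j x i * c j)) := by
  have h : ∀ j, LT.H1 (fun x => f j x i) (fun x => f' j x i) := fun j =>
    (LT.isH1_iff (f := LT.ofE (f j)) (f' := LT.ofE (f' j))).mp (hf j) i
  have hi : ∀ j a b, IntervalIntegrable (fun x => f' j x i) volume a b := by
    intro j a b
    have h1 : LocallyIntegrable (fun x => f' j x i) volume := (h j).2.1.locallyIntegrable (by norm_num)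
    exact (h1.integrableOn_isCompact isCompact_uIcc).intervalIntegrable
  refine ⟨?_, ?_, ?_⟩
  · exact (memLp_finsetSum _ fun j _ => (h j).1.mul_const (c j)).star
  · exact (memLp_finsetSum _ fun j _ => (h j).2.1.mul_const (c j)).star
  · intro a b
    have e1 : ∫ x in a..b, star (∑ j, f' j x i * c j) = star (∫ x in a..b, ∑ j, f' j x i * c j) := by
      have := Complex.conjCLE.toContinuousLinearMap.intervalIntegral_comp_comm
        (μ := volume) (a := a) (b := b) (f := fun x => ∑ j, f' j x i * c j) (by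
          have h5 := IntervalIntegrable.sum Finset.univ (f := fun j x => f' j x i * c j)
            fun j _ => (hi j a b).mul_const (c j)
          rwa [show (∑ j, fun x => f' j x i * c j) = fun x => ∑ j, f' j x i * c j by
            funext x; simp only [Finset.sum_apply]] at h5)
      simpa only [star_sum, star_mul', RCLike.star_def, map_sum, ContinuousLinearEquiv.coe_coe,     ContinuousAlgEquiv.coeCLE_apply, Complex.conjCAE_apply, map_mul] using this
    rw [e1, intervalIntegral.integral_finsetSum fun j _ => (hi j a b).mul_const (c j), ← star_sub,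
      ← Finset.sum_sub_distrib]
    congr 1
    refine Finset.sum_congr rfl fun j _ => ?_
    rw [intervalIntegral.integral_mul_const, ← (h j).2.2 a b]
    ring

theorem isH1_ucol (r : Matrix (Fin N) (Fin N) ℂ) {f f' : Fin N → ℝ → EuclideanSpace ℂ (Fin m)}
    (hf : ∀ j, IsH1 (f j) (f' j)) (i : Fin m) : IsH1 (ucol r f i) (ucol r f' i) := by
  refine (LT.isH1_iff (f := fun x k => star ((psiM f x * r) i k))
    (f' := fun x k => star ((psiM f' x * r) i k))).mpr fun k => ?_
  have := h1_comp hf i (fun j => r j k)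
  simpa only [Matrix.mul_apply, psiM, Matrix.of_apply] using this

theorem sum_norm_ucol (r : Matrix (Fin N) (Fin N) ℂ) (f : Fin N → ℝ → EuclideanSpace ℂ (Fin m))
    (x : ℝ) :
    ∑ i, ‖ucol r f i x‖ ^ 2 = ((psiM f x * r)ᴴ * (psiM f x * r)).trace.re := by
  rw [Matrix.trace_mul_comm, Matrix.trace, Complex.re_sum]
  refine Finset.sum_congr rfl fun i _ => ?_
  rw [EuclideanSpace.norm_sq_eq, Matrix.diag_apply, Matrix.mul_apply, Complex.re_sum]
  refine Finset.sum_congr rfl fun k _ => ?_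
  rw [ucol, Matrix.conjTranspose_apply, Complex.star_def, Complex.mul_conj, Complex.ofReal_re]
  simp [Complex.normSq_eq_norm_sq]

/-- `∑_i ⟨u_i, Q u_i⟩ = tr Q Φ^*Φ` -/
theorem sum_form_ucol (r Q : Matrix (Fin N) (Fin N) ℂ) (f : Fin N → ℝ → EuclideanSpace ℂ (Fin m))
    (x : ℝ) :
    ∑ i, (inner ℂ (ucol r f i x) (Matrix.toEuclideanLin Q (ucol r f i x)) : ℂ) =
      (Q * ((psiM f x * r)ᴴ * (psiM f x * r))).trace := by
  have h1 : (Q * ((psiM f x * r)ᴴ * (psiM f x * r))).trace =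
      ((psiM f x * r) * (Q * (psiM f x * r)ᴴ)).trace := by
    rw [← Matrix.mul_assoc, Matrix.trace_mul_comm]
  rw [h1, Matrix.trace]
  refine Finset.sum_congr rfl fun i _ => ?_
  rw [Matrix.diag_apply, Matrix.mul_apply, PiLp.inner_apply]
  refine Finset.sum_congr rfl fun k _ => ?_
  rw [RCLike.inner_apply, mul_comm]
  simp only [ucol, Matrix.toLpLin_toLp]
  congr 1
  simp

/-- `K u_i` is the `i`-th column of `(Ψ r K)^*` -/
theorem ucol_mul {K : Matrix (Fin N) (Fin N) ℂ} (hK : K.IsHermitian) (r : Matrix (Fin N) (Fin N) ℂ)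
    (f : Fin N → ℝ → EuclideanSpace ℂ (Fin m)) (i : Fin m) (x : ℝ) :
    Matrix.toEuclideanLin K (ucol r f i x) = ucol (r * K) f i x := by
  rw [ucol, ucol, Matrix.toLpLin_toLp]
  congr 1
  funext k
  rw [← Matrix.mul_assoc]
  simp only [Matrix.toLin'_apply, Matrix.mulVec, dotProduct]
  rw [Matrix.mul_apply, star_sum]
  refine Finset.sum_congr rfl fun l _ => ?_
  rw [star_mul']
  have h1 : star (K l k) = K k l := hK.apply k l
  rw [h1, mul_comm]

/-- `∫ tr A G = tr A ∫ G` -/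
theorem integral_trace_mul (A : Matrix (Fin N) (Fin N) ℂ) {g : Fin N → Fin N → ℝ → ℂ}
    (μ : Measure ℝ) (hg : ∀ j l, Integrable (g j l) μ) :
    ∫ x, (A * (Matrix.of fun j l => g j l x)).trace ∂μ =
      (A * (Matrix.of fun j l => ∫ x, g j l x ∂μ)).trace := by
  simp only [Matrix.trace, Matrix.diag_apply, Matrix.mul_apply, Matrix.of_apply]
  rw [integral_finsetSum]
  · refine Finset.sum_congr rfl fun i _ => ?_
    rw [integral_finsetSum]
    · refine Finset.sum_congr rfl fun j _ => ?_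
      rw [integral_const_mul]
    · intro j _
      exact (hg j i).const_mul _
  · intro i _
    exact integrable_finsetSum _ fun j _ => (hg j i).const_mul _

theorem integrable_trace_mul (A : Matrix (Fin N) (Fin N) ℂ) {g : Fin N → Fin N → ℝ → ℂ}
    (μ : Measure ℝ) (hg : ∀ j l, Integrable (g j l) μ) :
    Integrable (fun x => (A * (Matrix.of fun j l => g j l x)).trace) μ := by
  simp only [Matrix.trace, Matrix.diag_apply, Matrix.mul_apply, Matrix.of_apply]
  exact integrable_finsetSum _ fun i _ => integrable_finsetSum _ fun j _ => (hg j i).const_mul _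

theorem integral_trace_mul_re (A : Matrix (Fin N) (Fin N) ℂ) {g : Fin N → Fin N → ℝ → ℂ}
    (μ : Measure ℝ) (hg : ∀ j l, Integrable (g j l) μ) :
    ∫ x, (A * (Matrix.of fun j l => g j l x)).trace.re ∂μ =
      (A * (Matrix.of fun j l => ∫ x, g j l x ∂μ)).trace.re := by
  rw [← integral_trace_mul A μ hg]
  exact integral_re (integrable_trace_mul A μ hg)

theorem trace_ucol (s : Matrix (Fin N) (Fin N) ℂ) (f : Fin N → ℝ → EuclideanSpace ℂ (Fin m))
    (x : ℝ) :
    ((psiM f x * s)ᴴ * (psiM f x * s)).trace =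
      ((s * sᴴ) * (Matrix.of fun j l => (inner ℂ (f j x) (f l x) : ℂ))).trace := by
  rw [← psiM_gram, conjTranspose_mul]
  calc (sᴴ * (psiM f x)ᴴ * (psiM f x * s)).trace = (sᴴ * ((psiM f x)ᴴ * (psiM f x) * s)).trace := by
        simp only [Matrix.mul_assoc]
    _ = (((psiM f x)ᴴ * (psiM f x) * s) * sᴴ).trace := Matrix.trace_mul_comm _ _
    _ = (((psiM f x)ᴴ * (psiM f x)) * (s * sᴴ)).trace := by simp only [Matrix.mul_assoc]
    _ = _ := Matrix.trace_mul_comm _ _

theorem sum_integral_norm (s : Matrix (Fin N) (Fin N) ℂ)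
    {f : Fin N → ℝ → EuclideanSpace ℂ (Fin m)} (hf : ∀ j, MemLp (f j) 2 volume)
    (hu : ∀ i, Integrable (fun x => ‖ucol s f i x‖ ^ 2) volume) :
    ∑ i, ∫ x, ‖ucol s f i x‖ ^ 2 =
      ((s * sᴴ) * (Matrix.of fun j l => ∫ x, (inner ℂ (f j x) (f l x) : ℂ))).trace.re := by
  rw [← integral_finsetSum _ fun i _ => hu i]
  rw [← integral_trace_mul_re (s * sᴴ) volume
    (g := fun j l x => (inner ℂ (f j x) (f l x) : ℂ)) fun j l => integrable_inner_of_memLp_self (hf j) (hf l)]
  refine integral_congr_ae (Eventually.of_forall fun x => ?_)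
  simp only
  rw [sum_norm_ucol, trace_ucol]

theorem continuous_psiM {f f' : Fin N → ℝ → EuclideanSpace ℂ (Fin m)}
    (hf : ∀ j, IsH1 (f j) (f' j)) : Continuous (psiM f) := by
  refine continuous_matrix fun i j => ?_
  exact (EuclideanSpace.proj (𝕜 := ℂ) i).continuous.comp (hf j).continuous_self

open scoped Matrix.Norms.L2Operator in
theorem continuous_regQ {ε : ℝ} (hε : 0 < ε) {f f' : Fin N → ℝ → EuclideanSpace ℂ (Fin m)}
    (hf : ∀ j, IsH1 (f j) (f' j)) (r : Matrix (Fin N) (Fin N) ℂ)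
    {W : ℝ → Matrix (Fin m) (Fin m) ℂ} (hW : Continuous W) :
    Continuous fun x => regQ ε (psiM f x * r) (W x) := by
  have h1 : Continuous fun x => psiM f x * r := (continuous_psiM hf).matrix_mul continuous_const
  have h2 : Continuous fun x => regS ε (psiM f x * r) := by
    have := continuous_regS hε (Φ := fun x => psiM f x * r) (s := Set.univ) h1.continuousOn
    exact continuousOn_univ.mp this
  have h3 : Continuous fun x => regV ε (psiM f x * r) :=
    (h1.matrix_conjTranspose).matrix_mul h2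
  exact (h3.matrix_mul hW).matrix_mul h3.matrix_conjTranspose

/-- The tested inequality: `tr r² Λ - ε ∫ tr W ≤ tr K² r²`. -/
theorem test_sum {K r : Matrix (Fin N) (Fin N) ℂ} (hK : K.IsHermitian) (hr : r.IsHermitian)
    {a ε : ℝ} (ha : 0 < a) (hε : 0 < ε) {W : ℝ → Matrix (Fin m) (Fin m) ℂ} (hWc : Continuous W)
    (hW : ∀ x, (W x).PosSemidef) {f f' : Fin N → ℝ → EuclideanSpace ℂ (Fin m)}
    (hf : ∀ j, IsH1 (f j) (f' j))
    (ho : ∀ i j, ∫ x, inner ℂ (f i x) (f j x) = if i = j then (1 : ℂ) else 0)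
    (hTest : ∀ u u' : ℝ → EuclideanSpace ℂ (Fin N), IsH1 u u' →
      ∫ x in (-a)..a, (inner ℂ (u x)
        (Matrix.toEuclideanLin (regQ ε (psiM f x * r) (W x)) (u x)) : ℂ).re ≤
      ∫ x, (‖u' x‖ ^ 2 + ‖Matrix.toEuclideanLin K (u x)‖ ^ 2)) :
    (r * r * LamM a W f f').trace.re - ε * ∫ x in (-a)..a, (W x).trace.re ≤
      (K * K * (r * r)).trace.re := by
  have haa : -a ≤ a := by linarith
  -- right-hand side
  have hR : ∑ i : Fin m, ∫ x, (‖ucol r f' i x‖ ^ 2 + ‖Matrix.toEuclideanLin K (ucol r f i x)‖ ^ 2) =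
      ((r * r) * (Matrix.of fun j l => ∫ x, (inner ℂ (f' j x) (f' l x) : ℂ))).trace.re +
        (K * K * (r * r)).trace.re := by
    have e1 : ∀ i : Fin m, ∫ x, (‖ucol r f' i x‖ ^ 2 + ‖Matrix.toEuclideanLin K (ucol r f i x)‖ ^ 2) =
        (∫ x, ‖ucol r f' i x‖ ^ 2) + ∫ x, ‖ucol (r * K) f i x‖ ^ 2 := by
      intro i
      rw [integral_add (integrable_norm_sq (isH1_ucol r hf i).memLp_deriv)
        (integrable_norm_sq (isH1_mulVec K (isH1_ucol r hf i)).memLp)]
      simp only [ucol_mul hK]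
    simp only [e1]
    rw [Finset.sum_add_distrib, sum_integral_norm r (fun j => (hf j).memLp_deriv)
      (fun i => integrable_norm_sq (isH1_ucol r hf i).memLp_deriv),
      sum_integral_norm (r * K) (fun j => (hf j).memLp)
      (fun i => integrable_norm_sq (isH1_ucol (r * K) hf i).memLp), hr.eq]
    congr 1
    have e2 : (Matrix.of fun j l => ∫ x, (inner ℂ (f j x) (f l x) : ℂ)) =
        (1 : Matrix (Fin N) (Fin N) ℂ) := by
      ext j l
      rw [Matrix.of_apply, ho, Matrix.one_apply]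
    rw [e2, mul_one, conjTranspose_mul, hr.eq, hK.eq]
    have e3 : (r * K * (K * r)).trace = (K * K * (r * r)).trace := by
      rw [Matrix.mul_assoc, Matrix.trace_mul_comm]
      simp only [Matrix.mul_assoc]
    rw [e3]
  -- left-hand side
  have hc : ∀ i : Fin m, Continuous fun x => (inner ℂ (ucol r f i x)
      (Matrix.toEuclideanLin (regQ ε (psiM f x * r) (W x)) (ucol r f i x)) : ℂ).re := by
    intro i
    have h1 : Continuous (ucol r f i) := (isH1_ucol r hf i).continuous_self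
    have h2 : Continuous fun x => (regQ ε (psiM f x * r) (W x)) := continuous_regQ hε hf r hWc
    have h3 : Continuous fun x => Matrix.toEuclideanLin (regQ ε (psiM f x * r) (W x)) (ucol r f i x) := by
      have h4 : Continuous fun x => (regQ ε (psiM f x * r) (W x)).mulVec (WithLp.ofLp (ucol r f i x)) :=
        h2.matrix_mulVec ((PiLp.continuous_ofLp 2 _).comp h1)
      exact (PiLp.continuous_toLp 2 _).comp h4
    exact Complex.continuous_re.comp (h1.inner h3)
  have hL : ∑ i : Fin m, ∫ x in (-a)..a, (inner ℂ (ucol r f i x)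
        (Matrix.toEuclideanLin (regQ ε (psiM f x * r) (W x)) (ucol r f i x)) : ℂ).re =
      ∫ x in (-a)..a, (regQ ε (psiM f x * r) (W x) *
        ((psiM f x * r)ᴴ * (psiM f x * r))).trace.re := by
    rw [← intervalIntegral.integral_finsetSum fun i _ => (hc i).intervalIntegrable _ _]
    refine intervalIntegral.integral_congr fun x _ => ?_
    rw [← Complex.re_sum, sum_form_ucol]
  have hsum : ∑ i : Fin m, ∫ x in (-a)..a, (inner ℂ (ucol r f i x)
        (Matrix.toEuclideanLin (regQ ε (psiM f x * r) (W x)) (ucol r f i x)) : ℂ).re ≤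
      ∑ i : Fin m, ∫ x, (‖ucol r f' i x‖ ^ 2 + ‖Matrix.toEuclideanLin K (ucol r f i x)‖ ^ 2) :=
    Finset.sum_le_sum fun i _ => hTest _ _ (isH1_ucol r hf i)
  rw [hL, hR] at hsum
  -- lower bound of the integrand
  have hpsi := continuous_psiM hf
  have hPhi : Continuous fun x => psiM f x * r := hpsi.matrix_mul continuous_const
  have hmono : ∫ x in (-a)..a, ((W x * ((psiM f x * r) * (psiM f x * r)ᴴ)).trace.re
        - ε * (W x).trace.re) ≤
      ∫ x in (-a)..a, (regQ ε (psiM f x * r) (W x) *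
        ((psiM f x * r)ᴴ * (psiM f x * r))).trace.re := by
    refine intervalIntegral.integral_mono_on haa ?_ ?_ fun x _ => regQ_test hε _ (hW x)
    · refine Continuous.intervalIntegrable ?_ _ _
      refine (Complex.continuous_re.comp ?_).sub (continuous_const.mul (Complex.continuous_re.comp ?_))
      · exact (hWc.matrix_mul (hPhi.matrix_mul hPhi.matrix_conjTranspose)).matrix_trace
      · exact hWc.matrix_trace
    · refine Continuous.intervalIntegrable ?_ _ _
      exact Complex.continuous_re.comp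
        ((continuous_regQ hε hf r hWc).matrix_mul (hPhi.matrix_conjTranspose.matrix_mul hPhi)).matrix_trace
  have hWtr : Continuous fun x => (W x).trace.re := Complex.continuous_re.comp hWc.matrix_trace
  have hWPP : Continuous fun x => (W x * ((psiM f x * r) * (psiM f x * r)ᴴ)).trace.re :=
    Complex.continuous_re.comp
      (hWc.matrix_mul (hPhi.matrix_mul hPhi.matrix_conjTranspose)).matrix_trace
  rw [intervalIntegral.integral_sub (hWPP.intervalIntegrable _ _)
    ((hWtr.const_mul ε).intervalIntegrable _ _), intervalIntegral.integral_const_mul] at hmono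
  -- identify `∫ tr W Φ Φ^*`
  have hWint : ∀ j l, Continuous fun x =>
      (inner ℂ (f j x) (Matrix.toEuclideanLin (W x) (f l x)) : ℂ) := by
    intro j l
    have h1 := (hf j).continuous_self
    have h2 := (hf l).continuous_self
    have h3 : Continuous fun x => Matrix.toEuclideanLin (W x) (f l x) :=
      (PiLp.continuous_toLp 2 _).comp (hWc.matrix_mulVec ((PiLp.continuous_ofLp 2 _).comp h2))
    exact h1.inner h3
  have hid : ∫ x in (-a)..a, (W x * ((psiM f x * r) * (psiM f x * r)ᴴ)).trace.re =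
      ((r * r) * (Matrix.of fun j l => ∫ x in (-a)..a,
        (inner ℂ (f j x) (Matrix.toEuclideanLin (W x) (f l x)) : ℂ))).trace.re := by
    simp only [intervalIntegral.integral_of_le haa]
    rw [← integral_trace_mul_re (r * r) _
      (g := fun j l x => (inner ℂ (f j x) (Matrix.toEuclideanLin (W x) (f l x)) : ℂ))
      fun j l => ((hWint j l).integrableOn_Icc.mono_set Ioc_subset_Icc_self)]
    refine integral_congr_ae (Eventually.of_forall fun x => ?_)
    simp only
    rw [← psiM_gramW]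
    congr 1
    rw [conjTranspose_mul, hr.eq]
    calc (W x * (psiM f x * r * (r * (psiM f x)ᴴ))).trace
        = ((W x * psiM f x) * ((r * r) * (psiM f x)ᴴ)).trace := by simp only [Matrix.mul_assoc]
      _ = (((r * r) * (psiM f x)ᴴ) * (W x * psiM f x)).trace := Matrix.trace_mul_comm _ _
      _ = _ := by simp only [Matrix.mul_assoc]
  have hLam : LamM a W f f' = (Matrix.of fun j l => ∫ x in (-a)..a,
        (inner ℂ (f j x) (Matrix.toEuclideanLin (W x) (f l x)) : ℂ)) -
      (Matrix.of fun j l => ∫ x, (inner ℂ (f' j x) (f' l x) : ℂ)) := by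
    ext j l
    rfl
  rw [hLam, mul_sub, Matrix.trace_sub, Complex.sub_re]
  linarith only [hsum, hmono, hid]

end Vale.Agent.P371.PI
end
end

section

section

/-!
Lower bounds for the lifted potential on the lowest eigenvector of `K`.
-/

namespace Vale.Agent.P371.PI

open MeasureTheory Filter Topology Matrix Set
open Vale.Agent.P371.G
open scoped ComplexOrder MatrixOrder Matrix.Norms.L2Operator

variable {N m : ℕ}

theorem qf_nonneg {n : ℕ} {A : Matrix (Fin n) (Fin n) ℂ} (hA : A.PosSemidef) (e : Fin n → ℂ) :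
    0 ≤ qf A e := (posSemidef_iff_qf.1 hA).2 e

theorem qf_csmul {n : ℕ} (c : ℝ) (A : Matrix (Fin n) (Fin n) ℂ) (e : Fin n → ℂ) :
    qf ((c : ℂ) • A) e = c * qf A e := by
  unfold qf
  rw [smul_mulVec, dotProduct_smul, smul_eq_mul, Complex.re_ofReal_mul]

theorem qf_conj {n k : ℕ} (A : Matrix (Fin n) (Fin n) ℂ) (B : Matrix (Fin n) (Fin k) ℂ)
    (e : Fin k → ℂ) : qf (Bᴴ * A * B) e = qf A (B *ᵥ e) := by
  unfold qf
  rw [star_mulVec, ← dotProduct_mulVec, mulVec_mulVec, mulVec_mulVec, Matrix.mul_assoc]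

theorem qf_mul_self {n k : ℕ} (B : Matrix (Fin n) (Fin k) ℂ) (e : Fin k → ℂ) :
    qf (Bᴴ * B) e = qf (1 : Matrix (Fin n) (Fin n) ℂ) (B *ᵥ e) := by
  rw [← qf_conj, Matrix.mul_one]

theorem qf_one_nonneg {n : ℕ} (e : Fin n → ℂ) : 0 ≤ qf (1 : Matrix (Fin n) (Fin n) ℂ) e :=
  qf_nonneg PosSemidef.one e

/-- `(M + ε) S S ≥ 1` if `Φ Φ^* ≤ M` -/
theorem regS_lower {ε M : ℝ} (hε : 0 < ε) {Φ : Matrix (Fin m) (Fin N) ℂ}
    (hP : (((M : ℂ) • (1 : Matrix (Fin m) (Fin m) ℂ)) - Φ * Φᴴ).PosSemidef) :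
    ((((M + ε : ℝ) : ℂ) • (regS ε Φ * regS ε Φ)) - 1).PosSemidef := by
  have h1 : (((M + ε : ℝ) : ℂ) • (regS ε Φ * regS ε Φ)) - 1 =
      (regS ε Φ)ᴴ * (((M : ℂ) • (1 : Matrix (Fin m) (Fin m) ℂ)) - Φ * Φᴴ) * regS ε Φ := by
    have h2 := regS_sq_mul Φ hε
    have h3 := regS_commute ε Φ
    have h4 : Φ * Φᴴ * (regS ε Φ * regS ε Φ) = regS ε Φ * regS ε Φ * (Φ * Φᴴ) := by
      rw [← Matrix.mul_assoc (Φ * Φᴴ), ← h3, Matrix.mul_assoc, ← h3, ← Matrix.mul_assoc]
    rw [(regS_isHermitian ε Φ).eq, mul_sub, sub_mul, h3, Matrix.mul_smul, Matrix.mul_one,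
      Matrix.smul_mul, Matrix.mul_assoc (Φ * Φᴴ), h4, h2]
    push_cast
    rw [add_smul]
    abel
  rw [h1]
  exact hP.conjTranspose_mul_mul_same _

/-- `Φ Φ^* ≤ M²` if `‖Φ‖ ≤ M` -/
theorem sq_bound {M : ℝ} {Φ : Matrix (Fin m) (Fin N) ℂ} (hM : ‖Φ‖ ≤ M) :
    ((((M ^ 2 : ℝ) : ℂ) • (1 : Matrix (Fin m) (Fin m) ℂ)) - Φ * Φᴴ).PosSemidef := by
  rw [posSemidef_iff_qf]
  constructor
  · have h1 : (Φ * Φᴴ).IsHermitian := (posSemidef_self_mul_conjTranspose Φ).isHermitian
    have h2 : (((M ^ 2 : ℝ) : ℂ) • (1 : Matrix (Fin m) (Fin m) ℂ)).IsHermitian := by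
      rw [IsHermitian, conjTranspose_smul, conjTranspose_one, Complex.star_def,
        Complex.conj_ofReal]
    exact h2.sub h1
  · intro v
    rw [qf_sub, qf_csmul]
    have h1 := (le_abs_self _).trans (abs_qf_le (Φ * Φᴴ) v)
    have h2 : ‖Φ * Φᴴ‖ ≤ M ^ 2 := by
      refine (l2_opNorm_mul Φ Φᴴ).trans ?_
      rw [l2_opNorm_conjTranspose]
      nlinarith [norm_nonneg Φ]
    have h3 := mul_le_mul_of_nonneg_right h2 (qf_one_nonneg v)
    linarith only [h1, h3]

theorem qf_regQ {ε M d : ℝ} (hε : 0 < ε) (hd : 0 ≤ d) {Φ : Matrix (Fin m) (Fin N) ℂ}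
    {W : Matrix (Fin m) (Fin m) ℂ} (hW : (W - (d : ℂ) • 1).PosSemidef)
    (hM : ‖Φ‖ ≤ M) (e : Fin N → ℂ) :
    d / (M ^ 2 + ε) * qf (1 : Matrix (Fin m) (Fin m) ℂ) (Φ *ᵥ e) ≤ qf (regQ ε Φ W) e := by
  have h1 : regQ ε Φ W = (regS ε Φ * Φ)ᴴ * W * (regS ε Φ * Φ) := by
    rw [regQ, regV_conjTranspose, regV, conjTranspose_mul, (regS_isHermitian ε Φ).eq]
  rw [h1, qf_conj]
  have h2 := qf_nonneg hW ((regS ε Φ * Φ) *ᵥ e)
  rw [qf_sub, qf_csmul] at h2
  have h3 := qf_nonneg (regS_lower hε (sq_bound hM)) (Φ *ᵥ e)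
  rw [qf_sub, qf_csmul] at h3
  have h4 : qf (regS ε Φ * regS ε Φ) (Φ *ᵥ e) =
      qf (1 : Matrix (Fin m) (Fin m) ℂ) ((regS ε Φ * Φ) *ᵥ e) := by
    have h5 := qf_mul_self (regS ε Φ) (Φ *ᵥ e)
    rw [(regS_isHermitian ε Φ).eq] at h5
    rw [h5, mulVec_mulVec]
  rw [h4] at h3
  have hMe : 0 < M ^ 2 + ε := by (clear * - hε; positivity)
  have h5 : qf (1 : Matrix (Fin m) (Fin m) ℂ) (Φ *ᵥ e) / (M ^ 2 + ε) ≤
      qf (1 : Matrix (Fin m) (Fin m) ℂ) ((regS ε Φ * Φ) *ᵥ e) := by
    rw [div_le_iff₀ hMe]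
    linarith only [h3]
  calc d / (M ^ 2 + ε) * qf (1 : Matrix (Fin m) (Fin m) ℂ) (Φ *ᵥ e)
      = d * (qf (1 : Matrix (Fin m) (Fin m) ℂ) (Φ *ᵥ e) / (M ^ 2 + ε)) := by ring
    _ ≤ d * qf (1 : Matrix (Fin m) (Fin m) ℂ) ((regS ε Φ * Φ) *ᵥ e) :=
        mul_le_mul_of_nonneg_left h5 hd
    _ ≤ _ := by linarith only [h2]

/-- a positive definite matrix is bounded below -/
theorem exists_lower {n : ℕ} {A : Matrix (Fin n) (Fin n) ℂ} (hA : A.PosDef) :
    ∃ c : ℝ, 0 < c ∧ ∀ v, c * qf (1 : Matrix (Fin n) (Fin n) ℂ) v ≤ qf A v := by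
  rcases isEmpty_or_nonempty (Fin n) with hn | hn
  · refine ⟨1, one_pos, fun v => ?_⟩
    have h : ∀ B : Matrix (Fin n) (Fin n) ℂ, qf B v = 0 := by
      intro B
      simp [qf, dotProduct]
    rw [h, h]
    simp
  · obtain ⟨k, e, he, hke, hk⟩ := exists_lowest hA.isHermitian
    refine ⟨k, ?_, hk⟩
    have h1 : 0 < qf A e := by
      have := (hA.dotProduct_mulVec_pos he)
      exact (Complex.lt_def.mp this).1
    have h2 := qf_one_pos he
    have h3 : qf A e = k * qf (1 : Matrix (Fin n) (Fin n) ℂ) e := qf_eigenvector hke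
    rw [h3] at h1
    exact (pos_iff_pos_of_mul_pos h1).2 h2

/-- the quadratic form as a trace -/
theorem qf_eq_trace {n : ℕ} (G : Matrix (Fin n) (Fin n) ℂ) (v : Fin n → ℂ) :
    qf G v = (vecMulVec v (star v) * G).trace.re := by
  unfold qf
  congr 1
  rw [Matrix.trace_mul_comm]
  simp only [dotProduct, mulVec, Matrix.trace, Matrix.diag_apply, Matrix.mul_apply,
    vecMulVec_apply, Finset.mul_sum]
  refine Finset.sum_congr rfl fun i _ => Finset.sum_congr rfl fun j _ => ?_
  ring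

theorem qf_psi (f : Fin N → ℝ → EuclideanSpace ℂ (Fin m)) (W : Matrix (Fin m) (Fin m) ℂ)
    (x : ℝ) (v : Fin N → ℂ) :
    qf (Matrix.of fun j l => (inner ℂ (f j x) (Matrix.toEuclideanLin W (f l x)) : ℂ)) v =
      qf W (psiM f x *ᵥ v) := by
  rw [← psiM_gramW, ← Matrix.mul_assoc, qf_conj]

theorem qf_psi_one (f : Fin N → ℝ → EuclideanSpace ℂ (Fin m))
    (x : ℝ) (v : Fin N → ℂ) :
    qf (Matrix.of fun j l => (inner ℂ (f j x) (f l x) : ℂ)) v =
      qf (1 : Matrix (Fin m) (Fin m) ℂ) (psiM f x *ᵥ v) := by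
  rw [← psiM_gram, qf_mul_self]

/-- the Gram matrix on `[-a,a]` is bounded below -/
theorem gram_lower {a : ℝ} (ha : 0 < a) {W : ℝ → Matrix (Fin m) (Fin m) ℂ} (hWc : Continuous W)
    {f f' : Fin N → ℝ → EuclideanSpace ℂ (Fin m)} (hf : ∀ j, IsH1 (f j) (f' j))
    (hL : (LamM a W f f').PosDef) :
    ∃ g : ℝ, 0 < g ∧ ∀ v : Fin N → ℂ, g * qf (1 : Matrix (Fin N) (Fin N) ℂ) v ≤
      ∫ x in (-a)..a, qf (1 : Matrix (Fin m) (Fin m) ℂ) (psiM f x *ᵥ v) := by
  have haa : -a ≤ a := by linarith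
  obtain ⟨c, hc, hcL⟩ := exists_lower hL
  obtain ⟨M, hM⟩ := (isCompact_Icc (a := -a) (b := a)).exists_bound_of_continuousOn
    hWc.continuousOn
  have hM0 : 0 ≤ M := (norm_nonneg _).trans (hM 0 ⟨by linarith, ha.le⟩)
  refine ⟨c / (M + 1), by positivity, fun v => ?_⟩
  have hWint : ∀ j l, Continuous fun x =>
      (inner ℂ (f j x) (Matrix.toEuclideanLin (W x) (f l x)) : ℂ) := by
    intro j l
    have h1 := (hf j).continuous_self
    have h2 := (hf l).continuous_self
    have h3 : Continuous fun x => Matrix.toEuclideanLin (W x) (f l x) :=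
      (PiLp.continuous_toLp 2 _).comp (hWc.matrix_mulVec ((PiLp.continuous_ofLp 2 _).comp h2))
    exact h1.inner h3
  have hLam : LamM a W f f' = (Matrix.of fun j l => ∫ x in (-a)..a,
        (inner ℂ (f j x) (Matrix.toEuclideanLin (W x) (f l x)) : ℂ)) -
      (Matrix.of fun j l => ∫ x, (inner ℂ (f' j x) (f' l x) : ℂ)) := by
    ext j l
    rfl
  have h1 : qf (Matrix.of fun j l => ∫ x in (-a)..a,
        (inner ℂ (f j x) (Matrix.toEuclideanLin (W x) (f l x)) : ℂ)) v =
      ∫ x in (-a)..a, qf (W x) (psiM f x *ᵥ v) := by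
    rw [qf_eq_trace]
    simp only [intervalIntegral.integral_of_le haa]
    rw [← integral_trace_mul_re _ _
      (g := fun j l x => (inner ℂ (f j x) (Matrix.toEuclideanLin (W x) (f l x)) : ℂ))
      fun j l => ((hWint j l).integrableOn_Icc.mono_set Ioc_subset_Icc_self)]
    refine integral_congr_ae (Eventually.of_forall fun x => ?_)
    simp only
    rw [← qf_eq_trace, qf_psi]
  have h2 : 0 ≤ qf (Matrix.of fun j l => ∫ x, (inner ℂ (f' j x) (f' l x) : ℂ)) v := by
    rw [qf_eq_trace, ← integral_trace_mul_re _ _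
      (g := fun j l x => (inner ℂ (f' j x) (f' l x) : ℂ))
      fun j l => integrable_inner_of_memLp_self (hf j).memLp_deriv (hf l).memLp_deriv]
    refine integral_nonneg fun x => ?_
    simp only [Pi.zero_apply]
    rw [← qf_eq_trace, qf_psi_one]
    exact qf_one_nonneg _
  have h3 := hcL v
  rw [hLam, qf_sub, h1] at h3
  have hpsi := continuous_psiM hf
  have hpv : Continuous fun x => psiM f x *ᵥ v := hpsi.matrix_mulVec continuous_const
  have hq1 : Continuous fun x => qf (1 : Matrix (Fin m) (Fin m) ℂ) (psiM f x *ᵥ v) :=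
    (continuous_qf.comp (continuous_const.prodMk hpv) :)
  have hq2 : Continuous fun x => qf (W x) (psiM f x *ᵥ v) :=
    (continuous_qf.comp (hWc.prodMk hpv) :)
  have h4 : ∫ x in (-a)..a, qf (W x) (psiM f x *ᵥ v) ≤
      ∫ x in (-a)..a, (M + 1) * qf (1 : Matrix (Fin m) (Fin m) ℂ) (psiM f x *ᵥ v) := by
    refine intervalIntegral.integral_mono_on haa (hq2.intervalIntegrable _ _)
      ((hq1.const_mul _ ).intervalIntegrable _ _) fun x hx => ?_
    have h5 := (le_abs_self _).trans (abs_qf_le (W x) (psiM f x *ᵥ v))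
    have h6 : ‖W x‖ ≤ M + 1 := (hM x hx).trans (by linarith only [])
    exact h5.trans (mul_le_mul_of_nonneg_right h6 (qf_one_nonneg _))
  rw [intervalIntegral.integral_const_mul] at h4
  rw [div_mul_eq_mul_div, div_le_iff₀ (by (clear * - hM0; positivity))]
  linarith only [h2, h3, h4]

end Vale.Agent.P371.PI
end
end

section

section

/-!
The core: existence of `K` with the tested inequality and the bound of Part II.
-/

namespace Vale.Agent.P371.PI

open MeasureTheory Filter Topology Matrix Set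
open Vale.Agent.P371.G
open scoped ComplexOrder MatrixOrder Matrix.Norms.L2Operator

variable {N m : ℕ}

/-- the test inequality on `[-a,a]` -/
def TestHyp (N : ℕ) : Prop :=
  ∀ (a : ℝ) (K : Matrix (Fin N) (Fin N) ℂ) (F Q : ℝ → Matrix (Fin N) (Fin N) ℂ), 0 < a →
    K.IsHermitian → (∀ t ∈ Icc (-a) a, HasDerivWithinAt F (K * K - F t * F t - Q t) (Icc (-a) a) t) →
    (∀ t ∈ Icc (-a) a, (F t).IsHermitian) → Continuous Q → F (-a) = K → F a = -K →
    ∀ u u' : ℝ → EuclideanSpace ℂ (Fin N), IsH1 u u' →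
      -(inner ℂ (u a) (Matrix.toEuclideanLin K (u a)) : ℂ).re
        - (inner ℂ (u (-a)) (Matrix.toEuclideanLin K (u (-a))) : ℂ).re ≤
      ∫ x in (-a)..a, (‖u' x‖ ^ 2 + ‖Matrix.toEuclideanLin K (u x)‖ ^ 2 -
        (inner ℂ (u x) (Matrix.toEuclideanLin (Q x) (u x)) : ℂ).re)

/-- the conclusion of Part II -/
def PartII (N : ℕ) : Prop :=
  ∀ (nu a : ℝ) (K : Matrix (Fin N) (Fin N) ℂ) (F Q : ℝ → Matrix (Fin N) (Fin N) ℂ), 0 < nu →
    nu < 1 → 0 < a → K.PosDef →
    (∀ t ∈ Icc (-a) a, HasDerivWithinAt F (K * K - F t * F t - Q t) (Icc (-a) a) t) →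
    (∀ t ∈ Icc (-a) a, (F t).IsHermitian) → Continuous Q → (∀ t, (Q t).PosSemidef) →
    (∀ t ∈ Icc (-a) a, (K - F t).PosSemidef) → (∀ t ∈ Icc (-a) a, (K + F t).PosSemidef) →
    F (-a) = K → F a = -K →
    (∫ y in (-1 : ℝ)..1, (1 - y ^ 2) ^ nu) * trPow (2 * nu + 1) K ≤
      (1 / nu) * (nu / (1 + nu)) ^ (1 + nu) * ∫ x in (-a)..a, trPow (1 + nu) (Q x)

theorem contOn_mul {X : Type*} [TopologicalSpace X] {s : Set X} {k l q : ℕ}
    {A : X → Matrix (Fin k) (Fin l) ℂ} {B : X → Matrix (Fin l) (Fin q) ℂ}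
    (hA : ContinuousOn A s) (hB : ContinuousOn B s) : ContinuousOn (fun x => A x * B x) s := by
  rw [continuousOn_iff_continuous_domRestrict] at hA hB ⊢
  exact hA.matrix_mul hB

theorem contOn_ct {X : Type*} [TopologicalSpace X] {s : Set X} {k l : ℕ}
    {A : X → Matrix (Fin k) (Fin l) ℂ}
    (hA : ContinuousOn A s) : ContinuousOn (fun x => (A x)ᴴ) s := by
  rw [continuousOn_iff_continuous_domRestrict] at hA ⊢
  exact hA.matrix_conjTranspose

/-- joint continuity of the lifted potential -/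
theorem continuousOn_regQ {ε : ℝ} (hε : 0 < ε) {f f' : Fin N → ℝ → EuclideanSpace ℂ (Fin m)}
    (hf : ∀ j, IsH1 (f j) (f' j)) {r : Matrix (Fin N) (Fin N) ℂ → Matrix (Fin N) (Fin N) ℂ}
    {s : Set (Matrix (Fin N) (Fin N) ℂ)} (hr : ContinuousOn r s)
    {W : ℝ → Matrix (Fin m) (Fin m) ℂ} (hW : Continuous W) (t : Set ℝ) :
    ContinuousOn (fun p : Matrix (Fin N) (Fin N) ℂ × ℝ => regQ ε (psiM f p.2 * r p.1) (W p.2))
      (s ×ˢ t) := by
  have h0 : ContinuousOn (fun p : Matrix (Fin N) (Fin N) ℂ × ℝ => r p.1) (s ×ˢ t) :=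
    hr.comp continuousOn_fst fun p hp => hp.1
  have h0' : ContinuousOn (fun p : Matrix (Fin N) (Fin N) ℂ × ℝ => psiM f p.2) (s ×ˢ t) :=
    ((continuous_psiM hf).comp continuous_snd).continuousOn
  have h1 : ContinuousOn (fun p : Matrix (Fin N) (Fin N) ℂ × ℝ => psiM f p.2 * r p.1) (s ×ˢ t) :=
    contOn_mul h0' h0
  have h2 : ContinuousOn (fun p : Matrix (Fin N) (Fin N) ℂ × ℝ => regS ε (psiM f p.2 * r p.1))
      (s ×ˢ t) := continuous_regS hε h1
  have h3 : ContinuousOn (fun p : Matrix (Fin N) (Fin N) ℂ × ℝ => regV ε (psiM f p.2 * r p.1))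
      (s ×ˢ t) := contOn_mul (contOn_ct h1) h2
  have h4 : ContinuousOn (fun p : Matrix (Fin N) (Fin N) ℂ × ℝ => W p.2) (s ×ˢ t) :=
    (hW.comp continuous_snd).continuousOn
  have h5 : ContinuousOn (fun p : Matrix (Fin N) (Fin N) ℂ × ℝ =>
      regV ε (psiM f p.2 * r p.1) * W p.2) (s ×ˢ t) := contOn_mul h3 h4
  exact contOn_mul h5 (contOn_ct h3)

theorem posSemidef_of_sub {d : ℝ} (hd : 0 ≤ d) {W : Matrix (Fin m) (Fin m) ℂ}
    (hW : (W - (d : ℂ) • 1).PosSemidef) : W.PosSemidef := by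
  have h1 : ((d : ℂ) • (1 : Matrix (Fin m) (Fin m) ℂ)).PosSemidef :=
    PosSemidef.one.smul (by exact_mod_cast hd)
  have := hW.add h1
  rwa [sub_add_cancel] at this

theorem core (hTest : TestHyp N) (hII : PartII N) {nu a d ε : ℝ} (hnu : 0 < nu) (hnu1 : nu < 1)
    (ha : 0 < a) (hd : 0 < d) (hε : 0 < ε)
    {W : ℝ → Matrix (Fin m) (Fin m) ℂ} (hWc : Continuous W)
    (hW : ∀ x, (W x - (d : ℂ) • 1).PosSemidef)
    {f f' : Fin N → ℝ → EuclideanSpace ℂ (Fin m)} (hf : ∀ j, IsH1 (f j) (f' j))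
    (ho : ∀ i j, ∫ x, inner ℂ (f i x) (f j x) = if i = j then (1 : ℂ) else 0)
    {r : Matrix (Fin N) (Fin N) ℂ → Matrix (Fin N) (Fin N) ℂ}
    (hrc : ContinuousOn r {K | K.PosDef}) (hrh : ∀ K, K.PosDef → (r K).IsHermitian)
    (hlow : ∀ T : ℝ, 0 < T → ∃ d' : ℝ, 0 < d' ∧ ∀ K : Matrix (Fin N) (Fin N) ℂ, K.PosDef →
      2 * K.trace.re ≤ T * (a - (-a)) → ∀ (k : ℝ) (e : Fin N → ℂ),
      K *ᵥ e = k • e → (∀ v, k * qf (1 : Matrix (Fin N) (Fin N) ℂ) v ≤ qf K v) →
      d' * qf (1 : Matrix (Fin N) (Fin N) ℂ) e ≤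
        ∫ t in (-a)..a, qf (regQ ε (psiM f t * r K) (W t)) e) :
    ∃ K : Matrix (Fin N) (Fin N) ℂ, K.PosDef ∧
      (r K * r K * LamM a W f f').trace.re - ε * ∫ x in (-a)..a, (W x).trace.re ≤
        (K * K * (r K * r K)).trace.re ∧
      (∫ y in (-1 : ℝ)..1, (1 - y ^ 2) ^ nu) * trPow (2 * nu + 1) K ≤
        (1 / nu) * (nu / (1 + nu)) ^ (1 + nu) * ∫ x in (-a)..a, trPow (1 + nu) (W x) := by
  have haa : -a < a := by linarith
  have hWp : ∀ x, (W x).PosSemidef := fun x => posSemidef_of_sub hd.le (hW x)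
  have hWtr : Continuous fun x => (W x).trace.re := Complex.continuous_re.comp hWc.matrix_trace
  obtain ⟨T0, hT0⟩ := (isCompact_Icc (a := -a) (b := a)).exists_bound_of_continuousOn
    hWtr.continuousOn
  set T : ℝ := |T0| + 1 with hT
  have hTpos : 0 < T := by (clear * -; positivity)
  have hTW : ∀ x ∈ Icc (-a) a, (W x).trace.re ≤ T := fun x hx =>
    (le_abs_self _).trans ((hT0 x hx).trans ((le_abs_self _).trans (by linarith only [])))
  obtain ⟨d', hd', hlow'⟩ := hlow T hTpos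
  obtain ⟨K, F, hK, _, hF, hFh, hKF, hKF', hFa, hFb⟩ := exists_flip haa
    (Q := fun K x => regQ ε (psiM f x * r K) (W x)) hTpos hd'
    (continuousOn_regQ hε hf hrc hWc _)
    (fun K _ t _ => regQ_posSemidef ε _ (hWp t))
    (fun K _ t ht => (regQ_trace_le hε _ (hWp t)).trans (hTW t ht)) hlow'
  have hQc : Continuous fun x => regQ ε (psiM f x * r K) (W x) := continuous_regQ hε hf (r K) hWc
  refine ⟨K, hK, ?_, ?_⟩
  · refine test_sum hK.isHermitian (hrh K hK) ha hε hWc hWp hf ho fun u u' hu => ?_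
    refine test_line hu hK.isHermitian ?_
      (hTest a K F _ ha hK.isHermitian hF hFh hQc hFa hFb u u' hu)
    refine Continuous.intervalIntegrable ?_ _ _
    have h1 := hu.continuous_self
    have h3 : Continuous fun x => Matrix.toEuclideanLin (regQ ε (psiM f x * r K) (W x)) (u x) :=
      (PiLp.continuous_toLp 2 _).comp (hQc.matrix_mulVec ((PiLp.continuous_ofLp 2 _).comp h1))
    exact Complex.continuous_re.comp (h1.inner h3)
  · refine (hII nu a K F _ hnu hnu1 ha hK hF hFh hQc (fun t => regQ_posSemidef ε _ (hWp t))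
      hKF hKF' hFa hFb).trans ?_
    have hc1 : 0 ≤ (1 / nu) * (nu / (1 + nu)) ^ (1 + nu) := by positivity
    refine mul_le_mul_of_nonneg_left ?_ hc1
    have hcont : ∀ {n : ℕ} (V : ℝ → Matrix (Fin n) (Fin n) ℂ), Continuous V →
        (∀ x, (V x).PosSemidef) → Continuous fun x => trPow (1 + nu) (V x) := by
      intro n V hV hVp
      refine continuous_iff_continuousAt.mpr fun x => ?_
      exact tendsto_trPow (hV.tendsto x) (Eventually.of_forall hVp) (hVp x) (by linarith only [hnu])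
    refine intervalIntegral.integral_mono_on haa.le
      ((hcont _ hQc fun t => regQ_posSemidef ε _ (hWp t)).intervalIntegrable _ _)
      ((hcont _ hWc hWp).intervalIntegrable _ _) fun x _ => ?_
    exact regQ_trPow_le (by linarith only [hnu]) hε _ (hWp x)

end Vale.Agent.P371.PI
end
end

section

section

/-!
The main inequality `tr Λ^γ ≤ C_γ ∫ tr W^(γ+1/2)`, `1/2 < γ < 3/2`.
-/

namespace Vale.Agent.P371.PI

open MeasureTheory Filter Topology Matrix Set
open Vale.Agent.P371.G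
open scoped ComplexOrder MatrixOrder Matrix.Norms.L2Operator

variable {N m : ℕ}

theorem contOn_spectrum {n : ℕ} (K : Matrix (Fin n) (Fin n) ℂ) (f : ℝ → ℝ) :
    ContinuousOn f (spectrum ℝ K) := K.finite_real_spectrum.continuousOn f

/-- functional calculus on an eigenvector -/
theorem cfc_mulVec {n : ℕ} {K : Matrix (Fin n) (Fin n) ℂ} (hK : K.IsHermitian) {k : ℝ}
    {e : Fin n → ℂ} (he : K *ᵥ e = k • e) (f : ℝ → ℝ) : cfc f K *ᵥ e = f k • e := by
  have hKs : IsSelfAdjoint K := hK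
  have h1 : f = fun x => (if x = k then 0 else (f x - f k) / (x - k)) * (x - k) + f k := by
    funext x
    split_ifs with h
    · rw [h]; ring
    · rw [div_mul_cancel₀ _ (sub_ne_zero.2 h)]; ring
  set h : ℝ → ℝ := fun x => if x = k then 0 else (f x - f k) / (x - k) with hh
  have h2 : cfc f K = cfc h K * (K - (k : ℝ) • 1) + f k • 1 := by
    have e1 : cfc (fun x : ℝ => x - k) K = K - (k : ℝ) • 1 := by
      rw [cfc_sub (fun x : ℝ => x) (fun _ => k) K (contOn_spectrum K _) (contOn_spectrum K _),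
        cfc_id_eq hK, cfc_const (k : ℝ) K (ha := hKs), Algebra.algebraMap_eq_smul_one]
    have e2 : cfc (fun x : ℝ => h x * (x - k) + f k) K = cfc h K * (K - (k : ℝ) • 1) + f k • 1 := by
      rw [cfc_add K (fun x : ℝ => h x * (x - k)) (fun _ => f k) (contOn_spectrum K _)
        (contOn_spectrum K _), cfc_mul h (fun x : ℝ => x - k) K (contOn_spectrum K _)
        (contOn_spectrum K _), e1, cfc_const (f k : ℝ) K (ha := hKs),
        Algebra.algebraMap_eq_smul_one]
    rw [← e2]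
    exact congrArg (fun g => cfc g K) h1
  rw [h2, add_mulVec, ← mulVec_mulVec, sub_mulVec, he, smul_mulVec, one_mulVec, sub_self,
    mulVec_zero, zero_add, smul_mulVec, one_mulVec]

/-- lower bound of the lifted potential -/
theorem low_int {a d ε g M : ℝ} (ha : 0 < a) (hd : 0 < d) (hε : 0 < ε)
    {W : ℝ → Matrix (Fin m) (Fin m) ℂ} (hWc : Continuous W)
    (hW : ∀ x, (W x - (d : ℂ) • 1).PosSemidef)
    {f f' : Fin N → ℝ → EuclideanSpace ℂ (Fin m)} (hf : ∀ j, IsH1 (f j) (f' j))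
    (hg : ∀ v : Fin N → ℂ, g * qf (1 : Matrix (Fin N) (Fin N) ℂ) v ≤
      ∫ x in (-a)..a, qf (1 : Matrix (Fin m) (Fin m) ℂ) (psiM f x *ᵥ v))
    {r : Matrix (Fin N) (Fin N) ℂ} (hM : ∀ x ∈ Icc (-a) a, ‖psiM f x * r‖ ≤ M) (e : Fin N → ℂ) :
    d / (M ^ 2 + ε) * (g * qf (1 : Matrix (Fin N) (Fin N) ℂ) (r *ᵥ e)) ≤
      ∫ t in (-a)..a, qf (regQ ε (psiM f t * r) (W t)) e := by
  have haa : -a ≤ a := by linarith
  have hpsi := continuous_psiM hf
  have hpv : Continuous fun x => psiM f x *ᵥ (r *ᵥ e) := hpsi.matrix_mulVec continuous_const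
  have hq1 : Continuous fun x => qf (1 : Matrix (Fin m) (Fin m) ℂ) (psiM f x *ᵥ (r *ᵥ e)) :=
    (continuous_qf.comp (continuous_const.prodMk hpv) :)
  have hq2 : Continuous fun x => qf (regQ ε (psiM f x * r) (W x)) e :=
    (continuous_qf.comp ((continuous_regQ hε hf r hWc).prodMk continuous_const) :)
  have h1 : ∫ x in (-a)..a, d / (M ^ 2 + ε) *
      qf (1 : Matrix (Fin m) (Fin m) ℂ) (psiM f x *ᵥ (r *ᵥ e)) ≤
      ∫ t in (-a)..a, qf (regQ ε (psiM f t * r) (W t)) e := by
    refine intervalIntegral.integral_mono_on haa ((hq1.const_mul _).intervalIntegrable _ _)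
      (hq2.intervalIntegrable _ _) fun x hx => ?_
    have h2 := qf_regQ hε hd.le (hW x) (hM x hx) e
    rwa [← mulVec_mulVec] at h2
  rw [intervalIntegral.integral_const_mul] at h1
  refine le_trans ?_ h1
  exact mul_le_mul_of_nonneg_left (hg _) (by (clear * - hd hε; positivity))

theorem psi_bound {a : ℝ} {f f' : Fin N → ℝ → EuclideanSpace ℂ (Fin m)}
    (hf : ∀ j, IsH1 (f j) (f' j)) : ∃ M : ℝ, 0 ≤ M ∧ ∀ x ∈ Icc (-a) a, ‖psiM f x‖ ≤ M := by
  obtain ⟨M, hM⟩ := (isCompact_Icc (a := -a) (b := a)).exists_bound_of_continuousOn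
    (continuous_psiM hf).continuousOn
  exact ⟨|M|, abs_nonneg _, fun x hx => (hM x hx).trans (le_abs_self _)⟩

/-- lower bound, `γ ≥ 1` : `r` constant -/
theorem low_ge {a d ε : ℝ} (ha : 0 < a) (hd : 0 < d) (hε : 0 < ε)
    {W : ℝ → Matrix (Fin m) (Fin m) ℂ} (hWc : Continuous W)
    (hW : ∀ x, (W x - (d : ℂ) • 1).PosSemidef)
    {f f' : Fin N → ℝ → EuclideanSpace ℂ (Fin m)} (hf : ∀ j, IsH1 (f j) (f' j))
    (hL : (LamM a W f f').PosDef)
    {r : Matrix (Fin N) (Fin N) ℂ} (hr : r.IsHermitian) (hrr : (r * r).PosDef) :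
    ∃ d' : ℝ, 0 < d' ∧ ∀ (e : Fin N → ℂ),
      d' * qf (1 : Matrix (Fin N) (Fin N) ℂ) e ≤
        ∫ t in (-a)..a, qf (regQ ε (psiM f t * r) (W t)) e := by
  obtain ⟨g, hg, hgv⟩ := gram_lower ha hWc hf hL
  obtain ⟨M, hM, hMx⟩ := psi_bound (a := a) hf
  obtain ⟨c, hc, hcv⟩ := exists_lower hrr
  refine ⟨d / ((M * ‖r‖) ^ 2 + ε) * (g * c), by (clear * - hd hε hg hc; positivity), fun e => ?_⟩
  have h1 := low_int ha hd hε hWc hW hf hgv (r := r) (M := M * ‖r‖)
    (fun x hx => (l2_opNorm_mul _ _).trans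
      (mul_le_mul_of_nonneg_right (hMx x hx) (norm_nonneg _))) e
  refine le_trans ?_ h1
  rw [mul_assoc]
  refine mul_le_mul_of_nonneg_left ?_ (by (clear * - hd hε; positivity))
  rw [mul_assoc]
  refine mul_le_mul_of_nonneg_left ?_ hg.le
  have h2 := qf_mul_self r e
  rw [hr.eq] at h2
  rw [← h2]
  exact hcv e

/-- lower bound, `γ ≤ 1` : `r = K^(γ-1)` -/
theorem low_le {γ a d ε : ℝ} (hγ : γ ≤ 1) (ha : 0 < a) (hd : 0 < d) (hε : 0 < ε)
    {W : ℝ → Matrix (Fin m) (Fin m) ℂ} (hWc : Continuous W)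
    (hW : ∀ x, (W x - (d : ℂ) • 1).PosSemidef)
    {f f' : Fin N → ℝ → EuclideanSpace ℂ (Fin m)} (hf : ∀ j, IsH1 (f j) (f' j))
    (hL : (LamM a W f f').PosDef) {T : ℝ} (hT : 0 < T) :
    ∃ d' : ℝ, 0 < d' ∧ ∀ K : Matrix (Fin N) (Fin N) ℂ, K.PosDef →
      2 * K.trace.re ≤ T * (a - (-a)) → ∀ (k : ℝ) (e : Fin N → ℂ),
      K *ᵥ e = k • e → (∀ v, k * qf (1 : Matrix (Fin N) (Fin N) ℂ) v ≤ qf K v) →
      d' * qf (1 : Matrix (Fin N) (Fin N) ℂ) e ≤
        ∫ t in (-a)..a, qf (regQ ε (psiM f t * cfc (fun x : ℝ => x ^ (γ - 1)) K) (W t)) e := by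
  have haa : -a ≤ a := by linarith
  obtain ⟨g, hg, hgv⟩ := gram_lower ha hWc hf hL
  obtain ⟨M, hM, hMx⟩ := psi_bound (a := a) hf
  set B : ℝ := (T * a) ^ (2 - 2 * γ) with hB
  have hBpos : 0 < B := by positivity
  refine ⟨d * g / (M ^ 2 + ε * B), by (clear * - hd hg hε hT ha; positivity), fun K hK htr k e hke hk => ?_⟩
  by_cases he : e = 0
  · have h0 : qf (1 : Matrix (Fin N) (Fin N) ℂ) e = 0 := by rw [he]; simp only [qf, star_zero, mulVec_zero, dotProduct_zero, Complex.zero_re]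
    rw [h0, mul_zero]
    refine intervalIntegral.integral_nonneg haa fun t _ => ?_
    exact qf_nonneg (regQ_posSemidef _ _ (posSemidef_of_sub hd.le (hW t))) e
  have hqe := qf_one_pos he
  have hqK : qf K e = k * qf (1 : Matrix (Fin N) (Fin N) ℂ) e := qf_eigenvector hke
  have hk0 : 0 < k := by
    have h1 : 0 < qf K e := (Complex.lt_def.mp (hK.dotProduct_mulVec_pos he)).1
    rw [hqK] at h1
    exact (pos_iff_pos_of_mul_pos h1).2 hqe
  have hkT : k ≤ T * a := by
    have h1 := (le_abs_self _).trans (abs_qf_le K e)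
    rw [hqK] at h1
    have h2 := le_of_mul_le_mul_right h1 hqe
    have h3 := norm_le_trace hK.posSemidef
    linarith only [htr, h2, h3]
  have hspec : ∀ x ∈ spectrum ℝ K, k ≤ x := by
    intro x hx
    rw [hK.isHermitian.spectrum_real_eq_range_eigenvalues] at hx
    obtain ⟨i, rfl⟩ := hx
    have h1 := hk (⇑(hK.isHermitian.eigenvectorBasis i))
    rw [qf_eigenvector (hK.isHermitian.mulVec_eigenvectorBasis i)] at h1
    exact le_of_mul_le_mul_right h1 (qf_one_pos (eigenvectorBasis_ne_zero hK.isHermitian i))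
  set r := cfc (fun x : ℝ => x ^ (γ - 1)) K with hr
  set p : ℝ := k ^ (γ - 1) with hp
  have hp0 : 0 < p := Real.rpow_pos_of_pos hk0 _
  have hrn : ‖r‖ ≤ p := by
    refine norm_cfc_le hp0.le fun x hx => ?_
    have hx := hspec x hx
    have hx0 : 0 < x := hk0.trans_le hx
    rw [Real.norm_of_nonneg (Real.rpow_nonneg hx0.le _)]
    exact Real.rpow_le_rpow_of_nonpos hk0 hx (by linarith only [hγ])
  have hre : r *ᵥ e = p • e := cfc_mulVec hK.isHermitian hke _
  have h1 := low_int ha hd hε hWc hW hf hgv (r := r) (M := M * p)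
    (fun x hx => (l2_opNorm_mul _ _).trans
      (mul_le_mul (hMx x hx) hrn (norm_nonneg _) hM)) e
  refine le_trans ?_ h1
  have h2 : qf (1 : Matrix (Fin N) (Fin N) ℂ) (r *ᵥ e) =
      p ^ 2 * qf (1 : Matrix (Fin N) (Fin N) ℂ) e := by
    rw [hre]
    have h3 := qf_smul_vec (1 : Matrix (Fin N) (Fin N) ℂ) p e
    rw [← h3]
    congr 1
  rw [h2]
  have hpB : 1 ≤ p ^ 2 * B := by
    have h3 : k ^ (2 - 2 * γ) ≤ B := Real.rpow_le_rpow hk0.le hkT (by linarith only [hγ])
    have h4 : p ^ 2 * k ^ (2 - 2 * γ) = 1 := by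
      rw [hp, ← Real.rpow_natCast, ← Real.rpow_mul hk0.le, ← Real.rpow_add hk0]
      have : (γ - 1) * ((2 : ℕ) : ℝ) + (2 - 2 * γ) = 0 := by push_cast; ring
      rw [this, Real.rpow_zero]
    rw [← h4]
    exact mul_le_mul_of_nonneg_left h3 (by (clear * - hk0; positivity))
  rw [div_mul_eq_mul_div, div_mul_eq_mul_div, div_le_div_iff₀ (by (clear * - hε hT ha; positivity)) (by (clear * - hε; positivity))]
  have h5 : (M * p) ^ 2 + ε ≤ p ^ 2 * (M ^ 2 + ε * B) := by
    have := mul_le_mul_of_nonneg_left hpB hε.le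
    nlinarith only [this]
  have h6 : 0 ≤ d * g * qf (1 : Matrix (Fin N) (Fin N) ℂ) e := by (clear * - hd hg hqe; positivity)
  calc d * g * qf (1 : Matrix (Fin N) (Fin N) ℂ) e * ((M * p) ^ 2 + ε)
      ≤ d * g * qf (1 : Matrix (Fin N) (Fin N) ℂ) e * (p ^ 2 * (M ^ 2 + ε * B)) :=
        mul_le_mul_of_nonneg_left h5 h6
    _ = _ := by ring

theorem posSpec {n : ℕ} {K : Matrix (Fin n) (Fin n) ℂ} (hK : K.PosDef) :
    ∀ x ∈ spectrum ℝ K, 0 < x := fun _ hx => spectrum_pos hK hx

theorem mul_self_eq_cfc {n : ℕ} {K : Matrix (Fin n) (Fin n) ℂ} (hK : K.IsHermitian) :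
    K * K = cfc (fun x : ℝ => x * x) K := by
  rw [cfc_mul (fun x : ℝ => x) (fun x : ℝ => x) K (contOn_spectrum K _) (contOn_spectrum K _),
    cfc_id_eq hK]

theorem cfc_mul_self {n : ℕ} {K : Matrix (Fin n) (Fin n) ℂ} (hK : K.PosDef) (f : ℝ → ℝ)
    (hf : ContinuousOn f (Ioi 0)) :
    cfc f (K * K) = cfc (fun x : ℝ => f (x * x)) K := by
  have hKs : IsSelfAdjoint K := hK.isHermitian
  have h1 := cfc_comp' f (fun x : ℝ => x * x) K (hg := by
    refine hf.mono ?_
    rintro _ ⟨x, hx, rfl⟩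
    exact mul_pos (posSpec hK x hx) (posSpec hK x hx)) (hf := contOn_spectrum K _) (ha := hKs)
  rw [h1, ← mul_self_eq_cfc hK.isHermitian]

theorem contOn_rpow (p : ℝ) : ContinuousOn (fun x : ℝ => x ^ p) (Ioi 0) := fun x hx =>
  (Real.continuousAt_rpow_const x _ (Or.inl (ne_of_gt hx))).continuousWithinAt

theorem posDef_mul_self {n : ℕ} {K : Matrix (Fin n) (Fin n) ℂ} (hK : K.PosDef) :
    (K * K).PosDef := by
  have h := hK.isHermitian
  have h1 : K * K = K * K * 1 := by rw [mul_one]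
  refine posDef_of_qf ?_ fun v hv => ?_
  · rw [IsHermitian, conjTranspose_mul, h.eq]
  · have h2 := qf_mul_self K v
    rw [h.eq] at h2
    rw [h2]
    refine qf_one_pos fun h3 => ?_
    have h4 : 0 < qf K v := (Complex.lt_def.mp (hK.dotProduct_mulVec_pos hv)).1
    rw [qf, h3, dotProduct_zero] at h4
    simp at h4

/-- `tr K^(2γ) = tr (K²)^γ` -/
theorem trPow_mul_self {n : ℕ} {K : Matrix (Fin n) (Fin n) ℂ} (hK : K.PosDef) (γ : ℝ) :
    trPow γ (K * K) = trPow (2 * γ) K := by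
  have hKK := (posDef_mul_self hK).isHermitian
  rw [trPow_eq_trace hKK, trPow_eq_trace hK.isHermitian, cfc_mul_self hK _ (contOn_rpow γ)]
  congr 2
  refine cfc_congr fun x hx => ?_
  have hx0 := posSpec hK x hx
  change (x * x) ^ γ = x ^ (2 * γ)
  rw [Real.mul_rpow hx0.le hx0.le, ← Real.rpow_add hx0]
  congr 1
  ring

theorem cfc_sq {n : ℕ} {K : Matrix (Fin n) (Fin n) ℂ} (hK : K.PosDef) (p : ℝ) :
    cfc (fun x : ℝ => x ^ p) K * cfc (fun x : ℝ => x ^ p) K =
      cfc (fun x : ℝ => x ^ p) (K * K) := by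
  rw [cfc_mul_self hK _ (contOn_rpow p), ← cfc_mul _ _ K (contOn_spectrum K _)
    (contOn_spectrum K _)]
  refine cfc_congr fun x hx => ?_
  have hx0 := posSpec hK x hx
  exact (Real.mul_rpow hx0.le hx0.le).symm

theorem cfc_half {n : ℕ} {K : Matrix (Fin n) (Fin n) ℂ} (hK : K.PosDef) (p : ℝ) :
    cfc (fun x : ℝ => x ^ (p / 2)) K * cfc (fun x : ℝ => x ^ (p / 2)) K =
      cfc (fun x : ℝ => x ^ p) K := by
  rw [← cfc_mul _ _ K (contOn_spectrum K _) (contOn_spectrum K _)]
  refine cfc_congr fun x hx => ?_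
  have hx0 := posSpec hK x hx
  change x ^ (p / 2) * x ^ (p / 2) = x ^ p
  rw [← Real.rpow_add hx0]
  congr 1
  ring

theorem posDef_cfc {n : ℕ} {K : Matrix (Fin n) (Fin n) ℂ} (hK : K.PosDef) (p : ℝ) :
    (cfc (fun x : ℝ => x ^ p) K).PosDef := by
  have hh : (cfc (fun x : ℝ => x ^ p) K).IsHermitian := cfc_predicate (R := ℝ) _ _
  have h1 : cfc (fun x : ℝ => x ^ p) K * cfc (fun x : ℝ => x ^ (-p)) K = 1 := by
    rw [← cfc_mul _ _ K (contOn_spectrum K _) (contOn_spectrum K _), ← cfc_one_eq hK.isHermitian]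
    refine cfc_congr fun x hx => ?_
    have hx0 := posSpec hK x hx
    change x ^ p * x ^ (-p) = 1
    rw [← Real.rpow_add hx0, add_neg_cancel, Real.rpow_zero]
  have h2 : (cfc (fun x : ℝ => x ^ p) K).PosSemidef := by
    rw [← cfc_half hK p]
    have hs : (cfc (fun x : ℝ => x ^ (p / 2)) K).IsHermitian := cfc_predicate (R := ℝ) _ _
    have := posSemidef_conjTranspose_mul_self (cfc (fun x : ℝ => x ^ (p / 2)) K)
    rwa [hs.eq] at this
  exact (h2.posDef_iff_isUnit).2 (IsUnit.of_mul_eq_one _ h1)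

theorem continuousOn_cfc_rpow (p : ℝ) :
    ContinuousOn (fun K : Matrix (Fin N) (Fin N) ℂ => cfc (fun x : ℝ => x ^ p) K)
      {K | K.PosDef} := by
  refine ContinuousOn.cfc_of_mem_nhdsSet (s := Set.Ioi (0 : ℝ)) (fun t : ℝ => t ^ p) ?_ ?_ ?_ ?_
  · rw [mem_nhdsSet_iff_forall]
    intro x hx
    simp only [Set.mem_iUnion] at hx
    obtain ⟨K, hK, hy⟩ := hx
    exact Ioi_mem_nhds (spectrum_pos hK hy)
  · exact continuousOn_id
  · intro K hK
    exact hK.isHermitian
  · exact contOn_rpow p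

theorem beta_pos {nu : ℝ} (hnu : 0 < nu) : 0 < ∫ y in (-1 : ℝ)..1, (1 - y ^ 2) ^ nu := by
  refine intervalIntegral.intervalIntegral_pos_of_pos_on ?_ (fun x hx => ?_) (by norm_num)
  · refine Continuous.intervalIntegrable ?_ _ _
    exact (continuous_const.sub (continuous_id.pow 2)).rpow_const fun x => Or.inr hnu.le
  · refine Real.rpow_pos_of_pos ?_ _
    nlinarith only [hx.1, hx.2]

theorem main_eps (hTest : TestHyp N) (hII : PartII N) {γ a d ε : ℝ} (hγ : 1 / 2 < γ)
    (hγ1 : γ < 3 / 2)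
    (ha : 0 < a) (hd : 0 < d) (hε : 0 < ε)
    {W : ℝ → Matrix (Fin m) (Fin m) ℂ} (hWc : Continuous W)
    (hW : ∀ x, (W x - (d : ℂ) • 1).PosSemidef)
    {f f' : Fin N → ℝ → EuclideanSpace ℂ (Fin m)} (hf : ∀ j, IsH1 (f j) (f' j))
    (ho : ∀ i j, ∫ x, inner ℂ (f i x) (f j x) = if i = j then (1 : ℂ) else 0)
    (hL : (LamM a W f f').PosDef) :
    ∃ K : Matrix (Fin N) (Fin N) ℂ, K.PosDef ∧
      trPow γ (LamM a W f f') ≤ trPow γ (K * K) + γ * (ε * ∫ x in (-a)..a, (W x).trace.re) ∧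
      (∫ y in (-1 : ℝ)..1, (1 - y ^ 2) ^ (γ - 1 / 2)) * trPow (2 * (γ - 1 / 2) + 1) K ≤
        (1 / (γ - 1 / 2)) * ((γ - 1 / 2) / (1 + (γ - 1 / 2))) ^ (1 + (γ - 1 / 2)) *
          ∫ x in (-a)..a, trPow (1 + (γ - 1 / 2)) (W x) := by
  have hγ0 : 0 < γ := by linarith only [hγ]
  rcases le_total 1 γ with h1 | h1
  · -- `γ ≥ 1`
    set r0 := cfc (fun x : ℝ => x ^ ((γ - 1) / 2)) (LamM a W f f') with hr0
    have hr0h : r0.IsHermitian := cfc_predicate (R := ℝ) _ _
    have hrr : r0 * r0 = cfc (fun x : ℝ => x ^ (γ - 1)) (LamM a W f f') := cfc_half hL _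
    have hrrp : (r0 * r0).PosDef := by rw [hrr]; exact posDef_cfc hL _
    obtain ⟨d', hd', hlow⟩ := low_ge ha hd hε hWc hW hf hL hr0h hrrp
    obtain ⟨K, hK, ht, hp⟩ := core hTest hII (nu := γ - 1 / 2) (by linarith only [hγ]) (by linarith only [hγ1]) ha hd hε
      hWc hW hf ho (r := fun _ => r0) continuousOn_const (fun _ _ => hr0h)
      (fun T _ => ⟨d', hd', fun K _ _ k e _ _ => hlow e⟩)
    refine ⟨K, hK, ?_, hp⟩
    have hk := klein_ge h1 (posDef_mul_self hK).posSemidef hL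
    rw [← hrr, mul_sub, Matrix.trace_sub, Complex.sub_re] at hk
    rw [Matrix.trace_mul_comm (K * K)] at ht
    nlinarith only [ht, hk, hγ]
  · -- `γ ≤ 1`
    obtain ⟨K, hK, ht, hp⟩ := core hTest hII (nu := γ - 1 / 2) (by linarith only [hγ]) (by linarith only [hγ1]) ha hd hε
      hWc hW hf ho (r := fun K => cfc (fun x : ℝ => x ^ (γ - 1)) K) (continuousOn_cfc_rpow _)
      (fun _ _ => cfc_predicate (R := ℝ) _ _)
      (fun T hT => low_le h1 ha hd hε hWc hW hf hL hT)
    refine ⟨K, hK, ?_, hp⟩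
    have hk := klein_le hγ0.le h1 hL.posSemidef (posDef_mul_self hK)
    rw [← cfc_sq hK, mul_sub, Matrix.trace_sub, Complex.sub_re] at hk
    rw [Matrix.trace_mul_comm (K * K)] at ht
    nlinarith only [ht, hk, hγ]

theorem mainHyp_of (hTest : TestHyp N) (hII : PartII N) {γ : ℝ} (hγ : 1 / 2 < γ)
    (hγ1 : γ < 3 / 2) : MainHyp γ (Cg γ) N m := by
  intro a d W f f' ha hd hWc hW hf ho hL
  have hγ0 : 0 < γ := by linarith only [hγ]
  have hβ := beta_pos (nu := γ - 1 / 2) (by linarith only [hγ])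
  set β := ∫ y in (-1 : ℝ)..1, (1 - y ^ 2) ^ (γ - 1 / 2) with hβd
  set I := ∫ x in (-a)..a, (W x).trace.re with hI
  have hI0 : 0 ≤ I := intervalIntegral.integral_nonneg (by linarith only [ha]) fun x _ =>
    trace_re_nonneg (posSemidef_of_sub hd.le (hW x))
  have e1 : 1 + (γ - 1 / 2) = γ + 1 / 2 := by ring
  have e2 : 2 * (γ - 1 / 2) + 1 = 2 * γ := by ring
  refine le_of_forall_pos_le_add fun δ hδ => ?_
  obtain ⟨K, hK, h1, h2⟩ := main_eps hTest hII hγ hγ1 ha hd (ε := δ / (γ * (I + 1)))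
    (by (clear * - hδ hγ hI0; positivity)) hWc hW hf ho hL
  rw [e1, e2, ← trPow_mul_self hK] at h2
  have h3 : trPow γ (K * K) ≤ Cg γ * ∫ x in (-a)..a, trPow (γ + 1 / 2) (W x) := by
    rw [Cg, ← hβd, div_mul_eq_mul_div, le_div_iff₀ hβ]
    linarith only [h2]
  have h4 : γ * (δ / (γ * (I + 1)) * I) ≤ δ := by
    have h5 : γ * (δ / (γ * (I + 1)) * I) = δ * (I / (I + 1)) := by
      (clear * - hγ hI0 hδ; field_simp)
    rw [h5]
    have h6 : I / (I + 1) ≤ 1 := by
      rw [div_le_one (by (clear * - hI0; positivity))]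
      linarith only []
    nlinarith only [hδ, h6]
  linarith only [h1, h3, h4]

end Vale.Agent.P371.PI
end
end

section

section

/-!
The main inequality, all hypotheses discharged.
-/

namespace Vale.Agent.P371.PI

open MeasureTheory Filter Topology Matrix Set
open Vale.Agent.P371.G
open scoped ComplexOrder MatrixOrder Matrix.Norms.L2Operator

variable {N m : ℕ}

theorem partII_holds (N : ℕ) : PartII N := by
  intro nu a K F Q hnu hnu1 ha hK hF _ hQc hQ h1 h2 hFa hFb
  exact Vale.Agent.P371.GII.partII hnu hnu1 ha hK.posSemidef hF hQc.continuousOn (fun x _ => hQ x)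
    hFa hFb fun x hx => ⟨h1 x hx, h2 x hx⟩

theorem testHyp_holds (N : ℕ) : TestHyp N := by
  intro a K F Q ha hK hF hFh hQ h0 h1 u u' hu
  have h := test_interval hu (by linarith : -a ≤ a) hK hQ.continuousOn hF hFh
  rw [h0, h1] at h
  refine le_trans (le_of_eq ?_) h
  simp only [map_neg, LinearMap.neg_apply, inner_neg_right, Complex.neg_re]

theorem mainHyp {γ : ℝ} (hγ : 1 / 2 < γ) (hγ1 : γ < 3 / 2) (N m : ℕ) : MainHyp γ (Cg γ) N m :=
  mainHyp_of (testHyp_holds N) (partII_holds N) hγ hγ1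

end Vale.Agent.P371.PI
end
end
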